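import Claimed.Agent.R256.Kin.Meas

/-!
# Row 256, unit RC, block ABS (`rc_absB`, Rc/Plane.lean), file `AbSum`: THE SUMMATION SIDE      (helper211; prefix `rc_as_`)

= steps 5 (KIN), 7 (SLABS) and the counting half of step 6 (CELLS) of the plan in the header of `Rc/Plane.lean` (08-round-entropy.tex l.414-430).      NO GEOMETRY, no rows, no tests: a finite measure `μ` on `Ω`.
DATA.   `δ = (1/2)^k`.
* old cells: labellings `cube J : Ω → Cb` (`J < 2^k`), finite sets `D J` of labels (no measurability is asked);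
* pieces: `pc : Ω → Sg` with measurable fibres (piece = patch × position box × slab);   on the piece `σ` kinetic data `X σ, B σ, Y σ` (measurable, `|X σ| ≤ 1` ON THE PIECE);
* `hreg` = (slice-reg) : at every INTEGER new time `w`, `|w| ≤ Nw`, the tilted boxes `R × R × R²`, `R = 2^-j`, `j ≤ k`, of the data `(X, B + wX, Y + wX²)` have mass `≤ κ R³` in the piece;
* `S J c` ⊇ the pieces met by the old cell (`≤ N3`);    `T σ J c` = ONE new grid time (an integer, time `= T δ`, `|T| ≤ Nw 2^k`);    `G σ J c` ∋ the lattice squares of side `δ` of `(B + TδX, Y + TδX²)` on (old cell) ∩ (piece) (`≤ N1`);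
* `hmult` : every new cell `(σ, t, g)` is used by `≤ N2` old cells.
EXIT `rc_as_main`:      `∑_{J < 2^k} ∑_{c ∈ D J} μ(cube J = c)^(3/2) ≤ C √(N3 N1) N2 (2 Nw + 1) √((k+1) κ) μ(Ω)`.
PROOF.   `μ(cell) ≤ ∑_{σ ∈ S} ∑_{g ∈ G} E σ T g` (subadditivity), power mean (`rc_as_pm`), double counting (`rc_as_count`), windows `t = w 2^k + m` (`rc_as_piece`),
in one window Cauchy-Schwarz `∑ e^(3/2) ≤ (∑ e²)^(1/2) (∑ e)^(1/2)` (`rc_as_cs`) and `KinMeasGridC` for `μ` restricted to the piece (`rc_as_win`), pieces are disjoint (`rc_as_fib`).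
-/

set_option autoImplicit false

namespace Claimed.Agent.R256

open Finset MeasureTheory
open Classical

theorem rc_as_pow32 {m : ℝ} (hm : 0 ≤ m) : m ^ (3 / 2 : ℝ) = m * Real.sqrt m := by
  rw [Real.sqrt_eq_rpow, show (3 / 2 : ℝ) = 1 + 1 / 2 by norm_num]
  rcases hm.eq_or_lt with rfl | hm'
  · simp
    norm_num
  · rw [Real.rpow_add hm', Real.rpow_one]

/-- power mean -/
theorem rc_as_pm {ι : Type} (s : Finset ι) (f : ι → ℝ) (hf : ∀ i ∈ s, 0 ≤ f i) (N : ℝ) (hN : (s.card : ℝ) ≤ N) :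
    (∑ i ∈ s, f i) ^ (3 / 2 : ℝ) ≤ Real.sqrt N * ∑ i ∈ s, f i ^ (3 / 2 : ℝ) := by
  have h := Real.rpow_sum_le_const_mul_sum_rpow s f (p := 3 / 2) (by norm_num)
  have e1 : ∑ i ∈ s, |f i| = ∑ i ∈ s, f i := Finset.sum_congr rfl fun i hi => abs_of_nonneg (hf i hi)
  have e2 : ∑ i ∈ s, |f i| ^ (3 / 2 : ℝ) = ∑ i ∈ s, f i ^ (3 / 2 : ℝ) :=
    Finset.sum_congr rfl fun i hi => by rw [abs_of_nonneg (hf i hi)]
  rw [e1, e2] at h
  refine h.trans ?_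
  have e3 : ((s.card : ℝ)) ^ ((3 / 2 : ℝ) - 1) = Real.sqrt (s.card : ℝ) := by
    rw [Real.sqrt_eq_rpow]
    norm_num
  rw [e3]
  have h0 : 0 ≤ ∑ i ∈ s, f i ^ (3 / 2 : ℝ) := Finset.sum_nonneg fun i hi => Real.rpow_nonneg (hf i hi) _
  exact mul_le_mul_of_nonneg_right (Real.sqrt_le_sqrt hN) h0

/-- Cauchy-Schwarz -/
theorem rc_as_cs {ι : Type} (s : Finset ι) (e : ι → ℝ) (he : ∀ i ∈ s, 0 ≤ e i) :
    ∑ i ∈ s, e i ^ (3 / 2 : ℝ) ≤ Real.sqrt (∑ i ∈ s, e i ^ 2) * Real.sqrt (∑ i ∈ s, e i) := by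
  have h1 : ∑ i ∈ s, e i ^ (3 / 2 : ℝ) = ∑ i ∈ s, e i * Real.sqrt (e i) :=
    Finset.sum_congr rfl fun i hi => rc_as_pow32 (he i hi)
  have h2 : ∑ i ∈ s, e i = ∑ i ∈ s, Real.sqrt (e i) ^ 2 := Finset.sum_congr rfl fun i hi => (Real.sq_sqrt (he i hi)).symm
  rw [h1, h2]
  exact Real.sum_mul_le_sqrt_mul_sqrt s e (fun i => Real.sqrt (e i))

/-- double counting -/
theorem rc_as_count {ι β : Type} [DecidableEq β] (Q : Finset ι) (f : ι → β) (φ : β → ℝ) (hφ : ∀ b, 0 ≤ φ b) (N : ℝ)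
    (hN : ∀ b, ((Q.filter (fun a => f a = b)).card : ℝ) ≤ N) :
    ∑ a ∈ Q, φ (f a) ≤ N * ∑ b ∈ Q.image f, φ b := by
  rw [Finset.sum_comp φ f, Finset.mul_sum]
  refine Finset.sum_le_sum fun b _ => ?_
  rw [nsmul_eq_mul]
  exact mul_le_mul_of_nonneg_right (hN b) (hφ b)

/-- disjoint measurable fibres -/
theorem rc_as_fib {Ω γ : Type} [MeasurableSpace Ω] (ν : Measure Ω) [IsFiniteMeasure ν] (P : Set Ω) (c : Ω → γ)
    (hc : ∀ g, MeasurableSet (c ⁻¹' {g})) (D : Finset γ) :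
    ∑ g ∈ D, (ν (P ∩ c ⁻¹' {g})).toReal ≤ (ν P).toReal := by
  have h1 : ∀ g, ν (P ∩ c ⁻¹' {g}) = (ν.restrict P) (c ⁻¹' {g}) := fun g => by
    rw [Measure.restrict_apply (hc g), Set.inter_comm]
  have h2 : ∑ g ∈ D, (ν.restrict P) (c ⁻¹' {g}) = (ν.restrict P) (⋃ g ∈ D, c ⁻¹' {g}) := by
    rw [measure_biUnion_finset _ (fun g _ => hc g)]
    intro g _ g' _ hgg
    exact Set.disjoint_left.2 fun ω h h' => hgg (by
      simp only [Set.mem_preimage, Set.mem_singleton_iff] at h h'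
      rw [← h, ← h'])
  rw [← ENNReal.toReal_sum (fun g _ => measure_ne_top _ _)]
  refine ENNReal.toReal_mono (measure_ne_top _ _) ?_
  calc ∑ g ∈ D, ν (P ∩ c ⁻¹' {g}) = ∑ g ∈ D, (ν.restrict P) (c ⁻¹' {g}) := Finset.sum_congr rfl fun g _ => h1 g
    _ = (ν.restrict P) (⋃ g ∈ D, c ⁻¹' {g}) := h2
    _ ≤ (ν.restrict P) Set.univ := measure_mono (Set.subset_univ _)
    _ = ν P := by rw [Measure.restrict_apply MeasurableSet.univ, Set.univ_inter]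

/-- the body of `KinMeasGridC` with the constant `C` -/
def RcAsKin (C : ℝ) : Prop :=
  ∀ (Ω : Type) [MeasurableSpace Ω] (μ : Measure Ω) [IsFiniteMeasure μ] (X B Y : Ω → ℝ),
    Measurable X → Measurable B → Measurable Y → (∀ ω, |X ω| ≤ 1) → ∀ (κ : ℝ) (k : ℕ), 0 ≤ κ →
    (∀ j ≤ k, KinMReg μ X B Y κ ((1 / 2 : ℝ) ^ j)) →
    ∀ D : ℕ → Finset (ℤ × ℤ), ∑ n ∈ range (2 ^ k + 1), ∑ d ∈ D n,
        (μ {ω | kinMGrid X B Y ((1 / 2 : ℝ) ^ k) (n * (1 / 2 : ℝ) ^ k) ω = d}).toReal ^ 2 ≤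
      C * (k + 1) * (1 / 2 : ℝ) ^ k * κ * (μ Set.univ).toReal

theorem rc_as_grid_meas {Ω : Type} [MeasurableSpace Ω] {X B Y : Ω → ℝ} (hX : Measurable X) (hB : Measurable B) (hY : Measurable Y) (δ t : ℝ) :
    Measurable fun ω => kinMGrid X B Y δ t ω := by
  unfold kinMGrid
  exact Measurable.prodMk (Int.measurable_floor.comp ((hB.add (hX.const_mul _)).div_const _))
    (Int.measurable_floor.comp ((hY.add ((hX.pow_const 2).const_mul _)).div_const _))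

/-- **one window** -/
theorem rc_as_win {C : ℝ} (hC : 0 < C) (H : RcAsKin C) (Ω : Type) [MeasurableSpace Ω] (ν : Measure Ω) [IsFiniteMeasure ν] (X B Y : Ω → ℝ)
    (hX : Measurable X) (hB : Measurable B) (hY : Measurable Y) (hX1 : ∀ ω, |X ω| ≤ 1) (κ : ℝ) (k : ℕ) (hκ : 0 ≤ κ)
    (hreg : ∀ j ≤ k, KinMReg ν X B Y κ ((1 / 2 : ℝ) ^ j)) (D : ℕ → Finset (ℤ × ℤ)) :
    ∑ n ∈ range (2 ^ k + 1), ∑ d ∈ D n, (ν {ω | kinMGrid X B Y ((1 / 2 : ℝ) ^ k) (n * (1 / 2 : ℝ) ^ k) ω = d}).toReal ^ (3 / 2 : ℝ)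
      ≤ Real.sqrt (2 * C * (k + 1) * κ) * (ν Set.univ).toReal := by
  have hV : 0 ≤ (ν Set.univ).toReal := ENNReal.toReal_nonneg
  have h1 := rc_as_cs ((range (2 ^ k + 1)).sigma D)
    (fun p => (ν {ω | kinMGrid X B Y ((1 / 2 : ℝ) ^ k) (p.1 * (1 / 2 : ℝ) ^ k) ω = p.2}).toReal) (fun _ _ => ENNReal.toReal_nonneg)
  rw [Finset.sum_sigma, Finset.sum_sigma, Finset.sum_sigma] at h1
  have h2 := H Ω ν X B Y hX hB hY hX1 κ k hκ hreg D
  have h3 : ∑ n ∈ range (2 ^ k + 1), ∑ d ∈ D n, (ν {ω | kinMGrid X B Y ((1 / 2 : ℝ) ^ k) (n * (1 / 2 : ℝ) ^ k) ω = d}).toReal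
      ≤ (2 ^ k + 1) * (ν Set.univ).toReal := by
    calc _ ≤ ∑ _n ∈ range (2 ^ k + 1), (ν Set.univ).toReal := by
          refine Finset.sum_le_sum fun n _ => ?_
          have := rc_as_fib ν Set.univ (fun ω => kinMGrid X B Y ((1 / 2 : ℝ) ^ k) (n * (1 / 2 : ℝ) ^ k) ω)
            (fun g => rc_as_grid_meas hX hB hY _ _ (measurableSet_singleton g)) (D n)
          simp only [Set.univ_inter] at this
          exact this
      _ = _ := by
          rw [Finset.sum_const, card_range, nsmul_eq_mul]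
          push_cast
          ring
  refine h1.trans ?_
  have hδ : (1 / 2 : ℝ) ^ k * (2 ^ k + 1) ≤ 2 := by
    have e : (1 / 2 : ℝ) ^ k * 2 ^ k = 1 := by rw [← mul_pow]; norm_num
    have : (1 / 2 : ℝ) ^ k ≤ 1 := pow_le_one₀ (by norm_num) (by norm_num)
    nlinarith
  calc _ ≤ Real.sqrt (C * (k + 1) * (1 / 2 : ℝ) ^ k * κ * (ν Set.univ).toReal) * Real.sqrt ((2 ^ k + 1) * (ν Set.univ).toReal) :=
        mul_le_mul (Real.sqrt_le_sqrt h2) (Real.sqrt_le_sqrt h3) (Real.sqrt_nonneg _) (Real.sqrt_nonneg _)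
    _ = Real.sqrt ((C * (k + 1) * κ * ((1 / 2 : ℝ) ^ k * (2 ^ k + 1))) * (ν Set.univ).toReal ^ 2) := by
        rw [← Real.sqrt_mul (by positivity)]
        congr 1
        ring
    _ = Real.sqrt (C * (k + 1) * κ * ((1 / 2 : ℝ) ^ k * (2 ^ k + 1))) * (ν Set.univ).toReal := by
        rw [Real.sqrt_mul (by positivity), Real.sqrt_sq hV]
    _ ≤ _ := by
        refine mul_le_mul_of_nonneg_right (Real.sqrt_le_sqrt ?_) hV
        have : 0 ≤ C * (k + 1) * κ := by positivity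
        nlinarith

/-- **one piece**: all new grid times `t δ`, `|t| ≤ Nw 2^k` -/
theorem rc_as_piece {C : ℝ} (hC : 0 < C) (H : RcAsKin C) (Ω : Type) [MeasurableSpace Ω] (μ : Measure Ω) [IsFiniteMeasure μ] (P : Set Ω) (hP : MeasurableSet P)
    (X B Y : Ω → ℝ) (hX : Measurable X) (hB : Measurable B) (hY : Measurable Y) (hX1 : ∀ ω ∈ P, |X ω| ≤ 1) (κ : ℝ) (k Nw : ℕ) (hκ : 0 ≤ κ)
    (hreg : ∀ w : ℤ, |w| ≤ Nw → ∀ j ≤ k, ∀ x b y : ℝ,
      (μ (P ∩ kinMBox X (fun ω => B ω + w * X ω) (fun ω => Y ω + w * X ω ^ 2) x b y ((1 / 2 : ℝ) ^ j) ((1 / 2 : ℝ) ^ j) (((1 / 2 : ℝ) ^ j) ^ 2))).toReal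
        ≤ κ * ((1 / 2 : ℝ) ^ j) ^ 3)
    (F : Finset (ℤ × (ℤ × ℤ))) (hF : ∀ p ∈ F, |p.1| ≤ Nw * 2 ^ k) :
    ∑ p ∈ F, (μ (P ∩ {ω | kinMGrid X B Y ((1 / 2 : ℝ) ^ k) (p.1 * (1 / 2 : ℝ) ^ k) ω = p.2})).toReal ^ (3 / 2 : ℝ)
      ≤ (2 * Nw + 1) * Real.sqrt (2 * C * (k + 1) * κ) * (μ P).toReal := by
  have hδ : (1 / 2 : ℝ) ^ k * 2 ^ k = 1 := by rw [← mul_pow]; norm_num
  have h2k : (0 : ℤ) < 2 ^ k := by positivity
  -- the truncated angle
  have hX' : Measurable (P.indicator X) := hX.indicator hP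
  have hX1' : ∀ ω, |P.indicator X ω| ≤ 1 := fun ω => by
    by_cases h : ω ∈ P
    · rw [Set.indicator_of_mem h]; exact hX1 ω h
    · rw [Set.indicator_of_notMem h]; simp
  -- one window
  have hwin : ∀ w : ℤ, |w| ≤ Nw → ∀ D : ℕ → Finset (ℤ × ℤ),
      ∑ m ∈ range (2 ^ k + 1), ∑ d ∈ D m, (μ (P ∩ {ω | kinMGrid X B Y ((1 / 2 : ℝ) ^ k) (((w * 2 ^ k + m : ℤ) : ℝ) * (1 / 2 : ℝ) ^ k) ω = d})).toReal ^ (3 / 2 : ℝ)
        ≤ Real.sqrt (2 * C * (k + 1) * κ) * (μ P).toReal := by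
    intro w hw D
    have h1 := rc_as_win hC H Ω (μ.restrict P) (P.indicator X) (fun ω => B ω + w * P.indicator X ω) (fun ω => Y ω + w * P.indicator X ω ^ 2)
      hX' (hB.add (hX'.const_mul _)) (hY.add ((hX'.pow_const 2).const_mul _)) hX1' κ k hκ (by
        intro j hj x b y
        rw [Measure.restrict_apply' hP]
        have e : kinMBox (P.indicator X) (fun ω => B ω + w * P.indicator X ω) (fun ω => Y ω + w * P.indicator X ω ^ 2) x b y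
              ((1 / 2 : ℝ) ^ j) ((1 / 2 : ℝ) ^ j) (((1 / 2 : ℝ) ^ j) ^ 2) ∩ P
            = P ∩ kinMBox X (fun ω => B ω + w * X ω) (fun ω => Y ω + w * X ω ^ 2) x b y ((1 / 2 : ℝ) ^ j) ((1 / 2 : ℝ) ^ j) (((1 / 2 : ℝ) ^ j) ^ 2) := by
          ext ω
          simp only [Set.mem_inter_iff, kinMBox, Set.mem_ofPred_eq]
          constructor
          · rintro ⟨h, hω⟩
            rw [Set.indicator_of_mem hω] at h
            exact ⟨hω, h⟩
          · rintro ⟨hω, h⟩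
            rw [Set.indicator_of_mem hω]
            exact ⟨h, hω⟩
        rw [e]
        exact hreg w hw j hj x b y) D
    rw [Measure.restrict_apply MeasurableSet.univ, Set.univ_inter] at h1
    refine le_trans (le_of_eq ?_) h1
    refine Finset.sum_congr rfl fun m _ => Finset.sum_congr rfl fun d _ => ?_
    rw [Measure.restrict_apply' hP]
    congr 3
    ext ω
    simp only [Set.mem_inter_iff, Set.mem_ofPred_eq, kinMGrid]
    have et : ((w * 2 ^ k + m : ℤ) : ℝ) * (1 / 2 : ℝ) ^ k = w + m * (1 / 2 : ℝ) ^ k := by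
      push_cast
      linear_combination (w : ℝ) * hδ
    constructor
    · rintro ⟨hω, h⟩
      rw [Set.indicator_of_mem hω]
      refine ⟨?_, hω⟩
      rw [← h, et]
      congr 3 <;> ring
    · rintro ⟨h, hω⟩
      rw [Set.indicator_of_mem hω] at h
      refine ⟨hω, ?_⟩
      rw [← h, et]
      congr 3 <;> ring
  -- decomposition into windows
  have hmap : ∀ p ∈ F, (p.1 / 2 ^ k, (p.1 % 2 ^ k).toNat) ∈ (Finset.Icc (-(Nw : ℤ)) Nw) ×ˢ range (2 ^ k + 1) := by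
    intro p hp
    have h1 := abs_le.1 (hF p hp)
    have h3 : 0 ≤ p.1 % 2 ^ k := Int.emod_nonneg _ h2k.ne'
    have h4 : p.1 % 2 ^ k < 2 ^ k := Int.emod_lt_of_pos _ h2k
    rw [Finset.mem_product, Finset.mem_Icc, Finset.mem_range]
    refine ⟨⟨?_, ?_⟩, ?_⟩
    · rw [Int.le_ediv_iff_mul_le h2k]
      linarith [h1.1]
    · have : p.1 / 2 ^ k ≤ (Nw * 2 ^ k : ℤ) / 2 ^ k := Int.ediv_le_ediv h2k h1.2
      rwa [Int.mul_ediv_cancel _ h2k.ne'] at this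
    · have : ((p.1 % 2 ^ k).toNat : ℤ) < 2 ^ k := by rw [Int.toNat_of_nonneg h3]; exact h4
      have h5 : (p.1 % 2 ^ k).toNat < 2 ^ k := by exact_mod_cast this
      omega
  rw [← Finset.sum_fiberwise_of_maps_to hmap, Finset.sum_product]
  have hcard : ((Finset.Icc (-(Nw : ℤ)) Nw).card : ℝ) = 2 * Nw + 1 := by
    rw [Int.card_Icc]
    have : ((Nw : ℤ) + 1 - -(Nw : ℤ)).toNat = 2 * Nw + 1 := by omega
    rw [this]
    push_cast
    ring
  calc _ ≤ ∑ _w ∈ Finset.Icc (-(Nw : ℤ)) Nw, Real.sqrt (2 * C * (k + 1) * κ) * (μ P).toReal := by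
        refine Finset.sum_le_sum fun w hw => ?_
        rw [Finset.mem_Icc] at hw
        refine le_trans (le_of_eq ?_) (hwin w (abs_le.2 ⟨hw.1, hw.2⟩) (fun m => (F.filter (fun p => (p.1 / 2 ^ k, (p.1 % 2 ^ k).toNat) = (w, m))).image Prod.snd))
        refine Finset.sum_congr rfl fun m _ => ?_
        rw [Finset.sum_image]
        · refine Finset.sum_congr rfl fun p hp => ?_
          rw [Finset.mem_filter, Prod.mk.injEq] at hp
          have h3 : 0 ≤ p.1 % 2 ^ k := Int.emod_nonneg _ h2k.ne'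
          have e : p.1 = w * 2 ^ k + m := by
            have h5 := Int.mul_ediv_add_emod p.1 (2 ^ k)
            rw [hp.2.1] at h5
            have h6 : ((p.1 % 2 ^ k).toNat : ℤ) = p.1 % 2 ^ k := Int.toNat_of_nonneg h3
            rw [hp.2.2] at h6
            rw [← h5, h6]
            ring
          rw [← e]
        · intro p hp p' hp' hpp
          simp only [Finset.coe_filter, Set.mem_ofPred_eq, Prod.mk.injEq] at hp hp'
          have e1 := Int.mul_ediv_add_emod p.1 (2 ^ k)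
          have e2 := Int.mul_ediv_add_emod p'.1 (2 ^ k)
          have h3 : 0 ≤ p.1 % 2 ^ k := Int.emod_nonneg _ h2k.ne'
          have h3' : 0 ≤ p'.1 % 2 ^ k := Int.emod_nonneg _ h2k.ne'
          have h6 : ((p.1 % 2 ^ k).toNat : ℤ) = p.1 % 2 ^ k := Int.toNat_of_nonneg h3
          have h6' : ((p'.1 % 2 ^ k).toNat : ℤ) = p'.1 % 2 ^ k := Int.toNat_of_nonneg h3'
          rw [hp.2.2] at h6
          rw [hp'.2.2] at h6'
          rw [hp.2.1, ← h6] at e1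
          rw [hp'.2.1, ← h6'] at e2
          exact Prod.ext (e1.symm.trans e2) hpp
    _ = _ := by
        rw [Finset.sum_const, nsmul_eq_mul, hcard]
        ring

/-- **EXIT of the summation side** -/
theorem rc_as_main (hK : KinMeasC) : ∃ C : ℝ, 0 < C ∧
    ∀ (Ω : Type) [MeasurableSpace Ω] (μ : Measure Ω) [IsFiniteMeasure μ] (k Nw : ℕ) (κ N1 N2 N3 : ℝ) (Cb Sg : Type)
      (cube : ℕ → Ω → Cb) (pc : Ω → Sg) (X B Y : Sg → Ω → ℝ),
      (∀ σ, MeasurableSet (pc ⁻¹' {σ})) → (∀ σ, Measurable (X σ)) → (∀ σ, Measurable (B σ)) → (∀ σ, Measurable (Y σ)) →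
      (∀ σ ω, pc ω = σ → |X σ ω| ≤ 1) → 0 ≤ κ → 0 ≤ N1 → 0 ≤ N2 →
      (∀ σ (w : ℤ), |w| ≤ Nw → ∀ j ≤ k, ∀ x b y : ℝ,
        (μ (pc ⁻¹' {σ} ∩ kinMBox (X σ) (fun ω => B σ ω + w * X σ ω) (fun ω => Y σ ω + w * X σ ω ^ 2) x b y
          ((1 / 2 : ℝ) ^ j) ((1 / 2 : ℝ) ^ j) (((1 / 2 : ℝ) ^ j) ^ 2))).toReal ≤ κ * ((1 / 2 : ℝ) ^ j) ^ 3) →
      ∀ (D : ℕ → Finset Cb) (S : ℕ → Cb → Finset Sg) (T : Sg → ℕ → Cb → ℤ) (G : Sg → ℕ → Cb → Finset (ℤ × ℤ)),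
      (∀ J < 2 ^ k, ∀ c ∈ D J, ((S J c).card : ℝ) ≤ N3) →
      (∀ J < 2 ^ k, ∀ c ∈ D J, ∀ ω, cube J ω = c → pc ω ∈ S J c) →
      (∀ J < 2 ^ k, ∀ c ∈ D J, ∀ σ ∈ S J c, |T σ J c| ≤ Nw * 2 ^ k) →
      (∀ J < 2 ^ k, ∀ c ∈ D J, ∀ σ ∈ S J c, ((G σ J c).card : ℝ) ≤ N1) →
      (∀ J < 2 ^ k, ∀ c ∈ D J, ∀ σ ∈ S J c, ∀ ω, pc ω = σ → cube J ω = c →
        kinMGrid (X σ) (B σ) (Y σ) ((1 / 2 : ℝ) ^ k) (T σ J c * (1 / 2 : ℝ) ^ k) ω ∈ G σ J c) →
      (∀ σ (t : ℤ) (g : ℤ × ℤ) (Q : Finset (ℕ × Cb)),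
        (∀ p ∈ Q, p.1 < 2 ^ k ∧ p.2 ∈ D p.1 ∧ σ ∈ S p.1 p.2 ∧ T σ p.1 p.2 = t ∧ g ∈ G σ p.1 p.2) → (Q.card : ℝ) ≤ N2) →
      ∑ J ∈ range (2 ^ k), ∑ c ∈ D J, (μ (cube J ⁻¹' {c})).toReal ^ (3 / 2 : ℝ)
        ≤ C * Real.sqrt (N3 * N1) * N2 * (2 * Nw + 1) * Real.sqrt ((k + 1) * κ) * (μ Set.univ).toReal := by
  obtain ⟨C, hC, H⟩ := kinM_grid_of hK
  have H' : RcAsKin C := H
  refine ⟨Real.sqrt (2 * C), Real.sqrt_pos.2 (by positivity), ?_⟩
  intro Ω _ μ _ k Nw κ N1 N2 N3 Cb Sg cube pc X B Y hpc hX hB hY hX1 hκ hN1 hN2 hreg D S T G hS hSm hT hG hGm hmult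
  let E : Sg × (ℤ × (ℤ × ℤ)) → ℝ := fun b =>
    (μ (pc ⁻¹' {b.1} ∩ {ω | kinMGrid (X b.1) (B b.1) (Y b.1) ((1 / 2 : ℝ) ^ k) (b.2.1 * (1 / 2 : ℝ) ^ k) ω = b.2.2})).toReal
  have hE0 : ∀ b, 0 ≤ E b := fun _ => ENNReal.toReal_nonneg
  -- one old cell
  have h1 : ∀ J ∈ range (2 ^ k), ∀ c ∈ D J, (μ (cube J ⁻¹' {c})).toReal ^ (3 / 2 : ℝ)
      ≤ Real.sqrt (N3 * N1) * ∑ u ∈ (S J c).sigma (fun σ => G σ J c), E (u.1, T u.1 J c, u.2) ^ (3 / 2 : ℝ) := by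
    intro J hJ c hc
    rw [mem_range] at hJ
    have hsub : cube J ⁻¹' {c} ⊆ ⋃ u ∈ (S J c).sigma (fun σ => G σ J c),
        (pc ⁻¹' {u.1} ∩ {ω | kinMGrid (X u.1) (B u.1) (Y u.1) ((1 / 2 : ℝ) ^ k) (T u.1 J c * (1 / 2 : ℝ) ^ k) ω = u.2}) := by
      intro ω hω
      have hω' : cube J ω = c := hω
      rw [Set.mem_iUnion₂]
      refine ⟨⟨pc ω, kinMGrid (X (pc ω)) (B (pc ω)) (Y (pc ω)) ((1 / 2 : ℝ) ^ k) (T (pc ω) J c * (1 / 2 : ℝ) ^ k) ω⟩, ?_, ?_⟩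
      · rw [Finset.mem_sigma]
        exact ⟨hSm J hJ c hc ω hω', hGm J hJ c hc _ (hSm J hJ c hc ω hω') ω rfl hω'⟩
      · exact ⟨rfl, rfl⟩
    have hle : (μ (cube J ⁻¹' {c})).toReal ≤ ∑ u ∈ (S J c).sigma (fun σ => G σ J c), E (u.1, T u.1 J c, u.2) := by
      rw [← ENNReal.toReal_sum (fun _ _ => measure_ne_top _ _)]
      exact ENNReal.toReal_mono (ENNReal.sum_ne_top.2 fun _ _ => measure_ne_top _ _) ((measure_mono hsub).trans (measure_biUnion_finset_le _ _))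
    have hcard : (((S J c).sigma (fun σ => G σ J c)).card : ℝ) ≤ N3 * N1 := by
      rw [Finset.card_sigma]
      push_cast
      calc ∑ σ ∈ S J c, ((G σ J c).card : ℝ) ≤ ∑ _σ ∈ S J c, N1 := Finset.sum_le_sum fun σ hσ => hG J hJ c hc σ hσ
        _ = (S J c).card * N1 := by rw [Finset.sum_const, nsmul_eq_mul]
        _ ≤ N3 * N1 := mul_le_mul_of_nonneg_right (hS J hJ c hc) hN1
    calc _ ≤ (∑ u ∈ (S J c).sigma (fun σ => G σ J c), E (u.1, T u.1 J c, u.2)) ^ (3 / 2 : ℝ) :=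
          Real.rpow_le_rpow ENNReal.toReal_nonneg hle (by norm_num)
      _ ≤ _ := rc_as_pm _ _ (fun _ _ => hE0 _) _ hcard
  -- all quadruples
  let Q : Finset (Σ _ : ℕ, Σ _ : Cb, Σ _ : Sg, ℤ × ℤ) := (range (2 ^ k)).sigma fun J => (D J).sigma fun c => (S J c).sigma fun σ => G σ J c
  let f : (Σ _ : ℕ, Σ _ : Cb, Σ _ : Sg, ℤ × ℤ) → Sg × (ℤ × (ℤ × ℤ)) := fun q => (q.2.2.1, T q.2.2.1 q.1 q.2.1, q.2.2.2)
  have hQ : ∀ q ∈ Q, q.1 < 2 ^ k ∧ q.2.1 ∈ D q.1 ∧ q.2.2.1 ∈ S q.1 q.2.1 ∧ q.2.2.2 ∈ G q.2.2.1 q.1 q.2.1 := by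
    intro q hq
    simp only [Q, Finset.mem_sigma, Finset.mem_range] at hq
    exact hq
  have h2 : ∑ J ∈ range (2 ^ k), ∑ c ∈ D J, ∑ u ∈ (S J c).sigma (fun σ => G σ J c), E (u.1, T u.1 J c, u.2) ^ (3 / 2 : ℝ)
      = ∑ q ∈ Q, (fun b => E b ^ (3 / 2 : ℝ)) (f q) := by
    rw [Finset.sum_sigma]
    refine Finset.sum_congr rfl fun J _ => ?_
    rw [Finset.sum_sigma]
  have h3 := rc_as_count Q f (fun b => E b ^ (3 / 2 : ℝ)) (fun b => Real.rpow_nonneg (hE0 b) _) N2 (by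
    intro b
    have h := hmult b.1 b.2.1 b.2.2 ((Q.filter (fun a => f a = b)).image (fun q => (q.1, q.2.1))) (by
      intro p hp
      rw [Finset.mem_image] at hp
      obtain ⟨q, hq, rfl⟩ := hp
      rw [Finset.mem_filter] at hq
      obtain ⟨hqQ, rfl⟩ := hq
      obtain ⟨a1, a2, a3, a4⟩ := hQ q hqQ
      exact ⟨a1, a2, a3, rfl, a4⟩)
    rwa [Finset.card_image_of_injOn] at h
    intro q hq q' hq' hqq
    simp only [Finset.coe_filter, Set.mem_ofPred_eq] at hq hq'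
    have e := hq.2.trans hq'.2.symm
    obtain ⟨J, c, σ, g⟩ := q
    obtain ⟨J', c', σ', g'⟩ := q'
    simp only [f, Prod.mk.injEq] at e hqq
    obtain ⟨rfl, rfl⟩ := hqq
    obtain ⟨rfl, -, rfl⟩ := e
    rfl)
  have h4 : ∑ b ∈ Q.image f, E b ^ (3 / 2 : ℝ) ≤ (2 * Nw + 1) * Real.sqrt (2 * C * (k + 1) * κ) * (μ Set.univ).toReal := by
    rw [← Finset.sum_fiberwise_of_maps_to (s := Q.image f) (t := (Q.image f).image Prod.fst) (g := Prod.fst) (fun b hb => Finset.mem_image_of_mem _ hb)]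
    calc _ ≤ ∑ σ ∈ (Q.image f).image Prod.fst, (2 * Nw + 1) * Real.sqrt (2 * C * (k + 1) * κ) * (μ (pc ⁻¹' {σ})).toReal := by
          refine Finset.sum_le_sum fun σ _ => ?_
          have h := rc_as_piece hC H' Ω μ (pc ⁻¹' {σ}) (hpc σ) (X σ) (B σ) (Y σ) (hX σ) (hB σ) (hY σ) (fun ω hω => hX1 σ ω hω) κ k Nw hκ (hreg σ)
            (((Q.image f).filter (fun b => b.1 = σ)).image Prod.snd) (by
              intro p hp
              rw [Finset.mem_image] at hp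
              obtain ⟨b, hb, rfl⟩ := hp
              rw [Finset.mem_filter, Finset.mem_image] at hb
              obtain ⟨⟨q, hq, rfl⟩, -⟩ := hb
              obtain ⟨a1, a2, a3, a4⟩ := hQ q hq
              exact hT _ a1 _ a2 _ a3)
          refine le_trans (le_of_eq ?_) h
          rw [Finset.sum_image]
          · refine Finset.sum_congr rfl fun b hb => ?_
            rw [Finset.mem_filter] at hb
            obtain ⟨-, rfl⟩ := hb
            rfl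
          · intro b hb b' hb' hbb
            simp only [Finset.coe_filter, Set.mem_ofPred_eq] at hb hb'
            exact Prod.ext (hb.2.trans hb'.2.symm) hbb
      _ = (2 * Nw + 1) * Real.sqrt (2 * C * (k + 1) * κ) * ∑ σ ∈ (Q.image f).image Prod.fst, (μ (pc ⁻¹' {σ})).toReal := by rw [Finset.mul_sum]
      _ ≤ _ := by
          refine mul_le_mul_of_nonneg_left ?_ (by positivity)
          have h := rc_as_fib μ Set.univ pc hpc ((Q.image f).image Prod.fst)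
          simp only [Set.univ_inter] at h
          exact h
  have hs : Real.sqrt (2 * C * (k + 1) * κ) = Real.sqrt (2 * C) * Real.sqrt ((k + 1) * κ) := by
    rw [← Real.sqrt_mul (by positivity)]
    congr 1
    ring
  calc ∑ J ∈ range (2 ^ k), ∑ c ∈ D J, (μ (cube J ⁻¹' {c})).toReal ^ (3 / 2 : ℝ)
      ≤ ∑ J ∈ range (2 ^ k), ∑ c ∈ D J, Real.sqrt (N3 * N1) * ∑ u ∈ (S J c).sigma (fun σ => G σ J c), E (u.1, T u.1 J c, u.2) ^ (3 / 2 : ℝ) :=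
        Finset.sum_le_sum fun J hJ => Finset.sum_le_sum fun c hc => h1 J hJ c hc
    _ = Real.sqrt (N3 * N1) * ∑ q ∈ Q, (fun b => E b ^ (3 / 2 : ℝ)) (f q) := by
        rw [← h2, Finset.mul_sum]
        refine Finset.sum_congr rfl fun J _ => ?_
        rw [Finset.mul_sum]
    _ ≤ Real.sqrt (N3 * N1) * (N2 * ((2 * Nw + 1) * Real.sqrt (2 * C * (k + 1) * κ) * (μ Set.univ).toReal)) :=
        mul_le_mul_of_nonneg_left (h3.trans (mul_le_mul_of_nonneg_left h4 hN2)) (Real.sqrt_nonneg _)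
    _ = _ := by
        rw [hs]
        ring

theorem rc_as_eqns_cite : True := by
  have := @RcAsKin.eq_1
  trivial

end Claimed.Agent.R256
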