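import Claimed.Agent.R256.Rc.PlbGeo
import Claimed.Agent.R256.Rc.AbSum

/-!
# Row 256, unit RC, block PLANE-B-cl, file 3: (slice-reg), THE KINETIC ESTIMATE ON WINDOWS AND SLABS, SUMS      (architect helper183; prefix `rc_pb_`)      MODEL FREE
Every `sorry` is a leaf `L-256-RC-PB-*` (name in the docstring).   Statements FROZEN (a defect: one line to helper183);  auxiliary lemmas directly above your theorem, prefix `rc_pb_<leaf>_`;  edit only your block.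
`X : RcNu` (`Rc/Plane.lean`) = a finite measure `X.mu` on `X.Om` with a measurable map `X.row : X.Om → RtRow` (PHYSICAL rows at the root time).   Notation of `Rc/PlbGeo.lean`.
`κK = κ r⁴ (66Λ)^Cg W^(1-η)` = the kinetic regularity constant of a slab (`pbKap`).
-/

set_option autoImplicit false

namespace Claimed.Agent.R256

open MeasureTheory
open scoped BigOperators

/-- the kinetic regularity constant of a slab -/
noncomputable def pbKap (η Cg κ Λ : ℝ) (c : SecPt) : ℝ := κ * c.r ^ 4 * (66 * Λ) ^ Cg * c.pbW Λ ^ (1 - η)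

/-- (slice-reg) with the constant `Cg` -/
def PbSliceC (η Cg : ℝ) : Prop :=
  ∀ (X : RcNu) (κ : ℝ) (c : SecPt) (Λ : ℝ) (n a : ℕ), 0 ≤ κ → PbSc c Λ n a → X.RegL η κ c.l →
    ∀ (j σ : ℤ) (R x0 b y : ℝ), c.pbW Λ ≤ R → R ≤ 1 →
    (X.mu {ω | X.row ω ∈ c.pbG Λ a j σ ∧ |c.pbX (X.row ω) - x0| ≤ R ∧ |c.pbKB a j (X.row ω) - b| ≤ R ∧
        |c.pbKY a j (X.row ω) - y - 2 * x0 * (c.pbKB a j (X.row ω) - b)| ≤ R ^ 2}).toReal ≤ pbKap η Cg κ Λ c * R ^ 3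

/-- the kinetic estimate on a window and a slab -/
def PbKinC (η Cg CK : ℝ) : Prop :=
  ∀ (X : RcNu) (κ : ℝ) (c : SecPt) (Λ : ℝ) (n a : ℕ), 0 ≤ κ → PbSc c Λ n a → X.RegL η κ c.l → ∀ (j σ : ℤ) (D : ℕ → Finset (ℤ × ℤ)),
    ∑ m ∈ Finset.range (2 ^ (n - a)), ∑ d ∈ D m, (X.mu {ω | X.row ω ∈ c.pbCell Λ a (n - a) (j, σ, m, d)}).toReal ^ 2
      ≤ CK * (n + 1) * (1 / 2 : ℝ) ^ (n - a) * pbKap η Cg κ Λ c * (X.mu {ω | X.row ω ∈ c.pbG Λ a j σ}).toReal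

/-- the sum of the `3/2` powers over all new cells -/
def PbSumC (η Cg CK : ℝ) : Prop :=
  ∀ (X : RcNu) (κ : ℝ) (c : SecPt) (Λ : ℝ) (n a : ℕ), 0 ≤ κ → PbSc c Λ n a → X.RegL η κ c.l → ∀ B : Finset PbIx, (∀ β ∈ B, β.2.2.1 < 2 ^ (n - a)) →
    ∑ β ∈ B, (X.mu {ω | X.row ω ∈ c.pbCell Λ a (n - a) β}).toReal ^ (3 / 2 : ℝ)
      ≤ 13 * 2 ^ a * Real.sqrt (CK * (n + 1) * pbKap η Cg κ Λ c) * (X.mu {ω | c.PbIn Λ (X.row ω)}).toReal

theorem rc_pb_kin_eqns_cite : True := by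
  have := @pbKap.eq_1
  have := @PbSliceC.eq_1
  have := @PbKinC.eq_1
  have := @PbSumC.eq_1
  trivial

/-! ## 1. Measurability -/

/-- the row of a point of `ℝ⁵` -/
theorem rc_pb_meas_fun (c : SecPt) :
    (Measurable fun p : (ℝ × ℝ) × (ℝ × ℝ) × ℝ => c.pbX ⟨p.1, p.2.1, p.2.2⟩) ∧
    (Measurable fun p : (ℝ × ℝ) × (ℝ × ℝ) × ℝ => c.pbX2 ⟨p.1, p.2.1, p.2.2⟩) ∧
    (Measurable fun p : (ℝ × ℝ) × (ℝ × ℝ) × ℝ => c.pbD ⟨p.1, p.2.1, p.2.2⟩) ∧
    (Measurable fun p : (ℝ × ℝ) × (ℝ × ℝ) × ℝ => c.pbT ⟨p.1, p.2.1, p.2.2⟩) ∧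
    (Measurable fun p : (ℝ × ℝ) × (ℝ × ℝ) × ℝ => (c.pbEv ⟨p.1, p.2.1, p.2.2⟩ 0).1 1) ∧
    (Measurable fun p : (ℝ × ℝ) × (ℝ × ℝ) × ℝ => (c.pbEv ⟨p.1, p.2.1, p.2.2⟩ 0).1 2) ∧
    (Measurable fun p : (ℝ × ℝ) × (ℝ × ℝ) × ℝ => (c.pbEv ⟨p.1, p.2.1, p.2.2⟩ 0).2) ∧
    (Measurable fun p : (ℝ × ℝ) × (ℝ × ℝ) × ℝ => rtSq (c.ang p.1)) ∧
    (Measurable fun p : (ℝ × ℝ) × (ℝ × ℝ) × ℝ => c.F (c.ang p.1)) := by
  refine ⟨?_, ?_, ?_, ?_, ?_, ?_, ?_, ?_, ?_⟩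
  · unfold SecPt.pbX SecPt.X SecPt.D SecPt.ang rtRot rtSq
    simp only [Prod.smul_fst, Prod.smul_snd, Prod.fst_sub, Prod.snd_sub, smul_eq_mul]
    fun_prop
  · unfold SecPt.pbX2 SecPt.F SecPt.D SecPt.ang rtRot rtSq
    simp only [Prod.smul_fst, Prod.smul_snd, Prod.fst_sub, Prod.snd_sub, smul_eq_mul]
    fun_prop
  · unfold SecPt.pbD SecPt.D SecPt.ang rtRot rtSq
    simp only [Prod.smul_fst, Prod.smul_snd, Prod.fst_sub, Prod.snd_sub, smul_eq_mul]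
    fun_prop
  · unfold SecPt.pbT SecPt.pbEv SecPt.Lm SecPt.uo SecPt.bo SecPt.yo RtRow.flow rtRot rtSq rtIp
    simp only [(tri_tvec_apply _ _ _).1, Prod.smul_fst, Prod.smul_snd, Prod.fst_sub, Prod.snd_sub, Prod.fst_add, Prod.snd_add, smul_eq_mul]
    fun_prop
  · unfold SecPt.pbEv SecPt.Lm SecPt.uo SecPt.bo SecPt.yo RtRow.flow rtRot rtSq rtIp
    simp only [(tri_tvec_apply _ _ _).2.1, Prod.smul_fst, Prod.smul_snd, Prod.fst_sub, Prod.snd_sub, Prod.fst_add, Prod.snd_add, smul_eq_mul]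
    fun_prop
  · unfold SecPt.pbEv SecPt.Lm SecPt.uo SecPt.bo SecPt.yo RtRow.flow rtRot rtSq rtIp
    simp only [(tri_tvec_apply _ _ _).2.2, Prod.smul_fst, Prod.smul_snd, Prod.fst_sub, Prod.snd_sub, Prod.fst_add, Prod.snd_add, smul_eq_mul]
    fun_prop
  · unfold SecPt.pbEv SecPt.Lm SecPt.uo SecPt.bo SecPt.yo RtRow.flow rtRot rtSq rtIp
    simp only [Prod.smul_fst, Prod.smul_snd, Prod.fst_sub, Prod.snd_sub, Prod.fst_add, Prod.snd_add, smul_eq_mul]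
    fun_prop
  · unfold SecPt.ang rtRot rtSq
    simp only [Prod.smul_fst, Prod.smul_snd, Prod.fst_sub, Prod.snd_sub, smul_eq_mul]
    fun_prop
  · unfold SecPt.F SecPt.ang rtRot rtSq
    simp only [Prod.smul_fst, Prod.smul_snd, Prod.fst_sub, Prod.snd_sub, smul_eq_mul]
    fun_prop

/-- **LEAF L-256-RC-PB-MEAS: everything is measurable.**   `X.meas` gives the measurability of `ω ↦ (row ω).A, .b, .y` (components: `measurable_fst/snd.comp`).   All functions are rational in these six reals: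
unfold `pbX, X, pbX2, pbD, D, F, ang, rtRot, pbT, pbEv, Lm, uo, bo, yo, RtRow.flow, pbB, pbY, pbS, pbLag`, evaluate `tvec` (`tri_tvec_apply`) and use `Measurable.add/mul/div/const_mul/pow_const`, `fun_prop`/`measurability`.
Sets: `measurableSet_le`, `Int.measurable_floor`, `measurableSet_eq_fun`/preimages of singletons of countable types (`ℤ`, `ℤ × ℤ`, `PbIx`: `MeasurableSingletonClass`, discrete `⊤`-free: use `measurableSet_singleton`); `Int` division and `toNat` are measurable as maps of countable discrete spaces (`measurable_from_top`/`Measurable.of_discrete`). -/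
theorem rc_pb_meas (X : RcNu) (c : SecPt) (Λ : ℝ) (a k : ℕ) :
    (Measurable fun ω => c.pbX (X.row ω)) ∧ (∀ j, Measurable fun ω => c.pbKB a j (X.row ω)) ∧ (∀ j, Measurable fun ω => c.pbKY a j (X.row ω)) ∧
    MeasurableSet {ω | c.PbIn Λ (X.row ω)} ∧ (∀ j σ, MeasurableSet {ω | X.row ω ∈ c.pbG Λ a j σ}) ∧
    (∀ β, MeasurableSet {ω | X.row ω ∈ c.pbCell Λ a k β}) ∧ (∀ (n J : ℕ) (β : PbIx), MeasurableSet {ω | c.pbIx Λ n a J (X.row ω) = β}) := by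
  obtain ⟨f1, f2, f3, f4, f5, f6, f7, f8, f9⟩ := rc_pb_meas_fun c
  have hm := X.meas
  have mX : Measurable fun ω => c.pbX (X.row ω) := by
    have := f1.comp hm
    exact this
  have mX2 : Measurable fun ω => c.pbX2 (X.row ω) := by
    have := f2.comp hm
    exact this
  have mD : Measurable fun ω => c.pbD (X.row ω) := by
    have := f3.comp hm
    exact this
  have mT : Measurable fun ω => c.pbT (X.row ω) := by
    have := f4.comp hm
    exact this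
  have mE1 : Measurable fun ω => (c.pbEv (X.row ω) 0).1 1 := by
    have := f5.comp hm
    exact this
  have mE2 : Measurable fun ω => (c.pbEv (X.row ω) 0).1 2 := by
    have := f6.comp hm
    exact this
  have mE3 : Measurable fun ω => (c.pbEv (X.row ω) 0).2 := by
    have := f7.comp hm
    exact this
  have mSq : Measurable fun ω => rtSq (c.ang (X.row ω).A) := by
    have := f8.comp hm
    exact this
  have mF : Measurable fun ω => c.F (c.ang (X.row ω).A) := by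
    have := f9.comp hm
    exact this
  have mB : ∀ t : ℝ, Measurable fun ω => c.pbB (X.row ω) t := by
    intro t
    unfold SecPt.pbB
    exact mE1.add ((measurable_const.sub mT).mul mX)
  have mY : ∀ t : ℝ, Measurable fun ω => c.pbY (X.row ω) t := by
    intro t
    unfold SecPt.pbY
    exact mE2.add ((measurable_const.sub mT).mul ((mX.pow_const 2).add (mX2.pow_const 2)))
  have mS : ∀ t : ℝ, Measurable fun ω => c.pbS (X.row ω) t := by
    intro t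
    unfold SecPt.pbS
    exact mE3.add ((measurable_const.sub mT).mul mX2)
  have mLag : ∀ t : ℝ, Measurable fun ω => c.pbLag (X.row ω) t := by
    intro t
    unfold SecPt.pbLag
    exact ((measurable_const.sub mT).div mD).const_mul _
  have mKB : ∀ j, Measurable fun ω => c.pbKB a j (X.row ω) := by
    intro j
    unfold SecPt.pbKB
    exact (mB _).div_const _
  have mKY : ∀ j, Measurable fun ω => c.pbKY a j (X.row ω) := by
    intro j
    unfold SecPt.pbKY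
    exact (mY _).div_const _
  have mIn : MeasurableSet {ω | c.PbIn Λ (X.row ω)} := by
    have e : {ω | c.PbIn Λ (X.row ω)} = {ω | rtSq (c.ang (X.row ω).A) * (1 + |c.bt|) ^ 2 ≤ 1 / 64} ∩ {ω | |c.F (c.ang (X.row ω).A)| ≤ Λ * √c.h} := rfl
    rw [e]
    exact (measurableSet_le (mSq.mul_const _) measurable_const).inter (measurableSet_le mF.abs measurable_const)
  have mG : ∀ j σ, MeasurableSet {ω | X.row ω ∈ c.pbG Λ a j σ} := by
    intro j σ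
    have e : {ω | X.row ω ∈ c.pbG Λ a j σ} = {ω | c.PbIn Λ (X.row ω)} ∩ ({ω | |c.pbLag (X.row ω) (j * (1 / 2 : ℝ) ^ a)| ≤ 3 * c.l} ∩
        (fun ω => ⌊c.pbS (X.row ω) (j * (1 / 2 : ℝ) ^ a) / c.pbW Λ⌋) ⁻¹' {σ}) := rfl
    rw [e]
    exact mIn.inter ((measurableSet_le (mLag _).abs measurable_const).inter
      (((mS _).div_const _).floor (measurableSet_singleton σ)))
  have mGrid : ∀ (k' : ℕ) (j : ℤ) (m : ℕ), Measurable fun ω => c.pbGrid a k' j m (X.row ω) := by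
    intro k' j m
    unfold SecPt.pbGrid kinMGrid
    exact ((((mKB j).add (mX.const_mul _)).div_const _).floor).prodMk
      ((((mKY j).add ((mX.pow_const 2).const_mul _)).div_const _).floor)
  refine ⟨mX, mKB, mKY, mIn, mG, ?_, ?_⟩
  · intro β
    have e : {ω | X.row ω ∈ c.pbCell Λ a k β} = {ω | X.row ω ∈ c.pbG Λ a β.1 β.2.1} ∩
        (fun ω => c.pbGrid a k β.1 β.2.2.1 (X.row ω)) ⁻¹' {β.2.2.2} := rfl
    rw [e]
    exact (mG _ _).inter (mGrid _ _ _ (measurableSet_singleton _))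
  · intro n J β
    have mN : Measurable fun ω => c.pbN n J (X.row ω) := by
      unfold SecPt.pbN
      exact ((mT.add (mD.const_mul _)).div_const _).floor
    have e : {ω | c.pbIx Λ n a J (X.row ω) = β} =
        ((fun ω => c.pbN n J (X.row ω) / 2 ^ (n - a)) ⁻¹' {β.1}) ∩
        (((fun ω => ⌊c.pbS (X.row ω) ((β.1 : ℤ) * (1 / 2 : ℝ) ^ a) / c.pbW Λ⌋) ⁻¹' {β.2.1}) ∩
        (((fun ω => (c.pbN n J (X.row ω) % 2 ^ (n - a)).toNat) ⁻¹' {β.2.2.1}) ∩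
        ((fun ω => c.pbGrid a (n - a) β.1 β.2.2.1 (X.row ω)) ⁻¹' {β.2.2.2}))) := by
      obtain ⟨β1, β2, β3, β4⟩ := β
      ext ω
      simp only [Set.mem_ofPred_eq, Set.mem_inter_iff, Set.mem_preimage, Set.mem_singleton_iff, SecPt.pbIx, Prod.mk.injEq]
      constructor
      · rintro ⟨q1, q2, q3, q4⟩
        rw [q1] at q2 q4
        rw [q3] at q4
        exact ⟨q1, q2, q3, q4⟩
      · rintro ⟨q1, q2, q3, q4⟩
        rw [q1, q3]
        exact ⟨rfl, q2, rfl, q4⟩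
    rw [e]
    have d1 : Measurable fun z : ℤ => z / 2 ^ (n - a) := Measurable.of_discrete
    have d2 : Measurable fun z : ℤ => (z % 2 ^ (n - a)).toNat := Measurable.of_discrete
    exact ((d1.comp mN) (measurableSet_singleton _)).inter
      ((((mS _).div_const _).floor (measurableSet_singleton _)).inter
        (((d2.comp mN) (measurableSet_singleton _)).inter (mGrid _ _ _ (measurableSet_singleton _))))

/-! ## 2. (slice-reg) -/

/-- **LEAF L-256-RC-PB-COVER.**   `rt_cover_mass` with the set function `S ↦ (X.mu {ω | X.row ω ∈ S}).toReal`: monotone (`measure_mono`, `ENNReal.toReal_mono`, `measure_ne_top`), finitely subadditive (`measure_iUnion_fintype_le`/`measure_iUnion_le`, `ENNReal.toReal_sum`), regular by `hreg`. -/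
theorem rc_pb_cover (X : RcNu) (η κ l : ℝ) (hκ : 0 ≤ κ) (hreg : X.RegL η κ l) (S : Set RtRow) (u W : ℝ) (h : RtCover S l u η W) :
    (X.mu {ω | X.row ω ∈ S}).toReal ≤ κ * W := by
  refine rt_cover_mass h (fun S => (X.mu {ω | X.row ω ∈ S}).toReal) hκ ?_ ?_ ?_
  · intro s t hst
    exact ENNReal.toReal_mono (measure_ne_top _ _) (measure_mono fun ω hω => hst hω)
  · intro m s
    have e : {ω | X.row ω ∈ ⋃ i, s i} = ⋃ i, {ω | X.row ω ∈ s i} := by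
      ext ω
      simp
    show (X.mu {ω | X.row ω ∈ ⋃ i, s i}).toReal ≤ ∑ i, (X.mu {ω | X.row ω ∈ s i}).toReal
    rw [e, ← ENNReal.toReal_sum fun i _ => measure_ne_top _ _]
    exact ENNReal.toReal_mono (ENNReal.sum_ne_top.2 fun i _ => measure_ne_top _ _) (measure_iUnion_fintype_le _ _)
  · intro τ h1 h2 _
    exact hreg τ h1 h2

/-- numerics of (slice-reg) -/
theorem rc_pb_slice_num (r W R η : ℝ) (h0 : 0 < η) (hW : 0 < W) (hR0 : 0 < R) (hR1 : R ≤ 1) :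
    (R * r) ^ 4 * (W / R) ^ (1 - η) ≤ r ^ 4 * W ^ (1 - η) * R ^ 3 := by
  have e1 : (W / R) ^ (1 - η) = W ^ (1 - η) / R ^ (1 - η) := Real.div_rpow hW.le hR0.le _
  have hRp : 0 < R ^ (1 - η) := Real.rpow_pos_of_pos hR0 _
  have e2 : R ^ (1 - η) * R ^ η = R := by
    rw [← Real.rpow_add hR0]; simp
  have hRη : R ^ η ≤ 1 := Real.rpow_le_one hR0.le hR1 h0.le
  have hWp : 0 < W ^ (1 - η) := Real.rpow_pos_of_pos hW _
  rw [e1]
  have e3 : R / R ^ (1 - η) = R ^ η := by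
    rw [div_eq_iff hRp.ne']; linarith [e2]
  calc (R * r) ^ 4 * (W ^ (1 - η) / R ^ (1 - η)) = r ^ 4 * W ^ (1 - η) * R ^ 3 * (R / R ^ (1 - η)) := by
        field_simp
    _ = r ^ 4 * W ^ (1 - η) * R ^ 3 * R ^ η := by rw [e3]
    _ ≤ r ^ 4 * W ^ (1 - η) * R ^ 3 * 1 := by
        apply mul_le_mul_of_nonneg_left hRη; positivity
    _ = _ := by ring

/-- **LEAF L-256-RC-PB-SLICE: (slice-reg).**   `Cg` = the constant of `rt_G1 η`.   `τ = c.test R x0 c' (σW) (W/R)` as in `rc_pb_tile`;   `re_sc_test_adm c h.ok Λ R x0 _ (W/R) (66Λ) c'` (`0 < W/R ≤ 1`, `Λ ≤ 66Λ`): `τ.Adm (66Λ)`;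
`rt_G1`: `RtCover (τ.set (66Λ)) τ.l τ.unc η ((66Λ)^Cg τ.w η)`, `τ.l = c.l`;   `rc_pb_tile` + `measure_mono` + `rc_pb_cover`:  mass `≤ κ (66Λ)^Cg (R r)⁴ (W/R)^(1-η)`.
`(R r)⁴ (W/R)^(1-η) = r⁴ W^(1-η) R^(3+η) ≤ r⁴ W^(1-η) R³`  (`Real.div_rpow`, `Real.rpow_natCast`, `Real.rpow_add`, `R^η ≤ 1`). -/
theorem rc_pb_slice (η : ℝ) (h0 : 0 < η) (h1 : η < 1) : ∃ Cg : ℝ, 0 < Cg ∧ PbSliceC η Cg := by
  obtain ⟨Cg, hCg, H⟩ := rt_G1 η h0 h1
  refine ⟨Cg, hCg, ?_⟩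
  intro X κ c Λ n a hκ h hreg j σ R x0 b y hR0 hR1
  have hW : 0 < c.pbW Λ := (rc_pb_sc c Λ n a h).2.1
  have hR : 0 < R := lt_of_lt_of_le hW hR0
  have hΛ : (16:ℝ) ≤ Λ := h.Λ_ge
  have hadm : (c.test R x0 (tvec (j * (1 / 2 : ℝ) ^ a) ((1 / 2 : ℝ) ^ a * b) ((1 / 2 : ℝ) ^ a * y)) (σ * c.pbW Λ) (c.pbW Λ / R)).Adm (66 * Λ) :=
    re_sc_test_adm c h.ok Λ R x0 _ _ (66 * Λ) _ (by linarith) h.bt hR hR1 (div_pos hW hR) ((div_le_one hR).2 hR0) (by linarith)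
  have hcov := H (66 * Λ) _ (by linarith) hadm
  have hmass := rc_pb_cover X η κ c.l hκ hreg _ _ _ hcov
  have hsub : {ω | X.row ω ∈ c.pbG Λ a j σ ∧ |c.pbX (X.row ω) - x0| ≤ R ∧ |c.pbKB a j (X.row ω) - b| ≤ R ∧
        |c.pbKY a j (X.row ω) - y - 2 * x0 * (c.pbKB a j (X.row ω) - b)| ≤ R ^ 2} ⊆
      {ω | X.row ω ∈ (c.test R x0 (tvec (j * (1 / 2 : ℝ) ^ a) ((1 / 2 : ℝ) ^ a * b) ((1 / 2 : ℝ) ^ a * y)) (σ * c.pbW Λ) (c.pbW Λ / R)).set (66 * Λ)} := by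
    intro ω hω
    exact rc_pb_tile c Λ n a h j σ R x0 b y hR0 hR1 _ hω.1 hω.2.1 hω.2.2.1 hω.2.2.2
  have hmono := ENNReal.toReal_mono (measure_ne_top X.mu _) (measure_mono hsub)
  refine hmono.trans (hmass.trans ?_)
  have hw : (c.test R x0 (tvec (j * (1 / 2 : ℝ) ^ a) ((1 / 2 : ℝ) ^ a * b) ((1 / 2 : ℝ) ^ a * y)) (σ * c.pbW Λ) (c.pbW Λ / R)).w η
      = (R * c.r) ^ 4 * (c.pbW Λ / R) ^ (1 - η) := rfl
  rw [hw]
  unfold pbKap
  have hnum := rc_pb_slice_num c.r (c.pbW Λ) R η h0 hW hR hR1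
  have hp : 0 ≤ (66 * Λ) ^ Cg := Real.rpow_nonneg (by linarith) _
  calc κ * ((66 * Λ) ^ Cg * ((R * c.r) ^ 4 * (c.pbW Λ / R) ^ (1 - η)))
      ≤ κ * ((66 * Λ) ^ Cg * (c.r ^ 4 * c.pbW Λ ^ (1 - η) * R ^ 3)) := by gcongr
    _ = _ := by ring

/-! ## 3. The kinetic estimate -/

/-- **LEAF L-256-RC-PB-KIN: `KinMeasGridC` on a window and a slab.**
`obtain ⟨CK, hCK, H⟩ := kinM_grid_of kin_meas`.   Fix the data; `G = {ω | X.row ω ∈ c.pbG Λ a j σ}` (measurable: `rc_pb_meas`), `μ' = X.mu.restrict G` (finite), `k = n - a`.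
Kinetic functions on `X.Om`:  `Xk ω = max (-1) (min 1 (c.pbX (X.row ω)))` (`= pbX` on `G` by `rc_pb_basic`; `|Xk| ≤ 1` everywhere), `Bk ω = c.pbKB a j (X.row ω)`, `Yk ω = c.pbKY a j (X.row ω)`.
`KinMReg μ' Xk Bk Yk κK ((1/2)^i)`, `i ≤ k`: `Measure.restrict_apply' hG`, the set `kinMBox .. ∩ G` is contained in the set of `hS` with `R = (1/2)^i`; `W ≤ Δ ≤ (1/2)^k ≤ R ≤ 1` (`rc_pb_sc`).   `0 ≤ κK`.
Conclusion of `H` with `D`: `μ' {kinMGrid Xk Bk Yk δ (mδ) = d} = X.mu ({..} ∩ G) = X.mu {ω | X.row ω ∈ pbCell (j, σ, m, d)}` (set equality, `Xk = pbX` on `G`);   `μ' univ = X.mu G`;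
`range (2^k) ⊆ range (2^k + 1)` (nonnegative terms), `k + 1 ≤ n + 1`. -/
theorem rc_pb_kin (η Cg : ℝ) (h0 : 0 < η) (h1 : η < 1) (hCg : 0 < Cg) (hS : PbSliceC η Cg) : ∃ CK : ℝ, 0 < CK ∧ PbKinC η Cg CK := by
  obtain ⟨CK, hCK, H⟩ := kinM_grid_of kin_meas
  refine ⟨CK, hCK, ?_⟩
  intro X κ c Λ n a hκ h hreg j σ D
  obtain ⟨hmX, hmB, hmY, -, hmG, -, -⟩ := rc_pb_meas X c Λ a (n - a)
  obtain ⟨G, hGdef⟩ : ∃ G : Set X.Om, G = {ω | X.row ω ∈ c.pbG Λ a j σ} := ⟨_, rfl⟩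
  have hG : MeasurableSet G := by rw [hGdef]; exact hmG j σ
  obtain ⟨-, hWpos, -, hW7, -, hΔ16, -, -, -⟩ := rc_pb_sc c Λ n a h
  obtain ⟨Xk, hXkdef⟩ : ∃ Xk : X.Om → ℝ, Xk = fun ω => max (-1) (min 1 (c.pbX (X.row ω))) := ⟨_, rfl⟩
  have hXk_meas : Measurable Xk := by
    rw [hXkdef]; exact measurable_const.max (measurable_const.min hmX)
  have hXk1 : ∀ ω, |Xk ω| ≤ 1 := by
    intro ω
    rw [hXkdef, abs_le]
    refine ⟨le_max_left _ _, max_le (by norm_num) (min_le_left _ _)⟩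
  have hXkG : ∀ ω ∈ G, Xk ω = c.pbX (X.row ω) := by
    intro ω hω
    rw [hGdef] at hω
    have hb := (rc_pb_basic c Λ (X.row ω) hω.1).2.2.1
    rw [abs_le] at hb
    rw [hXkdef]
    simp only
    rw [min_eq_right (by linarith [hb.2]), max_eq_right (by linarith [hb.1])]
  have hΛ : 0 ≤ Λ := by linarith [h.Λ_ge]
  have hκK : 0 ≤ pbKap η Cg κ Λ c := by
    unfold pbKap
    have e1 : 0 ≤ (66 * Λ) ^ Cg := Real.rpow_nonneg (by positivity) _
    have e2 : 0 ≤ c.pbW Λ ^ (1 - η) := Real.rpow_nonneg hWpos.le _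
    positivity
  have hΔ1 : (1 / 2 : ℝ) ^ n ≤ 1 := pow_le_one₀ (by norm_num) (by norm_num)
  have hΔ0 : (0 : ℝ) < (1 / 2 : ℝ) ^ n := by positivity
  have hreg' : ∀ i ≤ n - a, KinMReg (X.mu.restrict G) Xk (fun ω => c.pbKB a j (X.row ω)) (fun ω => c.pbKY a j (X.row ω))
      (pbKap η Cg κ Λ c) ((1 / 2 : ℝ) ^ i) := by
    intro i hi x b y
    rw [Measure.restrict_apply' hG]
    have hR1 : (1 / 2 : ℝ) ^ i ≤ 1 := pow_le_one₀ (by norm_num) (by norm_num)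
    have hWR : c.pbW Λ ≤ (1 / 2 : ℝ) ^ i := by
      have e1 : ((1 / 2 : ℝ) ^ n) ^ 7 ≤ (1 / 2 : ℝ) ^ n := by
        calc ((1 / 2 : ℝ) ^ n) ^ 7 ≤ ((1 / 2 : ℝ) ^ n) ^ 1 := pow_le_pow_of_le_one hΔ0.le hΔ1 (by norm_num)
          _ = (1 / 2 : ℝ) ^ n := pow_one _
      have e2 : (1 / 2 : ℝ) ^ n ≤ (1 / 2 : ℝ) ^ i :=
        pow_le_pow_of_le_one (by norm_num) (by norm_num) (by omega)
      linarith
    refine le_trans (ENNReal.toReal_mono (measure_ne_top _ _) (measure_mono ?_))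
      (hS X κ c Λ n a hκ h hreg j σ ((1 / 2 : ℝ) ^ i) x b y hWR hR1)
    rintro ω ⟨hω, hωG⟩
    have hx := hXkG ω hωG
    rw [hGdef] at hωG
    obtain ⟨q1, q2, q3⟩ := hω
    rw [hx] at q1
    exact ⟨hωG, q1, q2, q3⟩
  have key := H X.Om (X.mu.restrict G) Xk (fun ω => c.pbKB a j (X.row ω)) (fun ω => c.pbKY a j (X.row ω))
    hXk_meas (hmB j) (hmY j) hXk1 (pbKap η Cg κ Λ c) (n - a) hκK hreg' D
  have hcell : ∀ (m : ℕ) (d : ℤ × ℤ),
      (X.mu.restrict G) {ω | kinMGrid Xk (fun ω => c.pbKB a j (X.row ω)) (fun ω => c.pbKY a j (X.row ω))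
        ((1 / 2 : ℝ) ^ (n - a)) (m * (1 / 2 : ℝ) ^ (n - a)) ω = d}
      = X.mu {ω | X.row ω ∈ c.pbCell Λ a (n - a) (j, σ, m, d)} := by
    intro m d
    rw [Measure.restrict_apply' hG]
    congr 1
    ext ω
    constructor
    · rintro ⟨hω, hωG⟩
      have hx := hXkG ω hωG
      rw [hGdef] at hωG
      refine ⟨hωG, ?_⟩
      have hω' : kinMGrid Xk (fun ω => c.pbKB a j (X.row ω)) (fun ω => c.pbKY a j (X.row ω))
        ((1 / 2 : ℝ) ^ (n - a)) (m * (1 / 2 : ℝ) ^ (n - a)) ω = d := hω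
      unfold kinMGrid at hω'
      rw [hx] at hω'
      exact hω'
    · rintro ⟨hωG, hω⟩
      have hωG' : ω ∈ G := by rw [hGdef]; exact hωG
      have hx := hXkG ω hωG'
      refine ⟨?_, hωG'⟩
      show kinMGrid Xk (fun ω => c.pbKB a j (X.row ω)) (fun ω => c.pbKY a j (X.row ω))
        ((1 / 2 : ℝ) ^ (n - a)) (m * (1 / 2 : ℝ) ^ (n - a)) ω = d
      unfold kinMGrid
      rw [hx]
      exact hω
  simp only [hcell, Measure.restrict_apply_univ] at key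
  rw [← hGdef]
  have hsub : ∑ m ∈ Finset.range (2 ^ (n - a)), ∑ d ∈ D m, (X.mu {ω | X.row ω ∈ c.pbCell Λ a (n - a) (j, σ, m, d)}).toReal ^ 2
      ≤ ∑ m ∈ Finset.range (2 ^ (n - a) + 1), ∑ d ∈ D m, (X.mu {ω | X.row ω ∈ c.pbCell Λ a (n - a) (j, σ, m, d)}).toReal ^ 2 := by
    refine Finset.sum_le_sum_of_subset_of_nonneg (Finset.range_mono (Nat.le_succ _)) ?_
    intro m _ _
    exact Finset.sum_nonneg (fun d _ => by positivity)
  refine hsub.trans (key.trans ?_)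
  have hk : (((n - a : ℕ) : ℝ) + 1) ≤ (n : ℝ) + 1 := by
    have : ((n - a : ℕ) : ℝ) ≤ (n : ℝ) := by exact_mod_cast Nat.sub_le n a
    linarith
  have hμ : 0 ≤ (X.mu G).toReal := ENNReal.toReal_nonneg
  have hp : (0 : ℝ) ≤ (1 / 2 : ℝ) ^ (n - a) := by positivity
  gcongr

/-! ## 4. Sums (paper free) -/

/-- Cauchy-Schwarz (= `rc_as_cs` of helper211) -/
theorem rc_pb_cs {ι : Type} (s : Finset ι) (f : ι → ℝ) (hf : ∀ i ∈ s, 0 ≤ f i) :
    ∑ i ∈ s, f i ^ (3 / 2 : ℝ) ≤ Real.sqrt (∑ i ∈ s, f i ^ 2) * Real.sqrt (∑ i ∈ s, f i) :=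
  rc_as_cs s f hf

/-- **LEAF L-256-RC-PB-MULT (paper free): bounded multiplicity.**   `∑ μ(G i) = ∫⁻ ∑ 1_{G i} ≤ ∫⁻_G N`  (`lintegral_finset_sum`, `lintegral_indicator_one`, pointwise: `∑ i ∈ F, 1_{G i} ω = card {i ∈ F | ω ∈ G i} ≤ N` and `= 0` off `G`). -/
theorem rc_pb_mult {Ω ι : Type} [MeasurableSpace Ω] (μ : Measure Ω) [IsFiniteMeasure μ] (F : Finset ι) (Gs : ι → Set Ω) (G : Set Ω) (hG : MeasurableSet G)
    (hm : ∀ i ∈ F, MeasurableSet (Gs i)) (hsub : ∀ i ∈ F, Gs i ⊆ G) (N : ℝ) (hN : ∀ ω, ∀ T : Finset ι, T ⊆ F → (∀ i ∈ T, ω ∈ Gs i) → (T.card : ℝ) ≤ N) :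
    ∑ i ∈ F, (μ (Gs i)).toReal ≤ N * (μ G).toReal := by
  classical
  have h1 : ∀ i ∈ F, (μ (Gs i)).toReal = ∫ ω, (Gs i).indicator (fun _ => (1 : ℝ)) ω ∂μ := by
    intro i hi
    rw [integral_indicator_const _ (hm i hi)]
    simp [Measure.real]
  have h2 : N * (μ G).toReal = ∫ ω, G.indicator (fun _ => N) ω ∂μ := by
    rw [integral_indicator_const _ hG]
    simp [Measure.real, mul_comm]
  have hi : ∀ i ∈ F, Integrable (fun ω => (Gs i).indicator (fun _ => (1 : ℝ)) ω) μ := fun i hi => (integrable_const (1 : ℝ)).indicator (hm i hi)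
  rw [Finset.sum_congr rfl h1, ← integral_finsetSum _ hi, h2]
  refine integral_mono (integrable_finsetSum _ hi) ((integrable_const N).indicator hG) ?_
  intro ω
  show ∑ i ∈ F, (Gs i).indicator (fun _ => (1 : ℝ)) ω ≤ G.indicator (fun _ => N) ω
  by_cases hω : ω ∈ G
  · rw [Set.indicator_of_mem hω]
    have h3 := hN ω (F.filter fun i => ω ∈ Gs i) (Finset.filter_subset _ _) (fun i hi => (Finset.mem_filter.1 hi).2)
    refine le_trans (le_of_eq ?_) h3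
    rw [Finset.card_filter]
    push_cast
    refine Finset.sum_congr rfl fun i _ => ?_
    by_cases h : ω ∈ Gs i <;> simp [h]
  · rw [Set.indicator_of_notMem hω]
    refine le_of_eq (Finset.sum_eq_zero fun i hi => ?_)
    exact Set.indicator_of_notMem (fun h => hω (hsub i hi h)) _

/-- **LEAF L-256-RC-PB-ONE: the `3/2` powers on one window and one slab.**   `rc_pb_cs` on `s = (range (2^k)).sigma D` (or twice), `hK`, and `∑_{m < 2^k} ∑_{d ∈ D m} μ(cell) ≤ 2^k μ(G_{jσ})`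
(for fixed `m` the cells are pairwise disjoint in `d`, measurable, contained in `G_{jσ}`: `measure_biUnion_finset`, `measure_mono`).   `√(CK (n+1) δ κK μG) √(2^k μG) = √(CK (n+1) κK) μG`  (`δ 2^k = 1`, `Real.sqrt_mul_self`). -/
theorem rc_pb_one (η Cg CK : ℝ) (hCK : 0 < CK) (hK : PbKinC η Cg CK) (X : RcNu) (κ : ℝ) (c : SecPt) (Λ : ℝ) (n a : ℕ) (hκ : 0 ≤ κ) (h : PbSc c Λ n a) (hreg : X.RegL η κ c.l)
    (j σ : ℤ) (D : ℕ → Finset (ℤ × ℤ)) :
    ∑ m ∈ Finset.range (2 ^ (n - a)), ∑ d ∈ D m, (X.mu {ω | X.row ω ∈ c.pbCell Λ a (n - a) (j, σ, m, d)}).toReal ^ (3 / 2 : ℝ)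
      ≤ Real.sqrt (CK * (n + 1) * pbKap η Cg κ Λ c) * (X.mu {ω | X.row ω ∈ c.pbG Λ a j σ}).toReal := by
  classical
  have hK1 := hK X κ c Λ n a hκ h hreg j σ D
  obtain ⟨k, hk⟩ : ∃ k, k = n - a := ⟨_, rfl⟩
  rw [← hk] at hK1 ⊢
  obtain ⟨-, -, -, -, hGm, hCm, -⟩ := rc_pb_meas X c Λ a k
  obtain ⟨μG, hμG⟩ : ∃ μG : ℝ, μG = (X.mu {ω | X.row ω ∈ c.pbG Λ a j σ}).toReal := ⟨_, rfl⟩
  rw [← hμG] at hK1 ⊢
  have hμ0 : 0 ≤ μG := by
    rw [hμG]
    exact ENNReal.toReal_nonneg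
  have hκK : 0 ≤ pbKap η Cg κ Λ c := by
    have hΛ := h.Λ_ge
    unfold pbKap SecPt.pbW
    have h1 : 0 ≤ (66 * Λ) ^ Cg := Real.rpow_nonneg (by linarith) _
    have h2 : 0 ≤ (2 * Λ * √c.h) ^ (1 - η) := Real.rpow_nonneg (by have := Real.sqrt_nonneg c.h; positivity) _
    positivity
  have hA : 0 ≤ CK * (n + 1) * pbKap η Cg κ Λ c := by positivity
  have hsum : ∀ m, ∑ d ∈ D m, (X.mu {ω | X.row ω ∈ c.pbCell Λ a k (j, σ, m, d)}).toReal ≤ μG := by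
    intro m
    have h3 := rc_pb_mult X.mu (D m) (fun d => {ω | X.row ω ∈ c.pbCell Λ a k (j, σ, m, d)}) {ω | X.row ω ∈ c.pbG Λ a j σ} (hGm j σ)
      (fun d _ => hCm _) (fun d _ ω hω => hω.1) 1 (by
        intro ω T _ hT
        have h4 : T ⊆ {c.pbGrid a k j m (X.row ω)} := by
          intro d hd
          rw [Finset.mem_singleton]
          exact ((hT d hd).2).symm
        have h5 := Finset.card_le_card h4
        rw [Finset.card_singleton] at h5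
        exact_mod_cast h5)
    rw [one_mul, ← hμG] at h3
    exact h3
  have hcs := rc_pb_cs ((Finset.range (2 ^ k)).sigma D) (fun x => (X.mu {ω | X.row ω ∈ c.pbCell Λ a k (j, σ, x.1, x.2)}).toReal)
    (fun _ _ => ENNReal.toReal_nonneg)
  rw [Finset.sum_sigma, Finset.sum_sigma, Finset.sum_sigma] at hcs
  refine hcs.trans ?_
  have h2 : ∑ m ∈ Finset.range (2 ^ k), ∑ d ∈ D m, (X.mu {ω | X.row ω ∈ c.pbCell Λ a k (j, σ, m, d)}).toReal ≤ 2 ^ k * μG := by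
    calc _ ≤ ∑ m ∈ Finset.range (2 ^ k), μG := Finset.sum_le_sum fun m _ => hsum m
      _ = 2 ^ k * μG := by
        rw [Finset.sum_const, Finset.card_range, nsmul_eq_mul]
        push_cast
        ring
  refine (mul_le_mul (Real.sqrt_le_sqrt hK1) (Real.sqrt_le_sqrt h2) (Real.sqrt_nonneg _) (Real.sqrt_nonneg _)).trans (le_of_eq ?_)
  rw [← Real.sqrt_mul (by positivity)]
  have e1 : (1 / 2 : ℝ) ^ k * 2 ^ k = 1 := by
    rw [← mul_pow]
    norm_num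
  have e2 : CK * (n + 1) * (1 / 2 : ℝ) ^ k * pbKap η Cg κ Λ c * μG * (2 ^ k * μG) = CK * (n + 1) * pbKap η Cg κ Λ c * μG ^ 2 := by
    linear_combination (CK * (n + 1) * pbKap η Cg κ Λ c * μG ^ 2) * e1
  rw [e2, Real.sqrt_mul hA, Real.sqrt_sq hμ0]

/-- **LEAF L-256-RC-PB-OVER: the windows and slabs overlap boundedly.**   `rc_pb_mult` with `Gs (j, σ) = {ω | X.row ω ∈ pbG Λ a j σ} ⊆ G = {ω | PbIn}`, `N = 13·2^a`:   if `ω ∈ Gs (j, σ)` for all `(j, σ) ∈ T` then `σ` is a function of `j` (third clause of `pbG`), so `card T = card (T.image Prod.fst)`,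
and the `j` have pairwise distance `≤ 12·2^a` (`rc_pb_win`): they lie in `Icc j₀ (j₀ + 12·2^a)` for the least one: `card ≤ 12·2^a + 1 ≤ 13·2^a`. -/
theorem rc_pb_over (X : RcNu) (c : SecPt) (Λ : ℝ) (a : ℕ) (F : Finset (ℤ × ℤ)) :
    ∑ p ∈ F, (X.mu {ω | X.row ω ∈ c.pbG Λ a p.1 p.2}).toReal ≤ 13 * 2 ^ a * (X.mu {ω | c.PbIn Λ (X.row ω)}).toReal := by
  classical
  obtain ⟨-, -, -, hIn, hGm, -, -⟩ := rc_pb_meas X c Λ a 0
  refine rc_pb_mult X.mu F (fun p => {ω | X.row ω ∈ c.pbG Λ a p.1 p.2}) {ω | c.PbIn Λ (X.row ω)} hIn (fun p _ => hGm p.1 p.2)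
    (fun p _ ω hω => hω.1) (13 * 2 ^ a) ?_
  intro ω T _ hT
  have h6 : (1 : ℝ) ≤ 2 ^ a := one_le_pow₀ (by norm_num)
  rcases T.eq_empty_or_nonempty with rfl | hne
  · rw [Finset.card_empty, Nat.cast_zero]
    linarith
  have hinj : Set.InjOn Prod.fst (T : Set (ℤ × ℤ)) := by
    intro p hp p' hp' hpp
    have h1 := (hT p hp).2.2
    have h2 := (hT p' hp').2.2
    refine Prod.ext hpp ?_
    rw [← h1, ← h2, hpp]
  have hcard : (T.image Prod.fst).card = T.card := Finset.card_image_of_injOn hinj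
  obtain ⟨j0, hj0, hmin⟩ := (T.image Prod.fst).exists_min_image id (hne.image _)
  have hsub : T.image Prod.fst ⊆ Finset.Icc j0 (j0 + 12 * 2 ^ a) := by
    intro j hj
    have hle : j0 ≤ j := hmin _ hj
    obtain ⟨p, hp, rfl⟩ := Finset.mem_image.1 hj
    obtain ⟨p0, hp0, rfl⟩ := Finset.mem_image.1 hj0
    have hw := rc_pb_win c Λ a (X.row ω) (hT p hp).1 p.1 p0.1 (hT p hp).2.1 (hT p0 hp0).2.1
    rw [Finset.mem_Icc]
    refine ⟨hle, ?_⟩
    have h7 : ((p.1 : ℝ) - p0.1) ≤ 12 * 2 ^ a := (le_abs_self _).trans hw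
    have h8 : ((p.1 : ℤ) : ℝ) ≤ ((p0.1 + 12 * 2 ^ a : ℤ) : ℝ) := by
      push_cast
      linarith
    exact_mod_cast h8
  have h3 := Finset.card_le_card hsub
  rw [Int.card_Icc] at h3
  have h4 : (j0 + 12 * 2 ^ a + 1 - j0).toNat = 12 * 2 ^ a + 1 := by
    have : j0 + 12 * 2 ^ a + 1 - j0 = ((12 * 2 ^ a + 1 : ℕ) : ℤ) := by
      push_cast
      ring
    rw [this, Int.toNat_natCast]
  rw [h4, hcard] at h3
  have h5 : (T.card : ℝ) ≤ 12 * 2 ^ a + 1 := by exact_mod_cast h3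
  linarith

/-- **LEAF L-256-RC-PB-SUM (glue): all new cells.**   `F = B.image (fun β => (β.1, β.2.1))`, `D = fun _ => B.image (fun β => β.2.2.2)`.   The map `β ↦ ((β.1, β.2.1), β.2.2.1, β.2.2.2)` injects `B` into `F ×ˢ range (2^k) ×ˢ D`; terms `≥ 0`:
`∑_{β ∈ B} f β ≤ ∑_{p ∈ F} ∑_{m < 2^k} ∑_{d ∈ D m} f (p.1, p.2, m, d)` (`Finset.sum_le_sum_of_subset_of_nonneg` after `Finset.sum_product'`/`Finset.sum_image`);   `rc_pb_one` for every `p`, then `rc_pb_over`. -/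
theorem rc_pb_sum (η Cg CK : ℝ) (hCK : 0 < CK) (hK : PbKinC η Cg CK) : PbSumC η Cg CK := by
  classical
  intro X κ c Λ n a hκ h hreg B hB
  obtain ⟨f, hf⟩ : ∃ f : PbIx → ℝ, f = fun β => (X.mu {ω | X.row ω ∈ c.pbCell Λ a (n - a) β}).toReal ^ (3 / 2 : ℝ) := ⟨_, rfl⟩
  have hf0 : ∀ β, 0 ≤ f β := fun β => by
    rw [hf]
    exact Real.rpow_nonneg ENNReal.toReal_nonneg _
  obtain ⟨F, hF⟩ : ∃ F : Finset (ℤ × ℤ), F = B.image (fun β => (β.1, β.2.1)) := ⟨_, rfl⟩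
  obtain ⟨D, hD⟩ : ∃ D : Finset (ℤ × ℤ), D = B.image (fun β => β.2.2.2) := ⟨_, rfl⟩
  have h1 : ∑ β ∈ B, f β ≤ ∑ p ∈ F, ∑ m ∈ Finset.range (2 ^ (n - a)), ∑ d ∈ D, f (p.1, p.2, m, d) := by
    have e1 : ∑ p ∈ F, ∑ m ∈ Finset.range (2 ^ (n - a)), ∑ d ∈ D, f (p.1, p.2, m, d)
        = ∑ x ∈ F ×ˢ (Finset.range (2 ^ (n - a)) ×ˢ D), f (x.1.1, x.1.2, x.2.1, x.2.2) := by
      rw [Finset.sum_product]
      refine Finset.sum_congr rfl fun p _ => ?_
      rw [Finset.sum_product]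
    have e2 : ∑ β ∈ B, f β = ∑ x ∈ B.image (fun β : PbIx => ((β.1, β.2.1), (β.2.2.1, β.2.2.2))), f (x.1.1, x.1.2, x.2.1, x.2.2) := by
      rw [Finset.sum_image]
      intro β _ β' _ hh
      simp only [Prod.mk.injEq] at hh
      obtain ⟨⟨a1, a2⟩, a3, a4⟩ := hh
      exact Prod.ext a1 (Prod.ext a2 (Prod.ext a3 a4))
    rw [e1, e2]
    refine Finset.sum_le_sum_of_subset_of_nonneg ?_ fun x _ _ => hf0 _
    intro x hx
    obtain ⟨β, hβ, rfl⟩ := Finset.mem_image.1 hx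
    rw [Finset.mem_product, Finset.mem_product]
    refine ⟨?_, Finset.mem_range.2 (hB β hβ), ?_⟩
    · rw [hF]
      exact Finset.mem_image_of_mem _ hβ
    · rw [hD]
      exact Finset.mem_image_of_mem _ hβ
  have h2 : ∀ p ∈ F, ∑ m ∈ Finset.range (2 ^ (n - a)), ∑ d ∈ D, f (p.1, p.2, m, d)
      ≤ Real.sqrt (CK * (n + 1) * pbKap η Cg κ Λ c) * (X.mu {ω | X.row ω ∈ c.pbG Λ a p.1 p.2}).toReal := by
    intro p _
    rw [hf]
    exact rc_pb_one η Cg CK hCK hK X κ c Λ n a hκ h hreg p.1 p.2 (fun _ => D)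
  have h3 := rc_pb_over X c Λ a F
  have h4 : ∑ β ∈ B, (X.mu {ω | X.row ω ∈ c.pbCell Λ a (n - a) β}).toReal ^ (3 / 2 : ℝ) = ∑ β ∈ B, f β := by rw [hf]
  rw [h4]
  calc ∑ β ∈ B, f β ≤ ∑ p ∈ F, Real.sqrt (CK * (n + 1) * pbKap η Cg κ Λ c) * (X.mu {ω | X.row ω ∈ c.pbG Λ a p.1 p.2}).toReal :=
        h1.trans (Finset.sum_le_sum h2)
    _ = Real.sqrt (CK * (n + 1) * pbKap η Cg κ Λ c) * ∑ p ∈ F, (X.mu {ω | X.row ω ∈ c.pbG Λ a p.1 p.2}).toReal := by rw [Finset.mul_sum]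
    _ ≤ Real.sqrt (CK * (n + 1) * pbKap η Cg κ Λ c) * (13 * 2 ^ a * (X.mu {ω | c.PbIn Λ (X.row ω)}).toReal) :=
        mul_le_mul_of_nonneg_left h3 (Real.sqrt_nonneg _)
    _ = 13 * 2 ^ a * Real.sqrt (CK * (n + 1) * pbKap η Cg κ Λ c) * (X.mu {ω | c.PbIn Λ (X.row ω)}).toReal := by ring

/-! ## 5. The relabelling lemma (paper free) -/

/-- **LEAF L-256-RC-PB-POW (paper free).**   (1) power mean = `rc_as_pm` (`Rc/AbSum.lean`, helper211).   (2) superadditivity of `x^(3/2)`: induction on `s` with `NNReal.add_rpow_le_rpow_add`/`Real.add_rpow_le_rpow_add`. -/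
theorem rc_pb_pow {ι : Type} (s : Finset ι) (f : ι → ℝ) (hf : ∀ i ∈ s, 0 ≤ f i) :
    (∀ N : ℝ, (s.card : ℝ) ≤ N → (∑ i ∈ s, f i) ^ (3 / 2 : ℝ) ≤ Real.sqrt N * ∑ i ∈ s, f i ^ (3 / 2 : ℝ)) ∧
    ∑ i ∈ s, f i ^ (3 / 2 : ℝ) ≤ (∑ i ∈ s, f i) ^ (3 / 2 : ℝ) := by
  classical
  refine ⟨fun N hN => rc_as_pm s f hf N hN, ?_⟩
  induction s using Finset.induction_on with
  | empty => simp
  | insert a s ha ih =>
    rw [Finset.sum_insert ha, Finset.sum_insert ha]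
    have h1 : 0 ≤ f a := hf a (Finset.mem_insert_self a s)
    have h2 : 0 ≤ ∑ i ∈ s, f i := Finset.sum_nonneg fun i hi => hf i (Finset.mem_insert_of_mem hi)
    have h3 := ih fun i hi => hf i (Finset.mem_insert_of_mem hi)
    have h4 := Real.add_rpow_le_rpow_add h1 h2 (p := 3 / 2) (by norm_num)
    linarith

/-- **LEAF L-256-RC-PB-REL (paper free): relabelling.**
`x l i = ∫_{G ∩ {ix (J l) = i}} th l`.   (a) `∫_G th l = ∑_{i ∈ Lst l} x l i` (on `G`, where `th l ≠ 0`, `ix (J l) ω ∈ Lst l`; the sets `{ix = i}` are disjoint measurable: `integral_finset_biUnion` + the integrand vanishes off the union; `0 ≤ th l ≤ 1` by `hsum`, so everything is integrable).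
(b) `rc_pb_pow (1)`: `(∫_G th l)^(3/2) ≤ √N1 ∑_{i ∈ Lst l} (x l i)^(3/2)`.   (c) exchange: `∑_l ∑_{i ∈ Lst l} = ∑_{i ∈ B} ∑_{l : i ∈ Lst l}`, `B = univ.biUnion Lst`.
(d) fix `i`; `T = {J l | l, x l i ≠ 0}`; `card T ≤ N2` by `htime` (`x l i ≠ 0` gives `ω ∈ G` with `ix (J l) ω = i`);   for `j ∈ T`: `rc_pb_pow (2)`: `∑_{l : J l = j} (x l i)^(3/2) ≤ (∑_{l : J l = j} x l i)^(3/2)` and
`∑_{l : J l = j} x l i = ∫_{G ∩ {ix j = i}} ∑_l [J l = j] th l ≤ μ (G ∩ {ix j = i}) ≤ μ (cell i)` (`hsum`, `hmem`). -/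
theorem rc_pb_rel {Ω ι : Type} [MeasurableSpace Ω] [DecidableEq ι] (μ : Measure Ω) [IsFiniteMeasure μ] (G : Set Ω) (hG : MeasurableSet G)
    (L : ℕ) (J : Fin L → ℕ) (th : Fin L → Ω → ℝ) (hm : ∀ l, Measurable (th l)) (hnn : ∀ l ω, 0 ≤ th l ω)
    (hsum : ∀ j ω, ∑ l, (if J l = j then th l ω else 0) ≤ 1)
    (ix : ℕ → Ω → ι) (cell : ι → Set Ω) (hcm : ∀ i, MeasurableSet (cell i)) (hixm : ∀ j i, MeasurableSet {ω | ix j ω = i})
    (hmem : ∀ l, ∀ ω ∈ G, ω ∈ cell (ix (J l) ω))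
    (N1 N2 : ℝ) (Lst : Fin L → Finset ι) (hcard : ∀ l, ((Lst l).card : ℝ) ≤ N1)
    (hlst : ∀ l, ∀ ω ∈ G, th l ω ≠ 0 → ix (J l) ω ∈ Lst l)
    (htime : ∀ (i : ι) (T : Finset ℕ), (∀ j ∈ T, (∃ l, J l = j) ∧ ∃ ω ∈ G, ix j ω = i) → (T.card : ℝ) ≤ N2) :
    ∑ l, (∫ ω in G, th l ω ∂μ) ^ (3 / 2 : ℝ) ≤ Real.sqrt N1 * N2 * ∑ i ∈ Finset.univ.biUnion Lst, (μ (cell i)).toReal ^ (3 / 2 : ℝ) := by
  classical
  have hle1 : ∀ l ω, th l ω ≤ 1 := by
    intro l ω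
    refine le_trans ?_ (hsum (J l) ω)
    have := Finset.single_le_sum (f := fun l' => if J l' = J l then th l' ω else 0) (fun l' _ => by
      split_ifs
      · exact hnn l' ω
      · exact le_rfl) (Finset.mem_univ l)
    simpa using this
  have hint : ∀ l, Integrable (th l) μ := fun l =>
    Integrable.of_bound (hm l).aestronglyMeasurable 1 (Filter.Eventually.of_forall fun ω => by
      rw [Real.norm_eq_abs, abs_of_nonneg (hnn l ω)]
      exact hle1 l ω)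
  obtain ⟨x, hx⟩ : ∃ x : Fin L → ι → ℝ, ∀ l i, x l i = ∫ ω in G ∩ {ω | ix (J l) ω = i}, th l ω ∂μ := ⟨_, fun _ _ => rfl⟩
  have hx0 : ∀ l i, 0 ≤ x l i := fun l i => by
    rw [hx]
    exact integral_nonneg fun ω => hnn l ω
  -- (a)
  have ha : ∀ l, ∫ ω in G, th l ω ∂μ = ∑ i ∈ Lst l, x l i := by
    intro l
    have h1 : ∫ ω in G, th l ω ∂μ = ∫ ω in ⋃ i ∈ Lst l, (G ∩ {ω | ix (J l) ω = i}), th l ω ∂μ := by
      refine setIntegral_eq_of_subset_of_forall_sdiff_eq_zero hG ?_ ?_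
      · intro ω hω
        simp only [Set.mem_iUnion] at hω
        obtain ⟨i, _, h⟩ := hω
        exact h.1
      · intro ω hω
        by_contra hne
        exact hω.2 (Set.mem_biUnion (hlst l ω hω.1 hne) ⟨hω.1, rfl⟩)
    rw [h1, integral_biUnion_finset (Lst l) (fun i _ => hG.inter (hixm _ _)) ?_ (fun i _ => (hint l).integrableOn)]
    · exact Finset.sum_congr rfl fun i _ => (hx l i).symm
    · intro i _ i' _ hne
      refine Set.disjoint_left.2 fun ω h1 h2 => hne ?_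
      exact h1.2.symm.trans h2.2
  -- (d)
  have hd : ∀ i, ∑ l, x l i ^ (3 / 2 : ℝ) ≤ N2 * (μ (cell i)).toReal ^ (3 / 2 : ℝ) := by
    intro i
    obtain ⟨S, hS⟩ : ∃ S : Finset (Fin L), S = Finset.univ.filter fun l => x l i ≠ 0 := ⟨_, rfl⟩
    have e1 : ∑ l, x l i ^ (3 / 2 : ℝ) = ∑ l ∈ S, x l i ^ (3 / 2 : ℝ) := by
      symm
      refine Finset.sum_subset (Finset.subset_univ _) fun l _ hl => ?_
      have : x l i = 0 := by
        by_contra hne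
        exact hl (by rw [hS]; exact Finset.mem_filter.2 ⟨Finset.mem_univ _, hne⟩)
      rw [this, Real.zero_rpow (by norm_num)]
    have e2 : ∑ l ∈ S, x l i ^ (3 / 2 : ℝ) = ∑ j ∈ S.image J, ∑ l ∈ S.filter (fun l => J l = j), x l i ^ (3 / 2 : ℝ) :=
      (Finset.sum_fiberwise_of_maps_to (fun l hl => Finset.mem_image_of_mem J hl) _).symm
    have hT : ((S.image J).card : ℝ) ≤ N2 := by
      refine htime i _ fun j hj => ?_
      obtain ⟨l, hl, rfl⟩ := Finset.mem_image.1 hj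
      refine ⟨⟨l, rfl⟩, ?_⟩
      rw [hS] at hl
      have hne := (Finset.mem_filter.1 hl).2
      by_contra hcon
      apply hne
      have hemp : G ∩ {ω | ix (J l) ω = i} = ∅ := by
        ext ω
        simp only [Set.mem_inter_iff, Set.mem_ofPred_eq, Set.mem_empty_iff_false, iff_false, not_and]
        intro h1 h2
        exact hcon ⟨ω, h1, h2⟩
      rw [hx, hemp, Measure.restrict_empty, integral_zero_measure]
    have hj : ∀ j ∈ S.image J, ∑ l ∈ S.filter (fun l => J l = j), x l i ^ (3 / 2 : ℝ) ≤ (μ (cell i)).toReal ^ (3 / 2 : ℝ) := by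
      intro j hj
      obtain ⟨l₀, _, hl₀⟩ := Finset.mem_image.1 hj
      refine ((rc_pb_pow (S.filter fun l => J l = j) (fun l => x l i) fun l _ => hx0 l i).2).trans ?_
      refine Real.rpow_le_rpow (Finset.sum_nonneg fun l _ => hx0 l i) ?_ (by norm_num)
      have f1 : ∑ l ∈ S.filter (fun l => J l = j), x l i ≤ ∑ l, (if J l = j then x l i else 0) := by
        rw [← Finset.sum_filter]
        refine Finset.sum_le_sum_of_subset_of_nonneg ?_ fun l _ _ => hx0 l i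
        intro l hl
        exact Finset.mem_filter.2 ⟨Finset.mem_univ _, (Finset.mem_filter.1 hl).2⟩
      have f2 : ∑ l, (if J l = j then x l i else 0) = ∫ ω in G ∩ {ω | ix j ω = i}, ∑ l, (if J l = j then th l ω else 0) ∂μ := by
        rw [integral_finsetSum]
        · refine Finset.sum_congr rfl fun l _ => ?_
          split_ifs with h
          · rw [hx, h]
          · rw [integral_zero]
        · intro l _
          split_ifs
          · exact (hint l).integrableOn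
          · exact integrable_zero _ _ _
      have f3 : ∫ ω in G ∩ {ω | ix j ω = i}, ∑ l, (if J l = j then th l ω else 0) ∂μ ≤ ∫ _ω in G ∩ {ω | ix j ω = i}, (1 : ℝ) ∂μ := by
        refine integral_mono ?_ (integrable_const _) fun ω => hsum j ω
        refine integrable_finsetSum _ fun l _ => ?_
        split_ifs
        · exact (hint l).integrableOn
        · exact integrable_zero _ _ _
      have f4 : ∫ _ω in G ∩ {ω | ix j ω = i}, (1 : ℝ) ∂μ = (μ (G ∩ {ω | ix j ω = i})).toReal := by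
        rw [integral_const, smul_eq_mul, mul_one]
        simp [Measure.real]
      have f5 : (μ (G ∩ {ω | ix j ω = i})).toReal ≤ (μ (cell i)).toReal := by
        refine ENNReal.toReal_mono (measure_ne_top _ _) (measure_mono ?_)
        intro ω hω
        have := hmem l₀ ω hω.1
        rw [hl₀, hω.2] at this
        exact this
      linarith
    rw [e1, e2]
    calc ∑ j ∈ S.image J, ∑ l ∈ S.filter (fun l => J l = j), x l i ^ (3 / 2 : ℝ) ≤ ∑ _j ∈ S.image J, (μ (cell i)).toReal ^ (3 / 2 : ℝ) := Finset.sum_le_sum hj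
      _ = ((S.image J).card : ℝ) * (μ (cell i)).toReal ^ (3 / 2 : ℝ) := by rw [Finset.sum_const, nsmul_eq_mul]
      _ ≤ N2 * (μ (cell i)).toReal ^ (3 / 2 : ℝ) := mul_le_mul_of_nonneg_right hT (Real.rpow_nonneg ENNReal.toReal_nonneg _)
  -- (b), (c)
  have hb : ∀ l, (∫ ω in G, th l ω ∂μ) ^ (3 / 2 : ℝ) ≤ Real.sqrt N1 * ∑ i ∈ Finset.univ.biUnion Lst, x l i ^ (3 / 2 : ℝ) := by
    intro l
    rw [ha l]
    refine ((rc_pb_pow (Lst l) (fun i => x l i) fun i _ => hx0 l i).1 N1 (hcard l)).trans ?_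
    refine mul_le_mul_of_nonneg_left ?_ (Real.sqrt_nonneg _)
    refine Finset.sum_le_sum_of_subset_of_nonneg ?_ fun i _ _ => Real.rpow_nonneg (hx0 l i) _
    intro i hi
    exact Finset.mem_biUnion.2 ⟨l, Finset.mem_univ _, hi⟩
  calc ∑ l, (∫ ω in G, th l ω ∂μ) ^ (3 / 2 : ℝ) ≤ ∑ l, Real.sqrt N1 * ∑ i ∈ Finset.univ.biUnion Lst, x l i ^ (3 / 2 : ℝ) := Finset.sum_le_sum fun l _ => hb l
    _ = Real.sqrt N1 * ∑ i ∈ Finset.univ.biUnion Lst, ∑ l, x l i ^ (3 / 2 : ℝ) := by rw [← Finset.mul_sum, Finset.sum_comm]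
    _ ≤ Real.sqrt N1 * ∑ i ∈ Finset.univ.biUnion Lst, N2 * (μ (cell i)).toReal ^ (3 / 2 : ℝ) :=
        mul_le_mul_of_nonneg_left (Finset.sum_le_sum fun i _ => hd i) (Real.sqrt_nonneg _)
    _ = Real.sqrt N1 * N2 * ∑ i ∈ Finset.univ.biUnion Lst, (μ (cell i)).toReal ^ (3 / 2 : ℝ) := by rw [← Finset.mul_sum, mul_assoc]

end Claimed.Agent.R256
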