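-- KEEP
import Claimed.Agent.R256.Rc.PlbKin

/-!
# Row 256, unit RC, block PLANE-B-cl, file 4: ONE PATCH, ALL PATCHES, THE MODEL, EXIT      (architect helper183; prefix `rc_pb_`)
EXIT:   `rc_pb_planeB : RcPlaneB η`.
Every `sorry` is a leaf `L-256-RC-PB-*` (name in the docstring).   Statements FROZEN (a defect: one line to helper183);  auxiliary lemmas directly above your theorem, prefix `rc_pb_<leaf>_`;  edit only your block.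
CHAIN.   `rc_pb_slice → rc_pb_kin → rc_pb_sum` (`PbSumC`);   `rc_pb_patch` (one patch: `rc_pb_rel` + `rc_pb_lab, rc_pb_mem, rc_pb_time`) + `rc_pb_num`;   `rc_pb_mk` (patch data), `rc_pb_res`, `rc_pb_abs : PbAbs η` (sum over the squares);
`rc_pb_model` (the classical model is a measure of rows with fractional labels), `rc_pb_crude` (range `2^n < (8 Kp P)⁴`), `rc_pb_planeB`.
-/

set_option autoImplicit false

namespace Claimed.Agent.R256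

open MeasureTheory
open scoped BigOperators

/-- restriction of a measure of rows -/
noncomputable def RcNu.res (X : RcNu) (S : Set X.Om) : RcNu where
  Om := X.Om
  mOm := X.mOm
  mu := X.mu.restrict S
  fin := inferInstance
  row := X.row
  meas := X.meas

/-- the same labels on the restricted measure -/
def PbLab.res {X : RcNu} (Y : PbLab X) (S : Set X.Om) : PbLab (X.res S) := ⟨Y.L, Y.J, Y.Q, Y.th⟩

/-- the good velocities: bounded part of the slab of width `Δ^20` -/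
def pbGood (r Kp d0 be : ℝ) (As al : ℝ × ℝ) (n : ℕ) : Set (ℝ × ℝ) :=
  {A | rtSq (r⁻¹ • (A - As)) ≤ Kp ^ 2 ∧ |d0 + rtIp al (r⁻¹ • (A - As)) + be * rtSq (r⁻¹ • (A - As))| ≤ ((1 / 2 : ℝ) ^ n) ^ 20}

/-- **(sec), classical, for a measure of rows with fractional labels, at small scales** -/
def PbAbs (η : ℝ) : Prop :=
  ∃ C0 : ℝ, 0 ≤ C0 ∧ ∀ ν : ℝ, 0 < ν → ∃ C : ℝ, 0 ≤ C ∧ ∀ (X : RcNu) (κ Kp Pp r d0 be : ℝ) (As al : ℝ × ℝ) (k0 n : ℕ) (Y : PbLab X),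
    0 ≤ κ → X.RegL η κ (rdLen k0) → 1 ≤ Kp → 2 ≤ Pp → 0 < r → rtSq al + be ^ 2 = 1 → Pp ^ (-2 : ℝ) ≤ rtSq al - 4 * be * d0 →
    (8 * Kp * Pp) ^ 4 * (1 / 2 : ℝ) ^ n ≤ 1 → X.mu {ω | (X.row ω).A ∉ pbGood r Kp d0 be As al n} = 0 → Y.Ok k0 n Kp r →
    ∑ l, (∫ ω, Y.th l ω ∂X.mu) ^ (3 / 2 : ℝ)
      ≤ C * Kp ^ C0 * Pp ^ C0 * 2 ^ ((4 * η + ν) * n) * 2 ^ (-((n : ℝ) / 2)) * Real.sqrt (κ * r ^ 4) * (X.mu Set.univ).toReal

theorem rc_pb_main_eqns_cite : True := by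
  have := @RcNu.res.eq_1
  have := @PbLab.res.eq_1
  have := @pbGood.eq_1
  have := @PbAbs.eq_1
  trivial

/-! ## 1. One patch -/

/-- **LEAF L-256-RC-PB-CNT (paper free): integers with bounded pairwise distances.**   `T` empty: trivial (`0 ≤ M + 1` from .. `M ≥ 0` is NOT assumed: for `T = ∅` use `hM`).   Otherwise `T ⊆ Icc (T.min' _) (T.min' _ + ⌊M⌋)`, `Int.card_Icc`. -/
theorem rc_pb_cnt (T : Finset ℤ) (M : ℝ) (hM : 0 ≤ M) (h : ∀ j ∈ T, ∀ j' ∈ T, |(j : ℝ) - j'| ≤ M) : (T.card : ℝ) ≤ M + 1 := by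
  rcases T.eq_empty_or_nonempty with rfl | hne
  · simp only [Finset.card_empty, Nat.cast_zero]; linarith
  · set m : ℤ := T.min' hne with hm
    have hmT : m ∈ T := T.min'_mem hne
    have hsub : T ⊆ Finset.Icc m (m + ⌊M⌋) := by
      intro j hj
      rw [Finset.mem_Icc]
      refine ⟨T.min'_le j hj, ?_⟩
      have h1 := (abs_le.1 (h j hj m hmT)).2
      have h2 : j - m ≤ ⌊M⌋ := by
        rw [Int.le_floor]; push_cast; exact h1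
      linarith
    have hc := Finset.card_le_card hsub
    rw [Int.card_Icc] at hc
    have hf : 0 ≤ ⌊M⌋ := Int.floor_nonneg.2 hM
    have e : (m + ⌊M⌋ + 1 - m).toNat = (⌊M⌋ + 1).toNat := by congr 1; ring
    rw [e] at hc
    have h3 : ((T.card : ℕ) : ℤ) ≤ ⌊M⌋ + 1 := by
      have : (((⌊M⌋ + 1).toNat : ℕ) : ℤ) = ⌊M⌋ + 1 := Int.toNat_of_nonneg (by linarith)
      rw [← this]; exact_mod_cast hc
    have h4 : ((T.card : ℕ) : ℝ) ≤ (⌊M⌋ : ℝ) + 1 := by exact_mod_cast h3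
    linarith [Int.floor_le M]

/-- **LEAF L-256-RC-PB-PATCH (glue): one patch.**
`rc_pb_rel` with `μ = X.mu`, `G = {ω | c.PbIn Λ (X.row ω)}`, `ι = PbIx`, `ix j ω = c.pbIx Λ n a j (X.row ω)`, `cell β = {ω | X.row ω ∈ c.pbCell Λ a (n-a) β}` (measurability: `rc_pb_meas`), `L, J, th` of `Y`,
`Lst l` = the list of `rc_pb_lab c Λ Kp n a h hKp (Y.J l) (Y.Q l) ..` (`Classical.choose`), `N1 = (17Λ²Kp²)⁴ Δ/W`, `N2 = 6Λ²`.
`hmem`: `rc_pb_mem` (`hY.J_lt`).   `hlst`: `hY.supp` (`c.l = rdLen c.k` by `rfl`).   `htime`: `rc_pb_time` gives pairwise distances `≤ 5Λ²`; `rc_pb_cnt` on `T.image Nat.cast` (`Finset.card_image_of_injective`): `card ≤ 5Λ² + 1 ≤ 6Λ²`.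
Then `hsum X κ c Λ n a hκ h hreg (univ.biUnion Lst)` (second clause of `rc_pb_lab`). -/
theorem rc_pb_patch (η Cg CK : ℝ) (hsum : PbSumC η Cg CK) (X : RcNu) (κ : ℝ) (c : SecPt) (Λ Kp : ℝ) (n a : ℕ) (hκ : 0 ≤ κ) (h : PbSc c Λ n a) (hreg : X.RegL η κ c.l) (hKp : 1 ≤ Kp)
    (Y : PbLab X) (hY : Y.Ok c.k n Kp c.r) :
    ∑ l, (∫ ω in {ω | c.PbIn Λ (X.row ω)}, Y.th l ω ∂X.mu) ^ (3 / 2 : ℝ)
      ≤ Real.sqrt ((17 * Λ ^ 2 * Kp ^ 2) ^ 4 * ((1 / 2 : ℝ) ^ n / c.pbW Λ)) * (6 * Λ ^ 2) *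
        (13 * 2 ^ a * Real.sqrt (CK * (n + 1) * pbKap η Cg κ Λ c) * (X.mu {ω | c.PbIn Λ (X.row ω)}).toReal) := by
  classical
  obtain ⟨-, -, -, mG, -, mC, mI⟩ := rc_pb_meas X c Λ a (n - a)
  have hlab := fun l => rc_pb_lab c Λ Kp n a h hKp (Y.J l) (Y.Q l) (hY.r_pos l) (hY.r_le l)
  choose Lst hL1 hL2 hL3 using hlab
  have hΛ : (16 : ℝ) ≤ Λ := h.Λ_ge
  have hΛ2 : (1 : ℝ) ≤ Λ ^ 2 := by nlinarith
  have key := rc_pb_rel X.mu {ω | c.PbIn Λ (X.row ω)} mG Y.L Y.J Y.th hY.meas hY.nn hY.sum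
    (fun j ω => c.pbIx Λ n a j (X.row ω)) (fun β => {ω | X.row ω ∈ c.pbCell Λ a (n - a) β}) mC (fun j i => mI n j i)
    (fun l ω hω => rc_pb_mem c Λ n a h (Y.J l) (hY.J_lt l) (X.row ω) hω)
    ((17 * Λ ^ 2 * Kp ^ 2) ^ 4 * ((1 / 2 : ℝ) ^ n / c.pbW Λ)) (6 * Λ ^ 2) Lst hL1
    (fun l ω hω hne => hL3 l (X.row ω) hω (hY.supp l ω hne))
    (by
      intro i T hT
      have h1 : ((T.image (Nat.cast : ℕ → ℤ)).card : ℝ) ≤ 5 * Λ ^ 2 + 1 := by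
        apply rc_pb_cnt _ _ (by positivity)
        intro j hj j' hj'
        obtain ⟨u, hu, rfl⟩ := Finset.mem_image.1 hj
        obtain ⟨u', hu', rfl⟩ := Finset.mem_image.1 hj'
        obtain ⟨-, ω, hω, e⟩ := hT u hu
        obtain ⟨-, ω', hω', e'⟩ := hT u' hu'
        have := rc_pb_time c Λ n a h u u' (X.row ω) (X.row ω') hω hω' (e.trans e'.symm)
        simpa using this
      rw [Finset.card_image_of_injective _ Nat.cast_injective] at h1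
      linarith)
  refine key.trans ?_
  apply mul_le_mul_of_nonneg_left _ (by positivity)
  apply hsum X κ c Λ n a hκ h hreg
  intro β hβ
  obtain ⟨l, -, hl⟩ := Finset.mem_biUnion.1 hβ
  exact hL2 l β hl

/-- **LEAF L-256-RC-PB-NUM (paper free): numerology.**   `Δ = (1/2)^n`, `W = c.pbW Λ`, `Δ⁸ ≤ W` (`rc_pb_sc`).
LHS `= (17Λ²Kp²)² √(Δ/W) · 6Λ² · 13 · 2^a · √(CK (n+1)) · √(κ r⁴) · (66Λ)^(Cg/2) · W^((1-η)/2)`   (`Real.sqrt_mul`, `Real.sqrt_eq_rpow`, `Real.sqrt_sq`).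
`√(Δ/W) W^((1-η)/2) = Δ^(1/2) W^(-η/2) ≤ Δ^(1/2) (Δ⁸)^(-η/2) = 2^(-n/2) 2^(4ηn)`;   `(17Λ²Kp²)² ≤ 289Λ⁸` (`Kp ≤ Λ`);   `2^a ≤ 34Λ²`;   `√(n+1) ≤ Cν 2^(νn)` for all `n` (e.g. `n + 1 ≤ 2^n`.. NOT enough: use `x ≤ exp x`: `n + 1 ≤ (1/(2ν log 2) + 1) 2^(2νn)`).
`C = 289·6·13·34 · 66^(Cg/2) · √CK · Cν`. -/
theorem rc_pb_num (η Cg CK ν : ℝ) (h0 : 0 < η) (h1 : η < 1) (hCg : 0 < Cg) (hCK : 0 < CK) (hν : 0 < ν) :
    ∃ C : ℝ, 0 ≤ C ∧ ∀ (κ : ℝ) (c : SecPt) (Λ Kp : ℝ) (n a : ℕ), 0 ≤ κ → PbSc c Λ n a → 1 ≤ Kp → Kp ≤ Λ →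
      Real.sqrt ((17 * Λ ^ 2 * Kp ^ 2) ^ 4 * ((1 / 2 : ℝ) ^ n / c.pbW Λ)) * (6 * Λ ^ 2) * (13 * 2 ^ a * Real.sqrt (CK * (n + 1) * pbKap η Cg κ Λ c))
        ≤ C * Λ ^ (12 + Cg / 2) * 2 ^ ((4 * η + ν) * n) * 2 ^ (-((n : ℝ) / 2)) * Real.sqrt (κ * c.r ^ 4) := by
  obtain ⟨t, ht⟩ : ∃ t : ℝ, t = 2 * ν * Real.log 2 := ⟨_, rfl⟩
  have htpos : 0 < t := by
    rw [ht]
    have := Real.log_pos (by norm_num : (1 : ℝ) < 2)
    positivity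
  obtain ⟨Cv, hCv⟩ : ∃ Cv : ℝ, Cv = 1 / t + 1 := ⟨_, rfl⟩
  have hCvpos : 0 < Cv := by rw [hCv]; positivity
  have hn1 : ∀ n : ℕ, (n : ℝ) + 1 ≤ Cv * 2 ^ (2 * (ν * n)) := by
    intro n
    have e : (2 : ℝ) ^ (2 * (ν * n)) = Real.exp (t * n) := by
      rw [Real.rpow_def_of_pos (by norm_num)]
      congr 1
      rw [ht]
      ring
    rw [e]
    have h := Real.add_one_le_exp (t * n)
    have hn : (0 : ℝ) ≤ n := Nat.cast_nonneg n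
    calc (n : ℝ) + 1 ≤ Cv * (t * n + 1) := by
          have e2 : 1 / t * (t * n) = n := by field_simp
          have e3 : Cv * (t * n + 1) = 1 / t * (t * n) + t * n + 1 / t + 1 := by rw [hCv]; ring
          rw [e3, e2]
          have := mul_nonneg htpos.le hn
          have : 0 < 1 / t := by positivity
          linarith
      _ ≤ _ := mul_le_mul_of_nonneg_left h hCvpos.le
  refine ⟨78 * 34 * (289 * Real.sqrt (CK * Cv) * 66 ^ (Cg / 2)), by positivity, ?_⟩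
  intro κ c Λ Kp n a hκ hsc hKp hKΛ
  obtain ⟨-, hWpos, hWlo, -⟩ := rc_pb_sc c Λ n a hsc
  have hΛpos : 0 < Λ := by linarith [hsc.Λ_ge]
  have ha_hi := hsc.a_hi
  unfold pbKap
  generalize c.pbW Λ = W at hWpos hWlo ⊢
  generalize c.r = r
  have sq : ∀ (x y : ℝ), 0 < x → (x ^ y) ^ 2 = x ^ (2 * y) := by
    intro x y hx
    rw [← Real.rpow_natCast, ← Real.rpow_mul hx.le]
    congr 1
    push_cast
    ring
  have hΔ : (1 / 2 : ℝ) ^ n = 2 ^ (-(n : ℝ)) := by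
    rw [Real.rpow_neg (by norm_num), Real.rpow_natCast, one_div, inv_pow]
  have hΔ8 : (((1 / 2 : ℝ) ^ n) ^ 8) ^ (-η) = 2 ^ (2 * (4 * η * n)) := by
    rw [hΔ, ← Real.rpow_natCast, ← Real.rpow_mul (by norm_num), ← Real.rpow_mul (by norm_num)]
    congr 1
    push_cast
    ring
  have hΔ8pos : (0 : ℝ) < ((1 / 2 : ℝ) ^ n) ^ 8 := by positivity
  have hWη : W ^ (-η) ≤ 2 ^ (2 * (4 * η * n)) := by
    rw [← hΔ8]
    exact Real.rpow_le_rpow_of_nonpos hΔ8pos hWlo (by linarith)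
  have hW1 : (1 / 2 : ℝ) ^ n / W * W ^ (1 - η) = 2 ^ (-(n : ℝ)) * W ^ (-η) := by
    rw [sub_eq_add_neg, Real.rpow_add hWpos, Real.rpow_one, hΔ]
    field_simp
  obtain ⟨M, hM⟩ : ∃ M : ℝ, M = 289 * Λ ^ 8 * Real.sqrt (CK * Cv) * 66 ^ (Cg / 2) * Λ ^ (Cg / 2) * 2 ^ (ν * n) * 2 ^ (-((n : ℝ) / 2)) * 2 ^ (4 * η * n) := ⟨_, rfl⟩
  have hMnn : 0 ≤ M := by rw [hM]; positivity
  have hM2 : M ^ 2 = 289 ^ 2 * Λ ^ 16 * (CK * Cv) * 66 ^ Cg * Λ ^ Cg * 2 ^ (2 * (ν * n)) * 2 ^ (-(n : ℝ)) * 2 ^ (2 * (4 * η * n)) := by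
    rw [hM]
    simp only [mul_pow]
    rw [Real.sq_sqrt (by positivity), sq _ _ (by norm_num : (0 : ℝ) < 66), sq _ _ hΛpos, sq _ _ (by norm_num : (0 : ℝ) < 2), sq _ _ (by norm_num : (0 : ℝ) < 2),
      sq _ _ (by norm_num : (0 : ℝ) < 2)]
    have e1 : 2 * (Cg / 2) = Cg := by ring
    have e2 : 2 * (-((n : ℝ) / 2)) = -(n : ℝ) := by ring
    rw [e1, e2]
    ring
  have hP1 : (17 * Λ ^ 2 * Kp ^ 2) ^ 4 ≤ 289 ^ 2 * Λ ^ 16 := by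
    have hK2 : Kp ^ 2 ≤ Λ ^ 2 := pow_le_pow_left₀ (by linarith) hKΛ 2
    calc (17 * Λ ^ 2 * Kp ^ 2) ^ 4 ≤ (17 * Λ ^ 2 * Λ ^ 2) ^ 4 := by gcongr
      _ = 289 ^ 2 * Λ ^ 16 := by ring
  have hz : 0 ≤ κ * r ^ 4 := by positivity
  have hI : (17 * Λ ^ 2 * Kp ^ 2) ^ 4 * ((1 / 2 : ℝ) ^ n / W) * (CK * (n + 1) * (κ * r ^ 4 * (66 * Λ) ^ Cg * W ^ (1 - η))) ≤ M ^ 2 * (κ * r ^ 4) := by
    have e : (17 * Λ ^ 2 * Kp ^ 2) ^ 4 * ((1 / 2 : ℝ) ^ n / W) * (CK * (n + 1) * (κ * r ^ 4 * (66 * Λ) ^ Cg * W ^ (1 - η)))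
        = ((17 * Λ ^ 2 * Kp ^ 2) ^ 4 * ((n : ℝ) + 1) * W ^ (-η) * (CK * 66 ^ Cg * Λ ^ Cg * 2 ^ (-(n : ℝ)))) * (κ * r ^ 4) := by
      rw [Real.mul_rpow (by norm_num) hΛpos.le]
      calc _ = (17 * Λ ^ 2 * Kp ^ 2) ^ 4 * ((1 / 2 : ℝ) ^ n / W * W ^ (1 - η)) * (CK * (n + 1) * (κ * r ^ 4 * (66 ^ Cg * Λ ^ Cg))) := by ring
        _ = _ := by rw [hW1]; ring
    rw [e, hM2]
    refine mul_le_mul_of_nonneg_right ?_ hz
    calc (17 * Λ ^ 2 * Kp ^ 2) ^ 4 * ((n : ℝ) + 1) * W ^ (-η) * (CK * 66 ^ Cg * Λ ^ Cg * 2 ^ (-(n : ℝ)))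
        ≤ (289 ^ 2 * Λ ^ 16) * (Cv * 2 ^ (2 * (ν * n))) * 2 ^ (2 * (4 * η * n)) * (CK * 66 ^ Cg * Λ ^ Cg * 2 ^ (-(n : ℝ))) := by
          have := hn1 n
          gcongr
      _ = _ := by ring
  have hA1 : 0 ≤ (17 * Λ ^ 2 * Kp ^ 2) ^ 4 * ((1 / 2 : ℝ) ^ n / W) := by positivity
  have hs : Real.sqrt ((17 * Λ ^ 2 * Kp ^ 2) ^ 4 * ((1 / 2 : ℝ) ^ n / W)) * Real.sqrt (CK * (n + 1) * (κ * r ^ 4 * (66 * Λ) ^ Cg * W ^ (1 - η))) ≤ M * Real.sqrt (κ * r ^ 4) := by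
    rw [← Real.sqrt_mul hA1]
    calc _ ≤ Real.sqrt (M ^ 2 * (κ * r ^ 4)) := Real.sqrt_le_sqrt hI
      _ = M * Real.sqrt (κ * r ^ 4) := by rw [Real.sqrt_mul (by positivity), Real.sqrt_sq hMnn]
  have hΛe : Λ ^ (12 + Cg / 2) = Λ ^ 4 * Λ ^ 8 * Λ ^ (Cg / 2) := by
    rw [Real.rpow_add hΛpos, ← pow_add]
    congr 1
    rw [← Real.rpow_natCast]
    norm_num
  have h2e : (2 : ℝ) ^ ((4 * η + ν) * n) = 2 ^ (ν * n) * 2 ^ (4 * η * n) := by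
    rw [← Real.rpow_add (by norm_num)]
    congr 1
    ring
  calc Real.sqrt ((17 * Λ ^ 2 * Kp ^ 2) ^ 4 * ((1 / 2 : ℝ) ^ n / W)) * (6 * Λ ^ 2) * (13 * 2 ^ a * Real.sqrt (CK * (n + 1) * (κ * r ^ 4 * (66 * Λ) ^ Cg * W ^ (1 - η))))
      = 78 * Λ ^ 2 * 2 ^ a * (Real.sqrt ((17 * Λ ^ 2 * Kp ^ 2) ^ 4 * ((1 / 2 : ℝ) ^ n / W)) * Real.sqrt (CK * (n + 1) * (κ * r ^ 4 * (66 * Λ) ^ Cg * W ^ (1 - η)))) := by ring
    _ ≤ 78 * Λ ^ 2 * (34 * Λ ^ 2) * (M * Real.sqrt (κ * r ^ 4)) := by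
      have : 0 ≤ Real.sqrt ((17 * Λ ^ 2 * Kp ^ 2) ^ 4 * ((1 / 2 : ℝ) ^ n / W)) * Real.sqrt (CK * (n + 1) * (κ * r ^ 4 * (66 * Λ) ^ Cg * W ^ (1 - η))) := by positivity
      gcongr
    _ = _ := by
      rw [hΛe, h2e, hM]
      ring

/-! ## 2. All patches -/

theorem rc_pb_mk_a (Λ : ℝ) (hΛ : 16 ≤ Λ) (n : ℕ) (hsm : Λ ^ 4 * (1 / 2 : ℝ) ^ n ≤ 1) :
    ∃ a : ℕ, a ≤ n ∧ 1 + 16 * Λ ^ 2 ≤ (2 : ℝ) ^ a ∧ (2 : ℝ) ^ a ≤ 34 * Λ ^ 2 := by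
  classical
  have hex : ∃ a : ℕ, 1 + 16 * Λ ^ 2 ≤ (2 : ℝ) ^ a := by
    obtain ⟨a, ha⟩ := pow_unbounded_of_one_lt (1 + 16 * Λ ^ 2) (by norm_num : (1 : ℝ) < 2)
    exact ⟨a, ha.le⟩
  have hΛ2 : (256 : ℝ) ≤ Λ ^ 2 := by nlinarith
  have h1 := Nat.find_spec hex
  have hpos : Nat.find hex ≠ 0 := by
    intro h0
    rw [h0] at h1
    norm_num at h1
    nlinarith
  obtain ⟨b, hb⟩ := Nat.exists_eq_succ_of_ne_zero hpos
  have h2 : ¬ (1 + 16 * Λ ^ 2 ≤ (2 : ℝ) ^ b) := Nat.find_min hex (by omega)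
  have h3 : (2 : ℝ) ^ (Nat.find hex) ≤ 34 * Λ ^ 2 := by
    rw [hb, pow_succ]
    have h2' := not_le.1 h2
    nlinarith
  refine ⟨Nat.find hex, ?_, h1, h3⟩
  have h4 : Λ ^ 4 ≤ (2 : ℝ) ^ n := by
    have hp : (0 : ℝ) < 2 ^ n := by positivity
    have e : (1 / 2 : ℝ) ^ n = 1 / 2 ^ n := by rw [div_pow, one_pow]
    rw [e, mul_one_div, div_le_one hp] at hsm
    exact hsm
  have h5 : (2 : ℝ) ^ (Nat.find hex) ≤ 2 ^ n := by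
    refine h3.trans (le_trans ?_ h4)
    nlinarith
  exact (pow_le_pow_iff_right₀ (by norm_num : (1 : ℝ) < 2)).1 h5

/-- **LEAF L-256-RC-PB-MK: patch data with the fake Planck constant.**   `Δ = (1/2)^n`, `Λ = 8 Kp Pp ≥ 16`, `H = Δ^16 · (rdLen k0 · r²)`, so `H/(rdLen k0 r²) = Δ^16`, `√.. = Δ⁸`.
`re_sc_patch_mk H _ k0 T0 r d0 be Kp Pp As al ..`:   `hsm : Δ^16 (2^40 Λ⁴) ≤ 1` from `Λ⁴Δ ≤ 1`, `Δ ≤ 2^-16` (`Δ^15 2^40 ≤ 1`);   `hsec : |..| ≤ Δ^20 ≤ 8 Kp Δ⁸`.   It gives `c` with `c.H = H, c.k = k0, c.T0 = T0, c.r = r`, `c.Ok`, `|c.bt| ≤ Λ`, `c.Pat Λ S`.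
`c.h = H/(c.l c.r²) = Δ^16`.   `a`: the least `a` with `1 + 16Λ² ≤ 2^a` (`Nat.find`, `pow_unbounded_of_one_lt`): `2^a < 2 (1 + 16Λ²) ≤ 34Λ²` (`a ≥ 1`);   `a ≤ n`: `2^a ≤ 34Λ² ≤ Λ⁴ ≤ 2^n` (`Nat.pow_le_pow_iff_right`/`pow_le_pow_iff_right₀`). -/
theorem rc_pb_mk (k0 n : ℕ) (T0 r d0 be Kp Pp : ℝ) (As al : ℝ × ℝ) (hr : 0 < r) (hKp : 1 ≤ Kp) (hP : 2 ≤ Pp) (hn : rtSq al + be ^ 2 = 1) (hD : Pp ^ (-2 : ℝ) ≤ rtSq al - 4 * be * d0)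
    (hsm : (8 * Kp * Pp) ^ 4 * (1 / 2 : ℝ) ^ n ≤ 1) (S : Set (ℝ × ℝ)) (hS : MeasurableSet S) (hne : S.Nonempty) (hsub : S ⊆ pbGood r Kp d0 be As al n)
    (hdiam : ∀ A ∈ S, ∀ A' ∈ S, rtSq (r⁻¹ • (A - A')) ≤ 2 * (1 / (32 * (1 + Pp))) ^ 2) :
    ∃ (c : SecPt) (a : ℕ), c.k = k0 ∧ c.T0 = T0 ∧ c.r = r ∧ PbSc c (8 * Kp * Pp) n a ∧ ∀ x : RtRow, x.A ∈ S → c.PbIn (8 * Kp * Pp) x := by
  have hΛ : (16 : ℝ) ≤ 8 * Kp * Pp := by nlinarith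
  obtain ⟨a, ha1, ha2, ha3⟩ := rc_pb_mk_a (8 * Kp * Pp) hΛ n hsm
  have hl : 0 < rdLen k0 := rdLen_pos k0
  have hlr : 0 < rdLen k0 * r ^ 2 := by positivity
  have hsec0 : ∀ A ∈ S, |d0 + rtIp al (r⁻¹ • (A - As)) + be * rtSq (r⁻¹ • (A - As))| ≤ ((1 / 2 : ℝ) ^ n) ^ 20 := fun A hA => (hsub hA).2
  obtain ⟨Δ, hΔ⟩ : ∃ Δ : ℝ, Δ = (1 / 2 : ℝ) ^ n := ⟨_, rfl⟩
  have hΔ0 : 0 < Δ := by rw [hΔ]; positivity
  rw [← hΔ] at hsm hsec0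
  obtain ⟨Λ, hΛd⟩ : ∃ Λ : ℝ, Λ = 8 * Kp * Pp := ⟨_, rfl⟩
  have hΛ4 : (65536 : ℝ) ≤ (8 * Kp * Pp) ^ 4 := by
    have := pow_le_pow_left₀ (by norm_num : (0 : ℝ) ≤ 16) hΛ 4
    norm_num at this
    exact this
  have hΔs : Δ ≤ 1 / 65536 := by
    rw [le_div_iff₀ (by norm_num)]
    nlinarith
  have hΔ1 : Δ ≤ 1 := by linarith
  have hq : Δ ^ 16 * (rdLen k0 * r ^ 2) / (rdLen k0 * r ^ 2) = Δ ^ 16 := by
    field_simp
  have hsq : √(Δ ^ 16) = Δ ^ 8 := by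
    rw [show Δ ^ 16 = (Δ ^ 8) ^ 2 by ring]
    exact Real.sqrt_sq (by positivity)
  obtain ⟨c, cH, ck, cT, cr, cOk, cbt, cPat⟩ := re_sc_patch_mk (Δ ^ 16 * (rdLen k0 * r ^ 2)) (by positivity) k0 T0 r d0 be Kp Pp As al hr hKp hP hn hD
    (by
      rw [hq]
      have h15 : Δ ^ 15 ≤ (1 / 65536 : ℝ) ^ 15 := pow_le_pow_left₀ hΔ0.le hΔs 15
      have h15' : Δ ^ 15 * 2 ^ 40 ≤ 1 := by
        calc Δ ^ 15 * 2 ^ 40 ≤ (1 / 65536 : ℝ) ^ 15 * 2 ^ 40 := by gcongr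
          _ ≤ 1 := by norm_num
      calc Δ ^ 16 * (2 ^ 40 * (8 * Kp * Pp) ^ 4) = ((8 * Kp * Pp) ^ 4 * Δ) * (Δ ^ 15 * 2 ^ 40) := by ring
        _ ≤ 1 * 1 := by
          apply mul_le_mul hsm h15' (by positivity) (by norm_num)
        _ = 1 := by norm_num) S hS hne hdiam
    (by
      intro A hA
      rw [hq, hsq]
      refine (hsec0 A hA).trans ?_
      have h8 : 0 < Δ ^ 8 := by positivity
      have h12 : Δ ^ 12 ≤ 1 := pow_le_one₀ hΔ0.le hΔ1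
      calc Δ ^ 20 = Δ ^ 12 * Δ ^ 8 := by ring
        _ ≤ 1 * Δ ^ 8 := by gcongr
        _ ≤ 8 * Kp * Δ ^ 8 := by
          apply mul_le_mul_of_nonneg_right _ h8.le
          linarith)
  have ch : c.h = Δ ^ 16 := by
    unfold SecPt.h SecPt.l
    rw [cH, ck, cr, hq]
  refine ⟨c, a, ck, cT, cr, ⟨cOk, hΛ, cbt, by rw [ch, hΔ], ha1, ha2, ha3, by rw [← hΔ]; exact hsm⟩, ?_⟩
  intro x hx
  exact ⟨cPat.small _ hx, cPat.sec _ hx⟩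

/-- **LEAF L-256-RC-PB-RES: one square of velocities.**   `S` empty: both sides vanish (`0^(3/2) = 0`).   Otherwise `c, a` from `rc_pb_mk` (`T0 = 0`), `V = {ω | (X.row ω).A ∈ S}` (measurable: `X.meas`, `hS`), `X' = X.res V`, `Y' = Y.res V`.
`X'.RegL η κ c.l`: `Measure.restrict_le_self`/`Measure.restrict_apply_le`.   `Y'.Ok c.k n Kp c.r` = `hY` field by field.   `rc_pb_patch` for `X', Y'` with `Λ = 8 Kp Pp`, then `hnum` (`Kp ≤ Λ`).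
`∫_{PbIn} th l d(μ|V) = ∫_V th l dμ` (`Measure.restrict_restrict`, `V ⊆ {PbIn}`: `Set.inter_eq_self_of_subset_right`);   `(μ|V) {PbIn} ≤ μ V`. -/
theorem rc_pb_res (η Cg CK ν C : ℝ) (hsum : PbSumC η Cg CK) (hC : 0 ≤ C)
    (hnum : ∀ (κ : ℝ) (c : SecPt) (Λ Kp : ℝ) (n a : ℕ), 0 ≤ κ → PbSc c Λ n a → 1 ≤ Kp → Kp ≤ Λ →
      Real.sqrt ((17 * Λ ^ 2 * Kp ^ 2) ^ 4 * ((1 / 2 : ℝ) ^ n / c.pbW Λ)) * (6 * Λ ^ 2) * (13 * 2 ^ a * Real.sqrt (CK * (n + 1) * pbKap η Cg κ Λ c))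
        ≤ C * Λ ^ (12 + Cg / 2) * 2 ^ ((4 * η + ν) * n) * 2 ^ (-((n : ℝ) / 2)) * Real.sqrt (κ * c.r ^ 4))
    (X : RcNu) (κ Kp Pp r d0 be : ℝ) (As al : ℝ × ℝ) (k0 n : ℕ) (Y : PbLab X) (hκ : 0 ≤ κ) (hreg : X.RegL η κ (rdLen k0)) (hKp : 1 ≤ Kp) (hP : 2 ≤ Pp) (hr : 0 < r)
    (hn : rtSq al + be ^ 2 = 1) (hD : Pp ^ (-2 : ℝ) ≤ rtSq al - 4 * be * d0) (hsm : (8 * Kp * Pp) ^ 4 * (1 / 2 : ℝ) ^ n ≤ 1) (hY : Y.Ok k0 n Kp r)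
    (S : Set (ℝ × ℝ)) (hS : MeasurableSet S) (hsub : S ⊆ pbGood r Kp d0 be As al n) (hdiam : ∀ A ∈ S, ∀ A' ∈ S, rtSq (r⁻¹ • (A - A')) ≤ 2 * (1 / (32 * (1 + Pp))) ^ 2) :
    ∑ l, (∫ ω in {ω | (X.row ω).A ∈ S}, Y.th l ω ∂X.mu) ^ (3 / 2 : ℝ)
      ≤ C * (8 * Kp * Pp) ^ (12 + Cg / 2) * 2 ^ ((4 * η + ν) * n) * 2 ^ (-((n : ℝ) / 2)) * Real.sqrt (κ * r ^ 4) * (X.mu {ω | (X.row ω).A ∈ S}).toReal := by
  rcases S.eq_empty_or_nonempty with rfl | hne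
  · have h0 : (0 : ℝ) ^ (3 / 2 : ℝ) = 0 := Real.zero_rpow (by norm_num)
    simp [h0]
  obtain ⟨c, a, hk, -, hcr, hsc, hin⟩ := rc_pb_mk k0 n 0 r d0 be Kp Pp As al hr hKp hP hn hD hsm S hS hne hsub hdiam
  subst hk
  subst hcr
  have hV : MeasurableSet {ω | (X.row ω).A ∈ S} := (measurable_fst.comp X.meas) hS
  obtain ⟨V, hVdef⟩ : ∃ V : Set X.Om, V = {ω | (X.row ω).A ∈ S} := ⟨_, rfl⟩
  rw [← hVdef] at hV ⊢
  have hVG : V ⊆ {ω | c.PbIn (8 * Kp * Pp) (X.row ω)} := by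
    intro ω hω
    rw [hVdef] at hω
    exact hin _ hω
  have hreg' : (X.res V).RegL η κ c.l := by
    intro τ hτ hl
    refine le_trans ?_ (hreg τ hτ hl)
    exact ENNReal.toReal_mono (measure_ne_top _ _) (Measure.restrict_apply_le _ _)
  have hY' : (Y.res V).Ok c.k n Kp c.r := ⟨hY.J_lt, hY.r_pos, hY.r_le, hY.meas, hY.nn, hY.supp, hY.sum⟩
  have hpatch := rc_pb_patch η Cg CK hsum (X.res V) κ c (8 * Kp * Pp) Kp n a hκ hsc hreg' hKp (Y.res V) hY'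
  have hΛ : Kp ≤ 8 * Kp * Pp := by nlinarith
  have hnum' := hnum κ c (8 * Kp * Pp) Kp n a hκ hsc hKp hΛ
  have e1 : ((X.res V).mu).restrict {ω | c.PbIn (8 * Kp * Pp) ((X.res V).row ω)} = X.mu.restrict V := by
    change (X.mu.restrict V).restrict {ω | c.PbIn (8 * Kp * Pp) (X.row ω)} = X.mu.restrict V
    rw [Measure.restrict_restrict' hV, Set.inter_eq_self_of_subset_right hVG]
  have e2 : ((X.res V).mu {ω | c.PbIn (8 * Kp * Pp) ((X.res V).row ω)}).toReal ≤ (X.mu V).toReal := by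
    change ((X.mu.restrict V) {ω | c.PbIn (8 * Kp * Pp) (X.row ω)}).toReal ≤ (X.mu V).toReal
    refine ENNReal.toReal_mono (measure_ne_top _ _) ?_
    calc (X.mu.restrict V) {ω | c.PbIn (8 * Kp * Pp) (X.row ω)} ≤ (X.mu.restrict V) Set.univ := measure_mono (Set.subset_univ _)
      _ = X.mu V := Measure.restrict_apply_univ _
  rw [e1] at hpatch
  have hpos : 0 ≤ C * (8 * Kp * Pp) ^ (12 + Cg / 2) * 2 ^ ((4 * η + ν) * n) * 2 ^ (-((n : ℝ) / 2)) * Real.sqrt (κ * c.r ^ 4) := by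
    have : 0 ≤ 8 * Kp * Pp := by positivity
    positivity
  refine le_trans hpatch ?_
  calc Real.sqrt ((17 * (8 * Kp * Pp) ^ 2 * Kp ^ 2) ^ 4 * ((1 / 2 : ℝ) ^ n / c.pbW (8 * Kp * Pp))) * (6 * (8 * Kp * Pp) ^ 2) *
        (13 * 2 ^ a * Real.sqrt (CK * (n + 1) * pbKap η Cg κ (8 * Kp * Pp) c) * ((X.res V).mu {ω | c.PbIn (8 * Kp * Pp) ((X.res V).row ω)}).toReal)
      = (Real.sqrt ((17 * (8 * Kp * Pp) ^ 2 * Kp ^ 2) ^ 4 * ((1 / 2 : ℝ) ^ n / c.pbW (8 * Kp * Pp))) * (6 * (8 * Kp * Pp) ^ 2) *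
        (13 * 2 ^ a * Real.sqrt (CK * (n + 1) * pbKap η Cg κ (8 * Kp * Pp) c))) * ((X.res V).mu {ω | c.PbIn (8 * Kp * Pp) ((X.res V).row ω)}).toReal := by ring
    _ ≤ (C * (8 * Kp * Pp) ^ (12 + Cg / 2) * 2 ^ ((4 * η + ν) * n) * 2 ^ (-((n : ℝ) / 2)) * Real.sqrt (κ * c.r ^ 4)) * ((X.res V).mu {ω | c.PbIn (8 * Kp * Pp) ((X.res V).row ω)}).toReal :=
        mul_le_mul_of_nonneg_right hnum' ENNReal.toReal_nonneg
    _ ≤ _ := mul_le_mul_of_nonneg_left e2 hpos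

theorem rc_pb_abs_good_meas (r Kp d0 be : ℝ) (As al : ℝ × ℝ) (n : ℕ) : MeasurableSet (pbGood r Kp d0 be As al n) := by
  unfold pbGood
  have h1 : Measurable fun A : ℝ × ℝ => r⁻¹ • (A - As) := by fun_prop
  have h2 : Measurable fun A : ℝ × ℝ => rtSq (r⁻¹ • (A - As)) := by
    unfold rtSq
    fun_prop
  have h3 : Measurable fun A : ℝ × ℝ => rtIp al (r⁻¹ • (A - As)) := by
    unfold rtIp
    fun_prop
  apply MeasurableSet.inter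
  · exact measurableSet_le h2 measurable_const
  · exact measurableSet_le (((measurable_const.add h3).add (h2.const_mul be)).abs) measurable_const

theorem rc_pb_abs_th_le {X : RcNu} (Y : PbLab X) (k0 n : ℕ) (Kp r : ℝ) (hY : Y.Ok k0 n Kp r) (l : Fin Y.L) (ω : X.Om) : Y.th l ω ≤ 1 := by
  refine le_trans ?_ (hY.sum (Y.J l) ω)
  have := Finset.single_le_sum (f := fun l' => if Y.J l' = Y.J l then Y.th l' ω else 0) (s := Finset.univ)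
    (fun i _ => by
      show 0 ≤ (if Y.J i = Y.J l then Y.th i ω else 0)
      split_ifs
      · exact hY.nn i ω
      · exact le_rfl) (Finset.mem_univ l)
  simpa using this

theorem rc_pb_abs_int {X : RcNu} (Y : PbLab X) (k0 n : ℕ) (Kp r : ℝ) (hY : Y.Ok k0 n Kp r) (l : Fin Y.L) : Integrable (Y.th l) X.mu := by
  refine Integrable.of_bound (hY.meas l).aestronglyMeasurable 1 (Filter.Eventually.of_forall fun ω => ?_)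
  rw [Real.norm_eq_abs, abs_of_nonneg (hY.nn l ω)]
  exact rc_pb_abs_th_le Y k0 n Kp r hY l ω

theorem rc_pb_abs_card (Kp Pp : ℝ) (hKp : 1 ≤ Kp) (hP : 2 ≤ Pp) : (2 * Kp / (1 / (32 * (1 + Pp))) + 3) ^ 2 ≤ (100 * Kp * Pp) ^ 2 := by
  have e : 2 * Kp / (1 / (32 * (1 + Pp))) = 64 * Kp * (1 + Pp) := by
    field_simp
    ring
  rw [e]
  have h1 : 0 ≤ 64 * Kp * (1 + Pp) + 3 := by positivity
  apply pow_le_pow_left₀ h1
  nlinarith [mul_le_mul hKp hP (by norm_num) (by linarith)]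


/-- **LEAF L-256-RC-PB-ABS (glue): all squares.**   `Cg` from `rc_pb_slice`, `CK` from `rc_pb_kin`, `rc_pb_sum`;   `C0 = 13 + Cg/2`;   given `ν`: `C₁` from `rc_pb_num`, `C = 100 · 8^(12 + Cg/2) · C₁`.
`S0 = pbGood ..` is measurable (continuous functions; `measurableSet_le`).   `re_sc_squares r hr As Kp (1/(32(1+Pp))) .. S0` (`|Z_i| ≤ Kp` from `rtSq Z ≤ Kp²`): squares `S i`, `i ∈ Ysq`, disjoint, union `S0`, `card ≤ (64 Kp (1+Pp) + 3)² ≤ (100 Kp Pp)²`.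
`∫ th l dμ = ∑_{i ∈ Ysq} ∫_{A ∈ S i} th l dμ`  (`μ {A ∉ S0} = 0`: `setIntegral_eq_integral_of_ae..`/`integral_finset_biUnion`; `0 ≤ th l ≤ 1` integrable);   `rc_pb_pow (1)` with `N = (100 Kp Pp)²`;   exchange the sums;   `rc_pb_res` for every `i`;
`∑_i μ {A ∈ S i} ≤ μ univ` (disjoint: `measure_biUnion_finset`).   `(8 Kp Pp)^s = 8^s Kp^s Pp^s` (`Real.mul_rpow`), `Kp · Kp^s = Kp^(s+1)`. -/
theorem rc_pb_abs (η : ℝ) (h0 : 0 < η) (h1 : η < 1) : PbAbs η := by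
  classical
  obtain ⟨Cg, hCg, hS⟩ := rc_pb_slice η h0 h1
  obtain ⟨CK, hCK, hK⟩ := rc_pb_kin η Cg h0 h1 hCg hS
  have hsum := rc_pb_sum η Cg CK hCK hK
  refine ⟨13 + Cg / 2, by positivity, fun ν hν => ?_⟩
  obtain ⟨C1, hC1, hnum⟩ := rc_pb_num η Cg CK ν h0 h1 hCg hCK hν
  refine ⟨100 * 8 ^ (12 + Cg / 2) * C1, by positivity, ?_⟩
  intro X κ Kp Pp r d0 be As al k0 n Y hκ hreg hKp hP hr hn hD hsm hsupp hY
  have hS0 := rc_pb_abs_good_meas r Kp d0 be As al n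
  have hKp0 : 0 < Kp := by linarith
  have hPp0 : 0 < Pp := by linarith
  have hb : ∀ A ∈ pbGood r Kp d0 be As al n, |(r⁻¹ • (A - As)).1| ≤ Kp ∧ |(r⁻¹ • (A - As)).2| ≤ Kp := by
    intro A hA
    have h2 := hA.1
    unfold rtSq at h2
    constructor
    · exact abs_le_of_sq_le_sq (by nlinarith [sq_nonneg (r⁻¹ • (A - As)).2]) hKp0.le
    · exact abs_le_of_sq_le_sq (by nlinarith [sq_nonneg (r⁻¹ • (A - As)).1]) hKp0.le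
  obtain ⟨Ysq, S, hcard, hSm, hdisj, hun, hdiam⟩ := re_sc_squares r hr As Kp (1 / (32 * (1 + Pp))) hKp0.le (by positivity) _ hS0 hb
  have hcard' : (Ysq.card : ℝ) ≤ (100 * Kp * Pp) ^ 2 := hcard.trans (rc_pb_abs_card Kp Pp hKp hP)
  have hAm : Measurable fun ω => (X.row ω).A := measurable_fst.comp X.meas
  obtain ⟨V, hV⟩ : ∃ V : ℤ × ℤ → Set X.Om, ∀ i, V i = {ω | (X.row ω).A ∈ S i} := ⟨_, fun _ => rfl⟩
  have hVm : ∀ i ∈ Ysq, MeasurableSet (V i) := fun i hi => by rw [hV]; exact hAm (hSm i hi)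
  have hVd : Set.PairwiseDisjoint (↑Ysq) V := by
    intro i hi j hj hij
    rw [Function.onFun, hV, hV]
    exact (hdisj i hi j hj hij).preimage _
  have hVu : (⋃ i ∈ Ysq, V i) = {ω | (X.row ω).A ∈ pbGood r Kp d0 be As al n} := by
    ext ω
    simp only [Set.mem_iUnion, hV, Set.mem_ofPred_eq, exists_prop]
    rw [← hun]
    simp only [Set.mem_iUnion, exists_prop]
  have hae : ∀ᵐ ω ∂X.mu, ω ∈ ⋃ i ∈ Ysq, V i := by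
    rw [hVu, ae_iff]
    exact hsupp
  obtain ⟨K, hKd⟩ : ∃ K : ℝ, K = C1 * (8 * Kp * Pp) ^ (12 + Cg / 2) * 2 ^ ((4 * η + ν) * n) * 2 ^ (-((n : ℝ) / 2)) * Real.sqrt (κ * r ^ 4) := ⟨_, rfl⟩
  have hK0 : 0 ≤ K := by rw [hKd]; positivity
  have hres : ∀ i ∈ Ysq, ∑ l, (∫ ω in V i, Y.th l ω ∂X.mu) ^ (3 / 2 : ℝ) ≤ K * (X.mu (V i)).toReal := by
    intro i hi
    rw [hV, hKd]
    refine rc_pb_res η Cg CK ν C1 hsum hC1 hnum X κ Kp Pp r d0 be As al k0 n Y hκ hreg hKp hP hr hn hD hsm hY (S i) (hSm i hi) ?_ (hdiam i hi)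
    rw [← hun]
    exact Set.subset_biUnion_of_mem (u := S) hi
  have hsplit : ∀ l, ∫ ω, Y.th l ω ∂X.mu = ∑ i ∈ Ysq, ∫ ω in V i, Y.th l ω ∂X.mu := by
    intro l
    rw [← integral_biUnion_finset Ysq hVm hVd (fun i _ => (rc_pb_abs_int Y k0 n Kp r hY l).integrableOn), Measure.restrict_eq_self_of_ae_mem hae]
  have hpm : ∀ l, (∫ ω, Y.th l ω ∂X.mu) ^ (3 / 2 : ℝ) ≤ (100 * Kp * Pp) * ∑ i ∈ Ysq, (∫ ω in V i, Y.th l ω ∂X.mu) ^ (3 / 2 : ℝ) := by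
    intro l
    rw [hsplit l]
    have := (rc_pb_pow Ysq (fun i => ∫ ω in V i, Y.th l ω ∂X.mu) (fun i _ => integral_nonneg fun ω => hY.nn l ω)).1 _ hcard'
    rwa [Real.sqrt_sq (by positivity)] at this
  have hmass : ∑ i ∈ Ysq, (X.mu (V i)).toReal ≤ (X.mu Set.univ).toReal := by
    rw [← ENNReal.toReal_sum (fun i _ => measure_ne_top _ _), ← measure_biUnion_finset hVd hVm]
    exact ENNReal.toReal_mono (measure_ne_top _ _) (measure_mono (Set.subset_univ _))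
  calc ∑ l, (∫ ω, Y.th l ω ∂X.mu) ^ (3 / 2 : ℝ)
      ≤ ∑ l, (100 * Kp * Pp) * ∑ i ∈ Ysq, (∫ ω in V i, Y.th l ω ∂X.mu) ^ (3 / 2 : ℝ) := Finset.sum_le_sum fun l _ => hpm l
    _ = (100 * Kp * Pp) * ∑ i ∈ Ysq, ∑ l, (∫ ω in V i, Y.th l ω ∂X.mu) ^ (3 / 2 : ℝ) := by
        rw [← Finset.mul_sum, Finset.sum_comm]
    _ ≤ (100 * Kp * Pp) * ∑ i ∈ Ysq, K * (X.mu (V i)).toReal := by
        apply mul_le_mul_of_nonneg_left (Finset.sum_le_sum hres) (by positivity)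
    _ = (100 * Kp * Pp) * K * ∑ i ∈ Ysq, (X.mu (V i)).toReal := by
        rw [← Finset.mul_sum]; ring
    _ ≤ (100 * Kp * Pp) * K * (X.mu Set.univ).toReal := by
        apply mul_le_mul_of_nonneg_left hmass (by positivity)
    _ = 100 * 8 ^ (12 + Cg / 2) * C1 * Kp ^ (13 + Cg / 2) * Pp ^ (13 + Cg / 2) * 2 ^ ((4 * η + ν) * n) * 2 ^ (-((n : ℝ) / 2)) * Real.sqrt (κ * r ^ 4) * (X.mu Set.univ).toReal := by
        rw [hKd, Real.mul_rpow (by positivity) hPp0.le, Real.mul_rpow (by norm_num) hKp0.le]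
        have e1 : Kp ^ (13 + Cg / 2) = Kp * Kp ^ (12 + Cg / 2) := by
          rw [show 13 + Cg / 2 = 1 + (12 + Cg / 2) by ring, Real.rpow_add hKp0, Real.rpow_one]
        have e2 : Pp ^ (13 + Cg / 2) = Pp * Pp ^ (12 + Cg / 2) := by
          rw [show 13 + Cg / 2 = 1 + (12 + Cg / 2) by ring, Real.rpow_add hPp0, Real.rpow_one]
        rw [e1, e2]
        ring


/-! ## 3. The model -/

/-- **LEAF L-256-RC-PB-CRUDE: the crude bound `val ≤ C 2^n`.**   `Cg` from `rt_cov_cl η` (`Λ = 1`), `C = √Cg`.   `T0 = tmL k0 i0`, `T_l = tmL kf (iv l)`, `CutLe T0 k0 T_l kf` = `gn_cutle_anc (Nat.le_add_right _ _) (E.iv l)` rewritten with `hE.iv_in l`.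
`gn_m_le_ms (rt_tight_cl η p)`, `E.fin = E.v` (`hf`), `rt_fc_ms_indep`; the cell of `ts l` is covered by the cells of `Qs i` at `(T0, k0)`: `rc_cover_ms`-style union bound with `hE.reg`:   `m_l ≤ κ Cg 2^-n w_l`.
`gn_tr_le`: `tr l ≤ √(κ Cg 2^-n) m_l`;   `rd = ∑ tr l` (`Xp.tr`), `gn_total`: `∑ m_l ≤ 2^n e`;   `val = 2^(n/2)/(e√κ) rd ≤ √Cg 2^n`. -/
theorem rc_pb_crude (η : ℝ) (h0 : 0 < η) (h1 : η < 1) : ∃ C : ℝ, 0 ≤ C ∧ ∀ (p : RdClPar) (E : Xp (p.sys η)), E.Valid → E.st = [] → E.val ≤ C * 2 ^ E.n := by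
  obtain ⟨Cg, hCg, H⟩ := rt_cov_cl η h0 h1
  refine ⟨Real.sqrt Cg, Real.sqrt_nonneg _, fun p E hE hf => ?_⟩
  have hT := rt_tight_cl η p
  have hκ := hE.ka_pos
  have he := hE.e_pos
  set ρ : ℝ := E.ka * (Cg * 2 ^ (-(E.n : ℝ))) with hρ
  have hρ0 : 0 ≤ ρ := by positivity
  -- every label
  have hm : ∀ l, E.m l ≤ ρ * E.w l := by
    intro l
    have hc : CutLe (tmL E.k0 E.i0) E.k0 (tmL E.kf (E.iv l)) E.kf := by
      have := gn_cutle_anc (k := E.k0) (k' := E.kf) (Nat.le_add_right _ _) (E.iv l)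
      rwa [hE.iv_in l] at this
    obtain ⟨m, Qs, a1, a2, a3⟩ := H p 1 le_rfl _ _ _ _ hc (E.ts l) (hE.ts_ok l)
    have hfin : E.fin (E.iv l) = E.v := by
      unfold Xp.fin
      rw [hf]
      rfl
    have b1 := gn_m_le_ms hT E hE l
    rw [hfin] at b1
    set G : Set (p.sys η).X := (p.sys η).cell (E.ts l) (tmL E.kf (E.iv l)) E.kf with hG
    have hGm : MeasurableSet G := hT.cellM _ _ _
    have b2 : (p.sys η).ms (tmL E.kf (E.iv l)) E.kf E.bT G E.v = (p.sys η).ms (tmL E.k0 E.i0) E.k0 E.b0 G E.v :=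
      rt_fc_ms_indep η p G _ _ _ _ _ _ E.v
    have b3 := gn_regF_cover hT ((gn_regF_an hT _ _ _ _ _).1 hE.reg) Qs a1 hGm
      (fun x hx => Set.mem_iUnion.2 (a2 x hx))
    have e1 := gn_mulR_ind_normsq (P := p.sys η) E.k0 hGm ((p.sys η).An (tmL E.k0 E.i0) E.k0 E.b0 E.v)
    have e2 := gn_ms_eq (P := p.sys η) (tmL E.k0 E.i0) E.k0 E.b0 hGm E.v
    have b4 : (p.sys η).ms (tmL E.k0 E.i0) E.k0 E.b0 G E.v ≤ E.ka * ∑ i, (p.sys η).wt (Qs i) :=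
      (le_of_eq (e2.trans e1.symm)).trans b3
    have e3 : ((E.kf : ℝ) - E.k0) = E.n := by
      unfold Xp.kf
      push_cast
      ring
    have a3' : ∑ i, (p.sys η).wt (Qs i) ≤ Cg * 2 ^ (-(E.n : ℝ)) * E.w l := by
      have : ∑ i, (Qs i).wt η ≤ Cg * 1 ^ Cg * 2 ^ (-(1 * ((E.kf : ℝ) - E.k0))) * (E.ts l).wt η := a3
      rw [Real.one_rpow, mul_one, one_mul, e3] at this
      exact this
    calc E.m l ≤ _ := b1
      _ = _ := b2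
      _ ≤ _ := b4
      _ ≤ E.ka * (Cg * 2 ^ (-(E.n : ℝ)) * E.w l) := mul_le_mul_of_nonneg_left a3' hκ.le
      _ = ρ * E.w l := by rw [hρ]; ring
  have hrd : E.rd ≤ Real.sqrt ρ * (2 ^ E.n * E.e) := by
    rw [gn_rd_eq]
    calc ∑ l, E.tr l ≤ ∑ l, Real.sqrt ρ * E.m l := Finset.sum_le_sum fun l _ => gn_tr_le E hE l (hm l)
      _ = Real.sqrt ρ * E.tm := by rw [← Finset.mul_sum]; rfl
      _ ≤ _ := mul_le_mul_of_nonneg_left (gn_total hT E hE) (Real.sqrt_nonneg _)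
  have hsκ : 0 < Real.sqrt E.ka := Real.sqrt_pos.2 hκ
  have hs : Real.sqrt ρ = Real.sqrt E.ka * (Real.sqrt Cg * 2 ^ (-((E.n : ℝ) / 2))) := by
    rw [hρ, Real.sqrt_mul hκ.le, Real.sqrt_mul hCg.le]
    congr 2
    rw [Real.sqrt_eq_rpow, ← Real.rpow_mul (by norm_num)]
    congr 1
    ring
  unfold Xp.val
  have hpre : 0 ≤ 2 ^ ((E.n : ℝ) / 2) / (E.e * Real.sqrt E.ka) := by positivity
  calc 2 ^ ((E.n : ℝ) / 2) / (E.e * Real.sqrt E.ka) * E.rd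
      ≤ 2 ^ ((E.n : ℝ) / 2) / (E.e * Real.sqrt E.ka) * (Real.sqrt ρ * (2 ^ E.n * E.e)) := mul_le_mul_of_nonneg_left hrd hpre
    _ = Real.sqrt Cg * 2 ^ E.n * ((2 : ℝ) ^ ((E.n : ℝ) / 2) * 2 ^ (-((E.n : ℝ) / 2))) := by
        rw [hs]
        field_simp
    _ = Real.sqrt Cg * 2 ^ E.n := by
        rw [← Real.rpow_add (by norm_num), add_neg_cancel, Real.rpow_zero, mul_one]

/-- the measure of rows of a classical experiment: `|v|² dm`, rows at the root time -/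
noncomputable def pbNu {η : ℝ} {p : RdClPar} (E : Xp (p.sys η)) : RcNu where
  Om := p.Om
  mOm := p.mOm
  mu := (p.sys η).mu (tmL E.k0 E.i0) E.k0 E.b0 E.v
  fin := gn_mu_finite _ _ _ _
  row := fun ω => p.co (tmL E.k0 E.i0) ω
  meas := by
    have hA := p.mA
    have hB := p.mB
    have hY := p.mY
    unfold RdClPar.co RtRow.flow rtSq
    fun_prop

/-- the labels of a classical experiment -/
def pbLb {η : ℝ} {p : RdClPar} (E : Xp (p.sys η)) : PbLab (pbNu E) := ⟨E.L, fun l => E.iv l - E.i0 * 2 ^ E.n, fun l => rcT (E.ts l), E.th⟩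

theorem rc_pb_model_eqns_cite : True := by
  have := @pbNu.eq_1
  have := @pbLb.eq_1
  trivial

theorem rc_pb_model_reg (η : ℝ) (p : RdClPar) (E : Xp (p.sys η)) (hV : E.Valid) : (pbNu E).RegL η E.ka (rdLen E.k0) := by
  intro τ hτ hl
  have e := rt_in_toT E.k0 τ hl
  have h1 := hV.reg (⟨τ.r, τ.f, τ.As, τ.bs, τ.ys, τ.n⟩ : RdTst) (by show (RdTst.toT _ E.k0).Adm 1; rw [e]; exact hτ)
  have h2 := gn_ms_eq_mu (P := p.sys η) (tmL E.k0 E.i0) E.k0 E.b0 ((rt_tight_cl η p).cellM (⟨τ.r, τ.f, τ.As, τ.bs, τ.ys, τ.n⟩ : RdTst) (tmL E.k0 E.i0) E.k0) E.v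
  have e2 : (p.sys η).cell (⟨τ.r, τ.f, τ.As, τ.bs, τ.ys, τ.n⟩ : RdTst) (tmL E.k0 E.i0) E.k0 = {ω | (pbNu E).row ω ∈ τ.set 1} := by
    show {ω | p.co (tmL E.k0 E.i0) ω ∈ (RdTst.toT _ E.k0).set 1} = _
    rw [e]
    rfl
  have h3 : ((p.sys η).mu (tmL E.k0 E.i0) E.k0 E.b0 E.v).real ((p.sys η).cell (⟨τ.r, τ.f, τ.As, τ.bs, τ.ys, τ.n⟩ : RdTst) (tmL E.k0 E.i0) E.k0) ≤ E.ka * τ.w η :=
    h2 ▸ h1
  rw [e2] at h3
  exact h3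

theorem rc_pb_model_iv (η : ℝ) (p : RdClPar) (E : Xp (p.sys η)) (hV : E.Valid) (l : Fin E.L) :
    E.i0 * 2 ^ E.n ≤ E.iv l ∧ E.iv l < E.i0 * 2 ^ E.n + 2 ^ E.n := by
  have h := hV.iv_in l
  unfold ancI Xp.kf at h
  rw [Nat.add_sub_cancel_left] at h
  have hp : 0 < 2 ^ E.n := by positivity
  constructor
  · rw [← h]; exact Nat.div_mul_le_self _ _
  · have := Nat.lt_succ_iff.2 (le_of_eq h)
    rw [Nat.div_lt_iff_lt_mul hp] at this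
    calc E.iv l < (E.i0 + 1) * 2 ^ E.n := this
      _ = _ := by ring

theorem rc_pb_model_time (η : ℝ) (p : RdClPar) (E : Xp (p.sys η)) (hV : E.Valid) (l : Fin E.L) :
    tmL E.kf (E.iv l) = tmL E.k0 E.i0 + ((E.iv l - E.i0 * 2 ^ E.n : ℕ) : ℝ) * (1 / 2 : ℝ) ^ E.n * rdLen E.k0 := by
  have h := (rc_pb_model_iv η p E hV l).1
  rw [Nat.cast_sub h]
  unfold tmL Xp.kf rdLen
  push_cast
  rw [pow_add]
  have h1 : (2 : ℝ) ^ E.k0 ≠ 0 := by positivity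
  have h2 : (2 : ℝ) ^ E.n ≠ 0 := by positivity
  simp only [one_div, inv_pow]
  field_simp
  ring

theorem rc_pb_model_supp (η : ℝ) (p : RdClPar) (E : Xp (p.sys η)) (hV : E.Valid) (l : Fin E.L) (ω : p.Om) (hω : E.th l ω ≠ 0) :
    (p.co (tmL E.k0 E.i0) ω).flow (((E.iv l - E.i0 * 2 ^ E.n : ℕ) : ℝ) * (1 / 2 : ℝ) ^ E.n * rdLen E.k0) ∈ ((rcT (E.ts l)).toT (E.k0 + E.n)).box 1 := by
  have h1 : p.co (tmL E.kf (E.iv l)) ω ∈ ((rcT (E.ts l)).toT E.kf).set 1 := hV.th_supp l ω hω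
  rw [rc_pb_model_time η p E hV l, rt_ta_cl_co] at h1
  exact h1.1

theorem rc_pb_model_sum (η : ℝ) (p : RdClPar) (E : Xp (p.sys η)) (hV : E.Valid) (j : ℕ) (ω : p.Om) :
    ∑ l, (if E.iv l - E.i0 * 2 ^ E.n = j then E.th l ω else 0) ≤ 1 := by
  have h1 := hV.th_sum (E.i0 * 2 ^ E.n + j) ω
  refine le_trans (le_of_eq ?_) h1
  refine Finset.sum_congr rfl fun l _ => ?_
  have := rc_pb_model_iv η p E hV l
  have e : (E.iv l - E.i0 * 2 ^ E.n = j) ↔ (E.iv l = E.i0 * 2 ^ E.n + j) := by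
    omega
  by_cases hj : E.iv l - E.i0 * 2 ^ E.n = j
  · rw [if_pos hj, if_pos (e.1 hj)]
  · rw [if_neg hj, if_neg (fun hh => hj (e.2 hh))]

theorem rc_pb_model_ok (η : ℝ) (p : RdClPar) (E : Xp (p.sys η)) (Kp : ℝ) (φ : RdFrm) (h : RcStep η p E Kp φ) : (pbLb E).Ok E.k0 E.n Kp φ.r := by
  have hV := h.valid
  refine ⟨fun l => ?_, fun l => ?_, fun l => (h.lab l).2.1, fun l => hV.th_meas l, fun l ω => hV.th_nn l ω, fun l ω hω => rc_pb_model_supp η p E hV l ω hω,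
    fun j ω => rc_pb_model_sum η p E hV j ω⟩
  · have := rc_pb_model_iv η p E hV l
    show E.iv l - E.i0 * 2 ^ E.n < 2 ^ E.n
    omega
  · exact (hV.ts_ok l).r_pos

theorem rc_pb_model_wd {Om Fb : Type} [MeasurableSpace Om] [NormedAddCommGroup Fb] (m : Measure Om) (v : Lp Fb 2 m) (θ : Om → ℝ) :
    ∫ x, θ x * ‖(v : Om → Fb) x‖ ^ 2 ∂m = ∫ ω, θ ω ∂(m.withDensity fun x => ENNReal.ofReal (‖(v : Om → Fb) x‖ ^ 2)) := by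
  have hm : AEMeasurable (fun x => ENNReal.ofReal (‖(v : Om → Fb) x‖ ^ 2)) m :=
    ((gn_sq_integrable v).aestronglyMeasurable.aemeasurable).ennreal_ofReal
  rw [integral_withDensity_eq_integral_toReal_smul₀ hm (Filter.Eventually.of_forall fun x => ENNReal.ofReal_lt_top)]
  refine integral_congr_ae (Filter.Eventually.of_forall fun x => ?_)
  simp only [smul_eq_mul]
  rw [ENNReal.toReal_ofReal (by positivity), mul_comm]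

theorem rc_pb_model_m (η : ℝ) (p : RdClPar) (E : Xp (p.sys η)) (hf : E.st = []) (l : Fin E.L) :
    E.m l = ∫ ω, (pbLb E).th l ω ∂(pbNu E).mu := by
  have e1 : E.fin (E.iv l) = E.v := by
    unfold Xp.fin
    rw [hf]
    rfl
  unfold Xp.m
  rw [e1]
  exact rc_pb_model_wd p.m E.v (E.th l)

theorem rc_pb_model_tot (η : ℝ) (p : RdClPar) (E : Xp (p.sys η)) (hV : E.Valid) : ((pbNu E).mu Set.univ).toReal ≤ E.e := by
  have h1 := gn_ms_eq_mu (P := p.sys η) (tmL E.k0 E.i0) E.k0 E.b0 MeasurableSet.univ E.v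
  have h2 := gn_ms_le (rt_tight_cl η p) (tmL E.k0 E.i0) E.k0 E.b0 MeasurableSet.univ E.v
  rw [h1] at h2
  exact h2.trans hV.budget

theorem rc_pb_model_in (η : ℝ) (p : RdClPar) (E : Xp (p.sys η)) (G : Set p.Om) (hG : MeasurableSet G) (h : rcIn E G) : (pbNu E).mu Gᶜ = 0 := by
  have h1 := gn_ms_eq_mu (P := p.sys η) (tmL E.k0 E.i0) E.k0 E.b0 (S := Gᶜ) hG.compl E.v
  have h2 : ((p.sys η).mu (tmL E.k0 E.i0) E.k0 E.b0 E.v).real Gᶜ = 0 := h1.symm.trans h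
  have := gn_mu_finite (P := p.sys η) (tmL E.k0 E.i0) E.k0 E.b0 E.v
  exact (measureReal_eq_zero_iff (measure_ne_top _ _)).1 h2

/-- **LEAF L-256-RC-PB-MODEL: the dictionary.**   `P = p.sys η`, `T0 = tmL k0 i0`, `μ = P.mu T0 k0 b0 v = |v|² dm` (`An = id`).
 (1) `τ.Adm 1`, `τ.l = rdLen k0`: `Q = ⟨τ.r, τ.f, τ.As, τ.bs, τ.ys, τ.n⟩`, `rt_in_toT`: `Q.toT k0 = τ`, so `P.cell Q T0 k0 = {ω | co T0 ω ∈ τ.set 1}`, `P.ok Q k0`; `h.valid.reg Q`, `gn_ms_eq_mu` (cell measurable: `(rt_tight_cl η p).cellM`), `Measure.real`.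
 (2) `iv_in`: `iv l / 2^n = i0` (`ancI`, `kf - k0 = n`), so `J l = iv l - i0 2^n < 2^n` and `tmL kf (iv l) = T0 + J l Δ rdLen k0`;   `th_supp`: `co (T_l) ω ∈ (ts l).rows kf = ((ts l).toT kf).set 1 ⊆ box 1`, `rt_ta_cl_co`;   `th_sum` at `i = i0 2^n + j`;  `r_pos` from `ts_ok` (`Adm.r_pos`);  `r_le` from `h.lab`.
 (3) `E.m l = P.en T_l kf bT (th l) (E.fin (iv l))`, `E.fin = v` (`h.free`, `Xp.run`), `An = id`:  `en = ∫ th l |v|² dm = ∫ th l dμ` (`integral_withDensity_eq_integral_smul`/`gn_en_*` of `Gen/BasB.lean`).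
 (4) `μ univ = ‖v‖²` (`gn_ms_eq_mu` with `univ`, or `gn_mu_univ`-type lemma), `h.valid.budget`.
 (5) `rcIn E G` = `ms T0 k0 b0 Gᶜ v = 0`; `G` measurable; `gn_ms_eq_mu`; `Measure.real` `= 0` and finiteness give `μ Gᶜ = 0`. -/
theorem rc_pb_model (η : ℝ) (p : RdClPar) (E : Xp (p.sys η)) (Kp : ℝ) (φ : RdFrm) (h : RcStep η p E Kp φ) :
    (pbNu E).RegL η E.ka (rdLen E.k0) ∧ (pbLb E).Ok E.k0 E.n Kp φ.r ∧ (∀ l, E.m l = ∫ ω, (pbLb E).th l ω ∂(pbNu E).mu) ∧ ((pbNu E).mu Set.univ).toReal ≤ E.e ∧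
    ∀ G : Set p.Om, MeasurableSet G → rcIn E G → (pbNu E).mu Gᶜ = 0 := by
  exact ⟨rc_pb_model_reg η p E h.valid, rc_pb_model_ok η p E Kp φ h, rc_pb_model_m η p E h.free, rc_pb_model_tot η p E h.valid, rc_pb_model_in η p E⟩

/-- **LEAF L-256-RC-PB-VAL (paper free algebra): from the sum of `3/2` powers to `val`.**   `w_l = r_l⁴ f_l^(1-η) ≥ (r/Kp)⁴ (1/Kp)^(1-η) ≥ r⁴ Kp^-5`, so `1/√w_l ≤ Kp^(5/2)/r² ≤ Kp³/r²`;   `rd ≤ Kp³ r^-2 ∑ m_l^(3/2)`;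
`val = 2^(n/2)/(e√κ) rd ≤ 2^(n/2)/(e√κ) · Kp³ r^-2 · B 2^(-n/2) √(κ r⁴) e = Kp³ B`  (`√(κ r⁴) = √κ r²`, `2^(n/2) 2^(-n/2) = 1`). -/
theorem rc_pb_val (η : ℝ) (h0 : 0 < η) (h1 : η < 1) (p : RdClPar) (E : Xp (p.sys η)) (Kp : ℝ) (φ : RdFrm) (h : RcStep η p E Kp φ) (B : ℝ) (hB : 0 ≤ B)
    (hs : ∑ l, E.m l ^ (3 / 2 : ℝ) ≤ B * 2 ^ (-((E.n : ℝ) / 2)) * Real.sqrt (E.ka * φ.r ^ 4) * E.e) : E.val ≤ Kp ^ 3 * B := by
  have hV := h.valid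
  have hK := h.Kp_ge
  have hK0 : 0 < Kp := by linarith
  have hr := h.r_pos
  have he := hV.e_pos
  have hk := hV.ka_pos
  have hsk : 0 < Real.sqrt E.ka := Real.sqrt_pos.2 hk
  have key : ∀ l, E.m l ^ (3 / 2 : ℝ) / Real.sqrt (E.w l) ≤ Kp ^ 3 / φ.r ^ 2 * E.m l ^ (3 / 2 : ℝ) := by
    intro l
    obtain ⟨hl1, _, hl3⟩ := h.lab l
    have hm : 0 ≤ E.m l ^ (3 / 2 : ℝ) := Real.rpow_nonneg (gn_m_nonneg' E hV l) _
    have hw : E.w l = (rcT (E.ts l)).r ^ 4 * (rcT (E.ts l)).f ^ (1 - η) := rfl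
    have hq0 : 0 < φ.r / Kp := by positivity
    have hi0 : 0 < 1 / Kp := by positivity
    have hi1 : 1 / Kp ≤ 1 := by
      rw [div_le_one hK0]
      exact hK
    have a1 : (φ.r / Kp) ^ 4 ≤ (rcT (E.ts l)).r ^ 4 := pow_le_pow_left₀ hq0.le hl1 4
    have a2 : (1 / Kp) ^ (1 - η) ≤ (rcT (E.ts l)).f ^ (1 - η) := Real.rpow_le_rpow hi0.le hl3 (by linarith)
    have a3 : (1 / Kp) ^ (2 : ℝ) ≤ (1 / Kp) ^ (1 - η) := Real.rpow_le_rpow_of_exponent_ge hi0 hi1 (by linarith)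
    have a4 : (1 / Kp) ^ (2 : ℝ) = (1 / Kp) ^ 2 := by
      rw [← Real.rpow_natCast]
      norm_num
    have a5 : (φ.r ^ 2 / Kp ^ 3) ^ 2 ≤ E.w l := by
      rw [hw]
      calc (φ.r ^ 2 / Kp ^ 3) ^ 2 = (φ.r / Kp) ^ 4 * (1 / Kp) ^ 2 := by
            field_simp
        _ ≤ (rcT (E.ts l)).r ^ 4 * (rcT (E.ts l)).f ^ (1 - η) :=
            mul_le_mul a1 (by rw [← a4]; exact a3.trans a2) (by positivity) (by positivity)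
    have a6 : φ.r ^ 2 / Kp ^ 3 ≤ Real.sqrt (E.w l) := Real.le_sqrt_of_sq_le a5
    have a7 : 0 < φ.r ^ 2 / Kp ^ 3 := by positivity
    calc E.m l ^ (3 / 2 : ℝ) / Real.sqrt (E.w l) ≤ E.m l ^ (3 / 2 : ℝ) / (φ.r ^ 2 / Kp ^ 3) := div_le_div_of_nonneg_left hm a7 a6
      _ = Kp ^ 3 / φ.r ^ 2 * E.m l ^ (3 / 2 : ℝ) := by
          field_simp
  have hrd : E.rd ≤ Kp ^ 3 / φ.r ^ 2 * (B * 2 ^ (-((E.n : ℝ) / 2)) * Real.sqrt (E.ka * φ.r ^ 4) * E.e) := by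
    unfold Xp.rd
    calc ∑ l, E.m l ^ (3 / 2 : ℝ) / Real.sqrt (E.w l) ≤ ∑ l, Kp ^ 3 / φ.r ^ 2 * E.m l ^ (3 / 2 : ℝ) := Finset.sum_le_sum fun l _ => key l
      _ = Kp ^ 3 / φ.r ^ 2 * ∑ l, E.m l ^ (3 / 2 : ℝ) := by rw [Finset.mul_sum]
      _ ≤ _ := mul_le_mul_of_nonneg_left hs (by positivity)
  have hsq : Real.sqrt (E.ka * φ.r ^ 4) = Real.sqrt E.ka * φ.r ^ 2 := by
    rw [Real.sqrt_mul hk.le]
    congr 1
    rw [show φ.r ^ 4 = (φ.r ^ 2) ^ 2 by ring]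
    exact Real.sqrt_sq (by positivity)
  have h2 : (2 : ℝ) ^ ((E.n : ℝ) / 2) * 2 ^ (-((E.n : ℝ) / 2)) = 1 := by
    rw [← gn_two_add]
    simp
  unfold Xp.val
  calc 2 ^ ((E.n : ℝ) / 2) / (E.e * Real.sqrt E.ka) * E.rd
      ≤ 2 ^ ((E.n : ℝ) / 2) / (E.e * Real.sqrt E.ka) * (Kp ^ 3 / φ.r ^ 2 * (B * 2 ^ (-((E.n : ℝ) / 2)) * Real.sqrt (E.ka * φ.r ^ 4) * E.e)) :=
        mul_le_mul_of_nonneg_left hrd (by positivity)
    _ = Kp ^ 3 * B * ((2 : ℝ) ^ ((E.n : ℝ) / 2) * 2 ^ (-((E.n : ℝ) / 2))) := by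
        rw [hsq]
        field_simp
    _ = Kp ^ 3 * B := by rw [h2, mul_one]

/-- **LEAF L-256-RC-PB-EXIT (glue).**   `C0a, Ca(ν)` from `rc_pb_abs`, `Cc` from `rc_pb_crude`.   `C0 = max (C0a + 3) 4`.., `C = max Ca (8⁴ Cc)`..: choose `C0 = C0a + 4`, `C = Ca + 4096 Cc`.
CASE `(8 Kp Pp)⁴ (1/2)^n ≤ 1`: `rc_pb_model`; the good set `G = {ω | p.A ω ∈ pbGood φ.r Kp d0 be φ.As al n}` is measurable (`p.mA`), `(co T0 ω).A = p.A ω`, `E.s = (2)⁻¹^n = (1/2)^n`;  `PbAbs` with `X = pbNu E`, `Y = pbLb E`, `κ = E.ka`, `r = φ.r`;  `μ univ ≤ e`;  `rc_pb_val` with `B = Ca Kp^C0a Pp^C0a 2^((4η+ν)n)`.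
CASE `>`: `2^n < (8 Kp Pp)⁴`, `rc_pb_crude`: `val ≤ Cc 4096 Kp⁴ Pp⁴`; `2^((4η+ν)n) ≥ 1`, `Kp^4 ≤ Kp^C0`, `Pp^4 ≤ Pp^C0` (`Real.rpow_le_rpow_of_exponent_le`, `Real.rpow_natCast`). -/
theorem rc_pb_planeB (η : ℝ) (h0 : 0 < η) (h1 : η < 1) : RcPlaneB η := by
  obtain ⟨C0a, hC0a, habs⟩ := rc_pb_abs η h0 h1
  obtain ⟨Cc, hCc, hcr⟩ := rc_pb_crude η h0 h1
  refine ⟨C0a + 4, fun ν hν => ?_⟩
  obtain ⟨Ca, hCa, hA⟩ := habs ν hν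
  refine ⟨Ca + 4096 * Cc, fun p E Kp Pp φ d0 be al hS hP hn hD hin => ?_⟩
  have hV := hS.valid
  have hK := hS.Kp_ge
  have hK0 : 0 < Kp := by linarith
  have hP0 : 0 < Pp := by linarith
  have hP1 : 1 ≤ Pp := by linarith
  have hn0 : (0 : ℝ) ≤ E.n := Nat.cast_nonneg _
  have h2n : (1 : ℝ) ≤ 2 ^ ((4 * η + ν) * E.n) := Real.one_le_rpow (by norm_num) (by positivity)
  have hKa : Kp ^ C0a * Kp ^ 3 ≤ Kp ^ (C0a + 4) := by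
    rw [← Real.rpow_natCast Kp 3, ← Real.rpow_add hK0]
    exact Real.rpow_le_rpow_of_exponent_le hK (by push_cast; linarith)
  have hPa : Pp ^ C0a ≤ Pp ^ (C0a + 4) := Real.rpow_le_rpow_of_exponent_le hP1 (by linarith)
  have hK4 : Kp ^ 4 ≤ Kp ^ (C0a + 4) := by
    rw [← Real.rpow_natCast Kp 4]
    exact Real.rpow_le_rpow_of_exponent_le hK (by push_cast; linarith)
  have hP4 : Pp ^ 4 ≤ Pp ^ (C0a + 4) := by
    rw [← Real.rpow_natCast Pp 4]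
    exact Real.rpow_le_rpow_of_exponent_le hP1 (by push_cast; linarith)
  have hKp : 0 < Kp ^ (C0a + 4) := Real.rpow_pos_of_pos hK0 _
  have hPp : 0 < Pp ^ (C0a + 4) := Real.rpow_pos_of_pos hP0 _
  have hKa0 : 0 < Kp ^ C0a := Real.rpow_pos_of_pos hK0 _
  have hPa0 : 0 < Pp ^ C0a := Real.rpow_pos_of_pos hP0 _
  by_cases hc : (8 * Kp * Pp) ^ 4 * (1 / 2 : ℝ) ^ E.n ≤ 1
  · obtain ⟨m1, m2, m3, m4, m5⟩ := rc_pb_model η p E Kp φ hS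
    have hs : E.s = (1 / 2 : ℝ) ^ E.n := by
      unfold Xp.s
      norm_num
    have hGm : MeasurableSet {ω | p.A ω ∈ pbGood φ.r Kp d0 be φ.As al E.n} := by
      have hA' := p.mA
      have e : {ω | p.A ω ∈ pbGood φ.r Kp d0 be φ.As al E.n} = {ω | rtSq (φ.r⁻¹ • (p.A ω - φ.As)) ≤ Kp ^ 2} ∩
          {ω | |d0 + rtIp al (φ.r⁻¹ • (p.A ω - φ.As)) + be * rtSq (φ.r⁻¹ • (p.A ω - φ.As))| ≤ ((1 / 2 : ℝ) ^ E.n) ^ 20} := rfl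
      rw [e]
      unfold rtSq rtIp
      exact (measurableSet_le (by fun_prop) measurable_const).inter (measurableSet_le (by fun_prop) measurable_const)
    have hin' : rcIn E {ω | p.A ω ∈ pbGood φ.r Kp d0 be φ.As al E.n} := by
      rw [hs] at hin
      exact hin
    have hz := m5 _ hGm hin'
    have hmain := hA (pbNu E) E.ka Kp Pp φ.r d0 be φ.As al E.k0 E.n (pbLb E) hV.ka_pos.le m1 hK hP hS.r_pos hn hD hc hz m2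
    have hsq : 0 ≤ Real.sqrt (E.ka * φ.r ^ 4) := Real.sqrt_nonneg _
    have h2m : (0 : ℝ) < 2 ^ (-((E.n : ℝ) / 2)) := Real.rpow_pos_of_pos (by norm_num) _
    have hsum : ∑ l, E.m l ^ (3 / 2 : ℝ) ≤ (Ca * Kp ^ C0a * Pp ^ C0a * 2 ^ ((4 * η + ν) * E.n)) * 2 ^ (-((E.n : ℝ) / 2)) * Real.sqrt (E.ka * φ.r ^ 4) * E.e := by
      calc ∑ l, E.m l ^ (3 / 2 : ℝ) = ∑ l, (∫ ω, (pbLb E).th l ω ∂(pbNu E).mu) ^ (3 / 2 : ℝ) := Finset.sum_congr rfl fun l _ => by rw [m3 l]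
        _ ≤ _ := hmain
        _ ≤ _ := mul_le_mul_of_nonneg_left m4 (by positivity)
    have hv := rc_pb_val η h0 h1 p E Kp φ hS _ (by positivity) hsum
    refine hv.trans ?_
    calc Kp ^ 3 * (Ca * Kp ^ C0a * Pp ^ C0a * 2 ^ ((4 * η + ν) * E.n)) = Ca * (Kp ^ C0a * Kp ^ 3) * Pp ^ C0a * 2 ^ ((4 * η + ν) * E.n) := by ring
      _ ≤ Ca * Kp ^ (C0a + 4) * Pp ^ (C0a + 4) * 2 ^ ((4 * η + ν) * E.n) := by gcongr
      _ ≤ (Ca + 4096 * Cc) * Kp ^ (C0a + 4) * Pp ^ (C0a + 4) * 2 ^ ((4 * η + ν) * E.n) := by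
          have : Ca ≤ Ca + 4096 * Cc := by linarith
          gcongr
  · have hc' : 1 < (8 * Kp * Pp) ^ 4 * (1 / 2 : ℝ) ^ E.n := not_le.1 hc
    have h2 : (2 : ℝ) ^ E.n ≤ (8 * Kp * Pp) ^ 4 := by
      have e : (1 / 2 : ℝ) ^ E.n * 2 ^ E.n = 1 := by
        rw [← mul_pow]
        norm_num
      have h2p : (0 : ℝ) < 2 ^ E.n := by positivity
      calc (2 : ℝ) ^ E.n = 1 * 2 ^ E.n := (one_mul _).symm
        _ ≤ ((8 * Kp * Pp) ^ 4 * (1 / 2 : ℝ) ^ E.n) * 2 ^ E.n := mul_le_mul_of_nonneg_right hc'.le h2p.le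
        _ = (8 * Kp * Pp) ^ 4 * ((1 / 2 : ℝ) ^ E.n * 2 ^ E.n) := by ring
        _ = _ := by rw [e, mul_one]
    have hv := hcr p E hV hS.free
    calc E.val ≤ Cc * 2 ^ E.n := hv
      _ ≤ Cc * (8 * Kp * Pp) ^ 4 := mul_le_mul_of_nonneg_left h2 hCc
      _ = 4096 * Cc * Kp ^ 4 * Pp ^ 4 * 1 := by ring
      _ ≤ 4096 * Cc * Kp ^ (C0a + 4) * Pp ^ (C0a + 4) * 2 ^ ((4 * η + ν) * E.n) := by gcongr
      _ ≤ (Ca + 4096 * Cc) * Kp ^ (C0a + 4) * Pp ^ (C0a + 4) * 2 ^ ((4 * η + ν) * E.n) := by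
          have : 4096 * Cc ≤ Ca + 4096 * Cc := by linarith
          gcongr

end Claimed.Agent.R256
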