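import Claimed.Agent.R256.Rc.ProfBr

/-!
# Row 256, unit RC, block (II-cl), file 3: THE CLASSICAL ARRAYS `RnArrCl`      (architect helper159; design helper106; prefix `rc_`)
Overview, conventions and list of the leaves: header of `Rc/ProfBr.lean`.
-/

set_option autoImplicit false

namespace Claimed.Agent.R256

open Claimed.Agent.R255
open Claimed.Agent.R255.FLaw (pair)
open scoped BigOperators
open Classical

variable {C : RcDoc} {p d t N c0 es ts ζ τ : ℝ} {K r σ i S : ℕ}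

/-! ## A : the arrays -/

/-- increasing `a` refines the name.   TWIN of `re_dn_a` (first half): `re_typ_le` with `rc_typ_C` at `i`, `i'` and `re_det_a_dn (b := q)` transported by `rc_re_nm`.
OWNER helper159 (leaf L-256-RC-P-A1), EST 40 lines -/
theorem rc_dn_a (h : C.Ok p d t N K es ts) (sm : ReSm C.re t ζ τ) {i i' : ℕ} (hi : 0 < i) (hii : i ≤ i') (hiq : i' ≤ C.q) :
    C.Dn i ≤ C.Dn i' + 3 * ζ := by
  have hq : 1 ≤ C.re.q := by
    show 1 ≤ C.q
    omega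
  have hH := rc_re_H_pos C (rc_ok_R0 h)
  have t1 := rc_typ_Cb h sm hi hii hiq
  have t2 := rc_typ_Cb h sm (hi.trans_le hii) le_rfl hiq
  have := re_aux_cmp sm hq _ _ _ t1 t2 (B := 0) (by norm_num) (by
      rw [add_zero]
      exact re_aux_log_const sm (by norm_num) (by norm_num)) (re_det_a_dn C.re hH 0 hii le_rfl)
  linarith

/-- TWIN of `re_gn_diag`: `(nm i, an 0)` and `nm i` have the same fibres (`re_nm_an`, `rc_re_nm`, `rc_re_an`); `re_typ_congr`, two typical scores of the same observation differ by `≤ 2 ζ` (`re_typ_le` with `N = 1` both ways).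
OWNER helper159 (leaf L-256-RC-P-A1), EST 40 lines -/
theorem rc_gn_diag (h : C.Ok p d t N K es ts) (sm : ReSm C.re t ζ τ) {i : ℕ} (hi : 0 < i) (hiq : i ≤ C.q) :
    |C.Gn i 0 - C.Dn i| ≤ 3 * ζ := by
  have hq : 1 ≤ C.re.q := by
    show 1 ≤ C.q
    omega
  have hu := re_aux_u_pos sm
  have t1 := rc_typ_Cb h sm hi le_rfl hiq
  have t2 := rc_typ_Gb h sm hi le_rfl hiq (Nat.zero_le _)
  have hlog : Real.log 1 ≤ (t + 0) * C.re.u := by
    rw [Real.log_one, add_zero]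
    exact (mul_pos sm.t_pos hu).le
  have a1 := re_aux_cmp sm hq _ _ _ t1 t2 (B := 0) le_rfl hlog (re_det_of_eq Prod.fst fun ω => rfl)
  have a2 := re_aux_cmp sm hq _ _ _ t2 t1 (B := 0) le_rfl hlog
    (re_det_of_eq (fun x : ReName => (x, x.2.1)) fun ω => rfl)
  rw [abs_le]
  constructor <;> linarith

/-- several steps -/
theorem rc_gn_steps (h : C.Ok p d t N K es ts) (sm : ReSm C.re t ζ τ) {i w w' : ℕ} (hi : 0 < i) (hiq : i ≤ C.q) (hw : w ≤ w')
    (hw' : w' ≤ C.q) : C.Gn i w' - C.Gn i w ≤ 2 * ((w' : ℝ) - w) + 3 * ζ := by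
  have hq : 1 ≤ C.re.q := by
    show 1 ≤ C.q
    omega
  have hH := rc_re_H_pos C (rc_ok_R0 h)
  have hu' := re_aux_u_pos sm
  have t1 := rc_typ_Gb h sm hi le_rfl hiq (hw.trans hw')
  have t2 := rc_typ_Gb h sm hi le_rfl hiq hw'
  have hfst : ∀ w0, ReDet (pair (C.re.nm i i 0) (C.re.an i w0)) (C.re.nm i i 0) 1 := fun w0 => re_det_of_eq Prod.fst fun ω => rfl
  have d1 : ReDet (pair (C.re.nm i i 0) (C.re.an i w)) (pair (C.re.nm i i 0) (C.re.an i w')) (1 * (2 : ℝ) ^ (2 * C.re.m * (w' - w))) :=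
    re_det_pair zero_le_one (hfst w) (re_det_right _ (re_det_an_up C.re hH i hw))
  rw [one_mul] at d1
  have := re_aux_cmp sm hq _ _ _ t2 t1 (B := 2 * ((w' : ℝ) - w)) (one_le_pow₀ (by norm_num)) (by
    rw [re_aux_log_pow, add_mul, Nat.cast_sub hw]
    have := (mul_pos sm.t_pos hu').le
    push_cast
    linarith) d1
  linarith

/-- TWIN of `re_gn_step` (upper half): `re_det_an_up`.
OWNER helper159 (leaf L-256-RC-P-A1), EST 60 lines -/
theorem rc_gn_step (h : C.Ok p d t N K es ts) (sm : ReSm C.re t ζ τ) {i w : ℕ} (hi : 0 < i) (hiq : i ≤ C.q) (hw : w < C.q) :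
    C.Gn i (w + 1) - C.Gn i w ≤ 2 + 3 * ζ := by
  have := rc_gn_steps h sm hi hiq (Nat.le_succ w) hw
  push_cast at this
  linarith

theorem rc_a2_tl_add (C : RcDoc) (s t : ℝ) : C.tl (s + t) = C.tl s * C.tl t := re_tl_add C.re s t

theorem rc_a2_tl_pos (C : RcDoc) (t : ℝ) : 0 < C.tl t := re_tl_pos C.re t

theorem rc_a2_tl_zero (C : RcDoc) : C.tl 0 = 1 := re_tl_zero C.re

theorem rc_a2_tl_rpow (C : RcDoc) (t x : ℝ) : C.tl t ^ x = C.tl (t * x) := re_tl_rpow C.re t x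

theorem rc_a2_tl_mono (C : RcDoc) {s t : ℝ} (h : s ≤ t) : C.tl s ≤ C.tl t := re_tl_mono C.re h

theorem rc_a2_tl_le (sm : ReSm C.re t ζ τ) {a b : ℝ} (h : C.tl a ≤ C.tl b) : a ≤ b := re_a3_tl_le sm h

theorem rc_a2_c_pos (h : C.Pre p d t N c0 K es ts) : 0 < C.ka * C.R0 ^ 4 := mul_pos h.ka_pos (pow_pos h.R0_pos 4)

theorem rc_a2_tl_sh (h : C.Pre p d t N c0 K es ts) (sm : ReSm C.re t ζ τ) : C.tl C.sh = C.e / (C.ka * C.R0 ^ 4) := by
  have hu := re_aux_u_pos sm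
  have hm : (C.m : ℝ) ≠ 0 := by
    intro h0
    have e : C.re.u = (C.m : ℝ) * Real.log 2 := rfl
    rw [e, h0, zero_mul] at hu
    exact lt_irrefl _ hu
  unfold RcDoc.tl RcDoc.sh
  rw [div_mul_cancel₀ _ hm]
  exact Real.rpow_logb (by norm_num) (by norm_num) (div_pos h.e_pos (rc_a2_c_pos h))

theorem rc_a2_Eb (h : C.Pre p d t N c0 K es ts) (sm : ReSm C.re t ζ τ) (i : ℕ) :
    C.Eb d i = (C.ka * C.R0 ^ 4) * C.tl (C.sh + d * i) := by
  have hc := rc_a2_c_pos h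
  have e1 : C.e = C.tl C.sh * (C.ka * C.R0 ^ 4) := by
    rw [rc_a2_tl_sh h sm]
    exact (div_mul_cancel₀ _ hc.ne').symm
  have e2 : (2 : ℝ) ^ (d * i * C.m) = C.tl (d * i) := rfl
  unfold RcDoc.Eb
  rw [e2, rc_a2_tl_add]
  nth_rewrite 1 [e1]
  ring

theorem rc_a2_KR (C : RcDoc) (p : ℝ) (i : ℕ) : C.Kb p i * C.R0 ^ 4 = (C.ka * C.R0 ^ 4) * C.tl (-(p * i)) := by
  have e2 : (2 : ℝ) ^ (-(p * i * C.m)) = C.tl (-(p * i)) := by
    unfold RcDoc.tl
    congr 1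
    ring
  unfold RcDoc.Kb
  rw [e2]
  ring

theorem rc_a2_ratio (h : C.Pre p d t N c0 K es ts) (sm : ReSm C.re t ζ τ) (i : ℕ) :
    C.Kb p i * C.R0 ^ 4 / C.Eb d i = C.tl (-(p * i) - (C.sh + d * i)) := by
  have hc := rc_a2_c_pos h
  rw [rc_a2_KR, rc_a2_Eb h sm, sub_eq_add_neg, rc_a2_tl_add C (-(p * i))]
  have e : C.tl (C.sh + d * i) * C.tl (-(C.sh + d * i)) = 1 := by rw [← rc_a2_tl_add, add_neg_cancel, rc_a2_tl_zero]
  have hp := rc_a2_tl_pos C (C.sh + d * i)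
  rw [div_eq_iff (mul_pos hc hp).ne']
  calc C.ka * C.R0 ^ 4 * C.tl (-(p * i)) = C.ka * C.R0 ^ 4 * C.tl (-(p * i)) * (C.tl (C.sh + d * i) * C.tl (-(C.sh + d * i))) := by
        rw [e, mul_one]
    _ = _ := by ring

theorem rc_a2_V (C : RcDoc) (h0 : ∀ a, 0 ≤ C.am a) {α : Type} (X : C.At → α) :
    ∃ V : Finset α, (V.card : ℝ) = C.nval X ∧ C.tot ≤ C.mass (fun a => X a ∈ V) := by
  refine ⟨(Finset.univ.filter fun a : C.At => 0 < C.am a).image X, rfl, ?_⟩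
  unfold RcDoc.tot RcDoc.mass
  refine Finset.sum_le_sum fun a _ => ?_
  by_cases ha : 0 < C.am a
  · rw [if_pos (Finset.mem_image.2 ⟨a, Finset.mem_filter.2 ⟨Finset.mem_univ _, ha⟩, rfl⟩)]
  · have : C.am a = 0 := le_antisymm (not_lt.1 ha) (h0 a)
    rw [this]
    split_ifs <;> exact le_rfl

/-- **(excess), classical, lower half**   `D(a,0) ≥ (p+d) a`.
PLAN: `V` = the charged values of `nm i`: `mass {nm i ∈ V} = tot`, `card V = nval ≤ tl (Dn i + t)` (`flatC`).   `excF`:  `1 ≤ tl t (card V · Kb p i R0⁴ / Eb d i)^(2/3) + tl (-N)`, `tl (-N) ≤ 1/2`, so `card V ≥ tl (-3t) Eb d i / (Kb p i R0⁴) = tl (-3t + (p+d) i + sh)`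
(`Real.rpow_logb`; as in `re_dn_exc`).   Compare exponents (`Real.rpow_le_rpow_left_iff`), `20 t ≤ ζ`.
OWNER helper159 (leaf L-256-RC-P-A2), EST 150 lines -/
theorem rc_dn_low (h : C.Ok p d t N K es ts) (sm : ReSm C.re t ζ τ) (hN : 1 ≤ N) {i : ℕ} (hi : 0 < i) (hiq : i < C.q) :
    (p + d) * i ≤ C.Dn i - C.sh + ζ := by
  obtain ⟨c0, pre⟩ := h.pre
  have htot := rc_ok_tot_pos h
  obtain ⟨V, hVc, hVm⟩ := rc_a2_V C pre.ms_nn (C.nm i)
  have h2 := hVm.trans (pre.excF i hi hiq V)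
  have h3 : (1 : ℝ) ≤ C.tl t * ((V.card : ℝ)
      * (C.Kb p i * C.R0 ^ 4) / C.Eb d i) ^ (2 / 3 : ℝ) + C.tl (-N) := by
    refine le_of_mul_le_mul_right ?_ htot
    rwa [one_mul]
  have hcard : (V.card : ℝ) ≤ C.tl (C.Dn i + t) := hVc ▸ (h.flatC i hi hiq.le).1
  have hbig : (2 : ℝ) ^ 60 ≤ C.tl t := sm.big
  have ht := sm.t_pos
  have htz := sm.tz
  have hzt := sm.zt
  have ht1 := sm.t1
  have hN2 : C.tl (-N) ≤ 1 / 2 := by
    have a1 : C.tl (-N) ≤ C.tl (-t) := rc_a2_tl_mono C (by linarith)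
    have a2 : C.tl t * C.tl (-t) = 1 := by rw [← rc_a2_tl_add, add_neg_cancel, rc_a2_tl_zero]
    have a3 := rc_a2_tl_pos C (-t)
    nlinarith
  have hX : (V.card : ℝ) * (C.Kb p i * C.R0 ^ 4) / C.Eb d i
      ≤ C.tl (C.Dn i + t + (-(p * i) - (C.sh + d * i))) := by
    rw [mul_div_assoc, rc_a2_ratio pre sm, rc_a2_tl_add]
    exact mul_le_mul_of_nonneg_right hcard (rc_a2_tl_pos C _).le
  have hX0 : 0 ≤ (V.card : ℝ) * (C.Kb p i * C.R0 ^ 4) / C.Eb d i := by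
    rw [mul_div_assoc, rc_a2_ratio pre sm]
    exact mul_nonneg (Nat.cast_nonneg _) (rc_a2_tl_pos C _).le
  have hX2 := Real.rpow_le_rpow hX0 hX (by norm_num : (0 : ℝ) ≤ 2 / 3)
  rw [rc_a2_tl_rpow] at hX2
  have h4 : (1 : ℝ) / 2 ≤ C.tl t * C.tl ((C.Dn i + t + (-(p * i) - (C.sh + d * i))) * (2 / 3)) := by
    have := mul_le_mul_of_nonneg_left hX2 (rc_a2_tl_pos C t).le
    linarith
  have h5 : C.tl 0 ≤ C.tl (t + (t + (C.Dn i + t + (-(p * i) - (C.sh + d * i))) * (2 / 3))) := by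
    rw [rc_a2_tl_zero, rc_a2_tl_add C t]
    rw [← rc_a2_tl_add] at h4
    have a3 := rc_a2_tl_pos C (t + (C.Dn i + t + (-(p * i) - (C.sh + d * i))) * (2 / 3))
    nlinarith
  have h6 := rc_a2_tl_le sm h5
  linarith

/-- **(excess), classical, upper half at `a = 1`**   `D(1,0) ≤ p + d`.
PLAN: `flatC q`: every value has mass `≤ tl (-(Dn q - t)) tot`, so `nval (nm q) ≥ tl (Dn q - t)`;   `cntF`: `nval ≤ tl (t + (p+d) q + sh)`.
OWNER helper159 (leaf L-256-RC-P-A2), EST 100 lines -/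
theorem rc_dn_top (h : C.Ok p d t N K es ts) (sm : ReSm C.re t ζ τ) (hq : 0 < C.q) : C.Dn C.q - C.sh ≤ (p + d) * C.q + ζ := by
  obtain ⟨c0, pre⟩ := h.pre
  have htot := rc_ok_tot_pos h
  have hc := rc_a2_c_pos pre
  have h1 : C.tot ≤ C.nval (C.nm C.q) * (C.tl (-(C.Dn C.q - t)) * C.tot) :=
    re_a3_tot_le C.re 0 pre.ms_nn (C.nm C.q) (h.flatC C.q hq le_rfl).2
  have h2 : (1 : ℝ) ≤ C.nval (C.nm C.q) * C.tl (-(C.Dn C.q - t)) := by
    rw [← mul_assoc] at h1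
    exact le_of_mul_le_mul_right (by rwa [one_mul]) htot
  have h3 := pre.cntF
  have e : C.Eb d C.q / (C.Kb p C.q * C.R0 ^ 4) = C.tl (C.sh + d * C.q + p * C.q) := by
    rw [rc_a2_KR, rc_a2_Eb pre sm, rc_a2_tl_add C (C.sh + d * C.q)]
    have e1 : C.tl (p * C.q) * C.tl (-(p * C.q)) = 1 := by rw [← rc_a2_tl_add, add_neg_cancel, rc_a2_tl_zero]
    have hp := rc_a2_tl_pos C (-(p * C.q))
    rw [div_eq_iff (mul_pos hc hp).ne']
    calc C.ka * C.R0 ^ 4 * C.tl (C.sh + d * C.q) = C.ka * C.R0 ^ 4 * C.tl (C.sh + d * C.q) * (C.tl (p * C.q) * C.tl (-(p * C.q))) := by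
          rw [e1, mul_one]
      _ = _ := by ring
  rw [e, ← rc_a2_tl_add] at h3
  have h4 : C.tl 0 ≤ C.tl (t + (C.sh + d * C.q + p * C.q) + -(C.Dn C.q - t)) := by
    rw [rc_a2_tl_zero, rc_a2_tl_add]
    exact h2.trans (mul_le_mul_of_nonneg_right h3 (rc_a2_tl_pos C _).le)
  have h5 := rc_a2_tl_le sm h4
  have := sm.tz
  have := sm.t_pos
  linarith

/-- `J` is nonincreasing in `a`.   TWIN of `re_gn_mono` (`u = 0`, law `h.P`, `b = q`): `H(A_w | nm i') ≤ H(A_w | nm i) + log 64` (`re_entC_det`, `re_det_a_dn`), `re_typ_entC_ge`, `re_typ_entC_le` (branching `re_det_an_up`).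
OWNER helper159 (leaf L-256-RC-P-A3), EST 120 lines -/
theorem rc_gn_mono (h : C.Ok p d t N K es ts) (sm : ReSm C.re t ζ τ) {i i' w : ℕ} (hi : 0 < i) (hii : i ≤ i') (hiq : i' ≤ C.q) (hw : w ≤ C.q) :
    C.Jp i' w ≤ C.Jp i w + τ := by
  have hi' : 0 < i' := hi.trans_le hii
  have hq : 1 ≤ C.re.q := by
    show 1 ≤ C.q
    omega
  have hu0 := re_aux_u_pos sm
  have hτ := re_aux_tau_pos sm
  have hH := rc_re_H_pos C (rc_ok_R0 h)
  obtain ⟨P, hP⟩ : ∃ P, P = h.P := ⟨_, rfl⟩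
  have g1 := re_aux_typ2 C.re ζ (re_aux_typ_swap (rc_typ_Gb h sm hi' le_rfl hiq hw))
  have c1 := re_aux_typ2 C.re ζ (rc_typ_Cb h sm hi' le_rfl hiq)
  have g0 := re_aux_typ2 C.re ζ (re_aux_typ_swap (rc_typ_Gb h sm hi hii hiq hw))
  have c0 := re_aux_typ2 C.re ζ (rc_typ_Cb h sm hi hii hiq)
  rw [← hP] at g1 c1 g0 c0
  have hwq : (w : ℝ) ≤ C.re.q := by
    exact_mod_cast hw
  have hq1 : (1 : ℝ) ≤ C.re.q := by exact_mod_cast hq
  have hstep := rc_gn_steps h sm hi' hiq (Nat.zero_le w) hw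
  have hdiag := (abs_le.1 (rc_gn_diag h sm hi' hiq)).2
  have hζ1 : ζ ≤ 1 / 100 := by
    have := sm.zt
    have := sm.t1
    linarith
  have lo := re_aux_ent_ge sm hq P (C.re.an i' w) (C.re.nm i' i' 0) g1 c1 hτ.2.le hτ.2.le (by
    push_cast at hstep
    linarith)
  have mid := re_entC_det P (C.re.an i' w) (C.re.nm i' i 0) (C.re.nm i' i' 0) (re_det_a_dn C.re hH 0 hii le_rfl)
  have hdet : ReDet (C.re.nm i' i 0) (C.re.an i' w) (1 * (2 : ℝ) ^ (2 * C.re.m * (w - 0))) :=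
    re_det_trans zero_le_one (by positivity) (re_det_of_eq (fun x : ReName => x.2.1) fun ω => rfl)
      (re_det_an_up C.re hH i' (Nat.zero_le w))
  rw [one_mul] at hdet
  have hi2 := re_aux_ent_le sm hq P (C.re.an i' w) (C.re.nm i' i 0) g0 c0
    (B := 2 * ((w : ℝ) - 0)) (one_le_pow₀ (by norm_num)) (by
      rw [re_aux_log_pow, add_mul, Nat.cast_sub (Nat.zero_le w)]
      have := (mul_pos sm.t_pos hu0).le
      push_cast
      linarith) (by linarith) hdet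
  have hlog := re_aux_log_const sm (c := 2 ^ 6) (by norm_num) (by norm_num)
  have hfin : (C.Gn i' w - C.Dn i') * C.re.u ≤ (C.Gn i w - C.Dn i + τ) * C.re.u := by
    have e1 : (4 * ζ + t + τ / 10) * C.re.u ≤ τ * C.re.u := by
      refine mul_le_mul_of_nonneg_right ?_ hu0.le
      have := sm.zt
      have := sm.tz
      linarith
    nlinarith
  unfold RcDoc.Jp
  exact le_of_mul_le_mul_right hfin hu0

/-- the total mass is at most (number of charged values) × (bound of one value) -/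
theorem rc_a4_tot_le (C : RcDoc) (h0 : ∀ a, 0 ≤ C.am a) {α : Type} (X : C.At → α) (B : ℝ) (hB : ∀ v, C.mass (fun a => X a = v) ≤ B) :
    C.tot ≤ C.nval X * B := by
  unfold RcDoc.tot RcDoc.nval
  set F := Finset.univ.filter (fun a : C.At => 0 < C.am a) with hF
  have h1 : ∑ a, C.am a = ∑ a ∈ F, C.am a := by
    rw [hF, Finset.sum_filter]
    apply Finset.sum_congr rfl
    intro a _
    split_ifs with h
    · rfl
    · exact le_antisymm (not_lt.1 h) (h0 a)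
  have h2 : ∑ a ∈ F, C.am a = ∑ v ∈ F.image X, ∑ a ∈ F with X a = v, C.am a :=
    (Finset.sum_fiberwise_of_maps_to (fun a ha => Finset.mem_image_of_mem X ha) _).symm
  rw [h1, h2]
  have h3 : ∀ v ∈ F.image X, ∑ a ∈ F with X a = v, C.am a ≤ B := by
    intro v _
    refine le_trans ?_ (hB v)
    unfold RcDoc.mass
    rw [← Finset.sum_filter]
    apply Finset.sum_le_sum_of_subset_of_nonneg
    · intro a ha
      rw [Finset.mem_filter] at ha ⊢
      exact ⟨Finset.mem_univ _, ha.2⟩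
    · intro a _ _
      exact h0 a
  refine (Finset.sum_le_sum h3).trans ?_
  rw [Finset.sum_const, nsmul_eq_mul]

theorem rc_a4_num (M e ka R4 sh t dq G pqw w3 : ℝ) (hM : 0 < M) (hk : 0 < ka * R4) (he : e = ka * R4 * 2 ^ (sh * M))
    (h : 2 ^ (-t * M) * (e * 2 ^ (dq * M)) ≤ 2 ^ ((G + t) * M) * (2 ^ (t * M) * (ka * 2 ^ (-(pqw * M)) * R4) * 2 ^ (-w3 * M))) :
    -t + dq + sh ≤ G + 2 * t - pqw - w3 := by
  have h1 : (2 : ℝ) ^ (-t * M) * (e * 2 ^ (dq * M)) = ka * R4 * 2 ^ ((-t + dq + sh) * M) := by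
    rw [he, show (-t + dq + sh) * M = -t * M + sh * M + dq * M by ring, Real.rpow_add (by norm_num), Real.rpow_add (by norm_num)]
    ring
  have h2 : (2 : ℝ) ^ ((G + t) * M) * (2 ^ (t * M) * (ka * 2 ^ (-(pqw * M)) * R4) * 2 ^ (-w3 * M)) = ka * R4 * 2 ^ ((G + 2 * t - pqw - w3) * M) := by
    rw [show (G + 2 * t - pqw - w3) * M = (G + t) * M + t * M + -(pqw * M) + -w3 * M by ring, Real.rpow_add (by norm_num), Real.rpow_add (by norm_num), Real.rpow_add (by norm_num)]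
    ring
  rw [h1, h2] at h
  have h3 := le_of_mul_le_mul_left h hk
  rw [Real.rpow_le_rpow_left_iff (by norm_num)] at h3
  exact le_of_mul_le_mul_right h3 hM

/-- **lem:rt-memory** at the terminal name.
PLAN.   All exponents in mesh steps.   (1) `flatG q w`: `nval (nm q, an w) ≤ tl (Gn q w + t)`.   (2) `memF`: every value of `(nm q, an w)` has mass `≤ tl (t - p (q - w) - 3 w) κ R0⁴`.   So
`tot ≤ tl (Gn q w + 2t - p (q-w) - 3w) κ R0⁴`.   (3) `totLo`: `tot ≥ tl (-t + d q) e`.   Hence `Gn q w ≥ d q + p (q - w) + 3 w + sh - 3t`.   (4) `rc_dn_top`: `Dn q ≤ (p+d) q + sh + ζ`.   Subtract: `Jp q w ≥ (3 - p) w - 3t - ζ`.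
OWNER helper159 (leaf L-256-RC-P-A4), EST 250 lines -/
theorem rc_gn_mem (h : C.Ok p d t N K es ts) (sm : ReSm C.re t ζ τ) {w : ℕ} (hw : 0 < w) (hwq : w < C.q) :
    (3 - p) * w ≤ C.Jp C.q w + 2 * ζ := by
  obtain ⟨c0, hp⟩ := h.pre
  have hq : 0 < C.q := by omega
  have hm : (0 : ℝ) < C.m := by
    have hb := sm.big
    rw [rc_re_tl] at hb
    unfold RcDoc.tl at hb
    by_contra hcon
    have h0 : (C.m : ℝ) = 0 := le_antisymm (not_lt.1 hcon) (Nat.cast_nonneg _)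
    rw [h0, mul_zero, Real.rpow_zero] at hb
    norm_num at hb
  have hfl := (h.flatG C.q w hq le_rfl hwq.le).1
  have hB : ∀ v : ReName × (ℤ × ℤ), C.mass (fun a => (C.nm C.q a, C.an w a) = v) ≤ C.tl t * (C.Kb p (C.q - w) * C.R0 ^ 4) * C.tl (-(3 * (w : ℝ))) := by
    intro v
    have h1 := hp.memF w hw hwq v.1 v.2
    have h2 : (fun a => (C.nm C.q a, C.an w a) = v) = fun a => C.nm C.q a = v.1 ∧ C.an w a = v.2 := by
      funext a
      exact propext Prod.ext_iff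
    rw [h2]
    exact h1
  have h1 := rc_a4_tot_le C hp.ms_nn _ _ hB
  have h2 := hp.totLo
  have h3 := rc_dn_top h sm hq
  have hk : 0 < C.ka * C.R0 ^ 4 := mul_pos hp.ka_pos (pow_pos hp.R0_pos 4)
  have hB0 : 0 ≤ C.tl t * (C.Kb p (C.q - w) * C.R0 ^ 4) * C.tl (-(3 * (w : ℝ))) := by
    unfold RcDoc.tl RcDoc.Kb
    have := hp.ka_pos
    have := hp.R0_pos
    positivity
  have h4 := (h2.trans h1).trans (mul_le_mul_of_nonneg_right hfl hB0)
  have he : C.e = C.ka * C.R0 ^ 4 * 2 ^ (C.sh * C.m) := by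
    unfold RcDoc.sh
    rw [div_mul_cancel₀ _ hm.ne', Real.rpow_logb (by norm_num) (by norm_num) (div_pos hp.e_pos hk)]
    rw [mul_div_cancel₀ _ hk.ne']
  unfold RcDoc.tl RcDoc.Eb RcDoc.Kb at h4
  have h5 := rc_a4_num C.m C.e C.ka (C.R0 ^ 4) C.sh t (d * C.q) (C.Gn C.q w) (p * ((C.q - w : ℕ) : ℝ)) (3 * w) hm hk he h4
  rw [Nat.cast_sub hwq.le] at h5
  have h6 := sm.tz
  have h7 := sm.t_pos
  unfold RcDoc.Jp
  nlinarith

/-- **the classical arrays** (glue) -/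
theorem rc_arr (h : C.Ok p d t N K es ts) (sm : ReSm C.re t ζ τ) (hN : 1 ≤ N) (hq : 2 ≤ C.q) (hpd : 0 ≤ p + d) :
    RnArrCl C.q (p + d) (3 - p) (2 * τ) C.Dp C.Jp := by
  have hζ : 0 < ζ := lt_of_lt_of_le (by have := sm.t_pos; positivity) sm.tz
  have hζτ : 100 * ζ ≤ τ := sm.zt
  have hlow : ∀ i, 0 < i → i < C.q → -ζ ≤ C.Dp i := by
    intro i hi hiq
    have h1 := rc_dn_low h sm hN hi hiq
    have h2 : 0 ≤ (p + d) * i := mul_nonneg hpd (Nat.cast_nonneg _)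
    unfold RcDoc.Dp
    linarith
  refine ⟨?_, ?_, ?_, ?_, ?_, ?_, ?_⟩
  · intro i i' hi hii hiq
    have := rc_dn_a h sm hi hii hiq
    unfold RcDoc.Dp
    linarith
  · intro i hi hiq
    rcases lt_or_eq_of_le hiq with hlt | heq
    · have := hlow i hi hlt
      linarith
    · subst heq
      have h1 := hlow (C.q - 1) (by omega) (by omega)
      have h2 := rc_dn_a h sm (i := C.q - 1) (i' := C.q) (by omega) (by omega) le_rfl
      unfold RcDoc.Dp at h1 ⊢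
      linarith
  · have := rc_dn_top h sm (by omega)
    unfold RcDoc.Dp
    linarith
  · intro i hi hiq
    have := rc_gn_diag h sm hi hiq
    unfold RcDoc.Jp
    exact this.trans (by linarith)
  · intro i w hi hiq hw
    have := rc_gn_step h sm hi hiq hw
    unfold RcDoc.Jp
    linarith
  · intro i i' w hi hii hiq hw
    have := rc_gn_mono h sm hi hii hiq hw
    linarith
  · intro i w hi hiq hw
    rcases Nat.eq_zero_or_pos w with h0 | h0
    · subst h0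
      have := rc_gn_diag h sm hi hiq
      have h2 := (abs_le.1 this).1
      unfold RcDoc.Jp
      simp only [Nat.cast_zero, mul_zero]
      linarith
    · have h1 := rc_gn_mem h sm h0 hw
      have h2 := rc_gn_mono h sm hi hiq le_rfl hw.le
      linarith

end Claimed.Agent.R256
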