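-- KEEP
import Claimed.Agent.R256.Re.Prof
import Claimed.Agent.R256.Rnd.ClDefs

/-!
# Row 256, unit RC = CLASSICAL half of thm:round (sec. 8), file 1: THE FINITE CLASSICAL DOCUMENT `RcDoc`      (chief helper106; prefix `rc`)      DEFINITIONS ONLY

`RcDoc` is the OPERATOR-FREE interface between the classical packet model `rndCl η` (block (I), `Rc/Tow*.lean`) and the entropy layer (block (II), `Rc/Prof*.lean`).
    PRODUCER  (I)   `¬ Rate (rndCl η) (100 η)`  ⟹  `RcSrc`  (documents with arbitrarily small tolerance and arbitrarily many bits per mesh step)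
    CONSUMER  (II)  `RcSrc`  ⟹  `RnProfCl` (`Rnd/ClDefs.lean`, helper38)  ⟹  `False` (`rn_cl`).

THE CLASSICAL SIMPLIFICATION.   Rays are exact, all masks commute, there is ONE measuring law: the FINAL ASSIGNED law `P¹` on pairs
    `a = (J, π)`,   `J` = final interval (depth `dp q = k0 + q m`),   `π` = PARTICLE ATOM (finitely many; `ray π` = phase point AT TIME `0` of a representative particle).
Every name is an exact function of `(J, π)`:   `C.nm i a = C(i/q, 0)` (the ray of `π` evaluated at the left end point of the ancestor of `J` at the cut `i`, `0 < i ≤ q`),   `C.an w a = A_w`.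
No stability lemma, no correspondence, no kernel errors.   All model information is in SIX ROBUST UPPER BOUNDS for masses of events (`RcDoc.Pre`); they survive every restriction of the law to a
subset of relative mass `≥ 2^-(t m)`, so PREFLATTENING IS DONE AT DOCUMENT LEVEL (`rc_flat`, `Rc/Prof.lean`): `Pre ⟹ Ok`.

CONVENTIONS = those of `Re/Doc.lean`:  `q` mesh steps, `m` bits per mesh step, cut `i` at the depth `dp i = k0 + i m`, `R_w = R0 2^-(w m)`, tolerances in mesh steps: `tl t = 2^(t m)`.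
`R0` = the common angular width of the terminal labels (there is no Planck constant).
`C.re : ReDoc` = THE CONSTANT DOCUMENT: all cuts have the same atoms and the same masses; `iv b`, `pt b` = ancestor and ray at the cut `b`; fake `H = R0² ℓ_q` so that `C.re.R0 = R0`.
Through it ALL of `Re/Prof.lean` (queries), `Re/ProfKit.lean`, `Re/ProfGeo.lean` (deterministic geometry: only `0 < D.H`) applies VERBATIM at `j = 0`   (bridge lemmas: `Rc/Prof.lean`, section BR).
-/

set_option autoImplicit false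

namespace Claimed.Agent.R256

open scoped BigOperators
open Classical

/-- the data of a finite classical round document -/
structure RcDoc where
  q : ℕ
  m : ℕ
  k0 : ℕ
  R0 : ℝ
  e : ℝ
  ka : ℝ
  /-- particle atoms -/
  Pa : Type
  fin : Fintype Pa
  /-- phase point at time `0` of the representative particle -/
  ray : Pa → RtRow
  /-- the final intervals (depth `k0 + q m`) -/
  Iv : Finset ℕ
  /-- the final assigned mass of the atom `π` on the interval `J` -/
  ms : ℕ → Pa → ℝ
  Dn : ℕ → ℝ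
  Gn : ℕ → ℕ → ℝ

attribute [instance] RcDoc.fin

namespace RcDoc

variable (C : RcDoc)

/-- the atoms of the final law -/
abbrev At : Type := {J : ℕ // J ∈ C.Iv} × C.Pa

/-- depth of the cut `i` -/
def dp (i : ℕ) : ℕ := C.k0 + i * C.m

/-- length of the cut `i` -/
noncomputable def len (i : ℕ) : ℝ := rdLen (C.dp i)

/-- the width `R_w` -/
noncomputable def Rw (w : ℕ) : ℝ := C.R0 * rdLen (w * C.m)

/-- the factor `2^(t m)` -/
noncomputable def tl (t : ℝ) : ℝ := (2 : ℝ) ^ (t * C.m)

/-- index of the ancestor interval at the cut `i` -/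
def anc (i : ℕ) (a : C.At) : ℕ := ancI (C.dp C.q) (C.dp i) a.1.1

/-- the phase point at the left end point of the ancestor at the cut `i` -/
noncomputable def pt (i : ℕ) (a : C.At) : RtRow := (C.ray a.2).flow (tmL (C.dp i) (C.anc i a))

/-- the name `C(i/q, 0)` -/
noncomputable def nm (i : ℕ) (a : C.At) : ReName := (C.anc i a, reNm (C.len i) C.R0 (C.pt i a))

/-- the angular name `A_w` -/
noncomputable def an (w : ℕ) (a : C.At) : ℤ × ℤ := reCell2 (C.Rw w) (C.ray a.2).A

/-- `Z = (A - A_0) / R0` -/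
noncomputable def Zv (a : C.At) : ℝ × ℝ := C.R0⁻¹ • ((C.ray a.2).A - reCor2 C.R0 (C.ray a.2).A)

/-- the mass of an atom -/
def am (a : C.At) : ℝ := C.ms a.1.1 a.2

/-- total mass -/
noncomputable def tot : ℝ := ∑ a : C.At, C.am a

/-- mass of a set of atoms -/
noncomputable def mass (S : C.At → Prop) : ℝ := ∑ a : C.At, if S a then C.am a else 0

/-- energy benchmark `E_a = e s^(-d a)` -/
noncomputable def Eb (d : ℝ) (i : ℕ) : ℝ := C.e * (2 : ℝ) ^ (d * i * C.m)

/-- regularity benchmark `κ_a = κ s^(p a)` -/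
noncomputable def Kb (p : ℝ) (i : ℕ) : ℝ := C.ka * (2 : ℝ) ^ (-(p * i * C.m))

/-- number of values of an observation on the charged atoms -/
noncomputable def nval {α : Type} (X : C.At → α) : ℕ := ((Finset.univ.filter fun a : C.At => 0 < C.am a).image X).card

/-- an observation is flat at the exponent `x` (mesh steps), tolerance `t` -/
def Flat {α : Type} (X : C.At → α) (x t : ℝ) : Prop :=
  (C.nval X : ℝ) ≤ C.tl (x + t) ∧ ∀ v : α, C.mass (fun a => X a = v) ≤ C.tl (-(x - t)) * C.tot

/-- the common offset `log_{1/s}(e/κ)` in mesh steps (`κ` in units of `R0`) -/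
noncomputable def sh : ℝ := Real.logb 2 (C.e / (C.ka * C.R0 ^ 4)) / C.m

/-- the atom lies in the slab `|n · (Z, |Z|²) - c| ≤ w` -/
def InSlab (n : ℝ × ℝ × ℝ) (c w : ℝ) (a : C.At) : Prop :=
  |n.1 * (C.Zv a).1 + n.2.1 * (C.Zv a).2 + n.2.2 * rtSq (C.Zv a) - c| ≤ w

/-- **the constant document** -/
noncomputable def re : ReDoc where
  q := C.q
  m := C.m
  k0 := C.k0
  H := C.R0 ^ 2 * rdLen (C.dp C.q)
  e := C.e
  ka := C.ka
  Row := fun _ => C.At
  fin := fun _ => inferInstance
  ms := fun _ a => C.am a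
  iv := fun b a => C.anc b a
  pt := fun b a => C.pt b a
  Lb := fun _ => Empty
  finL := fun _ => inferInstance
  lI := fun _ _ => 0
  lQ := fun _ u => u.elim
  Dn := fun i _ => C.Dn i
  Gn := fun i _ w => C.Gn i w

/-- **the robust bounds of a classical document** (before preflattening).
`p d` extremal exponents, `t` tolerance, `N` order of the negligible terms, `c0` bound of the offset, `K` fine depth of the queries, `es` slab exponent, `ts` gain of the slab estimate (ALL in mesh steps). -/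
structure Pre (p d t N c0 : ℝ) (K : ℕ) (es ts : ℝ) : Prop where
  R0_pos : 0 < C.R0
  e_pos : 0 < C.e
  ka_pos : 0 < C.ka
  ms_nn : ∀ a, 0 ≤ C.am a
  /-- polynomial setup: `e / (κ R0⁴) ≤ 2^(c0 m)` -/
  sh_le : C.sh ≤ c0
  /-- (CE) at the terminal cut, lower half -/
  totLo : C.tl (-t) * C.Eb d C.q ≤ C.tot
  /-- (excess), classical: sparse lists of names of the cut `i` are rare under the final law   (cut regularity + lem:rt-laws) -/
  excF : ∀ i, 0 < i → i < C.q → ∀ V : Finset ReName,
    C.mass (fun a => C.nm i a ∈ V) ≤ (C.tl t * ((V.card : ℝ) * (C.Kb p i * C.R0 ^ 4) / C.Eb d i) ^ (2 / 3 : ℝ) + C.tl (-N)) * C.tot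
  /-- the terminal weight count -/
  cntF : (C.nval (C.nm C.q) : ℝ) ≤ C.tl t * (C.Eb d C.q / (C.Kb p C.q * C.R0 ^ 4))
  /-- lem:rt-memory: terminal name and angular cell `R_w`, regularity of the cut `q - w` -/
  memF : ∀ w, 0 < w → w < C.q → ∀ (x : ReName) (v : ℤ × ℤ),
    C.mass (fun a => C.nm C.q a = x ∧ C.an w a = v) ≤ C.tl t * (C.Kb p (C.q - w) * C.R0 ^ 4) * C.tl (-(3 * (w : ℝ)))
  /-- lem:rt-time: lists of at most `G` intervals of the cut `l`, predicted from the interval of the cut `i` and the particle -/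
  timeF : ∀ i l, 0 < i → i < l → l < C.q → ∀ (G : ℝ) (Lst : ℕ → C.Pa → Finset ℕ), (∀ I π, ((Lst I π).card : ℝ) ≤ G) →
    C.mass (fun a => C.anc l a ∈ Lst (C.anc i a) a.2) ≤ (C.tl t * (G * C.Eb d i / C.Eb d l) ^ (2 / 3 : ℝ) + C.tl (-N)) * C.tot
  /-- lem:rt-slab-removal, classical: one candidate slab for every name pair -/
  slabF : ∀ i S, 0 < i → 0 < S → i + K * S < C.q → ∀ (pn : ReName × ReName → ℝ × ℝ × ℝ) (pc : ReName × ReName → ℝ),
    (∀ x, (pn x).1 ^ 2 + (pn x).2.1 ^ 2 + (pn x).2.2 ^ 2 = 1) →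
    C.mass (fun a => C.InSlab (pn (C.nm i a, C.nm (i + K * S) a)) (pc (C.nm i a, C.nm (i + K * S) a)) (C.tl (-(es * S))) a)
      ≤ C.tl (-ts) * C.tot

/-- **the properties of a preflattened classical document** -/
structure Ok (p d t N : ℝ) (K : ℕ) (es ts : ℝ) : Prop where
  pre : ∃ c0 : ℝ, C.Pre p d t N c0 K es ts
  flatC : ∀ i, 0 < i → i ≤ C.q → C.Flat (C.nm i) (C.Dn i) t
  flatG : ∀ i w, 0 < i → i ≤ C.q → w ≤ C.q → C.Flat (fun a => (C.nm i a, C.an w a)) (C.Gn i w) t

/-- the profile `D(a, 0)` in mesh units -/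
noncomputable def Dp (i : ℕ) : ℝ := C.Dn i - C.sh

/-- the profile `J(a, 0, w)` in mesh units -/
noncomputable def Jp (i w : ℕ) : ℝ := C.Gn i w - C.Dn i

end RcDoc

/-- **classical documents exist** for every mesh `q`, with arbitrarily small tolerance `t`, arbitrary order `N`, arbitrarily many bits per mesh step.
`ts` depends only on `(q, es)`;   `c0` (the package) does not depend on the number of bits. -/
def RcSrc (p d : ℝ) (K : ℕ) : Prop :=
  ∀ (q : ℕ) (es : ℝ), 0 < es → ∃ ts : ℝ, 0 < ts ∧ ∀ (t N : ℝ), 0 < t → ∃ c0 : ℝ, ∀ m0 : ℕ,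
    ∃ C : RcDoc, C.q = q ∧ m0 ≤ C.m ∧ C.Pre p d t N c0 K es ts

theorem rc_doc_eqns_cite : True := by
  have := @RcDoc.At.eq_1
  have := @RcDoc.dp.eq_1
  have := @RcDoc.len.eq_1
  have := @RcDoc.Rw.eq_1
  have := @RcDoc.tl.eq_1
  have := @RcDoc.anc.eq_1
  have := @RcDoc.pt.eq_1
  have := @RcDoc.nm.eq_1
  have := @RcDoc.an.eq_1
  have := @RcDoc.Zv.eq_1
  have := @RcDoc.am.eq_1
  have := @RcDoc.tot.eq_1
  have := @RcDoc.mass.eq_1
  have := @RcDoc.Eb.eq_1
  have := @RcDoc.Kb.eq_1
  have := @RcDoc.nval.eq_1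
  have := @RcDoc.Flat.eq_1
  have := @RcDoc.sh.eq_1
  have := @RcDoc.InSlab.eq_1
  have := @RcDoc.re.eq_1
  have := @RcDoc.Dp.eq_1
  have := @RcDoc.Jp.eq_1
  have := @RcSrc.eq_1
  trivial

end Claimed.Agent.R256
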