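-- KEEP
import Claimed.Agent.R256.Rc.Doc
import Claimed.Agent.R256.Re.ProfMain

/-!
# Row 256, unit RC, block (II-cl): `RcSrc ⟹ RnProfCl`      FINITE LAWS ONLY      (chief helper106; prefix `rc_`)      file 1: BRIDGE, LAW, TYPICAL SCORES   (architect of the block: helper159)

Source: 08-round-entropy.tex l.605-636 (preflattening), l.681-756 (prop:rt-profiles, classical sentences), l.758-788 (lem:rt-memory), l.790-848 (query, lem:rt-time), l.850-885 (lem:rt-slab-removal, classical paragraph), l.1078-1110.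
EVERYTHING IS A TWIN OF `Re/ProfArr.lean`, `Re/ProfQry.lean`, `Re/ProfMain.lean` (helper159; most of those proofs are on main: COPY THEM) with
    `D := C.re`,   `j := 0`,   ONE law `P = C.law` for all cuts,   `re_stab_C / re_stab_G`  replaced by  `rc_typ_C / rc_typ_G`  (flat ⟹ typical; no stability lemma).
Tools (all proved or owned by others): `Re/ProfKit.lean` (bounded lists `ReDet`, typical surprise `reTyp`, `re_typ_le`, `re_typ_pair`, `re_typ_surC`, `re_typ_entC_ge/le`, `re_entC_det`, `re_popular`),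
`Re/ProfGeo.lean` (`re_det_a_dn/up`, `re_det_an_dn/up`, `re_nm_an`, `re_Z_iff`, `re_ZZ_iff`, `re_tc_eq`, `re_q_bd`, `re_q_inc`, `re_det_O`; they need only `0 < D.H` = `rc_re_H_pos`), `R255/Ent/Basic.lean`.

QUERY `(i, S)`, `S = r σ`:   `c.Q = C.re.qry i 0 (i + K S) c.P`:   `C = nm i`, `C' = nm (i + K S)`, `Z = (A - A_0)/R0`, `W` = position at `T_i`, `θ = (T_{i+KS} - T_i)/ℓ_i`;   base `M = 2^(m σ)`.
(The paper takes `θ = (T_1 - T_a)/ℓ_a`; the two differ by `≤ ρ^K` and have THE SAME cells of depth `≤ K r`.)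

LEAVES (all paper free; EST in lines)
  BR    `rc_re_*`                      bridge `C.re` ↔ `C`                                                        150
  LAW   `rc_law_pr`, `rc_law_supp`, `rc_ok_*`                                                                     80
  FA    `rc_flat_abs`                  abstract preflattening of a finite list of observations on a finite weighted set   300
  FL    `rc_nval_le`, `rc_flat`        preflattening of a document                                               350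
  TYP   `rc_typ`, `rc_typ_C`, `rc_typ_G`   flat ⟹ typical                                                       120
  A1    `rc_dn_a`, `rc_gn_diag`, `rc_gn_step`   (twins of `re_dn_a`, `re_gn_diag`, `re_gn_step`)                  200
  A2    `rc_dn_low`, `rc_dn_top`       (excess) classical                                                         250
  A3    `rc_gn_mono`                   (twin of `re_gn_mono`)                                                     200
  A4    `rc_gn_mem`                    lem:rt-memory                                                              300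
  Q1    `rc_q_ang`, `rc_q_angU`        (twins of `re_q_ang`, `re_q_angU`)                                         300
  Q2    `rc_q_stat`                    (twin of `re_q_stat`)                                                      300
  Q3    `rc_q_pt`                      (twin of `re_q_pt`)                                                        250
  T     `rc_q_time`                    lem:rt-time, classical                                                     350
  S     `rc_q_slab`                    Markov on `slabF`                                                          250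
  M     `rc_arr_mono`, `rc_arr_triv`                                                                              80
GLUE (proved here): `rc_arr`, `rc_q_ok`, `rc_prof_doc`, `rc_prof`.
-/

set_option autoImplicit false

namespace Claimed.Agent.R256

open Claimed.Agent.R255
open Claimed.Agent.R255.FLaw (pair)
open scoped BigOperators
open Classical

/-! ## BR : the bridge to the constant document -/

section BR

variable (C : RcDoc)

/-- OWNER helper159 (leaf L-256-RC-P-BR), EST 10 lines -/
theorem rc_re_H_pos (h : 0 < C.R0) : 0 < C.re.H := by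
  show 0 < C.R0 ^ 2 * rdLen (C.dp C.q)
  exact mul_pos (by positivity) (rdLen_pos _)

/-- PLAN: `rdD H k = √(H / rdLen k)`, `H = R0² rdLen (dp q)`, `C.re.dp q = C.dp q` by `rfl`; `Real.sqrt_sq`.
OWNER helper159 (leaf L-256-RC-P-BR), EST 20 lines -/
theorem rc_re_R0 (h : 0 < C.R0) : C.re.R0 = C.R0 := by
  show rdD (C.R0 ^ 2 * rdLen (C.dp C.q)) (C.dp C.q) = C.R0
  unfold rdD
  rw [mul_div_assoc, div_self (rdLen_pos _).ne', mul_one, Real.sqrt_sq h.le]

/-- OWNER helper159 (leaf L-256-RC-P-BR), EST 5 lines -/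
theorem rc_re_Rw (h : 0 < C.R0) (w : ℕ) : C.re.Rw w = C.Rw w := by
  unfold ReDoc.Rw RcDoc.Rw
  rw [rc_re_R0 C h]
  rfl

/-- `rdLen 0 = 1`
OWNER helper159 (leaf L-256-RC-P-BR), EST 5 lines -/
theorem rc_re_Rw0 (h : 0 < C.R0) : C.re.Rw 0 = C.R0 := by
  rw [rc_re_Rw C h]
  unfold RcDoc.Rw rdLen
  simp

theorem rc_re_tl (t : ℝ) : C.re.tl t = C.tl t := rfl

theorem rc_re_len (i : ℕ) : C.re.len i = C.len i := rfl

theorem rc_re_mass (b : ℕ) (S : C.At → Prop) : C.re.mass b S = C.mass S := rfl

theorem rc_re_tot (b : ℕ) : C.re.tot b = C.tot := rfl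

/-- PLAN: `ancI k' k i = i / 2^(k'-k)`; `Nat.div_div_eq_div_mul`, `pow_add`; `dp q - dp i = (dp q - dp b) + (dp b - dp i)`.
OWNER helper159 (leaf L-256-RC-P-BR), EST 30 lines -/
theorem rc_re_anc {i b : ℕ} (hib : i ≤ b) (hbq : b ≤ C.q) (a : C.At) : C.re.anc b i a = C.anc i a := by
  show ancI (C.dp b) (C.dp i) (ancI (C.dp C.q) (C.dp b) a.1.1) = ancI (C.dp C.q) (C.dp i) a.1.1
  unfold ancI
  rw [Nat.div_div_eq_div_mul, ← pow_add]
  congr 2
  have h1 : C.dp i ≤ C.dp b := by
    unfold RcDoc.dp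
    exact Nat.add_le_add_left (Nat.mul_le_mul_right _ hib) _
  have h2 : C.dp b ≤ C.dp C.q := by
    unfold RcDoc.dp
    exact Nat.add_le_add_left (Nat.mul_le_mul_right _ hbq) _
  omega

/-- PLAN: `re_aux_flow_flow`; `T_b + (T_i - T_b) = T_i`; `rc_re_anc`.
OWNER helper159 (leaf L-256-RC-P-BR), EST 30 lines -/
theorem rc_re_back {i b : ℕ} (hib : i ≤ b) (hbq : b ≤ C.q) (a : C.At) : C.re.back b i a = C.pt i a := by
  unfold ReDoc.back
  rw [rc_re_anc C hib hbq]
  show ((C.ray a.2).flow (tmL (C.dp b) (C.anc b a))).flow (tmL (C.dp i) (C.anc i a) - tmL (C.dp b) (C.anc b a)) = _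
  rw [re_aux_flow_flow]
  unfold RcDoc.pt
  congr 1
  ring

/-- OWNER helper159 (leaf L-256-RC-P-BR), EST 10 lines -/
theorem rc_re_nm (h : 0 < C.R0) {i b : ℕ} (hib : i ≤ b) (hbq : b ≤ C.q) (a : C.At) : C.re.nm b i 0 a = C.nm i a := by
  unfold ReDoc.nm RcDoc.nm
  rw [rc_re_anc C hib hbq, rc_re_back C hib hbq, rc_re_Rw0 C h]
  rfl

/-- the flow does not change `A`
OWNER helper159 (leaf L-256-RC-P-BR), EST 10 lines -/
theorem rc_re_an (h : 0 < C.R0) (b w : ℕ) (a : C.At) : C.re.an b w a = C.an w a := by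
  unfold ReDoc.an RcDoc.an
  rw [rc_re_Rw C h]
  rfl

/-- OWNER helper159 (leaf L-256-RC-P-BR), EST 10 lines -/
theorem rc_re_Zv (h : 0 < C.R0) (b : ℕ) (a : C.At) : C.re.Zv b 0 a = C.Zv a := by
  unfold ReDoc.Zv RcDoc.Zv
  rw [rc_re_Rw0 C h]
  rfl

/-- OWNER helper159 (leaf L-256-RC-P-BR), EST 5 lines -/
theorem rc_re_sh (h : 0 < C.R0) : C.re.sh = C.sh := by
  unfold ReDoc.sh RcDoc.sh
  rw [rc_re_R0 C h]
  rfl

end BR

/-! ## LAW -/

/-- the final law -/
noncomputable def RcDoc.law (C : RcDoc) (h0 : ∀ a, 0 ≤ C.am a) (hp : 0 < C.tot) : FLaw C.At where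
  p := fun a => C.am a / C.tot
  nonneg := fun a => div_nonneg (h0 a) hp.le
  sum_one := by
    rw [← Finset.sum_div]
    exact div_self hp.ne'

/-- OWNER helper159 (leaf L-256-RC-P-BR), EST 20 lines -/
theorem rc_law_pr (C : RcDoc) (h0 : ∀ a, 0 ≤ C.am a) (hp : 0 < C.tot) (E : C.At → Prop) : (C.law h0 hp).pr E = C.mass E / C.tot := by
  unfold FLaw.pr RcDoc.mass
  rw [Finset.sum_div]
  refine Finset.sum_congr rfl fun a _ => ?_
  by_cases hE : E a
  · simp [hE, RcDoc.law]
  · simp [hE]

/-- OWNER helper159 (leaf L-256-RC-P-BR), EST 15 lines -/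
theorem rc_law_supp (C : RcDoc) (h0 : ∀ a, 0 ≤ C.am a) (hp : 0 < C.tot) (a : C.At) : (C.law h0 hp).p a ≠ 0 ↔ 0 < C.am a := by
  show C.am a / C.tot ≠ 0 ↔ _
  constructor
  · intro h
    have : C.am a ≠ 0 := fun h' => h (by rw [h', zero_div])
    exact lt_of_le_of_ne (h0 a) (Ne.symm this)
  · intro h
    exact (div_pos h hp).ne'

variable {C : RcDoc} {p d t N c0 es ts ζ τ : ℝ} {K r σ i S : ℕ}

/-- OWNER helper159 (leaf L-256-RC-P-BR), EST 10 lines -/
theorem rc_pre_tot_pos (h : C.Pre p d t N c0 K es ts) : 0 < C.tot := by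
  refine lt_of_lt_of_le ?_ h.totLo
  have h1 : 0 < C.tl (-t) := by
    unfold RcDoc.tl
    positivity
  have h2 : 0 < C.Eb d C.q := by
    unfold RcDoc.Eb
    have := h.e_pos
    positivity
  exact mul_pos h1 h2

theorem rc_ok_nn (h : C.Ok p d t N K es ts) : ∀ a, 0 ≤ C.am a := by
  obtain ⟨c0, h⟩ := h.pre
  exact h.ms_nn

theorem rc_ok_tot_pos (h : C.Ok p d t N K es ts) : 0 < C.tot := by
  obtain ⟨c0, h⟩ := h.pre
  exact rc_pre_tot_pos h

theorem rc_ok_R0 (h : C.Ok p d t N K es ts) : 0 < C.R0 := by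
  obtain ⟨c0, h⟩ := h.pre
  exact h.R0_pos

/-- the law of a preflattened document -/
noncomputable def RcDoc.Ok.P (h : C.Ok p d t N K es ts) : FLaw C.At := C.law (rc_ok_nn h) (rc_ok_tot_pos h)

/-! ## TYP : flat ⟹ typical -/

/-- PLAN: `rc_law_pr`: `fib X a = mass {X = X a} / tot ≤ tl (-(x - t))`: surprise `≥ (x - t) u` always.   `{surprise > (x + ζ) u}` = union of the charged values `v` with `P(X = v) < tl (-(x+ζ))`: probability
`≤ nval tl (-(x+ζ)) ≤ tl (t - ζ) ≤ dl ζ = 3 tl (-ζ/4)` (`20 t ≤ ζ`).   `re_tl_exp`: `tl y = exp (y u)`.   (Or copy `re_aux_stab_eq`.)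
OWNER helper159 (leaf L-256-RC-P-TYP), EST 80 lines -/
theorem rc_typ (h : C.Ok p d t N K es ts) (sm : ReSm C.re t ζ τ) {α : Type} (X : C.At → α) {x : ℝ} (hX : C.Flat X x t) :
    reTyp h.P X (x * C.re.u) (ζ * C.re.u) (C.re.dl ζ) := by
  have htl1 : 1 ≤ C.re.tl t := le_trans (by norm_num) sm.big
  have hL1 : (1 : ℝ) ≤ 2 ^ 40 * C.re.tl t ^ 6 := one_le_mul_of_one_le_of_one_le (by norm_num) (one_le_pow₀ htl1)
  obtain ⟨h1, h2⟩ := hX
  have hc : (((Finset.univ.filter fun ω => h.P.p ω ≠ 0).image X).card : ℝ) ≤ Real.exp (x * C.re.u + t * C.re.u) := by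
    have e : (Finset.univ.filter fun ω => h.P.p ω ≠ 0) = Finset.univ.filter fun a : C.At => 0 < C.am a := by
      refine Finset.filter_congr fun ω _ => ?_
      exact rc_law_supp C _ _ ω
    rw [e, ← add_mul, ← re_tl_exp]
    exact h1
  have hm : ∀ a, h.P.pr (fun ω => X ω = a) ≤ Real.exp (-(x * C.re.u - t * C.re.u)) := by
    intro a
    unfold RcDoc.Ok.P
    rw [rc_law_pr, div_le_iff₀ (rc_ok_tot_pos h)]
    have e : -(x * C.re.u - t * C.re.u) = (-(x - t)) * C.re.u := by ring
    rw [e, ← re_tl_exp]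
    exact h2 a
  have hst := re_stab_abs h.P h.P h.P X X
    (fun ω ω' => ω = ω') (fun a => {a}) (fun a => {a}) (x := x * C.re.u) (t := t * C.re.u) (ζ := ζ * C.re.u)
    (L := 2 ^ 40 * C.re.tl t ^ 6) (Kt := C.re.tl t)
    (ν := C.re.tl (-1)) hL1 htl1 (re_tl_pos C.re _).le
    hc hm (fun a => by simpa using hL1) (fun a => by simpa using hL1)
    (fun ω ω' hc => by simp [hc]) (fun ω ω' hc => by simp [hc])
    (fun T Sg hT => by
      obtain ⟨P, hP⟩ : ∃ P, P = h.P := ⟨_, rfl⟩
      rw [← hP]
      have h1 : P.pr T ≤ P.pr Sg := ent_pr_mono P fun ω _ hω => hT ω ω hω rfl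
      have h2 : P.pr Sg ≤ (P.pr Sg) ^ (2 / 3 : ℝ) := by
        have := Real.rpow_le_rpow_of_exponent_ge' (ent_pr_nonneg P Sg) (ent_pr_le_one P Sg) (by norm_num : (0 : ℝ) ≤ 2 / 3)
          (by norm_num : (2 / 3 : ℝ) ≤ 1)
        rwa [Real.rpow_one] at this
      have h3 : (P.pr Sg) ^ (2 / 3 : ℝ) ≤ C.re.tl t * (P.pr Sg) ^ (2 / 3 : ℝ) :=
        le_mul_of_one_le_left (Real.rpow_nonneg (ent_pr_nonneg P Sg) _) htl1
      have := re_tl_pos C.re (-1)
      linarith)
    (fun ω => le_mul_of_one_le_left (h.P.nonneg ω) htl1)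
  exact re_typ_mono hst le_rfl (re_aux_stab_num sm le_rfl)

theorem rc_typ_C (h : C.Ok p d t N K es ts) (sm : ReSm C.re t ζ τ) {i : ℕ} (hi : 0 < i) (hiq : i ≤ C.q) :
    reTyp h.P (C.nm i) (C.Dn i * C.re.u) (ζ * C.re.u) (C.re.dl ζ) :=
  rc_typ h sm _ (h.flatC i hi hiq)

theorem rc_typ_G (h : C.Ok p d t N K es ts) (sm : ReSm C.re t ζ τ) {i w : ℕ} (hi : 0 < i) (hiq : i ≤ C.q) (hw : w ≤ C.q) :
    reTyp h.P (pair (C.nm i) (C.an w)) (C.Gn i w * C.re.u) (ζ * C.re.u) (C.re.dl ζ) :=
  rc_typ h sm _ (h.flatG i w hi hiq hw)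

/-- typical score of a root name, in the language of the constant document, measured at any cut `b` -/
theorem rc_typ_Cb (h : C.Ok p d t N K es ts) (sm : ReSm C.re t ζ τ) {i b : ℕ} (hi : 0 < i) (hib : i ≤ b) (hbq : b ≤ C.q) :
    reTyp h.P (C.re.nm b i 0) (C.Dn i * C.re.u) (ζ * C.re.u) (C.re.dl ζ) := by
  have e : C.re.nm b i 0 = C.nm i := funext fun a => rc_re_nm C (rc_ok_R0 h) hib hbq a
  rw [e]
  exact rc_typ_C h sm hi (hib.trans hbq)

/-- typical score of a joint name, in the language of the constant document, measured at any cut `b` -/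
theorem rc_typ_Gb (h : C.Ok p d t N K es ts) (sm : ReSm C.re t ζ τ) {i b w : ℕ} (hi : 0 < i) (hib : i ≤ b) (hbq : b ≤ C.q)
    (hw : w ≤ C.q) :
    reTyp h.P (pair (C.re.nm b i 0) (C.re.an b w)) (C.Gn i w * C.re.u) (ζ * C.re.u) (C.re.dl ζ) := by
  have e : C.re.nm b i 0 = C.nm i := funext fun a => rc_re_nm C (rc_ok_R0 h) hib hbq a
  have e2 : C.re.an b w = C.an w := funext fun a => rc_re_an C (rc_ok_R0 h) b w a
  rw [e, e2]
  exact rc_typ_G h sm hi (hib.trans hbq) hw

theorem rc_profbr_eqns_cite : True := by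
  have := @RcDoc.law.eq_1
  have := @RcDoc.Ok.P.eq_1
  trivial

end Claimed.Agent.R256
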