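-- KEEP
import Claimed.Agent.R256.Rc.ProfBr

/-!
# Row 256, unit RC, block (II-cl), file 2: PREFLATTENING AT DOCUMENT LEVEL   `Pre ⟹ Ok`      (architect helper159; design helper106; prefix `rc_`)
Overview, conventions and list of the leaves: header of `Rc/ProfBr.lean`.
-/

set_option autoImplicit false

namespace Claimed.Agent.R256

open Claimed.Agent.R255
open Claimed.Agent.R255.FLaw (pair)
open scoped BigOperators
open Classical

variable {C : RcDoc} {p d t N c0 es ts ζ τ : ℝ} {K r σ i S : ℕ}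

/-! ## FA, FL : preflattening -/

theorem rc_fa_fib {Ω α : Type} [Fintype Ω] (μ : Ω → ℝ) (X : Ω → α) (S : Finset α) :
    ∑ v ∈ S, ∑ ω, (if X ω = v then μ ω else 0) = ∑ ω, (if X ω ∈ S then μ ω else 0) := by
  rw [Finset.sum_comm]
  refine Finset.sum_congr rfl fun ω _ => ?_
  rw [Finset.sum_ite_eq]

theorem rc_fa_fib_le {Ω α : Type} [Fintype Ω] (μ : Ω → ℝ) (hμ : ∀ ω, 0 ≤ μ ω) (X : Ω → α) (S : Finset α) :
    ∑ v ∈ S, ∑ ω, (if X ω = v then μ ω else 0) ≤ ∑ ω, μ ω := by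
  rw [rc_fa_fib]
  refine Finset.sum_le_sum fun ω _ => ?_
  split_ifs
  exacts [le_rfl, hμ ω]

/-- few heavy values -/
theorem rc_fa_count {Ω α : Type} [Fintype Ω] (μ : Ω → ℝ) (hμ : ∀ ω, 0 ≤ μ ω) (X : Ω → α) (S : Finset α) {c : ℝ}
    (hc : ∀ v ∈ S, c ≤ ∑ ω, (if X ω = v then μ ω else 0)) : (S.card : ℝ) * c ≤ ∑ ω, μ ω := by
  calc (S.card : ℝ) * c = ∑ _v ∈ S, c := by rw [Finset.sum_const, nsmul_eq_mul]
    _ ≤ ∑ v ∈ S, ∑ ω, (if X ω = v then μ ω else 0) := Finset.sum_le_sum hc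
    _ ≤ _ := rc_fa_fib_le μ hμ X S

/-- a set all of whose values are light -/
theorem rc_fa_light {Ω α : Type} [Fintype Ω] (μ : Ω → ℝ) (hμ : ∀ ω, 0 ≤ μ ω) (X : Ω → α) (E : Finset Ω) {c : ℝ}
    (hc : ∀ ω ∈ E, ∑ ω', (if X ω' = X ω then μ ω' else 0) ≤ c) : ∑ ω ∈ E, μ ω ≤ ((E.image X).card : ℝ) * c := by
  calc ∑ ω ∈ E, μ ω = ∑ ω, (if ω ∈ E then μ ω else 0) := by
        rw [Finset.sum_ite_mem, Finset.univ_inter]
    _ ≤ ∑ ω, (if X ω ∈ E.image X then μ ω else 0) := by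
        refine Finset.sum_le_sum fun ω _ => ?_
        by_cases h : ω ∈ E
        · rw [if_pos h, if_pos (Finset.mem_image_of_mem X h)]
        · rw [if_neg h]
          split_ifs
          exacts [hμ ω, le_rfl]
    _ = ∑ v ∈ E.image X, ∑ ω, (if X ω = v then μ ω else 0) := (rc_fa_fib μ X _).symm
    _ ≤ ∑ _v ∈ E.image X, c := by
        refine Finset.sum_le_sum fun v hv => ?_
        obtain ⟨ω, hω, rfl⟩ := Finset.mem_image.1 hv
        exact hc ω hω
    _ = _ := by rw [Finset.sum_const, nsmul_eq_mul]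

/-- the logarithmic bins -/
theorem rc_fa_bin {Ω α : Type} [Fintype Ω] (μ : Ω → ℝ) (hμ : ∀ ω, 0 ≤ μ ω) (X : Ω → α) {lam : ℝ} (hlam : 1 < lam) (ω : Ω) :
    ∃ b : ℕ, 0 < μ ω → lam ^ b * (∑ ω', (if X ω' = X ω then μ ω' else 0)) ≤ ∑ ω', μ ω' ∧
      ∑ ω', μ ω' < lam ^ (b + 1) * (∑ ω', (if X ω' = X ω then μ ω' else 0)) := by
  by_cases h : 0 < μ ω
  · have h1 : μ ω ≤ ∑ ω', (if X ω' = X ω then μ ω' else 0) := by
      have := Finset.single_le_sum (f := fun ω' => if X ω' = X ω then μ ω' else 0) (s := Finset.univ)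
        (fun ω' _ => by
          show 0 ≤ if X ω' = X ω then μ ω' else 0
          split_ifs
          exacts [hμ ω', le_rfl]) (Finset.mem_univ ω)
      simpa using this
    have h2 : 0 < ∑ ω', (if X ω' = X ω then μ ω' else 0) := lt_of_lt_of_le h h1
    have h3 : ∑ ω', (if X ω' = X ω then μ ω' else 0) ≤ ∑ ω', μ ω' := by
      refine Finset.sum_le_sum fun ω' _ => ?_
      split_ifs
      exacts [le_rfl, hμ ω']
    obtain ⟨b, hb1, hb2⟩ := exists_nat_pow_near (x := (∑ ω', μ ω') / ∑ ω', (if X ω' = X ω then μ ω' else 0)) (y := lam)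
      ((one_le_div h2).2 h3) hlam
    refine ⟨b, fun _ => ⟨?_, ?_⟩⟩
    · rwa [le_div_iff₀ h2] at hb1
    · rwa [div_lt_iff₀ h2] at hb2
  · exact ⟨0, fun h' => absurd h' h⟩

/-- the mass of the tiny values of one observation -/
theorem rc_fa_tiny {Ω α : Type} [Fintype Ω] (μ : Ω → ℝ) (hμ : ∀ ω, 0 ≤ μ ω) (hT : 0 < ∑ ω, μ ω) (X : Ω → α) (V lam : ℝ)
    (hV : (((Finset.univ.filter fun ω => 0 < μ ω).image X).card : ℝ) ≤ V) (hlam : 1 < lam) (n : ℕ) (β : Ω → ℕ)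
    (hβ : ∀ ω, 0 < μ ω → lam ^ (β ω) * (∑ ω', (if X ω' = X ω then μ ω' else 0)) ≤ ∑ ω', μ ω') :
    ∑ ω, (if 0 < μ ω ∧ n < β ω then μ ω else 0) ≤ V * ((∑ ω, μ ω) / lam ^ n) := by
  have hl0 : 0 < lam := by linarith
  have hc0 : 0 ≤ (∑ ω, μ ω) / lam ^ n := by positivity
  rw [← Finset.sum_filter]
  refine (rc_fa_light μ hμ X _ (c := (∑ ω, μ ω) / lam ^ n) ?_).trans ?_
  · intro ω hω
    obtain ⟨-, h1, h2⟩ := Finset.mem_filter.1 hω
    rw [le_div_iff₀ (by positivity), mul_comm]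
    refine le_trans ?_ (hβ ω h1)
    refine mul_le_mul_of_nonneg_right (pow_le_pow_right₀ hlam.le h2.le) ?_
    refine Finset.sum_nonneg fun ω' _ => ?_
    split_ifs
    exacts [hμ ω', le_rfl]
  · refine mul_le_mul_of_nonneg_right (le_trans (Nat.cast_le.2 (Finset.card_le_card (Finset.image_subset_image ?_))) hV) hc0
    intro ω hω
    obtain ⟨-, h1, -⟩ := Finset.mem_filter.1 hω
    exact Finset.mem_filter.2 ⟨Finset.mem_univ _, h1⟩

/-- the non-tiny part carries half of the mass -/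
theorem rc_fa_good {Ω ι α : Type} [Fintype Ω] [Fintype ι] (μ : Ω → ℝ) (hμ : ∀ ω, 0 ≤ μ ω) (hT : 0 < ∑ ω, μ ω) (X : ι → Ω → α) (V lam : ℝ)
    (hV : ∀ k, (((Finset.univ.filter fun ω => 0 < μ ω).image (X k)).card : ℝ) ≤ V) (hlam : 1 < lam) (n : ℕ)
    (hn : 2 * (Fintype.card ι : ℝ) * V ≤ lam ^ n) (β : ι → Ω → ℕ)
    (hβ : ∀ k ω, 0 < μ ω → lam ^ (β k ω) * (∑ ω', (if X k ω' = X k ω then μ ω' else 0)) ≤ ∑ ω', μ ω') :
    (∑ ω, μ ω) / 2 ≤ ∑ ω, (if 0 < μ ω ∧ ∀ k, β k ω ≤ n then μ ω else 0) := by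
  have hl0 : 0 < lam := by linarith
  have hln : 0 < lam ^ n := by positivity
  have h1 : ∑ ω, μ ω ≤ ∑ ω, (if 0 < μ ω ∧ ∀ k, β k ω ≤ n then μ ω else 0)
      + ∑ ω, ∑ k, (if 0 < μ ω ∧ n < β k ω then μ ω else 0) := by
    rw [← Finset.sum_add_distrib]
    refine Finset.sum_le_sum fun ω _ => ?_
    have hnn : 0 ≤ ∑ k, (if 0 < μ ω ∧ n < β k ω then μ ω else 0) := by
      refine Finset.sum_nonneg fun k _ => ?_
      split_ifs
      exacts [hμ ω, le_rfl]
    by_cases hg : 0 < μ ω ∧ ∀ k, β k ω ≤ n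
    · rw [if_pos hg]
      linarith
    · rw [if_neg hg, zero_add]
      by_cases hp : 0 < μ ω
      · have : ∃ k, n < β k ω := by
          by_contra hc
          push Not at hc
          exact hg ⟨hp, hc⟩
        obtain ⟨k0, hk0⟩ := this
        have := Finset.single_le_sum (f := fun k => if 0 < μ ω ∧ n < β k ω then μ ω else 0) (s := Finset.univ)
          (fun k _ => by
            show 0 ≤ if 0 < μ ω ∧ n < β k ω then μ ω else 0
            split_ifs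
            exacts [hμ ω, le_rfl]) (Finset.mem_univ k0)
        simp only [if_pos (And.intro hp hk0)] at this
        exact this
      · have : μ ω = 0 := le_antisymm (not_lt.1 hp) (hμ ω)
        rw [this]
        exact this ▸ hnn
  have h2 : ∑ ω, ∑ k, (if 0 < μ ω ∧ n < β k ω then μ ω else 0) ≤ (∑ ω, μ ω) / 2 := by
    rw [Finset.sum_comm]
    calc ∑ k, ∑ ω, (if 0 < μ ω ∧ n < β k ω then μ ω else 0) ≤ ∑ _k : ι, V * ((∑ ω, μ ω) / lam ^ n) :=
          Finset.sum_le_sum fun k _ => rc_fa_tiny μ hμ hT (X k) V lam (hV k) hlam n (β k) (hβ k)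
      _ = (Fintype.card ι : ℝ) * V * ((∑ ω, μ ω) / lam ^ n) := by
          rw [Finset.sum_const, nsmul_eq_mul, Finset.card_univ]
          ring
      _ ≤ (lam ^ n / 2) * ((∑ ω, μ ω) / lam ^ n) := mul_le_mul_of_nonneg_right (by linarith) (by positivity)
      _ = _ := by field_simp
  linarith

/-- pigeonhole over the classes -/
theorem rc_fa_pigeon {Ω ι : Type} [Fintype Ω] [Fintype ι] (μ : Ω → ℝ) (hμ : ∀ ω, 0 ≤ μ ω) (n : ℕ) (β : ι → Ω → ℕ) :
    ∃ x : ι → ℕ, (∀ k, x k ≤ n) ∧ (∑ ω, (if 0 < μ ω ∧ ∀ k, β k ω ≤ n then μ ω else 0)) / ((n : ℝ) + 1) ^ Fintype.card ι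
      ≤ ∑ ω, (if 0 < μ ω ∧ ∀ k, β k ω = x k then μ ω else 0) := by
  obtain ⟨P, hP⟩ : ∃ P : Finset (ι → ℕ), P = Fintype.piFinset (fun _ : ι => Finset.range (n + 1)) := ⟨_, rfl⟩
  have hcard : (P.card : ℝ) = ((n : ℝ) + 1) ^ Fintype.card ι := by
    rw [hP, Fintype.card_piFinset, Finset.prod_const, Finset.card_range, Finset.card_univ]
    push_cast
    rfl
  have hne : P.Nonempty := ⟨fun _ => 0, by
    rw [hP, Fintype.mem_piFinset]
    intro k
    exact Finset.mem_range.2 (Nat.succ_pos n)⟩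
  have hpos : (0 : ℝ) < ((n : ℝ) + 1) ^ Fintype.card ι := by positivity
  have h1 : ∑ ω, (if 0 < μ ω ∧ ∀ k, β k ω ≤ n then μ ω else 0) ≤ ∑ x ∈ P, ∑ ω, (if 0 < μ ω ∧ ∀ k, β k ω = x k then μ ω else 0) := by
    rw [Finset.sum_comm]
    refine Finset.sum_le_sum fun ω _ => ?_
    have hnn : ∀ x ∈ P, 0 ≤ (if 0 < μ ω ∧ ∀ k, β k ω = x k then μ ω else 0) := by
      intro x _
      split_ifs
      exacts [hμ ω, le_rfl]
    by_cases hg : 0 < μ ω ∧ ∀ k, β k ω ≤ n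
    · rw [if_pos hg]
      have hmem : (fun k => β k ω) ∈ P := by
        rw [hP, Fintype.mem_piFinset]
        intro k
        exact Finset.mem_range.2 (Nat.lt_succ_of_le (hg.2 k))
      have := Finset.single_le_sum hnn hmem
      exact le_trans (le_of_eq (if_pos (show 0 < μ ω ∧ ∀ k, β k ω = (fun k => β k ω) k from ⟨hg.1, fun _ => rfl⟩)).symm) this
    · rw [if_neg hg]
      exact Finset.sum_nonneg hnn
  have h2 : ∑ _x ∈ P, (∑ ω, (if 0 < μ ω ∧ ∀ k, β k ω ≤ n then μ ω else 0)) / ((n : ℝ) + 1) ^ Fintype.card ι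
      ≤ ∑ x ∈ P, ∑ ω, (if 0 < μ ω ∧ ∀ k, β k ω = x k then μ ω else 0) := by
    rw [Finset.sum_const, nsmul_eq_mul, hcard, mul_div_cancel₀ _ hpos.ne']
    exact h1
  obtain ⟨x, hx, hx2⟩ := Finset.exists_le_of_sum_le hne h2
  refine ⟨x, fun k => ?_, hx2⟩
  rw [hP, Fintype.mem_piFinset] at hx
  exact Nat.lt_succ_iff.1 (Finset.mem_range.1 (hx k))

/-- **abstract preflattening.**   `Ω` finite with weights `μ ≥ 0`, total `T > 0`; finitely many observations `X k`, each with at most `V` charged values; bins of ratio `lam > 1`; `lam^n ≥ 2 |ι| V`.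
Then one common class `B` of the logarithmic bins has `μ(B) ≥ T / (2 (n+1)^|ι|)`; on `B` the observation `X k` has at most `lam^(x k + 1)` charged values, each of `μ`-mass `≤ lam^-(x k) T`.
PLAN.   `f k ω = μ{X k = X k ω}` (`> 0` on charged `ω`, `≤ T`).   bin `β k ω = ⌊log_lam (T / f k ω)⌋₊` (so `lam^-(β+1) T < f ≤ lam^-β T`).   TINY `= {ω | ∃ k, n < β k ω ..}`, i.e. `f k ω < lam^-n T`: its mass is
`≤ Σ_k (number of charged values) lam^-n T ≤ |ι| V lam^-n T ≤ T/2`.   The charged non-tiny `ω` are partitioned by `β : ι → Fin (n+1)`: `(n+1)^|ι|` classes (`Fintype.card_fun`), pigeonhole (`Finset.exists_le_of_sum_le` / `Finset.sum_fiberwise`).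
On the class `B = {β = x}`: values `v` of `X k` on charged points of `B` have `μ{X k = v} > lam^-(x k + 1) T` and these sets are disjoint: at most `lam^(x k + 1)` values;   `μ(B ∩ {X k = v}) ≤ μ{X k = v} ≤ lam^-(x k) T` if `v` is attained on `B`, `= 0` otherwise.
OWNER helper159 (leaf L-256-RC-P-FA), EST 300 lines -/
theorem rc_flat_abs {Ω ι α : Type} [Fintype Ω] [Fintype ι] (μ : Ω → ℝ) (hμ : ∀ ω, 0 ≤ μ ω) (hT : 0 < ∑ ω, μ ω) (X : ι → Ω → α) (V lam : ℝ)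
    (hV : ∀ k, (((Finset.univ.filter fun ω => 0 < μ ω).image (X k)).card : ℝ) ≤ V) (hlam : 1 < lam) (n : ℕ)
    (hn : 2 * (Fintype.card ι : ℝ) * V ≤ lam ^ n) :
    ∃ (B : Ω → Prop) (x : ι → ℕ), (∀ k, x k ≤ n) ∧ (∑ ω, μ ω) / (2 * ((n : ℝ) + 1) ^ Fintype.card ι) ≤ ∑ ω, (if B ω then μ ω else 0) ∧
      ∀ k, (((Finset.univ.filter fun ω => B ω ∧ 0 < μ ω).image (X k)).card : ℝ) ≤ lam ^ (x k + 1) ∧
        ∀ v, ∑ ω, (if B ω ∧ X k ω = v then μ ω else 0) ≤ (lam ^ (x k))⁻¹ * ∑ ω, μ ω := by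
  have hl0 : 0 < lam := by linarith
  choose β hβ using fun k ω => rc_fa_bin μ hμ (X k) hlam ω
  have hgood := rc_fa_good μ hμ hT X V lam hV hlam n hn β (fun k ω h => (hβ k ω h).1)
  obtain ⟨x, hx, hx2⟩ := rc_fa_pigeon μ hμ n β
  have hpos : (0 : ℝ) < ((n : ℝ) + 1) ^ Fintype.card ι := by positivity
  obtain ⟨B, hB⟩ : ∃ B : Ω → Prop, ∀ ω, B ω ↔ (0 < μ ω ∧ ∀ k, β k ω = x k) := ⟨_, fun _ => Iff.rfl⟩
  refine ⟨B, x, hx, ?_, fun k => ⟨?_, fun v => ?_⟩⟩
  · have e : ∑ ω, (if B ω then μ ω else 0) = ∑ ω, (if 0 < μ ω ∧ ∀ k, β k ω = x k then μ ω else 0) :=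
      Finset.sum_congr rfl fun ω _ => if_congr (hB ω) rfl rfl
    rw [e]
    refine le_trans ?_ hx2
    rw [div_mul_eq_div_div]
    exact div_le_div_of_nonneg_right hgood hpos.le
  · have key : ∀ S : Finset α, (∀ v ∈ S, ∃ ω, B ω ∧ X k ω = v) → (S.card : ℝ) ≤ lam ^ (x k + 1) := by
      intro S hS
      have h1 := rc_fa_count μ hμ (X k) S (c := (∑ ω, μ ω) / lam ^ (x k + 1)) (by
        intro v hv
        obtain ⟨ω, hω, rfl⟩ := hS v hv
        obtain ⟨h1, h2⟩ := (hB ω).1 hω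
        rw [div_le_iff₀ (by positivity), mul_comm, ← h2 k]
        exact (hβ k ω h1).2.le)
      rw [mul_div_assoc', div_le_iff₀ (by positivity), mul_comm (∑ ω, μ ω)] at h1
      exact le_of_mul_le_mul_right h1 hT
    refine key _ fun v hv => ?_
    obtain ⟨ω, hω, rfl⟩ := Finset.mem_image.1 hv
    exact ⟨ω, (Finset.mem_filter.1 hω).2.1, rfl⟩
  · by_cases h : ∃ ω₀, B ω₀ ∧ X k ω₀ = v
    · obtain ⟨ω₀, hω₀, rfl⟩ := h
      obtain ⟨h1, h2⟩ := (hB ω₀).1 hω₀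
      have h3 := (hβ k ω₀ h1).1
      rw [h2 k] at h3
      rw [inv_mul_eq_div, le_div_iff₀ (by positivity), mul_comm]
      refine le_trans (mul_le_mul_of_nonneg_left ?_ (by positivity)) h3
      refine Finset.sum_le_sum fun ω _ => ?_
      by_cases hc : X k ω = X k ω₀
      · rw [if_pos hc]
        split_ifs
        exacts [le_rfl, hμ ω]
      · rw [if_neg hc, if_neg (fun h' => hc h'.2)]
    · have : ∑ ω, (if B ω ∧ X k ω = v then μ ω else 0) = 0 := by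
        refine Finset.sum_eq_zero fun ω _ => ?_
        rw [if_neg (fun h' => h ⟨ω, h'⟩)]
      rw [this]
      positivity

/-- a bounded list multiplies the number of values -/
theorem rc_fl1_det {Ω α β : Type} (S : Finset Ω) {A : Ω → α} {B : Ω → β} {M : ℝ} (h : ReDet A B M) :
    ((S.image B).card : ℝ) ≤ M * ((S.image A).card : ℝ) := by
  obtain ⟨L, h1, h2⟩ := h
  have hsub : S.image B ⊆ (S.image A).biUnion L := by
    intro v hv
    obtain ⟨ω, hω, rfl⟩ := Finset.mem_image.1 hv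
    exact Finset.mem_biUnion.2 ⟨A ω, Finset.mem_image_of_mem A hω, h2 ω⟩
  calc ((S.image B).card : ℝ) ≤ (((S.image A).biUnion L).card : ℝ) := Nat.cast_le.2 (Finset.card_le_card hsub)
    _ ≤ ((∑ y ∈ S.image A, (L y).card : ℕ) : ℝ) := by exact_mod_cast Finset.card_biUnion_le
    _ = ∑ y ∈ S.image A, ((L y).card : ℝ) := by push_cast; rfl
    _ ≤ ∑ _y ∈ S.image A, M := Finset.sum_le_sum fun y _ => h1 y
    _ = _ := by rw [Finset.sum_const, nsmul_eq_mul, mul_comm]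

/-- the terminal name determines all names of the list -/
theorem rc_fl1_list (C : RcDoc) (hR : 0 < C.R0) {i w : ℕ} (hiq : i ≤ C.q) :
    ReDet (C.nm C.q) (fun a => (C.nm i a, C.an w a)) (2 ^ 6 * (2 : ℝ) ^ (2 * C.m * w)) := by
  have hH := rc_re_H_pos C hR
  have d1 : ReDet (C.re.nm C.q C.q 0) (C.re.nm C.q i 0) (2 ^ 6) := re_det_a_dn C.re hH 0 hiq le_rfl
  have d2 : ReDet (C.re.an C.q 0) (C.re.an C.q w) ((2 : ℝ) ^ (2 * C.re.m * (w - 0))) := re_det_an_up C.re hH C.q (Nat.zero_le w)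
  have d3 : ReDet (C.re.nm C.q i 0) (C.re.an C.q 0) 1 := re_det_of_eq (fun x => x.2.1) (fun ω => (re_nm_an C.re C.q i 0 ω).symm)
  have d4 := re_det_trans zero_le_one (by positivity) d3 d2
  have d5 := re_det_pair zero_le_one (re_det_of_eq (A := C.re.nm C.q i 0) (B := C.re.nm C.q i 0) id (fun _ => rfl)) d4
  have d6 := re_det_trans (by positivity) (by positivity) d1 d5
  have e1 : C.re.nm C.q C.q 0 = C.nm C.q := funext fun a => rc_re_nm C hR le_rfl le_rfl a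
  have e2 : C.re.nm C.q i 0 = C.nm i := funext fun a => rc_re_nm C hR hiq le_rfl a
  have e3 : C.re.an C.q w = C.an w := funext fun a => rc_re_an C hR C.q w a
  rw [e1, e2, e3, one_mul, one_mul, Nat.sub_zero] at d6
  exact d6

/-- the terminal weight count in mesh units -/
theorem rc_fl1_cnt (h : C.Pre p d t N c0 K es ts) (hm : 0 < C.m) :
    (C.nval (C.nm C.q) : ℝ) ≤ C.tl (t + (p + d) * C.q + c0) := by
  refine h.cntF.trans ?_
  have hR := h.R0_pos
  have he := h.e_pos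
  have hk := h.ka_pos
  have hmR : (0 : ℝ) < C.m := Nat.cast_pos.2 hm
  obtain ⟨ρ, hρ⟩ : ∃ ρ, ρ = C.e / (C.ka * C.R0 ^ 4) := ⟨_, rfl⟩
  have hρ0 : 0 < ρ := by rw [hρ]; positivity
  have h1 : ρ ≤ (2 : ℝ) ^ (c0 * C.m) := by
    have a1 : ρ = (2 : ℝ) ^ (C.sh * C.m) := by
      unfold RcDoc.sh
      rw [← hρ, div_mul_cancel₀ _ hmR.ne', Real.rpow_logb (by norm_num) (by norm_num) hρ0]
    rw [a1]
    exact Real.rpow_le_rpow_of_exponent_le (by norm_num) (mul_le_mul_of_nonneg_right h.sh_le hmR.le)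
  have h2 : C.Eb d C.q / (C.Kb p C.q * C.R0 ^ 4) = ρ * (2 : ℝ) ^ ((p + d) * C.q * C.m) := by
    unfold RcDoc.Eb RcDoc.Kb
    rw [hρ, Real.rpow_neg (by norm_num)]
    have e1 : (p + d) * C.q * C.m = d * C.q * C.m + p * C.q * C.m := by ring
    rw [e1, Real.rpow_add (by norm_num)]
    have : (0 : ℝ) < 2 ^ (p * C.q * C.m) := by positivity
    field_simp
  rw [h2]
  unfold RcDoc.tl
  have e2 : (t + (p + d) * C.q + c0) * C.m = t * C.m + (c0 * C.m + (p + d) * C.q * C.m) := by ring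
  rw [e2, Real.rpow_add (by norm_num), Real.rpow_add (by norm_num)]
  exact mul_le_mul_of_nonneg_left (mul_le_mul_of_nonneg_right h1 (by positivity)) (by positivity)

/-- all names of the list have polynomially many values.
PLAN: `cntF`, `sh_le`: `nval (nm q) ≤ tl (t + (p+d) q + c0)` (`Eb d q / (Kb p q R0⁴) = tl ((p+d) q + sh)`: `Real.rpow_logb`);   `re_det_a_dn` (`D = C.re`, `b = q`, `j = 0`; `rc_re_nm`): `nm q` determines `nm i` up to `2^6`;
`re_nm_an`, `re_det_an_up` (`w = 0`): `nm i` determines `an w` up to `2^(2 m w)`;   a `ReDet A B N` gives `nval B ≤ N nval A` (`Finset.card_biUnion_le`).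
OWNER helper159 (leaf L-256-RC-P-FL1), EST 200 lines -/
theorem rc_nval_le (h : C.Pre p d t N c0 K es ts) (hm : 0 < C.m) {i w : ℕ} (hi : 0 < i) (hiq : i ≤ C.q) (hw : w ≤ C.q) :
    (C.nval (fun a => (C.nm i a, C.an w a)) : ℝ) ≤ 2 ^ 6 * C.tl (t + (p + d) * C.q + c0 + 2 * C.q) := by
  have h1 := rc_fl1_det (Finset.univ.filter fun a : C.At => 0 < C.am a) (rc_fl1_list C h.R0_pos (w := w) hiq)
  have h2 := rc_fl1_cnt h hm
  have h3 : (2 : ℝ) ^ (2 * C.m * w) ≤ C.tl (2 * C.q) := by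
    unfold RcDoc.tl
    rw [← Real.rpow_natCast]
    refine Real.rpow_le_rpow_of_exponent_le (by norm_num) ?_
    push_cast
    have : (w : ℝ) ≤ C.q := Nat.cast_le.2 hw
    have hm0 : (0 : ℝ) ≤ C.m := Nat.cast_nonneg _
    nlinarith
  have h4 : C.tl (t + (p + d) * C.q + c0 + 2 * C.q) = C.tl (2 * C.q) * C.tl (t + (p + d) * C.q + c0) := by
    unfold RcDoc.tl
    rw [← Real.rpow_add (by norm_num)]
    congr 1
    ring
  have h5 : 0 < C.tl (2 * C.q) := by unfold RcDoc.tl; positivity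
  rw [h4]
  unfold RcDoc.nval at h2 ⊢
  calc _ ≤ _ := h1
    _ ≤ 2 ^ 6 * C.tl (2 * C.q) * C.tl (t + (p + d) * C.q + c0) :=
        mul_le_mul (mul_le_mul_of_nonneg_left h3 (by positivity)) h2 (Nat.cast_nonneg _) (by positivity)
    _ = _ := by ring

/-- the document restricted to a class of atoms, with new exponents -/
noncomputable def RcDoc.rst (C : RcDoc) (B : C.At → Prop) (dn : ℕ → ℝ) (gn : ℕ → ℕ → ℝ) : RcDoc :=
  { C with
    ms := fun J π => if h : J ∈ C.Iv then (if B (⟨J, h⟩, π) then C.ms J π else 0) else 0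
    Dn := dn
    Gn := gn }

theorem rc_fl2_am (C : RcDoc) (B : C.At → Prop) (dn : ℕ → ℝ) (gn : ℕ → ℕ → ℝ) (a : C.At) :
    (C.rst B dn gn).am a = if B a then C.am a else 0 := by
  show (if h : a.1.1 ∈ C.Iv then (if B (⟨a.1.1, h⟩, a.2) then C.ms a.1.1 a.2 else 0) else 0) = _
  rw [dif_pos a.1.2]
  rfl

theorem rc_fl2_mass (C : RcDoc) (B : C.At → Prop) (dn : ℕ → ℝ) (gn : ℕ → ℕ → ℝ) (E : C.At → Prop) :
    (C.rst B dn gn).mass E = C.mass (fun a => B a ∧ E a) := by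
  have h0 : (C.rst B dn gn).mass E = ∑ a : C.At, if E a then (C.rst B dn gn).am a else 0 := rfl
  rw [h0]
  unfold RcDoc.mass
  refine Finset.sum_congr rfl fun a _ => ?_
  rw [rc_fl2_am]
  by_cases h1 : E a <;> by_cases h2 : B a <;> simp [h1, h2]

theorem rc_fl2_tot (C : RcDoc) (B : C.At → Prop) (dn : ℕ → ℝ) (gn : ℕ → ℕ → ℝ) :
    (C.rst B dn gn).tot = C.mass B := by
  show (∑ a : C.At, (C.rst B dn gn).am a) = ∑ a : C.At, if B a then C.am a else 0
  exact Finset.sum_congr rfl fun a _ => rc_fl2_am C B dn gn a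

theorem rc_fl2_nval (C : RcDoc) (B : C.At → Prop) (dn : ℕ → ℝ) (gn : ℕ → ℕ → ℝ) {α : Type} (X : C.At → α) :
    (C.rst B dn gn).nval X ≤ C.nval X := by
  show ((Finset.univ.filter fun a : C.At => 0 < (C.rst B dn gn).am a).image X).card
    ≤ ((Finset.univ.filter fun a : C.At => 0 < C.am a).image X).card
  refine Finset.card_le_card (Finset.image_subset_image ?_)
  intro a ha
  rw [Finset.mem_filter] at ha ⊢
  refine ⟨ha.1, ?_⟩
  have := ha.2
  rw [rc_fl2_am] at this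
  by_cases h2 : B a
  · simpa [h2] using this
  · simp [h2] at this

theorem rc_fl2_mass_mono (C : RcDoc) (hnn : ∀ a, 0 ≤ C.am a) {E F : C.At → Prop} (h : ∀ a, E a → F a) : C.mass E ≤ C.mass F := by
  unfold RcDoc.mass
  refine Finset.sum_le_sum fun a _ => ?_
  by_cases h1 : E a
  · simp [h1, h a h1]
  · simp only [h1, if_false]
    split_ifs
    · exact hnn a
    · exact le_refl _

theorem rc_fl2_mass_nn (C : RcDoc) (hnn : ∀ a, 0 ≤ C.am a) (E : C.At → Prop) : 0 ≤ C.mass E := by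
  unfold RcDoc.mass
  refine Finset.sum_nonneg fun a _ => ?_
  split_ifs
  · exact hnn a
  · exact le_refl _

theorem rc_fl2_mass_le_tot (C : RcDoc) (hnn : ∀ a, 0 ≤ C.am a) (E : C.At → Prop) : C.mass E ≤ C.tot := by
  unfold RcDoc.mass RcDoc.tot
  refine Finset.sum_le_sum fun a _ => ?_
  split_ifs
  · exact le_refl _
  · exact hnn a

theorem rc_fl2_tl_add (C : RcDoc) (x y : ℝ) : C.tl (x + y) = C.tl x * C.tl y := by
  unfold RcDoc.tl
  rw [← Real.rpow_add (by norm_num)]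
  congr 1; ring

theorem rc_fl2_tl_pos (C : RcDoc) (x : ℝ) : 0 < C.tl x := Real.rpow_pos_of_pos (by norm_num) _

/-- **restriction is robust**: all fields of `Pre` survive a restriction of relative mass `≥ 2^-(t m)`.
PLAN: `(C.rst B ..).At = C.At`, names, `anc`, `Zv`, `sh`, `Eb`, `Kb`, `tl` unchanged (`rfl`); `am' a = if B a then am a else 0` (`Subtype` eta, `dif_pos a.1.2`); `mass' E = mass (B ∧ E) ≤ mass E`, `tot' = mass B`, `tl (-t) tot ≤ tot' ≤ tot`, `nval' ≤ nval`;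
`X tot ≤ X tl t tot'`.
OWNER helper159 (leaf L-256-RC-P-FL2), EST 200 lines -/
theorem rc_rst_pre (h : C.Pre p d t N c0 K es ts) (B : C.At → Prop) (hB : C.tl (-t) * C.tot ≤ C.mass B) (dn : ℕ → ℝ) (gn : ℕ → ℕ → ℝ) :
    (C.rst B dn gn).Pre p d (2 * t) (N - t) c0 K es (ts - t) := by
  have hnn := h.ms_nn
  have hEb : ∀ i, 0 < C.Eb d i := fun i => mul_pos h.e_pos (Real.rpow_pos_of_pos (by norm_num) _)
  have hKb : ∀ i, 0 < C.Kb p i := fun i => mul_pos h.ka_pos (Real.rpow_pos_of_pos (by norm_num) _)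
  have hT : 0 < C.tot := lt_of_lt_of_le (mul_pos (rc_fl2_tl_pos C _) (hEb _)) h.totLo
  have hBT : C.mass B ≤ C.tot := rc_fl2_mass_le_tot C hnn B
  have h0 : C.tl (-t) * C.tl t = 1 := by
    rw [← rc_fl2_tl_add]
    unfold RcDoc.tl
    simp
  have hm1 : C.tl (-t) ≤ 1 := by
    by_contra hc
    push Not at hc
    have : C.tot < C.tl (-t) * C.tot := lt_mul_of_one_lt_left hT hc
    linarith
  have ht1 : 1 ≤ C.tl t := by
    by_contra hc
    push Not at hc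
    have h1 : C.tl (-t) * C.tl t < 1 * 1 := by
      have := rc_fl2_tl_pos C t
      have := rc_fl2_tl_pos C (-t)
      nlinarith
    linarith
  have h2t : C.tl (2 * t) = C.tl t * C.tl t := by rw [← rc_fl2_tl_add]; congr 1; ring
  have htt : C.tl t ≤ C.tl (2 * t) := by
    rw [h2t]
    exact le_mul_of_one_le_left (rc_fl2_tl_pos C t).le ht1
  have hTT : C.tot ≤ C.tl t * C.mass B := by
    have := mul_le_mul_of_nonneg_left hB (rc_fl2_tl_pos C t).le
    rw [← mul_assoc, mul_comm (C.tl t), h0, one_mul] at this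
    exact this
  -- the generic step
  have hgen : ∀ (E : C.At → Prop) (b : ℝ), C.mass E ≤ b * C.tot → (C.rst B dn gn).mass E ≤ (C.tl t * b) * (C.rst B dn gn).tot := by
    intro E b hE
    rw [rc_fl2_mass, rc_fl2_tot]
    have hb : 0 ≤ b := by
      have h1 := rc_fl2_mass_nn C hnn E
      by_contra hc
      push Not at hc
      have : b * C.tot < 0 := mul_neg_of_neg_of_pos hc hT
      linarith
    calc C.mass (fun a => B a ∧ E a) ≤ C.mass E := rc_fl2_mass_mono C hnn fun a ha => ha.2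
      _ ≤ b * C.tot := hE
      _ ≤ b * (C.tl t * C.mass B) := mul_le_mul_of_nonneg_left hTT hb
      _ = (C.tl t * b) * C.mass B := by ring
  refine ⟨h.R0_pos, h.e_pos, h.ka_pos, ?_, h.sh_le, ?_, ?_, ?_, ?_, ?_, ?_⟩
  · intro a
    have := rc_fl2_am C B dn gn a
    rw [this]
    split_ifs
    · exact hnn a
    · exact le_refl _
  · rw [rc_fl2_tot]
    show C.tl (-(2 * t)) * C.Eb d C.q ≤ C.mass B
    have e : C.tl (-(2 * t)) = C.tl (-t) * C.tl (-t) := by rw [← rc_fl2_tl_add]; congr 1; ring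
    rw [e, mul_assoc]
    exact (mul_le_mul_of_nonneg_left h.totLo (rc_fl2_tl_pos C _).le).trans hB
  · intro i hi hiq V
    have h1 := hgen _ _ (h.excF i hi hiq V)
    refine h1.trans (le_of_eq ?_)
    show _ = (C.tl (2 * t) * ((V.card : ℝ) * (C.Kb p i * C.R0 ^ 4) / C.Eb d i) ^ (2 / 3 : ℝ) + C.tl (-(N - t))) * _
    have e : C.tl (-(N - t)) = C.tl t * C.tl (-N) := by rw [← rc_fl2_tl_add]; congr 1; ring
    rw [e, h2t]
    ring
  · have h1 : ((C.rst B dn gn).nval (C.nm C.q) : ℝ) ≤ C.nval (C.nm C.q) := by exact_mod_cast rc_fl2_nval C B dn gn (C.nm C.q)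
    refine h1.trans (h.cntF.trans ?_)
    show _ ≤ C.tl (2 * t) * (C.Eb d C.q / (C.Kb p C.q * C.R0 ^ 4))
    have := h.R0_pos
    exact mul_le_mul_of_nonneg_right htt (div_nonneg (hEb _).le (mul_pos (hKb _) (by positivity)).le)
  · intro w hw hwq x v
    have h1 := h.memF w hw hwq x v
    have h2 : (C.rst B dn gn).mass (fun a => C.nm C.q a = x ∧ C.an w a = v) ≤ C.mass (fun a => C.nm C.q a = x ∧ C.an w a = v) :=
      (rc_fl2_mass C B dn gn _).le.trans (rc_fl2_mass_mono C hnn fun a ha => ha.2)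
    refine h2.trans (h1.trans ?_)
    show _ ≤ C.tl (2 * t) * (C.Kb p (C.q - w) * C.R0 ^ 4) * C.tl (-(3 * (w : ℝ)))
    have := h.R0_pos
    exact mul_le_mul_of_nonneg_right (mul_le_mul_of_nonneg_right htt (mul_pos (hKb _) (by positivity)).le) (rc_fl2_tl_pos C _).le
  · intro i l hi hil hlq G Lst hL
    have h1 := hgen _ _ (h.timeF i l hi hil hlq G Lst hL)
    refine h1.trans (le_of_eq ?_)
    show _ = (C.tl (2 * t) * (G * C.Eb d i / C.Eb d l) ^ (2 / 3 : ℝ) + C.tl (-(N - t))) * _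
    have e : C.tl (-(N - t)) = C.tl t * C.tl (-N) := by rw [← rc_fl2_tl_add]; congr 1; ring
    rw [e, h2t]
    ring
  · intro i S hi hS hiS pn pc hpn
    have h1 := hgen _ _ (h.slabF i S hi hS hiS pn pc hpn)
    refine h1.trans (le_of_eq ?_)
    show _ = C.tl (-(ts - t)) * _
    have e : C.tl (-(ts - t)) = C.tl t * C.tl (-ts) := by rw [← rc_fl2_tl_add]; congr 1; ring
    rw [e]

theorem rc_fl3_absorb (K δ : ℝ) (hδ : 0 < δ) : ∃ n0 : ℕ, ∀ n : ℕ, n0 ≤ n → K ≤ (2 : ℝ) ^ (δ * n) := by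
  obtain ⟨n0, hn0⟩ := exists_nat_ge (K / (δ * Real.log 2))
  have hl : 0 < Real.log 2 := Real.log_pos (by norm_num)
  refine ⟨n0, fun n hn => ?_⟩
  have h1 : K ≤ δ * n * Real.log 2 := by
    have : K / (δ * Real.log 2) ≤ n := hn0.trans (by exact_mod_cast hn)
    rw [div_le_iff₀ (by positivity)] at this
    linarith
  have h2 : δ * n * Real.log 2 + 1 ≤ (2 : ℝ) ^ (δ * n) := by
    have := Real.add_one_le_exp (δ * n * Real.log 2)
    rwa [Real.rpow_def_of_pos (by norm_num), mul_comm (Real.log 2)]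
  linarith

theorem rc_fl3_tl_pos (C : RcDoc) (t : ℝ) : 0 < C.tl t := re_tl_pos C.re t

theorem rc_fl3_tl_add (C : RcDoc) (s t : ℝ) : C.tl (s + t) = C.tl s * C.tl t := re_tl_add C.re s t

theorem rc_fl3_tl_mono (C : RcDoc) {s t : ℝ} (h : s ≤ t) : C.tl s ≤ C.tl t := re_tl_mono C.re h

theorem rc_fl3_tl_zero (C : RcDoc) : C.tl 0 = 1 := re_tl_zero C.re

theorem rc_fl3_tl_pow (C : RcDoc) (t : ℝ) (n : ℕ) : C.tl t ^ n = C.tl (t * n) := re_aux_tl_pow C.re t n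

theorem rc_fl3_tl_inv (C : RcDoc) (t : ℝ) : (C.tl t)⁻¹ = C.tl (-t) := by
  have h : C.tl t * C.tl (-t) = 1 := by rw [← rc_fl3_tl_add, add_neg_cancel, rc_fl3_tl_zero]
  exact inv_eq_of_mul_eq_one_right h

/-- abstract preflattening, observations indexed by two natural numbers -/
theorem rc_fl3_abs {Ω α : Type} [Fintype Ω] (μ : Ω → ℝ) (hμ : ∀ ω, 0 ≤ μ ω) (hT : 0 < ∑ ω, μ ω) (q : ℕ) (X : ℕ → ℕ → Ω → α) (V lam : ℝ)
    (hV : ∀ j, j < q → ∀ w, w ≤ q → (((Finset.univ.filter fun ω => 0 < μ ω).image (X j w)).card : ℝ) ≤ V) (hlam : 1 < lam) (n : ℕ)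
    (hn : 2 * ((q : ℝ) * (q + 1)) * V ≤ lam ^ n) :
    ∃ (B : Ω → Prop) (x : ℕ → ℕ → ℕ), (∑ ω, μ ω) / (2 * ((n : ℝ) + 1) ^ (q * (q + 1))) ≤ ∑ ω, (if B ω then μ ω else 0) ∧
      ∀ j, j < q → ∀ w, w ≤ q → (((Finset.univ.filter fun ω => B ω ∧ 0 < μ ω).image (X j w)).card : ℝ) ≤ lam ^ (x j w + 1) ∧
        ∀ v, ∑ ω, (if B ω ∧ X j w ω = v then μ ω else 0) ≤ (lam ^ (x j w))⁻¹ * ∑ ω, μ ω := by
  have hc : Fintype.card (Fin q × Fin (q + 1)) = q * (q + 1) := by simp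
  obtain ⟨B, x, -, hB, hx⟩ := rc_flat_abs μ hμ hT (fun k : Fin q × Fin (q + 1) => X k.1.1 k.2.1) V lam
    (fun k => hV _ k.1.2 _ (Nat.lt_succ_iff.1 k.2.2)) hlam n (by
      rw [hc]
      push_cast
      exact hn)
  rw [hc] at hB
  refine ⟨B, fun j w => if h : j < q ∧ w < q + 1 then x (⟨j, h.1⟩, ⟨w, h.2⟩) else 0, hB, fun j hj w hw => ?_⟩
  have h : j < q ∧ w < q + 1 := ⟨hj, Nat.lt_succ_iff.2 hw⟩
  simp only [dif_pos h]
  exact hx (⟨j, h.1⟩, ⟨w, h.2⟩)

theorem rc_fl3_am (C : RcDoc) (B : C.At → Prop) (dn : ℕ → ℝ) (gn : ℕ → ℕ → ℝ) (a : C.At) :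
    (C.rst B dn gn).am a = if B a then C.am a else 0 := by
  show (if h : a.1.1 ∈ C.Iv then (if B (⟨a.1.1, h⟩, a.2) then C.ms a.1.1 a.2 else 0) else 0) = _
  rw [dif_pos a.1.2]
  rfl

/-- the restricted document is flat -/
theorem rc_fl3_flat (C : RcDoc) (h0 : ∀ a, 0 ≤ C.am a) (B : C.At → Prop) (dn : ℕ → ℝ) (gn : ℕ → ℕ → ℝ) {α : Type} (X : C.At → α) (t : ℝ)
    (ht : 0 ≤ t) (y : ℕ) (hB : C.tl (-t) * C.tot ≤ C.mass B)
    (h1 : (((Finset.univ.filter fun a : C.At => B a ∧ 0 < C.am a).image X).card : ℝ) ≤ C.tl t ^ (y + 1))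
    (h2 : ∀ v, ∑ a : C.At, (if B a ∧ X a = v then C.am a else 0) ≤ (C.tl t ^ y)⁻¹ * ∑ a : C.At, C.am a) :
    (C.rst B dn gn).Flat X ((y : ℝ) * t) (2 * t) := by
  have ham := rc_fl3_am C B dn gn
  have hfil : (Finset.univ.filter fun a : C.At => 0 < (C.rst B dn gn).am a) = Finset.univ.filter fun a : C.At => B a ∧ 0 < C.am a := by
    refine Finset.filter_congr fun a _ => ?_
    rw [ham]
    by_cases hb : B a <;> simp [hb]
  have htot : (C.rst B dn gn).tot = C.mass B := by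
    show ∑ a : C.At, (C.rst B dn gn).am a = ∑ a : C.At, if B a then C.am a else 0
    exact Finset.sum_congr rfl fun a _ => ham a
  have hmB : 0 ≤ C.mass B := Finset.sum_nonneg fun a _ => by
    split_ifs
    exacts [h0 a, le_rfl]
  have htt : C.tot ≤ C.tl t * C.mass B := by
    have e : C.tl t * C.tl (-t) = 1 := by rw [← rc_fl3_tl_add, add_neg_cancel, rc_fl3_tl_zero]
    calc C.tot = C.tl t * (C.tl (-t) * C.tot) := by rw [← mul_assoc, e, one_mul]
      _ ≤ C.tl t * C.mass B := mul_le_mul_of_nonneg_left hB (rc_fl3_tl_pos C t).le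
  constructor
  · show (((Finset.univ.filter fun a : C.At => 0 < (C.rst B dn gn).am a).image X).card : ℝ) ≤ C.tl ((y : ℝ) * t + 2 * t)
    rw [hfil]
    refine h1.trans ?_
    rw [rc_fl3_tl_pow]
    refine rc_fl3_tl_mono C ?_
    push_cast
    nlinarith
  · intro v
    rw [htot]
    show ∑ a : C.At, (if X a = v then (C.rst B dn gn).am a else 0) ≤ C.tl (-((y : ℝ) * t - 2 * t)) * C.mass B
    have e1 : ∑ a : C.At, (if X a = v then (C.rst B dn gn).am a else 0) = ∑ a : C.At, (if B a ∧ X a = v then C.am a else 0) := by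
      refine Finset.sum_congr rfl fun a _ => ?_
      rw [ham]
      by_cases hb : B a <;> by_cases hx : X a = v <;> simp [hb, hx]
    rw [e1]
    refine (h2 v).trans ?_
    rw [rc_fl3_tl_pow, rc_fl3_tl_inv]
    calc C.tl (-(t * (y : ℝ))) * ∑ a : C.At, C.am a ≤ C.tl (-(t * (y : ℝ))) * (C.tl t * C.mass B) :=
          mul_le_mul_of_nonneg_left htt (rc_fl3_tl_pos C _).le
      _ = C.tl (-(t * (y : ℝ)) + t) * C.mass B := by rw [rc_fl3_tl_add, mul_assoc]
      _ ≤ C.tl (-((y : ℝ) * t - 2 * t)) * C.mass B :=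
          mul_le_mul_of_nonneg_right (rc_fl3_tl_mono C (by nlinarith)) hmB

theorem rc_fl3_nval_map (C : RcDoc) {α β : Type} (Y : C.At → α) (g : α → β) : C.nval (fun a => g (Y a)) ≤ C.nval Y := by
  unfold RcDoc.nval
  have e : ((Finset.univ.filter fun a : C.At => 0 < C.am a).image fun a => g (Y a))
      = ((Finset.univ.filter fun a : C.At => 0 < C.am a).image Y).image g := by
    rw [Finset.image_image]
    rfl
  rw [e]
  exact Finset.card_image_le

/-- a second component which is a function of the first does not change flatness -/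
theorem rc_fl3_flat_fst (C : RcDoc) {α β : Type} (X : C.At → α) (f : α → β) {y s : ℝ} (h : C.Flat (fun a => (X a, f (X a))) y s) :
    C.Flat X y s := by
  obtain ⟨h1, h2⟩ := h
  constructor
  · refine le_trans ?_ h1
    have hc : C.nval X ≤ C.nval (fun a => (X a, f (X a))) := rc_fl3_nval_map C (fun a => (X a, f (X a))) Prod.fst
    exact_mod_cast hc
  · intro v
    refine le_trans (le_of_eq ?_) (h2 (v, f v))
    unfold RcDoc.mass
    refine Finset.sum_congr rfl fun a _ => ?_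
    by_cases hx : X a = v
    · rw [if_pos hx, if_pos (show (X a, f (X a)) = (v, f v) by rw [hx])]
    · rw [if_neg hx, if_neg (fun e => hx (congrArg Prod.fst e))]

theorem rc_fl3_an0 (C : RcDoc) (i : ℕ) (a : C.At) : C.an 0 a = (C.nm i a).2.1 := by
  have e : C.Rw 0 = C.R0 := by
    unfold RcDoc.Rw rdLen
    simp
  unfold RcDoc.an
  rw [e]
  rfl

theorem rc_fl3_flatC (C : RcDoc) (i : ℕ) {y s : ℝ} (h : C.Flat (fun a => (C.nm i a, C.an 0 a)) y s) : C.Flat (C.nm i) y s := by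
  have e : (fun a : C.At => (C.nm i a, C.an 0 a)) = fun a : C.At => (C.nm i a, (fun z : ReName => z.2.1) (C.nm i a)) :=
    funext fun a => by rw [rc_fl3_an0 C i a]
  rw [e] at h
  exact rc_fl3_flat_fst C (C.nm i) (fun z : ReName => z.2.1) h

/-- **preflattening of a document** (08 l.605-636).
PLAN: `ι = Fin (q+1) × Fin (q+1)` with `X (i,w) = (nm i, an w)`  (`(nm i, an 0)` has the fibres of `nm i`: `re_nm_an`);   `lam = tl t`, `V` from `rc_nval_le`, `n = ⌈(2t + (p+d) q + c0 + 2q + 1)/t⌉₊ + 1`;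
`m0` so large that `2 (q+1)² 2^6 ≤ tl 1` and `2 (n+1)^((q+1)²) ≤ tl t` (`n` does not depend on `m`);   `rc_flat_abs`;   `dn i = x (i,0) t`, `gn i w = x (i,w) t`;   `rc_rst_pre`;   `lam^(x+1) = tl (x t + t)`, `(lam^x)⁻¹ tot ≤ tl (-(x t - t)) tot'`.
OWNER helper159 (leaf L-256-RC-P-FL3), EST 300 lines -/
theorem rc_flat (q : ℕ) (p d t N c0 : ℝ) (K : ℕ) (es ts : ℝ) (ht : 0 < t) :
    ∃ m0 : ℕ, ∀ C : RcDoc, C.q = q → m0 ≤ C.m → C.Pre p d t N c0 K es ts →
      ∃ C' : RcDoc, C'.q = q ∧ C'.m = C.m ∧ C'.Ok p d (2 * t) (N - t) K es (ts - t) := by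
  obtain ⟨Ex, hEx⟩ : ∃ Ex : ℝ, Ex = t + (p + d) * q + c0 + 2 * q := ⟨_, rfl⟩
  obtain ⟨n, hn⟩ : ∃ n : ℕ, (1 + Ex) / t ≤ n := exists_nat_ge _
  obtain ⟨m1, hm1⟩ := rc_fl3_absorb (2 * ((q : ℝ) * (q + 1)) * 2 ^ 6) 1 one_pos
  obtain ⟨m2, hm2⟩ := rc_fl3_absorb (2 * ((n : ℝ) + 1) ^ (q * (q + 1))) t ht
  refine ⟨max 1 (max m1 m2), fun C hq hm h => ?_⟩
  have hm0 : 0 < C.m := lt_of_lt_of_le one_pos ((le_max_left _ _).trans hm)
  have hb1 : 2 * ((q : ℝ) * (q + 1)) * 2 ^ 6 ≤ C.tl 1 := hm1 C.m (((le_max_left _ _).trans (le_max_right _ _)).trans hm)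
  have hb2 : 2 * ((n : ℝ) + 1) ^ (q * (q + 1)) ≤ C.tl t := hm2 C.m (((le_max_right _ _).trans (le_max_right _ _)).trans hm)
  have hlam : 1 < C.tl t := by
    unfold RcDoc.tl
    have : (0 : ℝ) < C.m := by exact_mod_cast hm0
    exact Real.one_lt_rpow (by norm_num) (by positivity)
  have htot : 0 < ∑ a : C.At, C.am a := rc_pre_tot_pos h
  have hn' : 2 * ((q : ℝ) * (q + 1)) * (2 ^ 6 * C.tl Ex) ≤ C.tl t ^ n := by
    have e1 : 1 + Ex ≤ t * n := by
      rw [div_le_iff₀ ht] at hn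
      linarith
    calc 2 * ((q : ℝ) * (q + 1)) * (2 ^ 6 * C.tl Ex) = (2 * ((q : ℝ) * (q + 1)) * 2 ^ 6) * C.tl Ex := by ring
      _ ≤ C.tl 1 * C.tl Ex := mul_le_mul_of_nonneg_right hb1 (rc_fl3_tl_pos C _).le
      _ = C.tl (1 + Ex) := (rc_fl3_tl_add C 1 Ex).symm
      _ ≤ C.tl (t * n) := rc_fl3_tl_mono C e1
      _ = C.tl t ^ n := (rc_fl3_tl_pow C t n).symm
  obtain ⟨B, x, hB, hx⟩ := rc_fl3_abs C.am h.ms_nn htot q (fun j w a => (C.nm (j + 1) a, C.an w a)) (2 ^ 6 * C.tl Ex) (C.tl t)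
    (fun j hj w hw => by
      have := rc_nval_le h hm0 (i := j + 1) (w := w) (Nat.succ_pos j) (by omega) (by omega)
      rw [hq, ← hEx] at this
      exact this) hlam n hn'
  have hB' : C.tl (-t) * C.tot ≤ C.mass B := by
    refine le_trans ?_ hB
    have hpos : (0 : ℝ) < 2 * ((n : ℝ) + 1) ^ (q * (q + 1)) := by positivity
    calc C.tl (-t) * C.tot = (∑ a : C.At, C.am a) / C.tl t := by
          rw [← rc_fl3_tl_inv, div_eq_inv_mul]
          rfl
      _ ≤ (∑ a : C.At, C.am a) / (2 * ((n : ℝ) + 1) ^ (q * (q + 1))) := div_le_div_of_nonneg_left htot.le hpos hb2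
  obtain ⟨dn, hdn⟩ : ∃ dn : ℕ → ℝ, dn = fun i => (x (i - 1) 0 : ℝ) * t := ⟨_, rfl⟩
  obtain ⟨gn, hgn⟩ : ∃ gn : ℕ → ℕ → ℝ, gn = fun i w => (x (i - 1) w : ℝ) * t := ⟨_, rfl⟩
  have hG : ∀ i w, 0 < i → i ≤ q → w ≤ q →
      (C.rst B dn gn).Flat (fun a => ((C.rst B dn gn).nm i a, (C.rst B dn gn).an w a)) (gn i w) (2 * t) := by
    intro i w hi hiq hw
    obtain ⟨j, rfl⟩ : ∃ j, i = j + 1 := ⟨i - 1, by omega⟩
    have hj : j < q := by omega
    have key := rc_fl3_flat C h.ms_nn B dn gn (fun a => (C.nm (j + 1) a, C.an w a)) t ht.le (x j w) hB' (hx j hj w hw).1 (hx j hj w hw).2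
    have e : gn (j + 1) w = (x j w : ℝ) * t := by
      rw [hgn]
      rfl
    rw [e]
    exact key
  refine ⟨C.rst B dn gn, hq, rfl, ⟨c0, rc_rst_pre h B hB' dn gn⟩, fun i hi hiq => ?_, fun i w hi hiq hw => ?_⟩
  · have hiq' : i ≤ q := by
      rw [← hq]
      exact hiq
    have e : (C.rst B dn gn).Dn i = gn i 0 := by
      show dn i = gn i 0
      rw [hdn, hgn]
    rw [e]
    exact rc_fl3_flatC (C.rst B dn gn) i (hG i 0 hi hiq' (Nat.zero_le _))
  · have hiq' : i ≤ q := by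
      rw [← hq]
      exact hiq
    have hw' : w ≤ q := by
      rw [← hq]
      exact hw
    exact hG i w hi hiq' hw'

theorem rc_proffl_eqns_cite : True := by
  have := @RcDoc.rst.eq_1
  trivial

end Claimed.Agent.R256
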