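-- KEEP
import Claimed.Agent.R256.Rc.ProfArr

/-!
# Row 256, unit RC, block (II-cl), file 4: THE CLASSICAL QUERIES `RnQ.Ok`      (architect helper159; design helper106; prefix `rc_`)
Overview, conventions and list of the leaves: header of `Rc/ProfBr.lean`.
-/

set_option autoImplicit false

namespace Claimed.Agent.R256

open Claimed.Agent.R255
open Claimed.Agent.R255.FLaw (pair)
open scoped BigOperators
open Classical

variable {C : RcDoc} {p d t N c0 es ts ζ τ : ℝ} {K r σ i S : ℕ}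

/-! ## Q : the queries -/

/-- **the context of one classical query** `(i, S)`, `S = r σ` -/
structure RcCtx (C : RcDoc) (p d t N : ℝ) (K : ℕ) (es ts ζ τ : ℝ) (r σ i S : ℕ) : Prop where
  ok : C.Ok p d t N K es ts
  sm : ReSm C.re t ζ τ
  N1 : 1 ≤ N
  d0 : 0 < d
  d1 : d ≤ 1
  r1 : 1 ≤ r
  s1 : 1 ≤ σ
  K2 : 2 ≤ K
  hS : S = r * σ
  i0 : 0 < i
  dom : i + K * S < C.q

/-- the query -/
noncomputable def RcCtx.Q (c : RcCtx C p d t N K es ts ζ τ r σ i S) : RnQ := C.re.qry i 0 (i + K * S) c.ok.P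

theorem rc_prof_eqns_cite : True := by
  have := @RcCtx.Q.eq_1
  trivial

/-! ### elementary facts of a classical query context -/

theorem RcCtx.S_pos (c : RcCtx C p d t N K es ts ζ τ r σ i S) : 1 ≤ S := by
  rw [c.hS]
  exact Nat.mul_pos c.r1 c.s1

theorem RcCtx.S_le (c : RcCtx C p d t N K es ts ζ τ r σ i S) : S ≤ K * S :=
  Nat.le_mul_of_pos_left _ (by have := c.K2; omega)

theorem RcCtx.b_pos (c : RcCtx C p d t N K es ts ζ τ r σ i S) : 0 < i + K * S :=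
  lt_of_lt_of_le c.i0 (Nat.le_add_right _ _)

theorem RcCtx.b_le (c : RcCtx C p d t N K es ts ζ τ r σ i S) : i + K * S ≤ C.q := c.dom.le

theorem RcCtx.q_pos (c : RcCtx C p d t N K es ts ζ τ r σ i S) : 1 ≤ C.re.q := by
  have := c.dom
  show 1 ≤ C.q
  omega

theorem RcCtx.KS_le (c : RcCtx C p d t N K es ts ζ τ r σ i S) : K * S ≤ C.q := by
  have := c.dom
  omega

theorem RcCtx.sub_le (c : RcCtx C p d t N K es ts ζ τ r σ i S) {k : ℕ} (hk : k ≤ r) : k * σ ≤ S := by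
  rw [c.hS]
  exact Nat.mul_le_mul_right _ hk

theorem RcCtx.H_pos (c : RcCtx C p d t N K es ts ζ τ r σ i S) : 0 < C.re.H := rc_re_H_pos C (rc_ok_R0 c.ok)

theorem RcCtx.typG (c : RcCtx C p d t N K es ts ζ τ r σ i S) {i' w : ℕ} (hi : 0 < i') (hib : i' ≤ i + K * S) (hw : w ≤ K * S) :
    reTyp c.ok.P (pair (C.re.nm (i + K * S) i' 0) (C.re.an (i + K * S) w)) (C.Gn i' w * C.re.u) (ζ * C.re.u) (C.re.dl ζ) :=
  rc_typ_Gb c.ok c.sm hi hib c.b_le (hw.trans c.KS_le)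

theorem RcCtx.typC (c : RcCtx C p d t N K es ts ζ τ r σ i S) {i' : ℕ} (hi : 0 < i') (hib : i' ≤ i + K * S) :
    reTyp c.ok.P (C.re.nm (i + K * S) i' 0) (C.Dn i' * C.re.u) (ζ * C.re.u) (C.re.dl ζ) :=
  rc_typ_Cb c.ok c.sm hi hib c.b_le

theorem RcCtx.sig_ge (c : RcCtx C p d t N K es ts ζ τ r σ i S) : (1 : ℝ) ≤ σ := by
  exact_mod_cast c.s1

/-- `(Z_k, C)` has the score of `(C, A_{k σ})` -/
theorem RcCtx.typZ (c : RcCtx C p d t N K es ts ζ τ r σ i S) {k : ℕ} (hk : k * σ ≤ K * S) :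
    reTyp c.ok.P (pair (C.re.Zc (i + K * S) 0 (2 ^ (C.re.m * σ)) k) (C.re.nm (i + K * S) i 0)) (C.Gn i (k * σ) * C.re.u) (ζ * C.re.u)
      (C.re.dl ζ) :=
  re_typ_congr (c.typG c.i0 (Nat.le_add_right _ _) hk)
    fun ω ω' => by
      have := (re_Z_iff C.re c.H_pos (i + K * S) i 0 σ k ω ω').symm
      rwa [Nat.zero_add] at this

/-- TWIN of `re_q_ang`.   `re_ZZ_iff`, `re_Z_iff` (`D = C.re`, `b = i + K S`, `j = 0`), `rc_re_nm`, `rc_re_an`, `rc_typ_G` at `w = k' σ`, `k σ` (`≤ S < q`), `re_typ_congr`, `re_typ_surC`, `re_log_M`.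
OWNER helper159 (leaf L-256-RC-P-Q1), EST 100 lines -/
theorem rc_q_ang (c : RcCtx C p d t N K es ts ζ τ r σ i S) (k k' : ℕ) (hk : k ≤ k') (hk' : k' ≤ r) :
    c.Q.P.pr (fun ω => c.Q.P.surC (c.Q.Zc (2 ^ (C.m * σ)) k') (pair (c.Q.Zc (2 ^ (C.m * σ)) k) c.Q.C) ω
      < (C.Jp i (k' * σ) / (σ : ℝ) - C.Jp i (k * σ) / (σ : ℝ) - τ) * Real.log ((2 ^ (C.m * σ) : ℕ) : ℝ)) ≤ τ := by
  have hu := re_aux_u_pos c.sm
  have hτ := re_aux_tau_pos c.sm
  have hσ := c.sig_ge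
  have hσ0 : (0 : ℝ) < σ := by linarith
  have hkS : k' * σ ≤ K * S := (c.sub_le hk').trans c.S_le
  have hkS' : k * σ ≤ K * S := (c.sub_le (hk.trans hk')).trans c.S_le
  have t1 : reTyp c.ok.P (pair (C.re.Zc (i + K * S) 0 (2 ^ (C.re.m * σ)) k')
      (pair (C.re.Zc (i + K * S) 0 (2 ^ (C.re.m * σ)) k) (C.re.nm (i + K * S) i 0))) (C.Gn i (k' * σ) * C.re.u) (ζ * C.re.u) (C.re.dl ζ) :=
    re_typ_congr (c.typG c.i0 (Nat.le_add_right _ _) hkS)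
      fun ω ω' => by
        have := (re_ZZ_iff C.re c.H_pos (i + K * S) i 0 σ hk ω ω').symm
        rwa [Nat.zero_add] at this
  have t2 := c.typZ hkS'
  have h1 := re_typ_surC c.ok.P _ _ t1 t2
  have hlM : Real.log ((2 ^ (C.m * σ) : ℕ) : ℝ) = σ * C.re.u := re_log_M C.re σ
  rw [hlM]
  unfold RcDoc.Jp
  have hd := (re_aux_dl_le c.sm c.q_pos).1
  have hq1 : (1 : ℝ) ≤ C.re.q := by exact_mod_cast c.q_pos
  have hd0 := re_aux_dl_pos C.re ζ
  have hd2 : C.re.dl ζ + C.re.dl ζ ≤ τ := by nlinarith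
  refine le_trans (ent_pr_mono c.ok.P fun ω _ hω => ?_) (h1.trans hd2)
  have e1 : ((C.Gn i (k' * σ) - C.Dn i) / (σ : ℝ) - (C.Gn i (k * σ) - C.Dn i) / (σ : ℝ) - τ) * (σ * C.re.u)
      = (C.Gn i (k' * σ) - C.Gn i (k * σ)) * C.re.u - τ * σ * C.re.u := by
    field_simp
    ring
  have hω' : c.ok.P.surC (C.re.Zc (i + K * S) 0 (2 ^ (C.re.m * σ)) k')
      (pair (C.re.Zc (i + K * S) 0 (2 ^ (C.re.m * σ)) k) (C.re.nm (i + K * S) i 0)) ω
      < (C.Gn i (k' * σ) - C.Gn i (k * σ)) * C.re.u - τ * σ * C.re.u := by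
    rw [← e1]
    exact hω
  have e2 : τ * C.re.u ≤ τ * σ * C.re.u := mul_le_mul_of_nonneg_right (le_mul_of_one_le_right hτ.1.le hσ) hu.le
  have e3 : (2 * ζ) * C.re.u < τ * C.re.u := mul_lt_mul_of_pos_right (by linarith [c.sm.zt, hτ.2]) hu
  refine lt_of_lt_of_le ?_ (neg_le_abs _)
  linarith

/-- TWIN of `re_q_angU`.
OWNER helper159 (leaf L-256-RC-P-Q1), EST 80 lines -/
theorem rc_q_angU (c : RcCtx C p d t N K es ts ζ τ r σ i S) :
    c.Q.P.entC (c.Q.Zc (2 ^ (C.m * σ)) r) c.Q.C ≤ (C.Jp i (r * σ) / (σ : ℝ) + τ) * Real.log ((2 ^ (C.m * σ) : ℕ) : ℝ) := by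
  have hu := re_aux_u_pos c.sm
  have hτ := re_aux_tau_pos c.sm
  have hσ := c.sig_ge
  have hσ0 : (0 : ℝ) < σ := by linarith
  have hrS : r * σ ≤ K * S := (c.sub_le le_rfl).trans c.S_le
  have hSq : ((r * σ : ℕ) : ℝ) ≤ C.re.q := by
    have := c.KS_le
    exact_mod_cast (by omega : r * σ ≤ C.q)
  have h1 := re_aux_ent_le c.sm c.q_pos c.ok.P (C.re.Zc (i + K * S) 0 (2 ^ (C.re.m * σ)) r) (C.re.nm (i + K * S) i 0)
    (re_aux_typ2 C.re ζ (c.typZ hrS)) (re_aux_typ2 C.re ζ (c.typC c.i0 (Nat.le_add_right _ _)))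
    (B := 2 * ((r * σ : ℕ) : ℝ)) (one_le_pow₀ (by norm_num)) (by
      rw [re_aux_log_pow, add_mul]
      have := (mul_pos c.sm.t_pos hu).le
      push_cast
      linarith) (by linarith) (re_aux_det_Z C.re c.H_pos _ i 0 σ r)
  have hlM : Real.log ((2 ^ (C.m * σ) : ℕ) : ℝ) = σ * C.re.u := re_log_M C.re σ
  rw [hlM]
  unfold RcDoc.Jp
  refine le_trans h1 ?_
  have e1 : ((C.Gn i (r * σ) - C.Dn i) / (σ : ℝ) + τ) * (σ * C.re.u)
      = (C.Gn i (r * σ) - C.Dn i) * C.re.u + τ * σ * C.re.u := by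
    field_simp
  rw [e1]
  have e2 : τ * C.re.u ≤ τ * σ * C.re.u := mul_le_mul_of_nonneg_right (le_mul_of_one_le_right hτ.1.le hσ) hu.le
  have e3 : (ζ + ζ + τ / 20) * C.re.u ≤ τ * C.re.u := mul_le_mul_of_nonneg_right (by linarith [c.sm.zt, hτ.2]) hu.le
  nlinarith

theorem RcCtx.KS_eq (c : RcCtx C p d t N K es ts ζ τ r σ i S) : K * r * σ = K * S := by
  rw [c.hS, mul_assoc]

/-- TWIN of `re_q_stat`:   `I(Z_K; C' | C) = H(Z_K | C) - H(Z_K | C', C)`,   `H(Z_K | C', C) ≥ H(Z_K | C') - log 64` (`re_det_a_dn`, `re_entC_det`);   scores `rc_typ_G`, `rc_typ_C` at the cuts `i` and `i + K S`, `w = K S`.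
OWNER helper159 (leaf L-256-RC-P-Q2), EST 150 lines -/
theorem rc_q_stat (c : RcCtx C p d t N K es ts ζ τ r σ i S) :
    c.Q.P.miC (c.Q.Zc (2 ^ (C.m * σ)) (K * r)) c.Q.C' c.Q.C
      ≤ ((C.Jp i (K * S) - C.Jp (i + K * S) (K * S)) / (σ : ℝ) + τ) * Real.log ((2 ^ (C.m * σ) : ℕ) : ℝ) := by
  have hu := re_aux_u_pos c.sm
  have hτ := re_aux_tau_pos c.sm
  have hσ := c.sig_ge
  have hσ0 : (0 : ℝ) < σ := by linarith
  have hH := c.H_pos
  have hKS := c.KS_eq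
  have hq1 : (1 : ℝ) ≤ C.re.q := by exact_mod_cast c.q_pos
  have hKSq : ((K * S : ℕ) : ℝ) ≤ C.re.q := by
    exact_mod_cast c.KS_le
  obtain ⟨Z, hZ⟩ : ∃ Z : C.At → ℤ × ℤ, Z = C.re.Zc (i + K * S) 0 (2 ^ (C.re.m * σ)) (K * r) := ⟨_, rfl⟩
  show c.ok.P.miC (C.re.Zc (i + K * S) 0 (2 ^ (C.re.m * σ)) (K * r)) (C.re.nm (i + K * S) (i + K * S) 0) (C.re.nm (i + K * S) i 0) ≤ _
  rw [← hZ]
  refine le_trans (le_of_eq (ent_miC_eq c.ok.P Z _ _)) ?_
  -- upper bound of `H(Z | C)`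
  have tZ := c.typZ (k := K * r) (le_of_eq hKS)
  rw [hKS, ← hZ] at tZ
  have hdet := re_aux_det_Z C.re hH (i + K * S) i 0 σ (K * r)
  rw [hKS, ← hZ] at hdet
  have up := re_aux_ent_le c.sm c.q_pos c.ok.P Z (C.re.nm (i + K * S) i 0)
    (re_aux_typ2 C.re ζ tZ) (re_aux_typ2 C.re ζ (c.typC c.i0 (Nat.le_add_right _ _)))
    (B := 2 * ((K * S : ℕ) : ℝ)) (one_le_pow₀ (by norm_num)) (by
      rw [re_aux_log_pow, add_mul]
      have := (mul_pos c.sm.t_pos hu).le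
      push_cast
      linarith) (by linarith) hdet
  -- lower bound of `H(Z | C')`
  have tZ' : reTyp c.ok.P (pair Z (C.re.nm (i + K * S) (i + K * S) 0)) (C.Gn (i + K * S) (K * S) * C.re.u) (ζ * C.re.u) (C.re.dl ζ) := by
    have h1 := c.typG (i' := i + K * S) (w := K * S) c.b_pos le_rfl le_rfl
    refine re_typ_congr h1 fun ω ω' => ?_
    have h2 := (re_Z_iff C.re hH (i + K * S) (i + K * S) 0 σ (K * r) ω ω').symm
    rw [hKS, ← hZ, Nat.zero_add] at h2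
    exact h2
  have hstep := rc_gn_steps c.ok c.sm c.b_pos c.b_le (Nat.zero_le (K * S)) c.KS_le
  have hdiag := (abs_le.1 (rc_gn_diag c.ok c.sm c.b_pos c.b_le)).2
  have hζ1 : ζ ≤ 1 / 100 := by
    have := c.sm.zt
    have := c.sm.t1
    linarith
  have lo := re_aux_ent_ge c.sm c.q_pos c.ok.P Z (C.re.nm (i + K * S) (i + K * S) 0) (re_aux_typ2 C.re ζ tZ')
    (re_aux_typ2 C.re ζ (c.typC c.b_pos le_rfl)) hτ.2.le hτ.2.le (by
      push_cast at hstep hKSq ⊢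
      linarith)
  have mid := re_entC_det c.ok.P Z (pair (C.re.nm (i + K * S) (i + K * S) 0) (C.re.nm (i + K * S) i 0)) (C.re.nm (i + K * S) (i + K * S) 0)
    (N := 1 * 2 ^ 6) (re_det_pair zero_le_one (re_det_of_eq id fun ω => rfl)
      (re_det_a_dn C.re hH 0 (Nat.le_add_right i (K * S)) le_rfl))
  have hlog := re_aux_log_const c.sm (c := 1 * 2 ^ 6) (by norm_num) (by norm_num)
  have hlM : Real.log ((2 ^ (C.m * σ) : ℕ) : ℝ) = σ * C.re.u := re_log_M C.re σ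
  rw [hlM]
  unfold RcDoc.Jp
  have e1 : ((C.Gn i (K * S) - C.Dn i - (C.Gn (i + K * S) (K * S) - C.Dn (i + K * S))) / (σ : ℝ) + τ) * (σ * C.re.u)
      = (C.Gn i (K * S) - C.Dn i - (C.Gn (i + K * S) (K * S) - C.Dn (i + K * S))) * C.re.u + τ * σ * C.re.u := by
    field_simp
  rw [e1]
  have e2 : τ * C.re.u ≤ τ * σ * C.re.u := mul_le_mul_of_nonneg_right (le_mul_of_one_le_right hτ.1.le hσ) hu.le
  have e3 : (4 * ζ + t + τ / 10) * C.re.u ≤ τ * C.re.u :=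
    mul_le_mul_of_nonneg_right (by linarith [c.sm.zt, c.sm.tz, hτ.2]) hu.le
  nlinarith

/-- TWIN of `re_q_pt`:   `H(O_1 | C) ≤ H(nm (i+S) | nm i) + log 2^8` (`re_det_O`, `n = K S`), `re_typ_pair` (`re_det_a_dn`), `re_typ_entC_le` (branching `re_det_a_up`), `rc_typ_C` at `i`, `i + S`;   `Dp (i+S) - Dp i = Dn (i+S) - Dn i`.
OWNER helper159 (leaf L-256-RC-P-Q3), EST 120 lines -/
theorem rc_q_pt (c : RcCtx C p d t N K es ts ζ τ r σ i S) :
    c.Q.P.entC (c.Q.Oc (2 ^ (C.m * σ)) r) c.Q.C ≤ ((C.Dp (i + S) - C.Dp i) / (σ : ℝ) + τ) * Real.log ((2 ^ (C.m * σ) : ℕ) : ℝ) := by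
  have hu := re_aux_u_pos c.sm
  have hτ := re_aux_tau_pos c.sm
  have hσ := c.sig_ge
  have hσ0 : (0 : ℝ) < σ := by linarith
  have hH := c.H_pos
  have hSK := c.S_le
  have hiS : i + S ≤ i + K * S := Nat.add_le_add_left hSK _
  have hSq : (S : ℝ) ≤ C.re.q := by
    have := c.KS_le
    exact_mod_cast (by omega : S ≤ C.q)
  show c.ok.P.entC (C.re.Oc (i + K * S) i 0 (2 ^ (C.re.m * σ)) r) (C.re.nm (i + K * S) i 0) ≤ _
  have hO := re_det_O C.re hH i 0 r σ (K * S) (by rw [← c.hS]; exact hSK)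
  rw [← c.hS] at hO
  have s1 := re_entC_det_left c.ok.P _ _ _ hO
  have tC1 := c.typC (i' := i + S) (by have := c.i0; omega) hiS
  have tC := c.typC (i' := i) c.i0 (Nat.le_add_right _ _)
  have tp := re_aux_typ_adj c.sm c.ok.P _ _ tC1 (by norm_num) (by norm_num)
    (re_det_a_dn C.re hH 0 (Nat.le_add_right i S) hiS)
  have s2 := re_aux_ent_le c.sm c.q_pos c.ok.P (C.re.nm (i + K * S) (i + S) 0) (C.re.nm (i + K * S) i 0) tp (re_aux_typ2 C.re ζ tC)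
    (B := 4 * (S : ℝ)) (one_le_mul_of_one_le_of_one_le (by norm_num) (one_le_pow₀ (by norm_num))) (by
      rw [Real.log_mul (by norm_num) (by positivity), re_aux_log_pow, add_mul, Nat.add_sub_cancel_left]
      have := re_aux_log_const c.sm (c := 2 ^ 6) (by norm_num) (by norm_num)
      push_cast
      linarith) (by linarith) (re_det_a_up C.re hH 0 (Nat.le_add_right i S) hiS)
  have hlog := re_aux_log_const c.sm (c := 2 ^ 8) (by norm_num) (by norm_num)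
  have hlM : Real.log ((2 ^ (C.m * σ) : ℕ) : ℝ) = σ * C.re.u := re_log_M C.re σ
  rw [hlM]
  unfold RcDoc.Dp
  have e1 : ((C.Dn (i + S) - C.sh - (C.Dn i - C.sh)) / (σ : ℝ) + τ) * (σ * C.re.u)
      = (C.Dn (i + S) - C.Dn i) * C.re.u + τ * σ * C.re.u := by
    field_simp
    ring
  rw [e1]
  have e2 : τ * C.re.u ≤ τ * σ * C.re.u := mul_le_mul_of_nonneg_right (le_mul_of_one_le_right hτ.1.le hσ) hu.le
  have e3 : (3 * ζ + t + τ / 20) * C.re.u ≤ τ * C.re.u :=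
    mul_le_mul_of_nonneg_right (by linarith [c.sm.zt, c.sm.tz, hτ.2]) hu.le
  nlinarith

/-- the side data of the time query is a function of the ancestor at an intermediate cut and of the particle -/
theorem rc_t_side (C : RcDoc) (hR : 0 < C.R0) {i b a' : ℕ} (hia : i ≤ a') (hab : a' ≤ b) (hbq : b ≤ C.q) (M n : ℕ) (a a₂ : C.At)
    (h1 : C.anc a' a = C.anc a' a₂) (h2 : a.2 = a₂.2) :
    C.re.anc b i a = C.re.anc b i a₂ ∧ C.re.nm b i 0 a = C.re.nm b i 0 a₂ ∧ C.re.Zc b 0 M n a = C.re.Zc b 0 M n a₂ ∧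
      C.re.Wc b i 0 M n a = C.re.Wc b i 0 M n a₂ := by
  have hib : i ≤ b := hia.trans hab
  have hanc : C.re.anc b i a = C.re.anc b i a₂ := by
    rw [← re_anc_anc C.re hia hab a, ← re_anc_anc C.re hia hab a₂, rc_re_anc C hab hbq, rc_re_anc C hab hbq, h1]
  have hanc' : C.anc i a = C.anc i a₂ := by
    rw [← rc_re_anc C hib hbq, ← rc_re_anc C hib hbq, hanc]
  have hpt : C.pt i a = C.pt i a₂ := by
    unfold RcDoc.pt
    rw [h2, hanc']
  have hback : C.re.back b i a = C.re.back b i a₂ := by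
    rw [rc_re_back C hib hbq, rc_re_back C hib hbq, hpt]
  refine ⟨hanc, ?_, ?_, ?_⟩
  · unfold ReDoc.nm
    rw [hanc, hback]
  · unfold ReDoc.Zc
    rw [rc_re_Zv C hR, rc_re_Zv C hR]
    unfold RcDoc.Zv
    rw [h2]
  · unfold ReDoc.Wc ReDoc.Wv ReDoc.hv
    rw [hback]

/-- the numerics of the classical lem:rt-time -/
theorem rc_t_num (sm : ReSm C.re t ζ τ) (hq : 1 ≤ C.q) (hN : 1 ≤ N) {σ : ℕ} (hσ : 1 ≤ σ) :
    C.re.tl t * (C.re.tl (-(τ * σ))) ^ (2 / 3 : ℝ) + C.re.tl (-N) ≤ τ := by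
  have hfin := re_aux_time_num (D := C.re) sm hq hN
  have hτ := (re_aux_tau_pos sm).1
  have ht := sm.t_pos
  have htl1 : 1 ≤ C.re.tl t := le_trans (by norm_num) sm.big
  have hσ' : (1 : ℝ) ≤ σ := by exact_mod_cast hσ
  have h1 : C.re.tl (-(τ * σ)) ≤ C.re.tl (10 * t - τ) + C.re.tl (-N) := by
    have a1 : C.re.tl (-(τ * σ)) ≤ C.re.tl (10 * t - τ) := re_tl_mono _ (by nlinarith)
    have a2 := re_tl_pos C.re (-N)
    linarith
  have h2 : (C.re.tl (-(τ * σ))) ^ (2 / 3 : ℝ) ≤ (C.re.tl (10 * t - τ) + C.re.tl (-N)) ^ (2 / 3 : ℝ) :=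
    Real.rpow_le_rpow (re_tl_pos _ _).le h1 (by norm_num)
  have h3 : 0 ≤ C.re.tl t * (C.re.tl (10 * t - τ) + C.re.tl (-N)) ^ (2 / 3 : ℝ) + C.re.tl (-N) := by
    have := re_tl_pos C.re t
    have := re_tl_pos C.re (-N)
    have := re_tl_pos C.re (10 * t - τ)
    positivity
  calc C.re.tl t * (C.re.tl (-(τ * σ))) ^ (2 / 3 : ℝ) + C.re.tl (-N)
      ≤ C.re.tl t * (C.re.tl (10 * t - τ) + C.re.tl (-N)) ^ (2 / 3 : ℝ) + C.re.tl (-N) := by
        have := mul_le_mul_of_nonneg_left h2 (re_tl_pos C.re t).le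
        linarith
    _ ≤ C.re.tl t * (C.re.tl t * (C.re.tl (10 * t - τ) + C.re.tl (-N)) ^ (2 / 3 : ℝ) + C.re.tl (-N)) := le_mul_of_one_le_left h3 htl1
    _ ≤ τ := hfin

/-- the ratio of the benchmarks -/
theorem rc_t_ratio (C : RcDoc) (he : 0 < C.e) (d x : ℝ) (a l : ℕ) : C.re.tl x * C.Eb d a / C.Eb d l = C.re.tl (x - d * ((l : ℝ) - a)) := by
  have e1 : ∀ n : ℕ, C.Eb d n = C.e * C.re.tl (d * n) := fun n => rfl
  rw [e1, e1, div_eq_iff (mul_pos he (re_tl_pos _ _)).ne']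
  have : C.re.tl x * C.re.tl (d * a) = C.re.tl (x - d * ((l : ℝ) - a)) * C.re.tl (d * l) := by
    rw [← re_tl_add, ← re_tl_add]
    congr 1
    ring
  calc C.re.tl x * (C.e * C.re.tl (d * a)) = C.e * (C.re.tl x * C.re.tl (d * a)) := by ring
    _ = C.e * (C.re.tl (x - d * ((l : ℝ) - a)) * C.re.tl (d * l)) := by rw [this]
    _ = _ := by ring


/-- the list step of the classical lem:rt-time -/
theorem rc_t_list (C : RcDoc) (hR : 0 < C.R0) {i b σ k k' n : ℕ} (hkk : k ≤ k') (hlb : i + k' * σ ≤ b) (hbq : b ≤ C.q) {G0 : ℝ}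
    (L : ℤ × ReName × (ℤ × ℤ) × (ℤ × ℤ × ℤ) → Finset ℤ) (hL : ∀ y, ((L y).card : ℝ) ≤ G0) (hG0 : 0 ≤ G0) :
    ∃ Lst : ℕ → C.Pa → Finset ℕ, (∀ I π, ((Lst I π).card : ℝ) ≤ G0) ∧
      ∀ a : C.At, C.re.tc b i (2 ^ (C.re.m * σ)) k' a ∈ L (pair (C.re.tc b i (2 ^ (C.re.m * σ)) k) (pair (C.re.nm b i 0)
          (pair (C.re.Zc b 0 (2 ^ (C.re.m * σ)) n) (C.re.Wc b i 0 (2 ^ (C.re.m * σ)) n))) a) →
        C.anc (i + k' * σ) a ∈ Lst (C.anc (i + k * σ) a) a.2 := by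
  obtain ⟨Y, hY⟩ : ∃ Y : C.At → ℤ × ReName × (ℤ × ℤ) × (ℤ × ℤ × ℤ), Y = pair (C.re.tc b i (2 ^ (C.re.m * σ)) k) (pair (C.re.nm b i 0)
          (pair (C.re.Zc b 0 (2 ^ (C.re.m * σ)) n) (C.re.Wc b i 0 (2 ^ (C.re.m * σ)) n))) := ⟨_, rfl⟩
  rw [← hY]
  have hib : i ≤ b := le_trans (Nat.le_add_right _ _) hlb
  have hab : i + k * σ ≤ b := le_trans (Nat.add_le_add_left (Nat.mul_le_mul_right _ hkk) _) hlb
  have hside : ∀ a a₂ : C.At, C.anc (i + k * σ) a = C.anc (i + k * σ) a₂ → a.2 = a₂.2 → Y a = Y a₂ ∧ C.anc i a = C.anc i a₂ := by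
    intro a a₂ h1 h2
    obtain ⟨s1, s2, s3, s4⟩ := rc_t_side C hR (Nat.le_add_right i (k * σ)) hab hbq (2 ^ (C.re.m * σ)) n a a₂ h1 h2
    refine ⟨?_, by rw [← rc_re_anc C hib hbq, ← rc_re_anc C hib hbq]; exact s1⟩
    rw [hY]
    show (C.re.tc b i (2 ^ (C.re.m * σ)) k a, C.re.nm b i 0 a, C.re.Zc b 0 (2 ^ (C.re.m * σ)) n a, C.re.Wc b i 0 (2 ^ (C.re.m * σ)) n a)
      = (C.re.tc b i (2 ^ (C.re.m * σ)) k a₂, C.re.nm b i 0 a₂, C.re.Zc b 0 (2 ^ (C.re.m * σ)) n a₂, C.re.Wc b i 0 (2 ^ (C.re.m * σ)) n a₂)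
    rw [s2, s3, s4, re_tc_eq C.re hab a, re_tc_eq C.re hab a₂, s1, rc_re_anc C hab hbq, rc_re_anc C hab hbq, h1]
  refine ⟨fun I π => if h : ∃ a : C.At, C.anc (i + k * σ) a = I ∧ a.2 = π then
      (L (Y h.choose)).image (fun x => (x + 2 ^ (C.re.m * σ * k') * (C.anc i h.choose : ℤ)).toNat) else ∅, fun I π => ?_, fun a ha => ?_⟩
  · beta_reduce
    by_cases h : ∃ a : C.At, C.anc (i + k * σ) a = I ∧ a.2 = π
    · rw [dif_pos h]
      exact le_trans (Nat.cast_le.2 Finset.card_image_le) (hL _)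
    · rw [dif_neg h]
      simpa using hG0
  · have h : ∃ a₂ : C.At, C.anc (i + k * σ) a₂ = C.anc (i + k * σ) a ∧ a₂.2 = a.2 := ⟨a, rfl, rfl⟩
    beta_reduce
    rw [dif_pos h]
    obtain ⟨e1, e2⟩ := hside h.choose a h.choose_spec.1 h.choose_spec.2
    rw [e1, e2]
    refine Finset.mem_image.2 ⟨_, ha, ?_⟩
    rw [re_tc_eq C.re hlb a, rc_re_anc C hib hbq, sub_add_cancel, Int.toNat_natCast, rc_re_anc C hlb hbq]

/-- **lem:rt-time**, classical, hereditary form.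
PLAN.   `k = k'`: `surC ≥ 0 > -τ log M` (`ent_surC_nonneg`-type), the event is empty on the support.   `k < k'`: `a' = i + k σ`, `l = i + k' σ ≤ i + S < q`, `b = i + K S`.
(1) the side data `Y = (θ_k, C, Y#)` is a function of `(C.anc a' a, a.2)`:  `re_tc_eq` (`θ_k = anc a' - 2^.. anc i`), `rc_re_anc`, `re_anc_anc` (`anc i` from `anc a'`), `C = nm i`, `W` = function of `pt i` = function of `(anc i, ray)`, `Z` = function of `ray`.
(2) `re_popular` with `G = M^(d (k'-k) - τ) = tl (σ (d (k'-k) - τ))`: lists `L y` of at most `G` cells `θ_k'`;   `re_tc_eq`: `θ_k' = anc l - 2^.. anc i`, so `Lst I π` = the image of `L (g I π)` under `z ↦ (z + 2^.. anc_i(I)).toNat`.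
(3) `timeF a' l G Lst`:  probability `≤ tl t (G Eb d a' / Eb d l)^(2/3) + tl (-N) = tl (t - 2 σ τ / 3) + tl (-N) ≤ τ`   (`Eb d a' / Eb d l = tl (-d σ (k'-k))`; `σ ≥ 1`, `2000 t ≤ τ`, `ReSm.del`, `ReSm.big`).
OWNER helper159 (leaf L-256-RC-P-T), EST 350 lines -/
theorem rc_q_time (c : RcCtx C p d t N K es ts ζ τ r σ i S) (k k' : ℕ) (hk : k ≤ k') (hk' : k' ≤ r) :
    c.Q.P.pr (fun ω => c.Q.P.surC (c.Q.tc (2 ^ (C.m * σ)) k')
        (pair (c.Q.tc (2 ^ (C.m * σ)) k) (pair c.Q.C (c.Q.Yc (2 ^ (C.m * σ)) (K * r)))) ω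
      < (d * ((k' : ℝ) - k) - τ) * Real.log ((2 ^ (C.m * σ) : ℕ) : ℝ)) ≤ τ := by
  have hu := re_aux_u_pos c.sm
  have hτ := re_aux_tau_pos c.sm
  have hσ : (1 : ℝ) ≤ σ := by exact_mod_cast c.s1
  have hσ0 : (0 : ℝ) < σ := by linarith
  have hR := rc_ok_R0 c.ok
  obtain ⟨c0, hpre⟩ := c.ok.pre
  obtain ⟨P, hP⟩ : ∃ P, P = c.ok.P := ⟨_, rfl⟩
  obtain ⟨X, hX⟩ : ∃ X : C.At → ℤ, X = C.re.tc (i + K * S) i (2 ^ (C.re.m * σ)) k' := ⟨_, rfl⟩
  obtain ⟨Y, hY⟩ : ∃ Y : C.At → ℤ × ReName × (ℤ × ℤ) × (ℤ × ℤ × ℤ), Y = pair (C.re.tc (i + K * S) i (2 ^ (C.re.m * σ)) k) (pair (C.re.nm (i + K * S) i 0)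
    (pair (C.re.Zc (i + K * S) 0 (2 ^ (C.re.m * σ)) (K * r)) (C.re.Wc (i + K * S) i 0 (2 ^ (C.re.m * σ)) (K * r)))) := ⟨_, rfl⟩
  suffices goal : P.pr (fun ω => P.surC X Y ω < (d * ((k' : ℝ) - k) - τ) * (σ * C.re.u)) ≤ τ by
    rw [hX, hY, hP, ← re_log_M] at goal
    exact goal
  rcases eq_or_lt_of_le hk with rfl | hlt
  · rw [sub_self, mul_zero, zero_sub]
    have h0 : P.pr (fun ω => P.surC X Y ω < -τ * (σ * C.re.u)) = 0 := by
      refine ent_pr_eq_zero P fun ω hω => ?_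
      have h1 := ent_surC_nonneg P X Y hω
      have h2 : 0 < τ * (σ * C.re.u) := mul_pos hτ.1 (mul_pos hσ0 hu)
      rw [not_lt]
      linarith
    rw [h0]
    exact hτ.1.le
  · obtain ⟨G0, hG0⟩ : ∃ G0, G0 = C.re.tl ((d * ((k' : ℝ) - k) - τ) * σ) := ⟨_, rfl⟩
    have hG0p : 0 < G0 := hG0 ▸ re_tl_pos C.re _
    have hlogG : Real.log G0 = (d * ((k' : ℝ) - k) - τ) * (σ * C.re.u) := by
      rw [hG0, re_tl_exp, Real.log_exp]
      ring
    obtain ⟨L, hL, hLm⟩ := re_popular P X Y hG0p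
    have hkS : k' * σ ≤ S := by
      rw [c.hS]
      exact Nat.mul_le_mul_right _ hk'
    have hS1 : 1 ≤ S := by
      rw [c.hS]
      exact Nat.mul_pos c.r1 c.s1
    have h2S : 2 * S ≤ K * S := Nat.mul_le_mul_right _ c.K2
    have ha0 : 0 < i + k * σ := lt_of_lt_of_le c.i0 (Nat.le_add_right _ _)
    have hal : i + k * σ < i + k' * σ := Nat.add_lt_add_left (Nat.mul_lt_mul_of_pos_right hlt c.s1) _
    have hlb : i + k' * σ < i + K * S := by omega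
    have hbq : i + K * S < C.q := c.dom
    obtain ⟨Lst, hLst, hmem⟩ := rc_t_list C hR (i := i) (b := i + K * S) (σ := σ) (k := k) (k' := k') (n := K * r) hk hlb.le hbq.le L hL hG0p.le
    rw [← hX, ← hY] at hmem
    have htime := hpre.timeF (i + k * σ) (i + k' * σ) ha0 hal (hlb.trans hbq) G0 Lst hLst
    have hpr : P.pr (fun ω => P.surC X Y ω < (d * ((k' : ℝ) - k) - τ) * (σ * C.re.u))
        ≤ P.pr (fun a => C.anc (i + k' * σ) a ∈ Lst (C.anc (i + k * σ) a) a.2) :=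
      ent_pr_mono P fun ω hω h1 => hmem ω (hLm ω hω (by rw [hlogG]; exact h1))
    have hpr2 : P.pr (fun a => C.anc (i + k' * σ) a ∈ Lst (C.anc (i + k * σ) a) a.2)
        ≤ C.tl t * (G0 * C.Eb d (i + k * σ) / C.Eb d (i + k' * σ)) ^ (2 / 3 : ℝ) + C.tl (-N) := by
      rw [hP]
      unfold RcDoc.Ok.P
      rw [rc_law_pr, div_le_iff₀ (rc_ok_tot_pos c.ok)]
      exact htime
    have hcast : (((i + k' * σ : ℕ) : ℝ) - ((i + k * σ : ℕ) : ℝ)) = ((k' : ℝ) - k) * σ := by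
      push_cast
      ring
    have hratio : G0 * C.Eb d (i + k * σ) / C.Eb d (i + k' * σ) = C.re.tl (-(τ * σ)) := by
      rw [hG0, rc_t_ratio C hpre.e_pos, hcast]
      congr 1
      ring
    rw [hratio] at hpr2
    have hq1 : 1 ≤ C.q := by omega
    exact hpr.trans (hpr2.trans (rc_t_num c.sm hq1 c.N1 c.s1))

theorem rc_s_markov {Ω α Θ : Type} [Fintype Ω] (P : FLaw Ω) (X : Ω → α) (Sl : Θ → Ω → Prop) (θ : α → Θ) (B : α → Prop) (τ : ℝ)
    (hB : ∀ x, B x → τ * P.pr (fun ω => X ω = x) ≤ P.pr (fun ω => X ω = x ∧ Sl (θ x) ω)) :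
    τ * P.pr (fun ω => B (X ω)) ≤ P.pr (fun ω => Sl (θ (X ω)) ω) := by
  have hmap : ∀ ω ∈ (Finset.univ : Finset Ω), X ω ∈ Finset.univ.image X := fun ω _ => Finset.mem_image_of_mem _ (Finset.mem_univ _)
  have key : ∀ x, τ * ∑ ω, (if X ω = x then (if B (X ω) then P.p ω else 0) else 0)
      ≤ ∑ ω, (if X ω = x then (if Sl (θ (X ω)) ω then P.p ω else 0) else 0) := by
    intro x
    by_cases hx : B x
    · have h1 := hB x hx
      have e1 : ∑ ω, (if X ω = x then (if B (X ω) then P.p ω else 0) else 0) = P.pr (fun ω => X ω = x) := by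
        unfold FLaw.pr
        refine Finset.sum_congr rfl fun ω _ => ?_
        by_cases hω : X ω = x
        · rw [if_pos hω, if_pos hω, hω, if_pos hx]
        · rw [if_neg hω, if_neg hω]
      have e2 : ∑ ω, (if X ω = x then (if Sl (θ (X ω)) ω then P.p ω else 0) else 0) = P.pr (fun ω => X ω = x ∧ Sl (θ x) ω) := by
        unfold FLaw.pr
        refine Finset.sum_congr rfl fun ω _ => ?_
        by_cases hω : X ω = x
        · by_cases hs : Sl (θ x) ω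
          · have hs' : Sl (θ (X ω)) ω := by rwa [hω]
            rw [if_pos hω, if_pos hs']
            exact (if_pos (⟨hω, hs⟩ : X ω = x ∧ Sl (θ x) ω)).symm
          · have hs' : ¬ Sl (θ (X ω)) ω := by rwa [hω]
            rw [if_pos hω, if_neg hs']
            exact (if_neg (fun h : X ω = x ∧ Sl (θ x) ω => hs h.2)).symm
        · rw [if_neg hω]
          exact (if_neg (fun h : X ω = x ∧ Sl (θ x) ω => hω h.1)).symm
      rw [e1, e2]
      exact h1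
    · have e1 : ∑ ω, (if X ω = x then (if B (X ω) then P.p ω else 0) else 0) = 0 := by
        refine Finset.sum_eq_zero fun ω _ => ?_
        by_cases hω : X ω = x
        · rw [if_pos hω, hω, if_neg hx]
        · rw [if_neg hω]
      rw [e1, mul_zero]
      refine Finset.sum_nonneg fun ω _ => ?_
      have := P.nonneg ω
      split_ifs <;> first | exact this | exact le_rfl
  unfold FLaw.pr
  rw [← Finset.sum_fiberwise_of_maps_to hmap, ← Finset.sum_fiberwise_of_maps_to hmap, Finset.mul_sum]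
  refine Finset.sum_le_sum fun x _ => ?_
  rw [Finset.sum_filter, Finset.sum_filter]
  exact key x

/-- **lem:rt-slab-removal**, classical: Markov.
PLAN.   For a pair value `x` call `x` BAD if some unit `(n, c')` has `τ P(pair = x) < P(pair = x ∧ InSlab n c' w)`, `w = M^(-es r) = tl (-(es S))` (rpow identity as in `re_q_slab`); choose `pn x, pc x` = such a witness (else `((1,0,0), 0)`).
The event is `{pair ∈ BAD}`;   `τ P(pair ∈ BAD) ≤ Σ_{x} P(pair = x ∧ InSlab (pn x) (pc x) w) = P(InSlab (pn pair) (pc pair) w) ≤ tl (-ts)` (`slabF`, `rc_law_pr`, `rc_re_nm`, `rc_re_Zv`; `rtSq z = z.1² + z.2²` by `rfl`).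
OWNER helper159 (leaf L-256-RC-P-S), EST 250 lines -/
theorem rc_q_slab (c : RcCtx C p d t N K es ts ζ τ r σ i S) (hts : C.tl (-ts) ≤ τ ^ 2) :
    c.Q.P.pr (fun ω => ∃ (n : ℝ × ℝ × ℝ) (c' : ℝ), n.1 ^ 2 + n.2.1 ^ 2 + n.2.2 ^ 2 = 1 ∧
      τ * c.Q.P.fib (pair c.Q.C c.Q.C') ω < c.Q.slabMass n c' ((((2 ^ (C.m * σ) : ℕ) : ℝ)) ^ (-(es * r))) ω) ≤ τ := by
  have hτ0 : 0 < τ := by
    have h1 := c.sm.t_pos
    have h2 := c.sm.tz
    have h3 := c.sm.zt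
    linarith
  have hR0 := rc_ok_R0 c.ok
  have hS0 : 0 < S := by
    rw [c.hS]
    exact Nat.mul_pos c.r1 c.s1
  have hw : (((2 ^ (C.m * σ) : ℕ) : ℝ)) ^ (-(es * r)) = C.tl (-(es * S)) := by
    unfold RcDoc.tl
    push_cast
    rw [← Real.rpow_natCast, ← Real.rpow_mul (by norm_num), c.hS]
    congr 1
    push_cast
    ring
  rw [hw]
  obtain ⟨c0, pre⟩ := c.ok.pre
  have hib : i ≤ i + K * S := Nat.le_add_right _ _
  have hbq : i + K * S ≤ C.q := c.dom.le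
  obtain ⟨X, hX⟩ : ∃ X : C.At → ReName × ReName, X = fun a => (C.nm i a, C.nm (i + K * S) a) := ⟨_, rfl⟩
  obtain ⟨B, hBd⟩ : ∃ B : ReName × ReName → Prop, B = fun x => ∃ θ : (ℝ × ℝ × ℝ) × ℝ, θ.1.1 ^ 2 + θ.1.2.1 ^ 2 + θ.1.2.2 ^ 2 = 1 ∧
      τ * c.ok.P.pr (fun a => X a = x) < c.ok.P.pr (fun a => X a = x ∧ C.InSlab θ.1 θ.2 (C.tl (-(es * S))) a) := ⟨_, rfl⟩
  obtain ⟨θ, hθ⟩ : ∃ θ : ReName × ReName → (ℝ × ℝ × ℝ) × ℝ, ∀ x, (θ x).1.1 ^ 2 + (θ x).1.2.1 ^ 2 + (θ x).1.2.2 ^ 2 = 1 ∧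
      (B x → τ * c.ok.P.pr (fun a => X a = x) ≤ c.ok.P.pr (fun a => X a = x ∧ C.InSlab (θ x).1 (θ x).2 (C.tl (-(es * S))) a)) := by
    have : ∀ x, ∃ θ : (ℝ × ℝ × ℝ) × ℝ, θ.1.1 ^ 2 + θ.1.2.1 ^ 2 + θ.1.2.2 ^ 2 = 1 ∧
        (B x → τ * c.ok.P.pr (fun a => X a = x) ≤ c.ok.P.pr (fun a => X a = x ∧ C.InSlab θ.1 θ.2 (C.tl (-(es * S))) a)) := by
      intro x
      by_cases hx : B x
      · have hx' := hx
        rw [hBd] at hx'
        obtain ⟨θ, h1, h2⟩ := hx'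
        exact ⟨θ, h1, fun _ => h2.le⟩
      · exact ⟨((1, 0, 0), 0), by norm_num, fun h => absurd h hx⟩
    choose θ hθ using this
    exact ⟨θ, hθ⟩
  have mk := rc_s_markov c.ok.P X (fun (θ : (ℝ × ℝ × ℝ) × ℝ) a => C.InSlab θ.1 θ.2 (C.tl (-(es * S))) a) θ B τ fun x hx => (hθ x).2 hx
  have sl := pre.slabF i S c.i0 hS0 c.dom (fun x => (θ x).1) (fun x => (θ x).2) fun x => (hθ x).1
  have htot := rc_ok_tot_pos c.ok
  have sl' : c.ok.P.pr (fun a => C.InSlab (θ (X a)).1 (θ (X a)).2 (C.tl (-(es * S))) a) ≤ C.tl (-ts) := by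
    show (C.law (rc_ok_nn c.ok) (rc_ok_tot_pos c.ok)).pr _ ≤ _
    rw [rc_law_pr, div_le_iff₀ htot, hX]
    exact sl
  have hfin : c.ok.P.pr (fun a => B (X a)) ≤ τ := by
    have : τ * c.ok.P.pr (fun a => B (X a)) ≤ τ * τ := by
      calc _ ≤ _ := mk
        _ ≤ C.tl (-ts) := sl'
        _ ≤ τ ^ 2 := hts
        _ = τ * τ := by ring
    exact le_of_mul_le_mul_left this hτ0
  refine le_trans (ent_pr_mono _ fun (ω : C.At) _ hω => ?_) hfin
  obtain ⟨n, c', hn, hlt⟩ := hω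
  have n1 : ∀ a : C.At, C.re.nm (i + K * S) i 0 a = C.nm i a := fun a => rc_re_nm C hR0 hib hbq a
  have n2 : ∀ a : C.At, C.re.nm (i + K * S) (i + K * S) 0 a = C.nm (i + K * S) a := fun a => rc_re_nm C hR0 le_rfl hbq a
  have n3 : ∀ a : C.At, C.re.Zv (i + K * S) 0 a = C.Zv a := fun a => rc_re_Zv C hR0 _ a
  have f1 : c.Q.P.fib (pair c.Q.C c.Q.C') ω = c.ok.P.pr (fun a => X a = X ω) := by
    show c.ok.P.pr (fun ω' : C.At => pair (C.re.nm (i + K * S) i 0) (C.re.nm (i + K * S) (i + K * S) 0) ω'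
      = pair (C.re.nm (i + K * S) i 0) (C.re.nm (i + K * S) (i + K * S) 0) ω) = _
    simp only [pair, n1, n2, hX]
  have f2 : c.Q.slabMass n c' (C.tl (-(es * S))) ω = c.ok.P.pr (fun a => X a = X ω ∧ C.InSlab n c' (C.tl (-(es * S))) a) := by
    show c.ok.P.pr (fun ω' : C.At => C.re.nm (i + K * S) i 0 ω' = C.re.nm (i + K * S) i 0 ω ∧
      C.re.nm (i + K * S) (i + K * S) 0 ω' = C.re.nm (i + K * S) (i + K * S) 0 ω ∧
      |n.1 * (C.re.Zv (i + K * S) 0 ω').1 + n.2.1 * (C.re.Zv (i + K * S) 0 ω').2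
        + n.2.2 * ((C.re.Zv (i + K * S) 0 ω').1 ^ 2 + (C.re.Zv (i + K * S) 0 ω').2 ^ 2) - c'| ≤ C.tl (-(es * S))) = _
    simp only [n1, n2, n3, hX, Prod.mk.injEq, RcDoc.InSlab, rtSq, and_assoc]
  rw [f1, f2] at hlt
  rw [hBd]
  exact ⟨(n, c'), hn, hlt⟩

/-- **one classical query** (glue; copy of `re_q_ok`) -/
theorem rc_q_ok (c : RcCtx C p d t N K es ts ζ τ r σ i S) (hts : C.tl (-ts) ≤ τ ^ 2) {A : ℝ} (hA : 1 ≤ A) :
    c.Q.Ok (2 ^ (C.m * σ)) r K A d τ es ((C.Dp (i + S) - C.Dp i) / (σ : ℝ)) 0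
      ((C.Jp i (K * S) - C.Jp (i + K * S) (K * S)) / (σ : ℝ)) (fun l => C.Jp i (l * σ) / (σ : ℝ)) := by
  have hH := rc_re_H_pos C (rc_ok_R0 c.ok)
  have hib : i ≤ i + K * S := Nat.le_add_right _ _
  have hτ : 0 < τ := by
    have h1 := c.sm.t_pos
    have h2 := c.sm.tz
    have h3 := c.sm.zt
    linarith
  refine ⟨?_, ?_, ?_, ?_, ?_, ?_, ?_, ?_, ?_, ?_, ?_, ?_⟩
  · intro ω
    have h := (re_q_bd C.re hH 0 hib ω).1
    exact ⟨h.1.trans hA, h.2.trans hA⟩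
  · intro ω
    have h := (re_q_bd C.re hH 0 hib ω).2.1
    exact ⟨h.1.trans hA, h.2.1.trans hA, h.2.2.trans hA⟩
  · intro ω
    exact (re_q_bd C.re hH 0 hib ω).2.2.trans hA
  · intro ω a
    have h := re_q_inc C.re hH i 0 (K * S) ω a
    refine h.trans ?_
    have h1 : rdLen (K * S * C.re.m) = 1 / (((2 ^ (C.m * σ) : ℕ) : ℝ)) ^ (K * r) := by
      show rdLen (K * S * C.m) = _
      unfold rdLen
      rw [c.hS]
      push_cast
      rw [← pow_mul, inv_pow, one_div]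
      congr 2
      ring
    rw [h1]
    have hpos : (0 : ℝ) < (((2 ^ (C.m * σ) : ℕ) : ℝ)) ^ (K * r) := by positivity
    exact div_le_div_of_nonneg_right hA hpos.le
  · intro ω ω' h1 h2
    show C.re.Ov _ i 0 ω = C.re.Ov _ i 0 ω'
    unfold ReDoc.Ov
    have h1' : C.re.nm (i + K * S) i 0 ω = C.re.nm (i + K * S) i 0 ω' := h1
    have h2' : C.re.nm (i + K * S) (i + K * S) 0 ω = C.re.nm (i + K * S) (i + K * S) 0 ω' := h2
    rw [h1', h2']
  · exact fun k k' hk hk' => rc_q_time c k k' hk hk'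
  · exact fun k k' hk hk' => rc_q_ang c k k' hk hk'
  · exact rc_q_angU c
  · exact rc_q_stat c
  · exact rc_q_pt c
  · have h1 : 0 ≤ c.Q.P.entC (c.Q.Yc (2 ^ (C.m * σ)) r) c.Q.C := ent_entC_nonneg _ _ _
    have h2 : 0 ≤ Real.log ((2 ^ (C.m * σ) : ℕ) : ℝ) := Real.log_natCast_nonneg _
    have h3 : (0 - τ) * Real.log ((2 ^ (C.m * σ) : ℕ) : ℝ) ≤ 0 := by nlinarith
    have h4 : 0 ≤ (r : ℝ) * Real.log ((2 ^ (C.m * σ) : ℕ) : ℝ) := mul_nonneg (Nat.cast_nonneg _) h2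
    linarith
  · exact rc_q_slab c hts

end Claimed.Agent.R256
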