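-- KEEP
import Claimed.Agent.R256.Rc.ProfFl
import Claimed.Agent.R256.Rc.ProfArr
import Claimed.Agent.R256.Rc.ProfQry

/-!
# Row 256, unit RC, block (II-cl), file 5: EXIT `rc_prof : RcSrc ⟹ RnProfCl`      (architect helper159; design helper106; prefix `rc_`)
Overview, conventions and list of the leaves: header of `Rc/ProfBr.lean`.   Files: `ProfBr` (bridge, law, typical scores), `ProfFl` (preflattening), `ProfArr`, `ProfQry`, `Prof` (this file; consumed by `Rc/Contract.lean`).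
-/

set_option autoImplicit false

namespace Claimed.Agent.R256

open Claimed.Agent.R255
open Claimed.Agent.R255.FLaw (pair)
open scoped BigOperators
open Classical

variable {C : RcDoc} {p d t N c0 es ts ζ τ : ℝ} {K r σ i S : ℕ}

/-! ## M : glue -/

/-- OWNER helper159 (leaf L-256-RC-P-M), EST 30 lines -/
theorem rc_arr_mono {n : ℕ} {pd m e e' : ℝ} {D : ℕ → ℝ} {J : ℕ → ℕ → ℝ} (h : RnArrCl n pd m e D J) (he : e ≤ e') : RnArrCl n pd m e' D J := by
  exact
  { daLo := fun i i' h0 h1 h2 => by have := h.daLo i i' h0 h1 h2; linarith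
    low := fun i h0 h1 => by have := h.low i h0 h1; linarith
    top := by have := h.top; linarith
    jDiag := fun i h0 h1 => le_trans (h.jDiag i h0 h1) he
    jHi := fun i q h0 h1 h2 => by have := h.jHi i q h0 h1 h2; linarith
    jMono := fun i i' q h0 h1 h2 h3 => by have := h.jMono i i' q h0 h1 h2 h3; linarith
    mem := fun i q h0 h1 h2 => by have := h.mem i q h0 h1 h2; linarith }

/-- the trivial arrays (used when no query is admissible)
OWNER helper159 (leaf L-256-RC-P-M), EST 50 lines -/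
theorem rc_arr_triv (n : ℕ) {pd m e : ℝ} (h0 : 0 ≤ pd) (hm : m ≤ 2) (he : 0 ≤ e) : RnArrCl n pd m e (fun i => pd * i) (fun _ w => m * w) := by
  exact
  { daLo := fun i i' _ h1 _ => by
      have : (i : ℝ) ≤ i' := by exact_mod_cast h1
      nlinarith
    low := fun i _ _ => by
      have : (0 : ℝ) ≤ pd * i := by positivity
      linarith
    top := by linarith
    jDiag := fun i _ _ => by simpa using he
    jHi := fun i q _ _ _ => by
      push_cast
      linarith
    jMono := fun i i' q _ _ _ _ => by linarith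
    mem := fun i q _ _ _ => by linarith }

/-- **one good classical document gives PROF_cl** -/
theorem rc_prof_doc {C : RcDoc} {p d t Nn es ts ζ τ : ℝ} {K r N M0 : ℕ} (h : C.Ok p d t Nn K es ts) (sm : ReSm C.re t ζ τ)
    (hNn : 1 ≤ Nn) (hd0 : 0 < d) (hd1 : d ≤ 1) (hpd : 0 ≤ p + d) (hr : 2 ≤ r) (hN : 1 ≤ N)
    (hK : 2 ≤ K) (hq : C.q = r ^ N) (hts : C.tl (-ts) ≤ τ ^ 2) (hM0 : M0 ≤ C.m) (k0 : ℕ) {A : ℝ}
    (hA : 1 ≤ A) : RnProfCl r N k0 K M0 A d (p + d) (3 - p) (2 * τ) τ es := by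
  have hq2 : 2 ≤ C.q := by
    rw [hq]
    calc 2 ≤ r := hr
      _ = r ^ 1 := (pow_one r).symm
      _ ≤ r ^ N := Nat.pow_le_pow_right (by omega) hN
  refine ⟨C.Dp, C.Jp, ?_, ?_⟩
  · rw [← hq]
    exact rc_arr h sm hNn hq2 hpd
  · intro k _ hkN i hi hdom
    rw [← hq] at hdom
    have hS : r ^ (N - k) = r * r ^ (N - k - 1) := by
      rw [← pow_succ']
      congr 1
      omega
    have hσ : 1 ≤ r ^ (N - k - 1) := Nat.one_le_pow _ _ (by omega)
    have c : RcCtx C p d t Nn K es ts ζ τ r (r ^ (N - k - 1)) i (r ^ (N - k)) :=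
      ⟨h, sm, hNn, hd0, hd1, by omega, hσ, hK, hS, hi, hdom⟩
    refine ⟨c.Q, C.m * r ^ (N - k - 1), ?_, ?_⟩
    · exact le_trans hM0 (Nat.le_mul_of_pos_right _ (by omega))
    · have := rc_q_ok c hts hA
      rw [Nat.cast_pow] at this
      exact this

/-- **BLOCK (II-cl)**.   GLUE = copy of `re_prof_doc` + `re_prof_main` + `re_prof_small`:   `r < 2` or `N = 0`: no query, `rc_arr_triv`;   otherwise `q = r^N ≥ 2`;   order of the constants:
`e τ es r N M0` → `ts` (source) → `τ' = min (min τ (e/2)) 1`, `ζ = τ'/100`, `t = min (ζ/40) (ts/2)` → `c0` (source at `t`, `N = 2`) → `m0` (`rc_flat`, `re_sm_exists` at `2t`, `re_tl_small (ts/2) (τ'^2)`, `M0`) → `C` → `C'` (`rc_flat`);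
arrays `rc_arr` (`p + d = 1 + 3d - 2Γ`, `3 - p = 2 - 2d + 2Γ`), queries `rc_q_ok` with `σ = r^(N-k-1)`, base `2^(m σ)`, `re_ok_mono`.
NEEDS THE STRICT DOMAIN `i + K r^(N-k) < r^N` in `RnProfCl` (asked from helper38, 22:20Z).
OWNER helper159 (leaf L-256-RC-P-GL), EST 200 lines -/
theorem rc_prof (Γ d : ℝ) (hd0 : 0 < d) (hd1 : d ≤ 1) (hΓ : 0 < Γ) (hΓd : Γ ≤ d) (h : RcSrc (1 + 2 * d - 2 * Γ) d 3)
    (r N k0 M0 : ℕ) (e τ es : ℝ) (he : 0 < e) (hτ : 0 < τ) (hes : 0 < es) :
    RnProfCl r N k0 3 M0 4 d (1 + 3 * d - 2 * Γ) (2 - 2 * d + 2 * Γ) e τ es := by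
  by_cases hsmall : r < 2 ∨ N = 0
  · refine ⟨_, _, rc_arr_triv _ (by linarith) (by linarith) he.le, ?_⟩
    intro k _ hk i hi hdom
    exfalso
    rcases hsmall with hr | hN
    · have h1 : r ^ N ≤ 1 := by
        interval_cases r
        · rw [zero_pow (by omega)]
          omega
        · simp
      omega
    · omega
  · have hr : 2 ≤ r := by omega
    have hN : 1 ≤ N := by omega
    obtain ⟨ts, hts, hD⟩ := h (r ^ N) es hes
    obtain ⟨τ', hτ'⟩ : ∃ τ' : ℝ, τ' = min (min τ (e / 2)) 1 := ⟨_, rfl⟩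
    have hτ'0 : 0 < τ' := by
      rw [hτ']
      exact lt_min (lt_min hτ (by positivity)) one_pos
    have hτ'τ : τ' ≤ τ := by
      rw [hτ']
      exact (min_le_left _ _).trans (min_le_left _ _)
    have hτ'e : τ' ≤ e / 2 := by
      rw [hτ']
      exact (min_le_left _ _).trans (min_le_right _ _)
    have hτ'1 : τ' ≤ 1 := by
      rw [hτ']
      exact min_le_right _ _
    obtain ⟨t, ht⟩ : ∃ t : ℝ, t = min (τ' / 100 / 40) (ts / 2) := ⟨_, rfl⟩
    have ht0 : 0 < t := by
      rw [ht]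
      exact lt_min (by positivity) (by positivity)
    have ht1 : 40 * t ≤ τ' / 100 := by
      have : t ≤ τ' / 100 / 40 := by
        rw [ht]
        exact min_le_left _ _
      linarith
    have ht2 : t ≤ ts / 2 := by
      rw [ht]
      exact min_le_right _ _
    obtain ⟨c0, hc0⟩ := hD t 2 ht0
    obtain ⟨m0, hm0⟩ := rc_flat (r ^ N) (1 + 2 * d - 2 * Γ) d t 2 c0 3 es ts ht0
    obtain ⟨m1, hm1⟩ := re_sm_exists (2 * t) (τ' / 100) τ' (r ^ N) (by positivity) (by linarith) (by linarith) hτ'1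
    obtain ⟨m2, hm2⟩ := re_tl_small (ts / 2) (τ' ^ 2) (by positivity) (by positivity)
    obtain ⟨C0, hq0, hmC0, hPre⟩ := hc0 (max (max m0 m1) (max m2 M0))
    obtain ⟨C, hq, hm, hOk⟩ := hm0 C0 hq0 (le_trans ((le_max_left _ _).trans (le_max_left _ _)) hmC0) hPre
    have hmC : max (max m0 m1) (max m2 M0) ≤ C.m := by
      rw [hm]
      exact hmC0
    have hts' : C.tl (-(ts - t)) ≤ τ' ^ 2 := by
      refine le_trans ?_ (hm2 C.re (le_trans ((le_max_left _ _).trans (le_max_right _ _)) hmC))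
      exact re_tl_mono C.re (by linarith)
    have hp := rc_prof_doc (M0 := M0) hOk (hm1 C.re hq (le_trans ((le_max_right _ _).trans (le_max_left _ _)) hmC))
      (by linarith) hd0 hd1 (by linarith) hr hN (by norm_num) hq hts'
      (le_trans ((le_max_right _ _).trans (le_max_right _ _)) hmC) k0 (A := 4) (by norm_num)
    have hpd : 1 + 2 * d - 2 * Γ + d = 1 + 3 * d - 2 * Γ := by ring
    have hm3 : 3 - (1 + 2 * d - 2 * Γ) = 2 - 2 * d + 2 * Γ := by ring
    rw [hpd, hm3] at hp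
    obtain ⟨Dd, J, hArr, hQ⟩ := hp
    refine ⟨Dd, J, rc_arr_mono hArr (by linarith), ?_⟩
    intro k hk0 hkN i hi hdom
    obtain ⟨q, b, hb, hok⟩ := hQ k hk0 hkN i hi hdom
    exact ⟨q, b, hb, re_ok_mono Nat.one_le_two_pow hτ'τ hok⟩

end Claimed.Agent.R256
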