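-- KEEP
import Claimed.Agent.R256.Base.RndCl
import Claimed.Agent.R256.Gen.Contract
import Claimed.Agent.R256.Rt.Contract
import Claimed.Agent.R256.Kin.Meas

/-!
# Row 256, unit RC, blocks PLANE-A-cl, PLANE-B-cl = prop:rt-plane, CLASSICAL half      (chief helper106; prefix `rc_`)      CONTRACT

Source: 08-round-entropy.tex l.215-235 (setting), l.272-330 (tiny-cap, classical paragraph l.312-322), l.340-430 (sec: patches, (L), (slice-reg), classical estimate l.414-430).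
ONE FREE STEP, NO LIMIT, NO SETUP, EXACT INEQUALITIES.   `E` valid and free, `Δ = E.s = 2^-n`; frame `φ` (width `r`, centre `A_*`); `Z = (A - A_*)/r`; labels of width `∈ [r/Kp, Kp r]`, thickness `≥ 1/Kp`.
The root state is supported (`ms` of the complement `= 0`) on particles with velocities
  (A) `|Z| ≤ Kp Δ`:                                                                    `val ≤ C Kp^C0`
  (B) `|Z| ≤ Kp`, `|d0 + α·Z + β|Z|²| ≤ Δ^20`, `|α|² + β² = 1`, `|α|² - 4βd0 ≥ P^-2`:       `val ≤ C Kp^C0 P^C0 2^((4η+ν) n)`.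
In the classical model `An = id`: `ms T k b S v = ∫_S |v|² dm` for all `T k b` (`rt_fc_ms_indep`), `m_l = ∫ θ_l |v|² dm`.

## PLANE-A (elementary, ~700 l.)
 A1 `rc_ang_cover`  (model free covering; also used by lem:rt-memory): the rows at the parent time with `|A - a0| ≤ ϱ` whose ray at the time `s ∈ [0, ℓ]` lies in the round box of a test of length `ℓ'`, width `r`, `r ℓ' ≤ ϱ ℓ`,
     are covered by round tests of length `ℓ`, width `ϱ`, total weight `≤ 2^12 (ϱ⁴ + r ϱ³)`.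
 A2 `rc_cover_ms`   a cover of a set of rows bounds the `ms` of its preimage under `co T` by `κ W` (`rt_cover_mass`, `gn_ms_eq_mu`).
 A3 `rc_planeA`     `m_l ≤ κ 2^12 (ϱ⁴ + r_l ϱ³)`, `ϱ = Kp Δ r`, `w_l ≥ (r/Kp)⁴ Kp^-1`: `m_l ≤ ρ w_l`, `ρ = κ 2^13 Kp^9 Δ³`; `gn_tr_le`, `gn_total`: `rd ≤ √ρ 2^n e`; `val = 2^(n/2)/(e √κ) rd ≤ 2^7 Kp^5`.

## PLANE-B (ARCHITECT POST, ~4k l.)      three independent blocks
 NORM + LAB  `rc_planeB_of_abs`:  push `|v|² dm` forward to NORMALISED rows `(Z, x, z) = φ.nc k0 (co T0 ω)` (`RcNu`): rays stay rays (`x + uZ, z + u|Z|²`, the centre of the frame moves on its own ray), admissible tests of length `1` in normalised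
     coordinates = admissible tests of length `ℓ0` (same polynomial, same `f`, width `r r'`, weight `r⁴ w`): `κ' = κ r⁴`.   Labels → cubes: a label lies in `≤ C Kp⁴` spatial `Δ`-cubes at its time; `m_l^(3/2) ≤ N^(1/2) Σ_c m_{l,c}^(3/2)`;
     `Σ_l m_{l,c}^(3/2) ≤ (Σ_l m_{l,c})^(3/2) ≤ μ(cube)^(3/2)` (`th_sum ≤ 1`; `x^(3/2)` is superadditive).
 ABS  `rc_absB : RcAbsB η`  (no model):
  1 PATCHES   grid of side `a = 1/(16 P)` in the `Z`-plane; in every charged cell choose a WITNESS `Z0` (an approximate zero: no exact zeros are needed); `(16 P Kp + 2)²` patches; convexity costs the square root of their number.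
              `γ = α + 2βZ0`, `|γ|² = D0 + 4β g(Z0)`, `e2 = γ/|γ|`, `e1 ⊥ e2`, `β~ = β/|γ|` (`|β~| ≤ 2P`);   `Â = Z - Z0`, `g(Z)/|γ| = ε0 + Â_2 + β~|Â|²`.
  2 CHARTS    unit position boxes (centre `(x_c, z_c)`); a cube at a time `u ≤ 1` meets the rays of `≤ C Kp^4` boxes.   `x^ = x - x_c - uZ0`, `z^ = z - z_c - 2Z0·(x - x_c) + u|Z0|²`.
  3 (L)       `t' = u + 2β~ x^_2 + β~² z^`, `b1' = x^_1`, `b2' = x^_2 + β~ z^`, `y' = z^`.   Along a ray: `dt'/du = D = 1 + 2β~Â_2 + β~²|Â|² ∈ [1/2, 2]`, `db2'/du = Â_2 + β~|Â|²` (tiny), `X = Â_1/D`, `|Â|² D = Â_1² + (Â_2 + β~|Â|²)²`.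
              Kinetic data at `t' = 0`: `X`, `B = b1'(0) - t0' X`, `Y = y'(0) - t0' X²`.
  4 SLICE-REG `W = Δ⁸`; slab `b2' ∈ [jW, (j+1)W)`.   The rows of a slab whose kinetic data at a transformed time `|t'_*| ≤ P^C` lie in a tilted box `R × R × R²` (`Δ ≤ R ≤ 1`) lie in `τ.set M`, `M = (P Kp)^C`, for the test `τ` of length `1`, width `R`,
              thickness `W/R`, centred at a witness row, polynomial = `(d0 u + α·x + β z - c)/√D0` (`k = 0`, discriminant one) recentred (`rt_disc_identity`, `Rt/G1Frame.lean`); `rt_G1`: mass `≤ M^C κ R^(3+η) W^(1-η)`.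
              INVARIANTS: with `⟨(u,x,z),(u~,x~,z~)⟩ = (u z~ + u~ z)/2 - x·x~`, `e(A) = (1, A, |A|²)`:  `2⟨e(A), e(A')⟩ = |A - A'|²`,  tilted height `= 2⟨ΔP, e(A_w)⟩`;  (L) preserves `⟨,⟩`, `L e(A) = D e'(A')`.
  5 KIN       `KinMeasC` (`Kin/Meas.lean`) on `≤ P^C` unit windows of `t'`, constant `κ'' = M^C κ W^(1-η)`;   labelling `c n` = lattice squares of side `Δ` of `(b1', y')` at `t' = nΔ`;   `Σ μ(cell)^(3/2) ≤ (Σ μ²)^(1/2) (Σ μ)^(1/2) ≤ (C n κ'')^(1/2) μ(slab)`.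
  6 CELLS     an old cube at the old time `JΔ` meets, in one slab, `≤ P^C` new cells at ONE new grid time, and every new cell comes from `≤ P^C` old cubes (`‖L‖, ‖L⁻¹‖ ≤ P^C`).
  7 SLABS     a cube meets `≤ P^C Δ/W` slabs: convexity costs `(P^C Δ/W)^(1/2)`;   total `P^C Δ^(1/2) W^(-η/2) (n κ)^(1/2) μ`, `W^(-η/2) = Δ^(-4η)`.
  If `P^C0 > 2^n` the bound is weaker than the crude bound `val ≤ C 2^n` (`rt_cov_cl`, `gn_total`): so `P^C Δ^20 ≤ Δ^8` may be assumed.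
-/

set_option autoImplicit false

namespace Claimed.Agent.R256

open MeasureTheory
open scoped BigOperators

/-- a test of the classical model as `RdTst` -/
def rcT {η : ℝ} {p : RdClPar} (Q : (p.sys η).Tst) : RdTst := Q

/-- the root state of `E` is carried by the set `G` of particles -/
def rcIn {η : ℝ} {p : RdClPar} (E : Xp (p.sys η)) (G : Set p.Om) : Prop :=
  (p.sys η).ms (tmL E.k0 E.i0) E.k0 E.b0 Gᶜ E.v = 0

/-- **one free classical step in the frame `φ`** -/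
structure RcStep (η : ℝ) (p : RdClPar) (E : Xp (p.sys η)) (Kp : ℝ) (φ : RdFrm) : Prop where
  valid : E.Valid
  free : E.st = []
  Kp_ge : 1 ≤ Kp
  r_pos : 0 < φ.r
  lab : ∀ l, φ.r / Kp ≤ (rcT (E.ts l)).r ∧ (rcT (E.ts l)).r ≤ Kp * φ.r ∧ 1 / Kp ≤ (rcT (E.ts l)).f

/-- **(tiny-cap)**, classical -/
def RcPlaneA (η : ℝ) : Prop :=
  ∃ C0 C : ℝ, ∀ (p : RdClPar) (E : Xp (p.sys η)) (Kp : ℝ) (φ : RdFrm), RcStep η p E Kp φ →
    rcIn E {ω | rtSq (p.A ω - φ.As) ≤ (Kp * φ.r * E.s) ^ 2} → E.val ≤ C * Kp ^ C0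

/-- **(sec)**, classical -/
def RcPlaneB (η : ℝ) : Prop :=
  ∃ C0 : ℝ, ∀ ν : ℝ, 0 < ν → ∃ C : ℝ, ∀ (p : RdClPar) (E : Xp (p.sys η)) (Kp Pp : ℝ) (φ : RdFrm) (d0 be : ℝ) (al : ℝ × ℝ),
    RcStep η p E Kp φ → 2 ≤ Pp → rtSq al + be ^ 2 = 1 → Pp ^ (-2 : ℝ) ≤ rtSq al - 4 * be * d0 →
    rcIn E {ω | rtSq (φ.r⁻¹ • (p.A ω - φ.As)) ≤ Kp ^ 2 ∧
      |d0 + rtIp al (φ.r⁻¹ • (p.A ω - φ.As)) + be * rtSq (φ.r⁻¹ • (p.A ω - φ.As))| ≤ E.s ^ 20} →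
    E.val ≤ C * Kp ^ C0 * Pp ^ C0 * 2 ^ ((4 * η + ν) * E.n)

/-! ## PLANE-A -/

theorem rc_a1_idx (n : ℕ) (u : ℝ) (h0 : 0 ≤ u) (h1 : u ≤ n) (hn : 0 < n) : ∃ j : Fin n, |u - (((j : ℕ) : ℝ) + 1 / 2)| ≤ 1 / 2 := by
  by_cases h : u < n
  · refine ⟨⟨⌊u⌋₊, (Nat.floor_lt h0).2 h⟩, ?_⟩
    have a := Nat.floor_le h0
    have b := Nat.lt_floor_add_one u
    rw [abs_le]
    constructor <;> simp only <;> linarith
  · have hu : u = n := le_antisymm h1 (not_lt.1 h)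
    refine ⟨⟨n - 1, by omega⟩, ?_⟩
    have e : ((n - 1 : ℕ) : ℝ) = n - 1 := by rw [Nat.cast_sub (by omega)]; simp
    simp only [e, hu]
    rw [abs_le]
    constructor <;> linarith

theorem rc_a1_cover_of {ι : Type} [Fintype ι] {S : Set RtRow} {l u η W : ℝ} (σ : ι → RtTest)
    (h1 : ∀ i, (σ i).Adm 1 ∧ (σ i).l = l ∧ u ≤ (σ i).unc) (h2 : S ⊆ ⋃ i, (σ i).set 1) (h3 : ∑ i, (σ i).w η ≤ W) : RtCover S l u η W := by
  refine ⟨Fintype.card ι, fun j => σ ((Fintype.equivFin ι).symm j), fun j => h1 _, ?_, ?_⟩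
  · intro p hp
    obtain ⟨i, hi⟩ := Set.mem_iUnion.1 (h2 hp)
    exact Set.mem_iUnion.2 ⟨Fintype.equivFin ι i, by simpa using hi⟩
  · rw [Equiv.sum_comp (Fintype.equivFin ι).symm (fun i => (σ i).w η)]
    exact h3

theorem rc_a1_sq_inv (a : ℝ) (ha : 0 < a) (u : ℝ × ℝ) : rtSq (a⁻¹ • u) ≤ 1 ^ 2 ↔ rtSq u ≤ a ^ 2 := by
  have e : rtSq (a⁻¹ • u) = rtSq u / a ^ 2 := by
    simp only [rtSq, Prod.smul_fst, Prod.smul_snd, smul_eq_mul]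
    field_simp
  rw [e, one_pow, div_le_one (by positivity)]

theorem rc_a1_box_iff (τ : RtTest) (hl : 0 < τ.l) (hr : 0 < τ.r) (p : RtRow) :
    p ∈ τ.box 1 ↔ rtSq (p.b - τ.bs) ≤ (τ.l * τ.r) ^ 2 ∧ |p.y - τ.ys - 2 * rtIp τ.As (p.b - τ.bs)| ≤ τ.l * τ.r ^ 2 ∧ rtSq (p.A - τ.As) ≤ τ.r ^ 2 := by
  show (rtSq (τ.x p) ≤ 1 ^ 2 ∧ |τ.z p| ≤ 1 ∧ rtSq (τ.V p) ≤ 1 ^ 2) ↔ _
  unfold RtTest.x RtTest.z RtTest.V
  rw [rc_a1_sq_inv _ (mul_pos hl hr), rc_a1_sq_inv _ hr, abs_div, abs_of_pos (by positivity : 0 < τ.l * τ.r ^ 2), div_le_one (by positivity)]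

theorem rc_a1_pt {L L' r ϱ s : ℝ} (hL' : 0 < L') (hr : 0 < r) (hϱ : 0 < ϱ) (hrϱ : r * L' ≤ ϱ * L) (hs0 : 0 ≤ s) (hs : s ≤ L)
    {As bs a0 : ℝ × ℝ} {ys : ℝ} (ha : rtSq (As - a0) ≤ (r + ϱ) ^ 2) (x : RtRow) (hA : rtSq (x.A - a0) ≤ ϱ ^ 2)
    (c1 : rtSq ((x.flow s).b - bs) ≤ (L' * r) ^ 2) (c2 : |(x.flow s).y - ys - 2 * rtIp As ((x.flow s).b - bs)| ≤ L' * r ^ 2) :
    |(x.b - (bs - s • a0)).1| ≤ 2 * (L * ϱ) ∧ |(x.b - (bs - s • a0)).2| ≤ 2 * (L * ϱ) ∧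
      |x.y - 2 * rtIp a0 x.b - (ys - 2 * rtIp a0 bs + s * rtSq a0)| ≤ 3 * (L * ϱ) * (r + ϱ) := by
  have hL : 0 ≤ L := hs0.trans hs
  have e1 : x.b - (bs - s • a0) = ((x.flow s).b - bs) - s • (x.A - a0) := by
    ext <;> simp [RtRow.flow] <;> ring
  have h1 : rtSq (s • (x.A - a0)) ≤ (s * ϱ) ^ 2 := rt_chp_sq_smul (by rw [abs_of_nonneg hs0]) hA
  have h2 : rtSq (x.b - (bs - s • a0)) ≤ (L' * r + s * ϱ) ^ 2 := by
    rw [e1]; exact rt_chp_sq_sub (by positivity) (by positivity) c1 h1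
  have h3 : L' * r + s * ϱ ≤ 2 * (L * ϱ) := by nlinarith
  have h4 : 0 ≤ L' * r + s * ϱ := by positivity
  refine ⟨(rt_chp_fst h4 h2).trans h3, (rt_chp_snd h4 h2).trans h3, ?_⟩
  have e2 : x.y - 2 * rtIp a0 x.b - (ys - 2 * rtIp a0 bs + s * rtSq a0)
      = ((x.flow s).y - ys - 2 * rtIp As ((x.flow s).b - bs)) + 2 * rtIp (As - a0) ((x.flow s).b - bs) - s * rtSq (x.A - a0) := by
    simp only [RtRow.flow, rtIp, rtSq, Prod.fst_add, Prod.snd_add, Prod.fst_sub, Prod.snd_sub, Prod.smul_fst, Prod.smul_snd, smul_eq_mul]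
    ring
  have h5 := rtIp_abs_le (by positivity) (by positivity) ha c1
  have h6 : 0 ≤ s * rtSq (x.A - a0) := mul_nonneg hs0 (rtSq_nonneg _)
  have h7 : s * rtSq (x.A - a0) ≤ L * ϱ ^ 2 := mul_le_mul hs hA (rtSq_nonneg _) hL
  rw [e2]
  have h8 : L' * r ^ 2 ≤ L * ϱ * r := by nlinarith
  have h9 : (r + ϱ) * (L' * r) ≤ (r + ϱ) * (L * ϱ) := by
    apply mul_le_mul_of_nonneg_left _ (by positivity)
    linarith
  rw [abs_le] at c2 h5 ⊢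
  constructor <;> linarith [c2.1, c2.2, h5.1, h5.2]

theorem rc_a1_scale {v a t : ℝ} (ha : 0 < a) (h : |v / a - t| ≤ 1 / 2) : |v - a * t| ≤ a / 2 := by
  have e : v / a - t = (v - a * t) / a := by field_simp
  rw [e, abs_div, abs_of_pos ha, div_le_iff₀ ha] at h
  linarith

/-- **A1** the angular covering.
PLAN.   `U` nonempty gives `|a0 - A_s| ≤ r + ϱ`.   For `x ∈ U`: `x.b = (x.flow s).b - s x.A` lies within `ℓ' r + s ϱ ≤ 2 ℓ ϱ` of `b_c = b_s - s a0`.   With `h = x.y - 2 a0·x.b`: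
`h = [y(s) - y_s - 2A_s·(b(s) - b_s)] + y_s + 2(A_s - a0)·(b(s) - b_s) - 2 a0·b_s + s (|a0|² - |A - a0|²) .. ` varies in an interval of length `≤ 2ℓ' r² + 4 (r + ϱ) ℓ' r + 2 ℓ ϱ² ≤ 12 ℓ ϱ (r + ϱ)` (use `ℓ' r ≤ ℓ ϱ`).
Round tests `rtRound ℓ ϱ a0 (b_c + 2 ℓ ϱ (i, j)/2 ..) ..`: `3 × 3` horizontal positions (Euclidean radius `ℓ ϱ` covers a square of side `ℓ ϱ`: take `5 × 5`), and `⌈12 (r + ϱ)/ϱ⌉ + 1` heights; the tilt of a test centred at `b_c'` differs by the constant `2 a0·b_c'`.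
Total weight `≤ 25 (13 + 12 r/ϱ) ϱ⁴ ≤ 2^12 (ϱ⁴ + r ϱ³)`.   `rt_round_set`: for a round test `set 1 = box 1`. -/
theorem rc_ang_cover (η : ℝ) (k k' : ℕ) (hk : k ≤ k') (Q : RdTst) (hr : 0 < Q.r) (a0 : ℝ × ℝ) (ϱ s : ℝ) (hϱ : 0 < ϱ)
    (hrϱ : Q.r * rdLen k' ≤ ϱ * rdLen k) (hs0 : 0 ≤ s) (hs : s ≤ rdLen k) :
    RtCover {x | rtSq (x.A - a0) ≤ ϱ ^ 2 ∧ x.flow s ∈ (Q.toT k').box 1} (rdLen k) 0 η (2 ^ 12 * (ϱ ^ 4 + Q.r * ϱ ^ 3)) := by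
  have hL : 0 < rdLen k := by unfold rdLen; positivity
  have hL' : 0 < rdLen k' := by unfold rdLen; positivity
  set L := rdLen k with hLd
  set L' := rdLen k' with hLd'
  have hbox : ∀ p : RtRow, p ∈ (Q.toT k').box 1 ↔ rtSq (p.b - Q.bs) ≤ (L' * Q.r) ^ 2 ∧ |p.y - Q.ys - 2 * rtIp Q.As (p.b - Q.bs)| ≤ L' * Q.r ^ 2 ∧ rtSq (p.A - Q.As) ≤ Q.r ^ 2 :=
    fun p => rc_a1_box_iff (Q.toT k') hL' hr p
  rcases Set.eq_empty_or_nonempty {x : RtRow | rtSq (x.A - a0) ≤ ϱ ^ 2 ∧ x.flow s ∈ (Q.toT k').box 1} with hE | ⟨x0, hx0⟩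
  · rw [hE]
    exact (RtCover.empty L 0 η).mono (Set.Subset.refl _) le_rfl (by positivity)
  have ha : rtSq (Q.As - a0) ≤ (Q.r + ϱ) ^ 2 := by
    have h1 := ((hbox _).1 hx0.2).2.2
    have e : Q.As - a0 = (x0.A - a0) - ((x0.flow s).A - Q.As) := by
      ext <;> simp [RtRow.flow]
    rw [e, add_comm]
    exact rt_chp_sq_sub hϱ.le hr.le hx0.1 h1
  set nh : ℕ := ⌊3 * Q.r / ϱ⌋₊ + 4 with hnh
  set bc : ℝ × ℝ := Q.bs - s • a0 with hbc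
  set hc : ℝ := Q.ys - 2 * rtIp a0 Q.bs + s * rtSq a0 with hhc
  set H : ℝ := 3 * (L * ϱ) * (Q.r + ϱ) with hH
  have hLϱ : 0 < L * ϱ := mul_pos hL hϱ
  have hLϱ2 : 0 < 2 * (L * ϱ ^ 2) := by positivity
  have hn1 : 3 * Q.r / ϱ + 3 ≤ (nh : ℝ) := by
    have := Nat.lt_floor_add_one (3 * Q.r / ϱ)
    rw [hnh]
    push_cast
    linarith
  have hn2 : (nh : ℝ) ≤ 3 * Q.r / ϱ + 4 := by
    have := Nat.floor_le (by positivity : 0 ≤ 3 * Q.r / ϱ)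
    rw [hnh]
    push_cast
    linarith
  let bq : Fin 4 × Fin 4 × Fin nh → ℝ × ℝ := fun i =>
    (bc.1 - 2 * (L * ϱ) + L * ϱ * (((i.1 : ℕ) : ℝ) + 1 / 2), bc.2 - 2 * (L * ϱ) + L * ϱ * (((i.2.1 : ℕ) : ℝ) + 1 / 2))
  refine rc_a1_cover_of (fun i : Fin 4 × Fin 4 × Fin nh =>
    rtRound L ϱ a0 (bq i) (hc - H + 2 * (L * ϱ ^ 2) * (((i.2.2 : ℕ) : ℝ) + 1 / 2) + 2 * rtIp a0 (bq i))) ?_ ?_ ?_
  · intro i
    exact ⟨rt_round_adm hL hϱ _ _ _, rfl, by show 0 ≤ ϱ * 1; linarith⟩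
  · intro x hx
    obtain ⟨p1, p2, p3⟩ := rc_a1_pt hL' hr hϱ hrϱ hs0 hs ha x hx.1 ((hbox _).1 hx.2).1 ((hbox _).1 hx.2).2.1
    obtain ⟨i, hi⟩ := rc_a1_idx 4 (((x.b - bc).1 + 2 * (L * ϱ)) / (L * ϱ)) (div_nonneg (by linarith [(abs_le.1 p1).1]) hLϱ.le)
      (by rw [div_le_iff₀ hLϱ]; push_cast; linarith [(abs_le.1 p1).2]) (by norm_num)
    obtain ⟨j, hj⟩ := rc_a1_idx 4 (((x.b - bc).2 + 2 * (L * ϱ)) / (L * ϱ)) (div_nonneg (by linarith [(abs_le.1 p2).1]) hLϱ.le)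
      (by rw [div_le_iff₀ hLϱ]; push_cast; linarith [(abs_le.1 p2).2]) (by norm_num)
    have hup : x.y - 2 * rtIp a0 x.b - hc + H ≤ (nh : ℝ) * (2 * (L * ϱ ^ 2)) := by
      have h1 := mul_le_mul_of_nonneg_right hn1 hLϱ2.le
      have e : (3 * Q.r / ϱ + 3) * (2 * (L * ϱ ^ 2)) = 2 * H := by
        rw [hH]
        field_simp
      rw [e] at h1
      linarith [(abs_le.1 p3).2]
    obtain ⟨m, hm⟩ := rc_a1_idx nh ((x.y - 2 * rtIp a0 x.b - hc + H) / (2 * (L * ϱ ^ 2))) (div_nonneg (by linarith [(abs_le.1 p3).1]) hLϱ2.le)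
      (by rw [div_le_iff₀ hLϱ2]; exact hup) (by omega)
    have qi := rc_a1_scale hLϱ hi
    have qj := rc_a1_scale hLϱ hj
    have qm := rc_a1_scale hLϱ2 hm
    refine Set.mem_iUnion.2 ⟨(i, j, m), ?_⟩
    rw [rt_round_set _ _ _ _ _ zero_le_one, rc_a1_box_iff _ hL hϱ]
    refine ⟨?_, ?_, hx.1⟩
    · show rtSq (x.b - bq (i, j, m)) ≤ (L * ϱ) ^ 2
      have d1 : |(x.b - bq (i, j, m)).1| ≤ L * ϱ / 2 := by
        have e : (x.b - bq (i, j, m)).1 = (x.b - bc).1 + 2 * (L * ϱ) - L * ϱ * (((i : ℕ) : ℝ) + 1 / 2) := by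
          simp only [bq, Prod.fst_sub]
          ring
        rw [e]; exact qi
      have d2 : |(x.b - bq (i, j, m)).2| ≤ L * ϱ / 2 := by
        have e : (x.b - bq (i, j, m)).2 = (x.b - bc).2 + 2 * (L * ϱ) - L * ϱ * (((j : ℕ) : ℝ) + 1 / 2) := by
          simp only [bq, Prod.snd_sub]
          ring
        rw [e]; exact qj
      have s1 := sq_le_sq' (abs_le.1 d1).1 (abs_le.1 d1).2
      have s2 := sq_le_sq' (abs_le.1 d2).1 (abs_le.1 d2).2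
      unfold rtSq
      nlinarith [sq_nonneg (L * ϱ)]
    · show |x.y - (hc - H + 2 * (L * ϱ ^ 2) * (((m : ℕ) : ℝ) + 1 / 2) + 2 * rtIp a0 (bq (i, j, m))) - 2 * rtIp a0 (x.b - bq (i, j, m))| ≤ L * ϱ ^ 2
      have e : x.y - (hc - H + 2 * (L * ϱ ^ 2) * (((m : ℕ) : ℝ) + 1 / 2) + 2 * rtIp a0 (bq (i, j, m))) - 2 * rtIp a0 (x.b - bq (i, j, m))
          = x.y - 2 * rtIp a0 x.b - hc + H - 2 * (L * ϱ ^ 2) * (((m : ℕ) : ℝ) + 1 / 2) := by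
        simp only [rtIp, Prod.fst_sub, Prod.snd_sub]
        ring
      rw [e]
      linarith
  · have hw : ∀ i : Fin 4 × Fin 4 × Fin nh, (rtRound L ϱ a0 (bq i) (hc - H + 2 * (L * ϱ ^ 2) * (((i.2.2 : ℕ) : ℝ) + 1 / 2) + 2 * rtIp a0 (bq i))).w η = ϱ ^ 4 := by
      intro i
      simp [RtTest.w, rtRound]
    simp only [hw]
    rw [Finset.sum_const, Finset.card_univ, Fintype.card_prod, Fintype.card_prod, Fintype.card_fin, Fintype.card_fin, nsmul_eq_mul]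
    push_cast
    have h1 := mul_le_mul_of_nonneg_right hn2 (by positivity : 0 ≤ 16 * ϱ ^ 4)
    have e : (3 * Q.r / ϱ + 4) * (16 * ϱ ^ 4) = 48 * (Q.r * ϱ ^ 3) + 64 * ϱ ^ 4 := by
      field_simp
      ring
    rw [e] at h1
    have h2 : 0 < Q.r * ϱ ^ 3 := by positivity
    have h3 : 0 < ϱ ^ 4 := by positivity
    linarith

/-- **A2** a cover of a set of rows bounds the mass of a regular state.
PLAN: `rt_cover_mass` with `μ S' = ms T k b {ω | co T ω ∈ S'} v` is not monotone on non measurable sets: use instead the cover directly: `S ⊆ ⋃ (σ i).set 1`, each `{ω | co T ω ∈ (σ i).set 1}` is the cell of the `RdTst` `⟨r, f, As, bs, ys, n⟩`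
(`(σ i).l = rdLen k`), measurable (`Tight.cellM`); `gn_ms_eq_mu`, `measure_mono`, `measure_iUnion_fintype_le`; `hG` measurable. -/
theorem rc_cover_ms (η : ℝ) (p : RdClPar) (T : ℝ) (k b : ℕ) (v : (p.sys η).Kc) (κ W : ℝ) (hκ : 0 ≤ κ) (hreg : (p.sys η).Reg T k b κ v)
    (S : Set RtRow) (hS : RtCover S (rdLen k) 0 η W) (G : Set p.Om) (hG : MeasurableSet G) (hGS : ∀ ω ∈ G, p.co T ω ∈ S) :
    (p.sys η).ms T k b G v ≤ κ * W := by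
  have hT := rt_tight_cl η p
  obtain ⟨m, σ, h1, h2, h3⟩ := hS
  have hto : ∀ i, (⟨(σ i).r, (σ i).f, (σ i).As, (σ i).bs, (σ i).ys, (σ i).n⟩ : RdTst).toT k = σ i := by
    intro i
    unfold RdTst.toT
    rw [← (h1 i).2.1]
  have hG' : MeasurableSet (G : Set (p.sys η).X) := hG
  have h4 := gn_regF_cover hT ((gn_regF_an hT T k b κ v).1 hreg) (fun i => (⟨(σ i).r, (σ i).f, (σ i).As, (σ i).bs, (σ i).ys, (σ i).n⟩ : RdTst))
    (fun i => by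
      show ((⟨(σ i).r, (σ i).f, (σ i).As, (σ i).bs, (σ i).ys, (σ i).n⟩ : RdTst).toT k).Adm 1
      rw [hto i]; exact (h1 i).1) hG'
    (by
      intro ω hω
      obtain ⟨i, hi⟩ := Set.mem_iUnion.1 (h2 (hGS ω hω))
      refine Set.mem_iUnion.2 ⟨i, ?_⟩
      show p.co T ω ∈ ((⟨(σ i).r, (σ i).f, (σ i).As, (σ i).bs, (σ i).ys, (σ i).n⟩ : RdTst).toT k).set 1
      rw [hto i]; exact hi)
  have e1 := gn_mulR_ind_normsq (P := p.sys η) k hG' ((p.sys η).An T k b v)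
  have e2 := gn_ms_eq (P := p.sys η) T k b hG' v
  exact (le_of_eq (e2.trans e1.symm)).trans (h4.trans (mul_le_mul_of_nonneg_left h3 hκ))

/-- arithmetic of PLANE-A: the weight of the cover against the weight of a label -/
theorem rc_pa_num (η : ℝ) (h0 : 0 < η) (h1 : η < 1) {Kp r s q f : ℝ} (hK : 1 ≤ Kp) (hr : 0 < r) (hs0 : 0 < s) (hs1 : s ≤ 1)
    (hq1 : r / Kp ≤ q) (hq2 : q ≤ Kp * r) (hf : 1 / Kp ≤ f) :
    2 ^ 12 * ((Kp * r * s) ^ 4 + q * (Kp * r * s) ^ 3) ≤ 2 ^ 13 * Kp ^ 9 * s ^ 3 * (q ^ 4 * f ^ (1 - η)) := by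
  have hK0 : 0 < Kp := by linarith
  have hf1 : 1 / Kp ≤ f ^ (1 - η) := by
    have a1 : (1 / Kp) ^ (1 - η) ≤ f ^ (1 - η) := Real.rpow_le_rpow (by positivity) hf (by linarith)
    have a2 : (1 / Kp) ^ (1 : ℝ) ≤ (1 / Kp) ^ (1 - η) :=
      Real.rpow_le_rpow_of_exponent_ge (by positivity) (by rw [div_le_one hK0]; exact hK) (by linarith)
    rw [Real.rpow_one] at a2
    exact a2.trans a1
  have hq4 : (r / Kp) ^ 4 ≤ q ^ 4 := pow_le_pow_left₀ (by positivity) hq1 4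
  have hw : (r / Kp) ^ 4 * (1 / Kp) ≤ q ^ 4 * f ^ (1 - η) := mul_le_mul hq4 hf1 (by positivity) (by positivity)
  have e1 : Kp ^ 9 * ((r / Kp) ^ 4 * (1 / Kp)) = Kp ^ 4 * r ^ 4 := by
    field_simp
  have hw2 : Kp ^ 4 * r ^ 4 ≤ Kp ^ 9 * (q ^ 4 * f ^ (1 - η)) := by
    rw [← e1]
    exact mul_le_mul_of_nonneg_left hw (by positivity)
  have hA : (Kp * r * s) ^ 4 + q * (Kp * r * s) ^ 3 ≤ 2 * (Kp ^ 4 * r ^ 4) * s ^ 3 := by
    have b1 : (Kp * r * s) ^ 4 ≤ (Kp ^ 4 * r ^ 4) * s ^ 3 := by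
      have : (Kp * r * s) ^ 4 = (Kp ^ 4 * r ^ 4) * s ^ 3 * s := by ring
      rw [this]
      exact mul_le_of_le_one_right (by positivity) hs1
    have b2 : q * (Kp * r * s) ^ 3 ≤ (Kp ^ 4 * r ^ 4) * s ^ 3 := by
      have : (Kp ^ 4 * r ^ 4) * s ^ 3 = (Kp * r) * (Kp * r * s) ^ 3 := by ring
      rw [this]
      exact mul_le_mul_of_nonneg_right hq2 (by positivity)
    linarith
  calc 2 ^ 12 * ((Kp * r * s) ^ 4 + q * (Kp * r * s) ^ 3) ≤ 2 ^ 12 * (2 * (Kp ^ 4 * r ^ 4) * s ^ 3) := by gcongr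
    _ = 2 ^ 13 * s ^ 3 * (Kp ^ 4 * r ^ 4) := by ring
    _ ≤ 2 ^ 13 * s ^ 3 * (Kp ^ 9 * (q ^ 4 * f ^ (1 - η))) := by gcongr
    _ = _ := by ring

/-- **BLOCK PLANE-A-cl** -/
theorem rc_planeA (η : ℝ) (h0 : 0 < η) (h1 : η < 1) : RcPlaneA η := by
  refine ⟨5, 2 ^ 7, fun p E Kp φ hS hin => ?_⟩
  have hT := rt_tight_cl η p
  have hV := hS.valid
  have hK := hS.Kp_ge
  have hK0 : 0 < Kp := by linarith
  have hr := hS.r_pos
  have hs0 := gn_s_pos E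
  have hs1 := gn_s_le_one E
  have hϱ0 : 0 < Kp * φ.r * E.s := by positivity
  obtain ⟨G, hG⟩ : ∃ G : Set p.Om, G = {ω | rtSq (p.A ω - φ.As) ≤ (Kp * φ.r * E.s) ^ 2} := ⟨_, rfl⟩
  rw [← hG] at hin
  have hGm : MeasurableSet G := by
    rw [hG]
    have := p.mA
    unfold rtSq
    exact measurableSet_le (by fun_prop) measurable_const
  have key : ∀ l, E.m l ≤ (2 ^ 13 * Kp ^ 9 * E.s ^ 3) * (E.ka * E.w l) := by
    intro l
    obtain ⟨hl1, hl2, hl3⟩ := hS.lab l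
    have hQr : 0 < (rcT (E.ts l)).r := lt_of_lt_of_le (by positivity) hl1
    have hm1 := gn_m_le_ms hT E hV l
    have hfin : E.fin (E.iv l) = E.v := by
      unfold Xp.fin
      rw [hS.free]
      rfl
    rw [hfin] at hm1
    have hcm : MeasurableSet ((p.sys η).cell (E.ts l) (tmL E.kf (E.iv l)) E.kf) := hT.cellM _ _ _
    have hm3 : (p.sys η).ms (tmL E.k0 E.i0) E.k0 E.b0 ((p.sys η).cell (E.ts l) (tmL E.kf (E.iv l)) E.kf) E.v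
        ≤ (p.sys η).ms (tmL E.k0 E.i0) E.k0 E.b0 ((p.sys η).cell (E.ts l) (tmL E.kf (E.iv l)) E.kf ∩ G) E.v :=
      rt_fc_ms_sub _ _ _ hcm (hcm.inter hGm) hGm.compl
        (by
          intro x hx
          by_cases h : x ∈ G
          · exact Or.inl ⟨hx, h⟩
          · exact Or.inr h) E.v hin
    have hcut := gn_cutle_anc (k := E.k0) (k' := E.kf) (Nat.le_add_right _ _) (E.iv l)
    rw [hV.iv_in l] at hcut
    obtain ⟨_, hc1, hc2⟩ := hcut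
    have hlen : rdLen E.kf = E.s * rdLen E.k0 := by
      unfold rdLen Xp.s Xp.kf
      rw [pow_add]
      ring
    have hcov := rc_ang_cover η E.k0 E.kf (Nat.le_add_right _ _) (rcT (E.ts l)) hQr φ.As (Kp * φ.r * E.s)
      (tmL E.kf (E.iv l) - tmL E.k0 E.i0) hϱ0
      (by
        rw [hlen]
        have := rdLen_pos E.k0
        calc (rcT (E.ts l)).r * (E.s * rdLen E.k0) ≤ (Kp * φ.r) * (E.s * rdLen E.k0) := by gcongr
          _ = _ := by ring)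
      (by linarith) (by unfold rdLen; linarith)
    have hm4 := rc_cover_ms η p (tmL E.k0 E.i0) E.k0 E.b0 E.v E.ka _ hV.ka_pos.le hV.reg _ hcov
      ((p.sys η).cell (E.ts l) (tmL E.kf (E.iv l)) E.kf ∩ G) (hcm.inter hGm)
      (by
        rintro ω ⟨hω1, hω2⟩
        rw [hG] at hω2
        refine ⟨hω2, ?_⟩
        rw [← rt_ta_cl_co, add_sub_cancel]
        exact hω1.1)
    have hnum := rc_pa_num η h0 h1 hK hr hs0 hs1 hl1 hl2 hl3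
    calc E.m l ≤ (p.sys η).ms (tmL E.k0 E.i0) E.k0 E.b0 ((p.sys η).cell (E.ts l) (tmL E.kf (E.iv l)) E.kf) E.v := hm1
      _ ≤ _ := hm3
      _ ≤ _ := hm4
      _ ≤ E.ka * (2 ^ 13 * Kp ^ 9 * E.s ^ 3 * ((rcT (E.ts l)).r ^ 4 * (rcT (E.ts l)).f ^ (1 - η))) :=
        mul_le_mul_of_nonneg_left hnum hV.ka_pos.le
      _ = (2 ^ 13 * Kp ^ 9 * E.s ^ 3) * (E.ka * E.w l) := by
        have : E.w l = (rcT (E.ts l)).r ^ 4 * (rcT (E.ts l)).f ^ (1 - η) := rfl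
        rw [this]
        ring
  have hfinal := gn_val_le_ratio hT E hV (ρ := 2 ^ 13 * Kp ^ 9 * E.s ^ 3) (by positivity) key
  refine hfinal.trans ?_
  have hX : (2 : ℝ) ^ (3 * (E.n : ℝ) / 2) = Real.sqrt ((2 : ℝ) ^ (3 * (E.n : ℝ))) := by rw [gn_two_sqrt]
  rw [hX, ← Real.sqrt_mul (by positivity)]
  have h3 : (2 : ℝ) ^ (3 * (E.n : ℝ)) * (2 ^ 13 * Kp ^ 9 * E.s ^ 3) = 2 ^ 13 * Kp ^ 9 := by
    have e : (2 : ℝ) ^ (3 * (E.n : ℝ)) * E.s ^ 3 = 1 := by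
      rw [← Real.rpow_natCast E.s 3, gn_s_rpow, ← gn_two_add]
      simp
    calc (2 : ℝ) ^ (3 * (E.n : ℝ)) * (2 ^ 13 * Kp ^ 9 * E.s ^ 3) = 2 ^ 13 * Kp ^ 9 * ((2 : ℝ) ^ (3 * (E.n : ℝ)) * E.s ^ 3) := by ring
      _ = _ := by rw [e, mul_one]
  rw [h3]
  have h5 : Kp ^ (5 : ℝ) = Kp ^ (5 : ℕ) := by
    rw [← Real.rpow_natCast]
    norm_num
  rw [h5]
  refine Real.sqrt_le_iff.2 ⟨by positivity, ?_⟩
  have : Kp ^ 9 ≤ Kp ^ 10 := pow_le_pow_right₀ hK (by norm_num)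
  calc (2 : ℝ) ^ 13 * Kp ^ 9 ≤ 2 ^ 14 * Kp ^ 10 := by
        have : (0:ℝ) ≤ Kp ^ 9 := by positivity
        nlinarith
    _ = (2 ^ 7 * Kp ^ 5) ^ 2 := by ring

/-! ## PLANE-B -/

/-- a finite measure of normalised rays -/
structure RcNu where
  Om : Type
  [mOm : MeasurableSpace Om]
  mu : Measure Om
  fin : IsFiniteMeasure mu
  row : Om → RtRow
  meas : Measurable fun ω => ((row ω).A, (row ω).b, (row ω).y)

attribute [instance] RcNu.mOm RcNu.fin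

/-- `κ`-regularity for all admissible tests of length one -/
def RcNu.Reg (X : RcNu) (η κ : ℝ) : Prop :=
  ∀ τ : RtTest, τ.Adm 1 → τ.l = 1 → (X.mu {ω | X.row ω ∈ τ.set 1}).toReal ≤ κ * τ.w η

/-- the spatial cube of side `δ` of the ray at the time `t` -/
noncomputable def RcNu.cube (X : RcNu) (δ t : ℝ) (ω : X.Om) : ℤ × ℤ × ℤ :=
  (⌊((X.row ω).flow t).b.1 / δ⌋, ⌊((X.row ω).flow t).b.2 / δ⌋, ⌊((X.row ω).flow t).y / δ⌋)

/-- **(sec)**, classical, model free: cubes of side `Δ = 2^-n` at the times `J Δ`, `J < 2^n` -/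
def RcAbsB (η : ℝ) : Prop :=
  ∃ C0 : ℝ, ∀ ν : ℝ, 0 < ν → ∃ C : ℝ, ∀ (X : RcNu) (κ Kp Pp d0 be : ℝ) (al : ℝ × ℝ) (n : ℕ), 0 ≤ κ → X.Reg η κ → 1 ≤ Kp → 2 ≤ Pp →
    rtSq al + be ^ 2 = 1 → Pp ^ (-2 : ℝ) ≤ rtSq al - 4 * be * d0 →
    (∀ ω, rtSq (X.row ω).A ≤ Kp ^ 2 ∧ |d0 + rtIp al (X.row ω).A + be * rtSq (X.row ω).A| ≤ ((2 : ℝ)⁻¹ ^ n) ^ 20) →
    ∀ D : ℕ → Finset (ℤ × ℤ × ℤ),
      ∑ J ∈ Finset.range (2 ^ n), ∑ c ∈ D J, (X.mu {ω | X.cube ((2 : ℝ)⁻¹ ^ n) (J * (2 : ℝ)⁻¹ ^ n) ω = c}).toReal ^ (3 / 2 : ℝ)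
        ≤ C * Kp ^ C0 * Pp ^ C0 * 2 ^ ((4 * η + ν) * n) * (2 : ℝ) ^ (-((n : ℝ) / 2)) * Real.sqrt κ * (X.mu Set.univ).toReal

theorem rc_plane_eqns_cite : True := by
  have := @rcT.eq_1
  have := @rcIn.eq_1
  have := @RcPlaneA.eq_1
  have := @RcPlaneB.eq_1
  have := @RcNu.Reg.eq_1
  have := @RcNu.cube.eq_1
  have := @RcAbsB.eq_1
  trivial

/-! **NORM + LAB** (header):   `rc_planeB_of_abs (η) (h0) (h1) (h : RcAbsB η) : RcPlaneB η` is in `Rc/PlaneN.lean` (architect helper66). -/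

/-! **ABS** (header, steps 1-7):   NOT CONSUMED.   (sec) is proved DIRECTLY: `rc_pb_planeB : RcPlaneB η` (`Rc/PlbMain.lean`, helper183).   The second route ends in `rc_ae_absB : KinMeasC → RcAbsB η` (`Rc/AbEnd.lean`). -/

end Claimed.Agent.R256
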