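-- KEEP
import Claimed.Agent.R256.Rc.Doc
import Claimed.Agent.R256.Rc.Plane

/-!
# Row 256, unit RC, block (I-cl), file 1: CLASSICAL TOWERS, the final measure, particle level bounds, the document      (chief helper106; prefix `rc`)      DEFINITIONS ONLY

CLASSICAL CALCULUS (`An = id`):  `tz T k b M v = mulR k M v` (`rt_fc_tz`), `run` = product of the masks, `ms T k b S v = ∫_S |v|² dm` for all `T k b` (`rt_fc_ms_indep`), `Pl b = univ`, masks commute and only decrease `ms`, `en` (`rt_fc_run_le`).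
* `E.rs U`        the experiment `E` with the label functions restricted to sets of rows: `θ_l ↦ 1_{U (iv l)} θ_l`      (generic)
* A TOWER `W : RcTw η p` = a FREE base experiment `W.E` (its labels = THE TERMINAL CERTIFICATE: homogeneous, round: `R0 ≤ r < 2 R0`, `f ≥ s^τ`) + for every mesh cut `i = 1 .. q-1` one PEEL LEVEL `Mk i` (threshold `be i`), chosen in FORWARD order.
  MESH: `q m ≤ n < q (m+1)`;   `kb = kf - q m`;   the cut `i` has the depth `dp i = kb + i m`, so `dp q = kf` (the remainder `n - q m < q` sits before the first cut).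
* `W.Ex i`        stages `1..i`, free continuation;   `W.X = W.Ex (q-1)`;   `W.st i I` the state behind the stage `i` on the interval `I`
* `W.em i V`      selected energy at the cut `i` of a family of sets of particles `V I`
* `W.fm U`        THE FINAL MEASURE of `{(J, ω) | ω ∈ U J}` `= Σ_l ∫ 1_{U (iv l)} θ_l |fin|² = (W.X.rs U).tm`
* `W.nmP i I ω`, `W.anP w ω`, `W.ZP ω`      names of a PARTICLE
* `W.PreP ..`     the particle level form of `RcDoc.Pre`
* `W.psi B`, `W.doc B F`      the joint name map (fine angular cell of width `R0 2^-B` + all names), the document on a finite set `F` of its values (atoms = fibres; representative = a chosen particle of the fibre)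
-/

set_option autoImplicit false

namespace Claimed.Agent.R256

open MeasureTheory
open scoped BigOperators
open Classical

/-- the labels restricted to sets of rows which depend on the final interval -/
noncomputable def Xp.rs {P : PkSys} (E : Xp P) (U : ℕ → Set P.X) : Xp P :=
  { E with th := fun l => (U (E.iv l)).indicator (E.th l) }

/-- the data of a classical tower -/
structure RcTw (η : ℝ) (p : RdClPar) where
  E : Xp (p.sys η)
  q : ℕ
  m : ℕ
  R0 : ℝ
  Mk : ℕ → ℕ → p.Om → ℝ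
  be : ℕ → ℝ

namespace RcTw

variable {η : ℝ} {p : RdClPar} (W : RcTw η p)

/-- the base depth of the mesh -/
noncomputable def kb : ℕ := W.E.kf - W.q * W.m

/-- depth of the cut `i` -/
noncomputable def dp (i : ℕ) : ℕ := W.kb + i * W.m

/-- the factor `2^(t m)` -/
noncomputable def tl (t : ℝ) : ℝ := (2 : ℝ) ^ (t * W.m)

/-- energy benchmark -/
noncomputable def Eb (i : ℕ) : ℝ := W.E.e * (2 : ℝ) ^ ((rndCl η).d0f * i * W.m)

/-- regularity benchmark -/
noncomputable def Kb (i : ℕ) : ℝ := W.E.ka * (2 : ℝ) ^ (-((rndCl η).p0f * i * W.m))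

/-- the stage `i` -/
noncomputable def sg (i : ℕ) : Stg (p.sys η) := ⟨W.dp i, 0, W.Mk i⟩

/-- the stages `1, .., i` -/
noncomputable def stk (i : ℕ) : List (Stg (p.sys η)) := (List.range i).map fun a => W.sg (a + 1)

/-- the stages `1, .., i`, free continuation -/
noncomputable def Ex (i : ℕ) : Xp (p.sys η) := W.E.withSt (W.stk i)

/-- the full experiment -/
noncomputable def X : Xp (p.sys η) := W.Ex (W.q - 1)

/-- the intervals of the cut `i` -/
noncomputable def iv (i : ℕ) : Finset ℕ := ivs W.E.k0 W.E.i0 (W.dp i)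

/-- the ancestor at the cut `i` of a final interval -/
noncomputable def aI (i J : ℕ) : ℕ := ancI W.E.kf (W.dp i) J

/-- the state behind the stage `i` -/
noncomputable def st (i I : ℕ) : (p.sys η).Kc := W.E.at' (W.dp i) I (W.stk i)

/-- selected energy at the cut `i` of a family of sets of particles -/
noncomputable def em (i : ℕ) (V : ℕ → Set p.Om) : ℝ :=
  ∑ I ∈ W.iv i, (p.sys η).ms (tmL (W.dp i) I) (W.dp i) 0 (V I) (W.st i I)

/-- the final measure -/
noncomputable def fm (U : ℕ → Set p.Om) : ℝ := (W.X.rs U).tm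

/-- the total final mass -/
noncomputable def ft : ℝ := W.fm fun _ => Set.univ

/-- the name `C(i/q, 0)` of a particle on the interval `I` of the cut `i` -/
noncomputable def nmP (i I : ℕ) (ω : p.Om) : ReName := (I, reNm (rdLen (W.dp i)) W.R0 (p.co (tmL (W.dp i) I) ω))

/-- the angular name `A_w` of a particle -/
noncomputable def anP (w : ℕ) (ω : p.Om) : ℤ × ℤ := reCell2 (W.R0 * rdLen (w * W.m)) (p.A ω)

/-- `Z = (A - A_0)/R0` -/
noncomputable def ZP (ω : p.Om) : ℝ × ℝ := W.R0⁻¹ • (p.A ω - reCor2 W.R0 (p.A ω))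

/-- **the properties of the stages `1, .., hg` of a classical tower**   (`Γ p0f d0f` of `rndCl η`; tolerance `2^(τ n)`) -/
structure Ok (hg C A : ℕ) (τ : ℝ) : Prop where
  free : W.E.st = []
  n_lo : W.q * W.m ≤ W.E.n
  n_hi : W.E.n < W.q * (W.m + 1)
  m_pos : 0 < W.m
  hg_lt : hg < W.q
  R0_pos : 0 < W.R0
  /-- all truncations are in the class and carry the certificate -/
  cls : ∀ i ≤ hg, (rndCl η).Cls C A p (W.Ex i)
  cert : ∀ i ≤ hg, 2 ^ (((rndCl η).Gam - τ) * W.E.n) ≤ (W.Ex i).val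
  /-- the terminal certificate -/
  hom : W.E.Hom ((rndCl η).p0f - τ) ((rndCl η).p0f + τ)
  tw : W.E.tw ≤ W.E.e / W.E.ka * W.E.s ^ (-((rndCl η).p0f + (rndCl η).d0f) - τ)
  shape : ∀ l, W.R0 ≤ (rcT (W.E.ts l)).r ∧ (rcT (W.E.ts l)).r < 2 * W.R0 ∧ W.E.s ^ τ ≤ (rcT (W.E.ts l)).f
  /-- the peel levels, in forward order, with the upper halves of (CE) -/
  lvl : ∀ i, 0 < i → i ≤ hg → (W.Ex i).LvlAt (W.stk (i - 1)) (W.sg i) [] (W.be i)
  be_hi : ∀ i, 0 < i → i ≤ hg → W.be i ≤ W.E.ka * (2 : ℝ) ^ (-((rndCl η).p0f * ((W.dp i - W.E.k0 : ℕ) : ℝ)) + τ * W.E.n)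
  raw_hi : ∀ i, 0 < i → i ≤ hg →
    W.E.raw (W.stk (i - 1)) (W.sg i) ≤ W.E.e * (2 : ℝ) ^ ((rndCl η).d0f * ((W.dp i - W.E.k0 : ℕ) : ℝ) + τ * W.E.n)

/-- the tower with a new level at the cut `i` -/
noncomputable def upd (i : ℕ) (Mk' : ℕ → p.Om → ℝ) (β : ℝ) : RcTw η p :=
  { W with Mk := Function.update W.Mk i Mk', be := Function.update W.be i β }

/-! ## the particle level bounds -/

/-- (excess) -/
def ExcP (t N : ℝ) : Prop :=
  ∀ i, 0 < i → i < W.q → ∀ V : Finset ReName,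
    W.fm (fun J => {ω | W.nmP i (W.aI i J) ω ∈ V}) ≤ (W.tl t * ((V.card : ℝ) * (W.Kb i * W.R0 ^ 4) / W.Eb i) ^ (2 / 3 : ℝ) + W.tl (-N)) * W.ft

/-- the terminal weight count -/
def CntP (t : ℝ) : Prop :=
  ∃ Vq : Finset ReName, (Vq.card : ℝ) ≤ W.tl t * (W.Eb W.q / (W.Kb W.q * W.R0 ^ 4)) ∧ ∀ l ω, W.E.th l ω ≠ 0 → W.nmP W.q (W.E.iv l) ω ∈ Vq

/-- lem:rt-memory -/
def MemP (t : ℝ) : Prop :=
  ∀ w, 0 < w → w < W.q → ∀ (x : ReName) (v : ℤ × ℤ),
    W.fm (fun J => {ω | W.nmP W.q J ω = x ∧ W.anP w ω = v}) ≤ W.tl t * (W.Kb (W.q - w) * W.R0 ^ 4) * W.tl (-(3 * (w : ℝ)))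

/-- lem:rt-time -/
def TimeP (t N : ℝ) : Prop :=
  ∀ i l, 0 < i → i < l → l < W.q → ∀ (G : ℝ) (Lst : ℕ → p.Om → Finset ℕ), (∀ I I', MeasurableSet {ω | I' ∈ Lst I ω}) →
    (∀ I ω, ((Lst I ω).card : ℝ) ≤ G) →
    W.fm (fun J => {ω | W.aI l J ∈ Lst (W.aI i J) ω}) ≤ (W.tl t * (G * W.Eb i / W.Eb l) ^ (2 / 3 : ℝ) + W.tl (-N)) * W.ft

/-- the particles of the candidate slabs (width `wd`) of the query `(i, b)` on the final interval `J` -/
def hit (i b : ℕ) (pn : ReName × ReName → ℝ × ℝ × ℝ) (pc : ReName × ReName → ℝ) (wd : ℝ) (J : ℕ) : Set p.Om :=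
  {ω | |(pn (W.nmP i (W.aI i J) ω, W.nmP b (W.aI b J) ω)).1 * (W.ZP ω).1 + (pn (W.nmP i (W.aI i J) ω, W.nmP b (W.aI b J) ω)).2.1 * (W.ZP ω).2
      + (pn (W.nmP i (W.aI i J) ω, W.nmP b (W.aI b J) ω)).2.2 * rtSq (W.ZP ω) - pc (W.nmP i (W.aI i J) ω, W.nmP b (W.aI b J) ω)| ≤ wd}

/-- lem:rt-slab-removal, classical (DOUBLE width: room for the representatives) -/
def SlabP (K : ℕ) (es ts : ℝ) : Prop :=
  ∀ i S, 0 < i → 0 < S → i + K * S < W.q → ∀ (pn : ReName × ReName → ℝ × ℝ × ℝ) (pc : ReName × ReName → ℝ),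
    (∀ x, (pn x).1 ^ 2 + (pn x).2.1 ^ 2 + (pn x).2.2 ^ 2 = 1) →
    W.fm (W.hit i (i + K * S) pn pc (2 * W.tl (-(es * S)))) ≤ W.tl (-ts) * W.ft

/-- **the particle level form of `RcDoc.Pre`** -/
structure PreP (t N c0 : ℝ) (K : ℕ) (es ts : ℝ) : Prop where
  sh_le : Real.logb 2 (W.E.e / (W.E.ka * W.R0 ^ 4)) / W.m ≤ c0
  totLo : W.tl (-t) * W.Eb W.q ≤ W.ft
  exc : W.ExcP t N
  cnt : W.CntP t
  mem : W.MemP t
  time : W.TimeP t N
  slab : W.SlabP K es ts

/-! ## atoms and the document -/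

/-- the index set of the names: (cut, interval) -/
noncomputable def ix : Finset (ℕ × ℕ) := (Finset.range (W.q + 1)).biUnion fun i => (W.iv i).image fun I => (i, I)

/-- values of the joint name map -/
abbrev Ps : Type := (ℤ × ℤ) × ({x : ℕ × ℕ // x ∈ W.ix} → ReName)

/-- the joint name map: fine angular cell (width `R0 2^-B`) and all names -/
noncomputable def psi (B : ℕ) (ω : p.Om) : W.Ps := (reCell2 (W.R0 * rdLen B) (p.A ω), fun x => W.nmP x.1.1 x.1.2 ω)

/-- phase point at time `0` of a chosen particle of the fibre -/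
noncomputable def ray (B : ℕ) (π : W.Ps) : RtRow :=
  if h : ∃ ω, W.psi B ω = π then ⟨p.A h.choose, p.B h.choose, p.Y h.choose⟩ else ⟨0, 0, 0⟩

/-- **the document of a classical tower** on the finite set `F` of atoms -/
noncomputable def doc (B : ℕ) (F : Finset W.Ps) : RcDoc where
  q := W.q
  m := W.m
  k0 := W.kb
  R0 := W.R0
  e := W.E.e
  ka := W.E.ka
  Pa := {π : W.Ps // π ∈ F}
  fin := inferInstance
  ray := fun π => W.ray B π.1
  Iv := ivs W.E.k0 W.E.i0 W.E.kf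
  ms := fun J π => W.fm fun J' => {ω | J' = J ∧ W.psi B ω = π.1}
  Dn := fun _ => 0
  Gn := fun _ _ => 0

end RcTw

theorem rc_tow_eqns_cite : True := by
  have := @Xp.rs.eq_1
  have := @RcTw.kb.eq_1
  have := @RcTw.dp.eq_1
  have := @RcTw.tl.eq_1
  have := @RcTw.Eb.eq_1
  have := @RcTw.Kb.eq_1
  have := @RcTw.sg.eq_1
  have := @RcTw.stk.eq_1
  have := @RcTw.Ex.eq_1
  have := @RcTw.X.eq_1
  have := @RcTw.iv.eq_1
  have := @RcTw.aI.eq_1
  have := @RcTw.st.eq_1
  have := @RcTw.em.eq_1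
  have := @RcTw.fm.eq_1
  have := @RcTw.ft.eq_1
  have := @RcTw.nmP.eq_1
  have := @RcTw.anP.eq_1
  have := @RcTw.ZP.eq_1
  have := @RcTw.upd.eq_1
  have := @RcTw.ExcP.eq_1
  have := @RcTw.CntP.eq_1
  have := @RcTw.MemP.eq_1
  have := @RcTw.TimeP.eq_1
  have := @RcTw.hit.eq_1
  have := @RcTw.SlabP.eq_1
  have := @RcTw.ix.eq_1
  have := @RcTw.Ps.eq_1
  have := @RcTw.psi.eq_1
  have := @RcTw.ray.eq_1
  have := @RcTw.doc.eq_1
  trivial

end Claimed.Agent.R256
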