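-- KEEP
import Claimed.Agent.R256.Rc.Tow

set_option autoImplicit false

namespace Claimed.Agent.R256

open MeasureTheory
open scoped BigOperators
open Classical

/-! ## 0. measure theory -/

/-- finitely many fibres of a countably valued map carry almost all the mass of a finite measure -/
theorem rc_at_fib_fin {Ω ι : Type} [MeasurableSpace Ω] [Countable ι] (μ : Measure Ω) [IsFiniteMeasure μ] (ψ : Ω → ι)
    (hψ : ∀ c, MeasurableSet (ψ ⁻¹' {c})) {ε : ℝ} (hε : 0 < ε) :
    ∃ F : Finset ι, μ.real Set.univ - ε ≤ ∑ c ∈ F, μ.real (ψ ⁻¹' {c}) := by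
  have hU : (Set.univ : Set Ω) = ⋃ c, ψ ⁻¹' {c} := by
    ext x
    simp
  have hd : Pairwise (Function.onFun Disjoint fun c => ψ ⁻¹' {c}) := by
    intro c c' hc
    refine Set.disjoint_left.2 fun x hx hx' => hc ?_
    have h1 : ψ x = c := hx
    have h2 : ψ x = c' := hx'
    rw [← h1, ← h2]
  have hs : HasSum (fun c => μ.real (ψ ⁻¹' {c})) (μ.real Set.univ) := by
    have h1 : μ Set.univ = ∑' c, μ (ψ ⁻¹' {c}) := by
      conv_lhs => rw [hU]
      exact measure_iUnion hd hψ
    have h2 : ∑' c, μ (ψ ⁻¹' {c}) ≠ ⊤ := by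
      rw [← h1]
      exact measure_ne_top μ _
    have h3 := (ENNReal.hasSum_toReal h2)
    have h4 : μ.real Set.univ = ∑' c, (μ (ψ ⁻¹' {c})).toReal := by
      unfold Measure.real
      rw [h1, ENNReal.tsum_toReal_eq fun c => measure_ne_top μ _]
    rw [h4]
    exact h3
  have ht : Filter.Tendsto (fun s : Finset ι => ∑ c ∈ s, μ.real (ψ ⁻¹' {c})) Filter.atTop (nhds (μ.real Set.univ)) := hs
  have := (tendsto_order.1 ht).1 (μ.real Set.univ - ε) (by linarith)
  obtain ⟨F, hF⟩ := this.exists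
  exact ⟨F, hF.le⟩

/-! ## 1. the measure of a label (generic) -/

/-- the measure of a label -/
noncomputable def Xp.lmu {P : PkSys} (E : Xp P) (l : Fin E.L) : Measure P.X :=
  (P.rho E.kf).withDensity fun x =>
    ENNReal.ofReal (E.th l x * ‖(P.An (tmL E.kf (E.iv l)) E.kf E.bT (E.fin (E.iv l)) : P.X → P.Fb) x‖ ^ 2)

theorem rc_at_lmu_eqns_cite : True := by
  have := @Xp.lmu.eq_1
  trivial

variable {P : PkSys}

theorem rc_at_lmu_fin (E : Xp P) (l : Fin E.L) (hth : IsMask (E.th l)) : IsFiniteMeasure (E.lmu l) := by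
  unfold Xp.lmu
  exact isFiniteMeasure_withDensity_ofReal (gn_en_integrable _ _ _ hth _).2

theorem rc_at_rs_m (E : Xp P) (l : Fin E.L) (hth : IsMask (E.th l)) (U : ℕ → Set P.X) (hU : MeasurableSet (U (E.iv l))) :
    (E.rs U).m l = (E.lmu l).real (U (E.iv l)) := by
  have e1 : (E.rs U).m l = P.en (tmL E.kf (E.iv l)) E.kf E.bT ((U (E.iv l)).indicator (E.th l)) (E.fin (E.iv l)) := rfl
  rw [e1]
  unfold PkSys.en Xp.lmu Measure.real
  have hint := gn_en_integrable (tmL E.kf (E.iv l)) E.kf E.bT hth (E.fin (E.iv l))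
  rw [withDensity_apply _ hU]
  have e2 : (fun x => (U (E.iv l)).indicator (E.th l) x * ‖(P.An (tmL E.kf (E.iv l)) E.kf E.bT (E.fin (E.iv l)) : P.X → P.Fb) x‖ ^ 2)
      = (U (E.iv l)).indicator (fun x => E.th l x * ‖(P.An (tmL E.kf (E.iv l)) E.kf E.bT (E.fin (E.iv l)) : P.X → P.Fb) x‖ ^ 2) := by
    ext x
    by_cases hx : x ∈ U (E.iv l) <;> simp [hx]
  rw [e2, integral_indicator hU, integral_eq_lintegral_of_nonneg_ae
    (Filter.Eventually.of_forall fun x => mul_nonneg (hth.2 x).1 (by positivity)) hint.aestronglyMeasurable.restrict]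

theorem rc_at_rs_tm (E : Xp P) (hth : ∀ l, IsMask (E.th l)) (U : ℕ → Set P.X) (hU : ∀ J, MeasurableSet (U J)) :
    (E.rs U).tm = ∑ l, (E.lmu l).real (U (E.iv l)) := by
  have e1 : (E.rs U).tm = ∑ l : Fin E.L, (E.rs U).m l := rfl
  rw [e1]
  exact Finset.sum_congr rfl fun l _ => rc_at_rs_m E l (hth l) U (hU _)

/-- the label measure does not charge the zeros of the label function -/
theorem rc_at_lmu_zero (E : Xp P) (l : Fin E.L) {S : Set P.X} (hS : MeasurableSet S) (h : ∀ x ∈ S, E.th l x = 0) :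
    (E.lmu l).real S = 0 := by
  unfold Xp.lmu Measure.real
  rw [withDensity_apply _ hS, setLIntegral_congr_fun hS (g := fun _ => 0) (fun x hx => by simp [h x hx])]
  simp

theorem rc_at_mask (E : Xp P) (hE : E.Valid) (l : Fin E.L) : IsMask (E.th l) := by
  refine ⟨hE.th_meas l, fun x => ⟨hE.th_nn l x, ?_⟩⟩
  refine le_trans ?_ (hE.th_sum (E.iv l) x)
  have : E.th l x = (if E.iv l = E.iv l then E.th l x else 0) := by simp
  rw [this]
  exact Finset.single_le_sum (f := fun l' => if E.iv l' = E.iv l then E.th l' x else 0)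
    (fun l' _ => by split_ifs; exacts [hE.th_nn l' x, le_rfl]) (Finset.mem_univ l)

end Claimed.Agent.R256
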