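-- KEEP
import Claimed.Agent.R256.Rc.AtA

set_option autoImplicit false

namespace Claimed.Agent.R256

open MeasureTheory
open scoped BigOperators
open Classical

variable {η : ℝ} {p : RdClPar} (W : RcTw η p)

/-! ## 2. the final measure -/

theorem rc_at_fm (hV : W.X.Valid) (U : ℕ → Set p.Om) (hU : ∀ J, MeasurableSet (U J)) :
    W.fm U = ∑ l, (W.X.lmu l).real (U (W.X.iv l)) :=
  rc_at_rs_tm W.X (rc_at_mask W.X hV) U hU

theorem rc_at_cell_meas {Ω : Type} [MeasurableSpace Ω] (w : ℝ) {f : Ω → ℝ} (hf : Measurable f) : Measurable (fun x => reCell w (f x)) := by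
  unfold reCell
  exact (hf.div_const w).floor

theorem rc_at_cellR_meas {Ω : Type} [MeasurableSpace Ω] (w : ℝ) {f : Ω → ℝ} (hf : Measurable f) :
    Measurable (fun x => ((reCell w (f x) : ℤ) : ℝ)) :=
  (measurable_from_top (f := fun z : ℤ => (z : ℝ))).comp (rc_at_cell_meas w hf)

theorem rc_at_meas_nmP (i I : ℕ) : Measurable (W.nmP i I) := by
  have a1 : Measurable (fun ω => (p.A ω).1) := measurable_fst.comp p.mA
  have a2 : Measurable (fun ω => (p.A ω).2) := measurable_snd.comp p.mA
  have b1 : Measurable (fun ω => (p.B ω).1) := measurable_fst.comp p.mB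
  have b2 : Measurable (fun ω => (p.B ω).2) := measurable_snd.comp p.mB
  have y : Measurable p.Y := p.mY
  unfold RcTw.nmP reNm reCell2 reCor2 rtIp RdClPar.co RtRow.flow rtSq
  refine Measurable.prodMk measurable_const (Measurable.prodMk (Measurable.prodMk (rc_at_cell_meas _ a1) (rc_at_cell_meas _ a2))
    (Measurable.prodMk (Measurable.prodMk (rc_at_cell_meas _ ?_) (rc_at_cell_meas _ ?_)) (rc_at_cell_meas _ ?_)))
  · exact b1.add (a1.const_mul _)
  · exact b2.add (a2.const_mul _)
  · refine (y.add (((a1.pow_const 2).add (a2.pow_const 2)).const_mul _)).sub (Measurable.const_mul ?_ 2)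
    exact (((rc_at_cellR_meas _ a1).const_mul _).mul (b1.add (a1.const_mul _))).add
      (((rc_at_cellR_meas _ a2).const_mul _).mul (b2.add (a2.const_mul _)))

theorem rc_at_meas_psi (B : ℕ) : Measurable (W.psi B) := by
  have a1 : Measurable (fun ω => (p.A ω).1) := measurable_fst.comp p.mA
  have a2 : Measurable (fun ω => (p.A ω).2) := measurable_snd.comp p.mA
  unfold RcTw.psi
  refine Measurable.prodMk ?_ (measurable_pi_lambda _ fun x => rc_at_meas_nmP W _ _)
  unfold reCell2
  exact Measurable.prodMk (rc_at_cell_meas _ a1) (rc_at_cell_meas _ a2)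

/-- every event which depends only on the joint name is measurable -/
theorem rc_at_meas_pre (B : ℕ) (T : Set W.Ps) : MeasurableSet {ω | W.psi B ω ∈ T} :=
  rc_at_meas_psi W B T.to_countable.measurableSet

end Claimed.Agent.R256
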