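-- KEEP
import Claimed.Agent.R256.Rc.AtB

set_option autoImplicit false

namespace Claimed.Agent.R256

open MeasureTheory
open scoped BigOperators
open Classical

variable {η : ℝ} {p : RdClPar} (W : RcTw η p)

/-! ## 3. atoms versus particles -/

theorem rc_at_meas_atom (B : ℕ) (J J' : ℕ) (π : W.Ps) : MeasurableSet {ω | J' = J ∧ W.psi B ω = π} := by
  by_cases h : J' = J
  · have : {ω | J' = J ∧ W.psi B ω = π} = {ω | W.psi B ω ∈ ({π} : Set W.Ps)} := by
      ext ω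
      simp [h]
    rw [this]
    exact rc_at_meas_pre W B _
  · have : {ω | J' = J ∧ W.psi B ω = π} = ∅ := by
      ext ω
      simp [h]
    rw [this]
    exact MeasurableSet.empty

theorem rc_at_am (hV : W.X.Valid) (B : ℕ) (F : Finset W.Ps) (a : (W.doc B F).At) :
    (W.doc B F).am a = ∑ l, (W.X.lmu l).real {ω | W.X.iv l = a.1.1 ∧ W.psi B ω = a.2.1} :=
  rc_at_fm W hV _ fun J' => rc_at_meas_atom W B a.1.1 J' a.2.1

theorem rc_at_am_nn (hV : W.X.Valid) (B : ℕ) (F : Finset W.Ps) (a : (W.doc B F).At) : 0 ≤ (W.doc B F).am a := by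
  rw [rc_at_am W hV]
  exact Finset.sum_nonneg fun l _ => measureReal_nonneg

/-- **transfer**: an event of atoms all of whose particles lie in `U` -/
theorem rc_at_mass_le (hV : W.X.Valid) (B : ℕ) (F : Finset W.Ps) (S : (W.doc B F).At → Prop) (U : ℕ → Set p.Om)
    (hU : ∀ J, MeasurableSet (U J)) (h : ∀ a, S a → ∀ ω, W.psi B ω = a.2.1 → ω ∈ U a.1.1) :
    (W.doc B F).mass S ≤ W.fm U := by
  rw [rc_at_fm W hV U hU]
  unfold RcDoc.mass
  have e1 : ∑ a : (W.doc B F).At, (if S a then (W.doc B F).am a else 0)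
      = ∑ l, ∑ a ∈ Finset.univ.filter S, (W.X.lmu l).real {ω | W.X.iv l = a.1.1 ∧ W.psi B ω = a.2.1} := by
    rw [← Finset.sum_filter, Finset.sum_comm]
    exact Finset.sum_congr rfl fun a _ => rc_at_am W hV B F a
  rw [e1]
  refine Finset.sum_le_sum fun l _ => ?_
  have := rc_at_lmu_fin W.X l (rc_at_mask W.X hV l)
  rw [← measureReal_biUnion_finset (μ := W.X.lmu l) (s := Finset.univ.filter S)
    (f := fun a : (W.doc B F).At => {ω | W.X.iv l = a.1.1 ∧ W.psi B ω = a.2.1})]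
  · refine measureReal_mono fun ω hω => ?_
    simp only [Set.mem_iUnion] at hω
    obtain ⟨a, ha, h1, h2⟩ := hω
    rw [h1]
    exact h a (Finset.mem_filter.1 ha).2 ω h2
  · intro a _ a' _ hne
    refine Set.disjoint_left.2 fun ω hω hω' => hne ?_
    obtain ⟨h1, h2⟩ := hω
    obtain ⟨h3, h4⟩ := hω'
    exact Prod.ext (Subtype.ext (h1.symm.trans h3)) (Subtype.ext (h2.symm.trans h4))
  · intro a _
    exact rc_at_meas_atom W B a.1.1 (W.X.iv l) a.2.1

theorem rc_at_tot_eq (B : ℕ) (F : Finset W.Ps) : (W.doc B F).tot = (W.doc B F).mass fun _ => True := by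
  unfold RcDoc.tot RcDoc.mass
  simp

theorem rc_at_tot_le (hV : W.X.Valid) (B : ℕ) (F : Finset W.Ps) : (W.doc B F).tot ≤ W.ft := by
  rw [rc_at_tot_eq]
  exact rc_at_mass_le W hV B F _ _ (fun _ => MeasurableSet.univ) fun _ _ _ _ => Set.mem_univ _

theorem rc_at_iv_mem (hV : W.X.Valid) (l : Fin W.X.L) : W.X.iv l ∈ ivs W.E.k0 W.E.i0 W.E.kf := by
  rw [gn_mem_ivs]
  exact hV.iv_in l

theorem rc_at_tot_ge' (hV : W.X.Valid) (B : ℕ) (F : Finset W.Ps) :
    ∑ l, ∑ π ∈ F, (W.X.lmu l).real (W.psi B ⁻¹' {π}) ≤ (W.doc B F).tot := by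
  unfold RcDoc.tot
  have e1 : ∑ a : (W.doc B F).At, (W.doc B F).am a
      = ∑ l, ∑ a : (W.doc B F).At, (W.X.lmu l).real {ω | W.X.iv l = a.1.1 ∧ W.psi B ω = a.2.1} := by
    rw [Finset.sum_comm]
    exact Finset.sum_congr rfl fun a _ => rc_at_am W hV B F a
  rw [e1]
  refine Finset.sum_le_sum fun l _ => ?_
  have e2 : ∑ a : (W.doc B F).At, (W.X.lmu l).real {ω | W.X.iv l = a.1.1 ∧ W.psi B ω = a.2.1}
      = ∑ π : {π : W.Ps // π ∈ F}, ∑ J : {J : ℕ // J ∈ ivs W.E.k0 W.E.i0 W.E.kf},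
          (W.X.lmu l).real {ω | W.X.iv l = J.1 ∧ W.psi B ω = π.1} := by
    rw [Finset.sum_comm]
    exact Fintype.sum_prod_type _
  rw [e2, ← Finset.sum_coe_sort F]
  refine Finset.sum_le_sum fun π _ => ?_
  have e3 : (W.X.lmu l).real (W.psi B ⁻¹' {π.1})
      = (W.X.lmu l).real {ω | W.X.iv l = (⟨W.X.iv l, rc_at_iv_mem W hV l⟩ : {J : ℕ // J ∈ ivs W.E.k0 W.E.i0 W.E.kf}).1 ∧ W.psi B ω = π.1} := by
    congr 1
    ext ω
    constructor
    · intro h
      exact ⟨rfl, h⟩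
    · intro h
      exact h.2
  rw [e3]
  exact Finset.single_le_sum (f := fun J : {J : ℕ // J ∈ ivs W.E.k0 W.E.i0 W.E.kf} =>
    (W.X.lmu l).real {ω | W.X.iv l = J.1 ∧ W.psi B ω = π.1}) (fun _ _ => measureReal_nonneg) (Finset.mem_univ _)

/-- finitely many atoms carry almost all the final mass -/
theorem rc_at_tot_ge (hV : W.X.Valid) (B : ℕ) {ε : ℝ} (hε : 0 < ε) : ∃ F : Finset W.Ps, W.ft - ε ≤ (W.doc B F).tot := by
  have hL : (0 : ℝ) < (W.X.L : ℝ) + 1 := by positivity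
  have hex : ∀ l : Fin W.X.L, ∃ Fl : Finset W.Ps,
      (W.X.lmu l).real Set.univ - ε / ((W.X.L : ℝ) + 1) ≤ ∑ c ∈ Fl, (W.X.lmu l).real (W.psi B ⁻¹' {c}) := by
    intro l
    have := rc_at_lmu_fin W.X l (rc_at_mask W.X hV l)
    exact rc_at_fib_fin (W.X.lmu l) (W.psi B) (fun c => rc_at_meas_psi W B (measurableSet_singleton c)) (by positivity)
  choose Fl hFl using hex
  refine ⟨Finset.univ.biUnion Fl, le_trans ?_ (rc_at_tot_ge' W hV B _)⟩
  have h1 : ∀ l, (W.X.lmu l).real Set.univ - ε / ((W.X.L : ℝ) + 1)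
      ≤ ∑ π ∈ Finset.univ.biUnion Fl, (W.X.lmu l).real (W.psi B ⁻¹' {π}) := fun l =>
    (hFl l).trans (Finset.sum_le_sum_of_subset_of_nonneg (Finset.subset_biUnion_of_mem Fl (Finset.mem_univ l))
      fun _ _ _ => measureReal_nonneg)
  have h2 := Finset.sum_le_sum fun l (_ : l ∈ Finset.univ) => h1 l
  have h3 : W.ft = ∑ l, (W.X.lmu l).real Set.univ := rc_at_fm W hV _ fun _ => MeasurableSet.univ
  rw [Finset.sum_sub_distrib, Finset.sum_const, Finset.card_univ, Fintype.card_fin, nsmul_eq_mul, ← h3] at h2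
  have h4 : (W.X.L : ℝ) * (ε / ((W.X.L : ℝ) + 1)) ≤ ε := by
    rw [mul_div_assoc', div_le_iff₀ hL]
    nlinarith
  linarith

end Claimed.Agent.R256
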