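-- KEEP
import Claimed.Agent.R256.Rc.AtC
import Claimed.Agent.R256.Re.ProfGeo

set_option autoImplicit false

namespace Claimed.Agent.R256

open MeasureTheory
open scoped BigOperators
open Classical

variable {η : ℝ} {p : RdClPar} (W : RcTw η p)

/-! ## 4. the dictionary -/

theorem rc_at_dp_q (hn : W.q * W.m ≤ W.E.n) : W.dp W.q = W.E.kf := by
  unfold RcTw.dp RcTw.kb Xp.kf
  omega

theorem rc_at_dp_le (hn : W.q * W.m ≤ W.E.n) {i : ℕ} (hi : i ≤ W.q) : W.E.k0 ≤ W.dp i ∧ W.dp i ≤ W.E.kf := by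
  have h1 : i * W.m ≤ W.q * W.m := Nat.mul_le_mul_right _ hi
  unfold RcTw.dp RcTw.kb Xp.kf
  omega

theorem rc_at_ix (hn : W.q * W.m ≤ W.E.n) {i : ℕ} (hi : i ≤ W.q) {J : ℕ} (hJ : J ∈ ivs W.E.k0 W.E.i0 W.E.kf) :
    (i, W.aI i J) ∈ W.ix := by
  obtain ⟨h1, h2⟩ := rc_at_dp_le W hn hi
  unfold RcTw.ix
  refine Finset.mem_biUnion.2 ⟨i, Finset.mem_range.2 (by omega), Finset.mem_image.2 ⟨W.aI i J, ?_, rfl⟩⟩
  unfold RcTw.iv RcTw.aI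
  rw [gn_mem_ivs, gn_anc_anc h1 h2]
  exact (gn_mem_ivs _ _ _ _).1 hJ

theorem rc_at_aI_q (hn : W.q * W.m ≤ W.E.n) (J : ℕ) : W.aI W.q J = J := by
  unfold RcTw.aI
  rw [rc_at_dp_q W hn]
  simp [ancI]

theorem rc_at_anc (hn : W.q * W.m ≤ W.E.n) (B : ℕ) (F : Finset W.Ps) (i : ℕ) (a : (W.doc B F).At) :
    (W.doc B F).anc i a = W.aI i a.1.1 := by
  show ancI (W.dp W.q) (W.dp i) a.1.1 = ancI W.E.kf (W.dp i) a.1.1
  rw [rc_at_dp_q W hn]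

/-- the representative of a nonempty fibre -/
theorem rc_at_rep (B : ℕ) {π : W.Ps} {ω : p.Om} (hω : W.psi B ω = π) :
    ∃ ω0, W.psi B ω0 = π ∧ W.ray B π = ⟨p.A ω0, p.B ω0, p.Y ω0⟩ := by
  have h : ∃ ω, W.psi B ω = π := ⟨ω, hω⟩
  refine ⟨h.choose, h.choose_spec, ?_⟩
  unfold RcTw.ray
  rw [dif_pos h]

/-- names are constant on the fibres -/
theorem rc_at_nmP_eq (B : ℕ) {ω ω' : p.Om} (h : W.psi B ω = W.psi B ω') {x : ℕ × ℕ} (hx : x ∈ W.ix) :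
    W.nmP x.1 x.2 ω = W.nmP x.1 x.2 ω' := by
  have h2 := congrArg Prod.snd h
  exact congrFun h2 ⟨x, hx⟩

/-- **DICT 1**: the name of an atom is the name of every particle of the fibre -/
theorem rc_at_nm (hn : W.q * W.m ≤ W.E.n) (B : ℕ) (F : Finset W.Ps) {i : ℕ} (hi : i ≤ W.q) (a : (W.doc B F).At) {ω : p.Om}
    (hω : W.psi B ω = a.2.1) : (W.doc B F).nm i a = W.nmP i (W.aI i a.1.1) ω := by
  obtain ⟨ω0, h0, hr⟩ := rc_at_rep W B hω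
  have e1 : (W.doc B F).nm i a = W.nmP i (W.aI i a.1.1) ω0 := by
    have e2 := rc_at_anc W hn B F i a
    show ((W.doc B F).anc i a, reNm (rdLen (W.dp i)) W.R0 ((W.ray B a.2.1).flow (tmL (W.dp i) ((W.doc B F).anc i a)))) = _
    rw [e2, hr]
    rfl
  rw [e1]
  exact rc_at_nmP_eq W B (h0.trans hω.symm) (x := (i, W.aI i a.1.1)) (rc_at_ix W hn hi a.1.2)

/-- nested cells -/
theorem rc_at_nest {R : ℝ} (hR : 0 < R) {k B : ℕ} (hk : k ≤ B) {x y : ℝ} (h : reCell (R * rdLen B) x = reCell (R * rdLen B) y) :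
    reCell (R * rdLen k) x = reCell (R * rdLen k) y := by
  have hB : 0 < R * rdLen B := by unfold rdLen; positivity
  have e : R * rdLen k = R * rdLen B * 2 ^ (B - k) := by
    unfold rdLen
    obtain ⟨d, rfl⟩ := Nat.exists_eq_add_of_le hk
    rw [Nat.add_sub_cancel_left, pow_add, mul_assoc, mul_assoc, ← mul_pow]
    norm_num
  rw [re_g5_cdiv hB (B - k) e x, re_g5_cdiv hB (B - k) e y, h]

theorem rc_at_nest2 {R : ℝ} (hR : 0 < R) {k B : ℕ} (hk : k ≤ B) {x y : ℝ × ℝ} (h : reCell2 (R * rdLen B) x = reCell2 (R * rdLen B) y) :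
    reCell2 (R * rdLen k) x = reCell2 (R * rdLen k) y := by
  unfold reCell2 at h ⊢
  have h1 := congrArg Prod.fst h
  have h2 := congrArg Prod.snd h
  exact Prod.ext (rc_at_nest hR hk h1) (rc_at_nest hR hk h2)

/-- **DICT 2**: angular names -/
theorem rc_at_an (hR : 0 < W.R0) (B : ℕ) (F : Finset W.Ps) {w : ℕ} (hw : w * W.m ≤ B) (a : (W.doc B F).At) {ω : p.Om}
    (hω : W.psi B ω = a.2.1) : (W.doc B F).an w a = W.anP w ω := by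
  obtain ⟨ω0, h0, hr⟩ := rc_at_rep W B hω
  show reCell2 (W.R0 * rdLen (w * W.m)) (W.ray B a.2.1).A = reCell2 (W.R0 * rdLen (w * W.m)) (p.A ω)
  rw [hr]
  exact rc_at_nest2 hR hw (congrArg Prod.fst (h0.trans hω.symm))

/-- two points of one fine cell, normalised -/
theorem rc_at_z1 {R : ℝ} (hR : 0 < R) (B : ℕ) {x y : ℝ} (h : reCell (R * rdLen B) x = reCell (R * rdLen B) y) :
    |R⁻¹ * (x - R * reCell R x) - R⁻¹ * (y - R * reCell R y)| ≤ rdLen B := by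
  have hB : 0 < R * rdLen B := by unfold rdLen; positivity
  have h0 : reCell R x = reCell R y := by
    have := rc_at_nest hR (Nat.zero_le B) h
    simpa [rdLen] using this
  obtain ⟨a1, a2⟩ := re_aux_cor hB x
  obtain ⟨b1, b2⟩ := re_aux_cor hB y
  rw [h] at a1 a2
  rw [h0]
  have e : R⁻¹ * (x - R * reCell R y) - R⁻¹ * (y - R * reCell R y) = R⁻¹ * (x - y) := by ring
  rw [e, abs_mul, abs_of_pos (inv_pos.2 hR), inv_mul_le_iff₀ hR, abs_le]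
  constructor <;> linarith

theorem rc_at_z01 {R : ℝ} (hR : 0 < R) (x : ℝ) : 0 ≤ R⁻¹ * (x - R * reCell R x) ∧ R⁻¹ * (x - R * reCell R x) ≤ 1 := by
  obtain ⟨a1, a2⟩ := re_aux_cor hR x
  refine ⟨mul_nonneg (inv_pos.2 hR).le a1, ?_⟩
  rw [inv_mul_le_iff₀ hR]
  linarith

/-- **DICT 3**: the normalised angle -/
theorem rc_at_Z (hR : 0 < W.R0) (B : ℕ) (F : Finset W.Ps) (a : (W.doc B F).At) {ω : p.Om} (hω : W.psi B ω = a.2.1) :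
    |((W.doc B F).Zv a).1 - (W.ZP ω).1| ≤ rdLen B ∧ |((W.doc B F).Zv a).2 - (W.ZP ω).2| ≤ rdLen B := by
  obtain ⟨ω0, h0, hr⟩ := rc_at_rep W B hω
  have hc : reCell2 (W.R0 * rdLen B) (p.A ω0) = reCell2 (W.R0 * rdLen B) (p.A ω) := congrArg Prod.fst (h0.trans hω.symm)
  have e : (W.doc B F).Zv a = W.R0⁻¹ • (p.A ω0 - reCor2 W.R0 (p.A ω0)) := by
    show W.R0⁻¹ • ((W.ray B a.2.1).A - reCor2 W.R0 (W.ray B a.2.1).A) = _
    rw [hr]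
  rw [e]
  unfold reCell2 at hc
  exact ⟨rc_at_z1 hR B (congrArg Prod.fst hc), rc_at_z1 hR B (congrArg Prod.snd hc)⟩

theorem rc_at_ZP01 (hR : 0 < W.R0) (ω : p.Om) : (0 ≤ (W.ZP ω).1 ∧ (W.ZP ω).1 ≤ 1) ∧ 0 ≤ (W.ZP ω).2 ∧ (W.ZP ω).2 ≤ 1 :=
  ⟨rc_at_z01 hR _, rc_at_z01 hR _⟩

theorem rc_at_Zv01 (hR : 0 < W.R0) (B : ℕ) (F : Finset W.Ps) (a : (W.doc B F).At) :
    (0 ≤ ((W.doc B F).Zv a).1 ∧ ((W.doc B F).Zv a).1 ≤ 1) ∧ 0 ≤ ((W.doc B F).Zv a).2 ∧ ((W.doc B F).Zv a).2 ≤ 1 :=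
  ⟨rc_at_z01 hR _, rc_at_z01 hR _⟩

/-- perturbation of a slab functional -/
theorem rc_at_slab {n1 n2 n3 c w δ : ℝ} {z z' : ℝ × ℝ} (hn : n1 ^ 2 + n2 ^ 2 + n3 ^ 2 = 1)
    (hz : (0 ≤ z.1 ∧ z.1 ≤ 1) ∧ 0 ≤ z.2 ∧ z.2 ≤ 1) (hz' : (0 ≤ z'.1 ∧ z'.1 ≤ 1) ∧ 0 ≤ z'.2 ∧ z'.2 ≤ 1)
    (h1 : |z.1 - z'.1| ≤ δ) (h2 : |z.2 - z'.2| ≤ δ) (h : |n1 * z.1 + n2 * z.2 + n3 * rtSq z - c| ≤ w) :
    |n1 * z'.1 + n2 * z'.2 + n3 * rtSq z' - c| ≤ w + 6 * δ := by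
  have b1 : |n1| ≤ 1 := abs_le_of_sq_le_sq' (by nlinarith [sq_nonneg n2, sq_nonneg n3]) one_pos.le |> abs_le.2
  have b2 : |n2| ≤ 1 := abs_le_of_sq_le_sq' (by nlinarith [sq_nonneg n1, sq_nonneg n3]) one_pos.le |> abs_le.2
  have b3 : |n3| ≤ 1 := abs_le_of_sq_le_sq' (by nlinarith [sq_nonneg n1, sq_nonneg n2]) one_pos.le |> abs_le.2
  have hδ : 0 ≤ δ := (abs_nonneg _).trans h1
  obtain ⟨⟨u1, u2⟩, u3, u4⟩ := hz
  obtain ⟨⟨v1, v2⟩, v3, v4⟩ := hz'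
  have e : n1 * z'.1 + n2 * z'.2 + n3 * rtSq z' - c = (n1 * z.1 + n2 * z.2 + n3 * rtSq z - c)
      - n1 * (z.1 - z'.1) - n2 * (z.2 - z'.2) - n3 * ((z.1 - z'.1) * (z.1 + z'.1)) - n3 * ((z.2 - z'.2) * (z.2 + z'.2)) := by
    unfold rtSq
    ring
  have c1 : |n1 * (z.1 - z'.1)| ≤ δ := by
    rw [abs_mul]
    calc |n1| * |z.1 - z'.1| ≤ 1 * δ := mul_le_mul b1 h1 (abs_nonneg _) one_pos.le
      _ = δ := one_mul _
  have c2 : |n2 * (z.2 - z'.2)| ≤ δ := by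
    rw [abs_mul]
    calc |n2| * |z.2 - z'.2| ≤ 1 * δ := mul_le_mul b2 h2 (abs_nonneg _) one_pos.le
      _ = δ := one_mul _
  have c3 : |n3 * ((z.1 - z'.1) * (z.1 + z'.1))| ≤ 2 * δ := by
    rw [abs_mul, abs_mul, abs_of_nonneg (by linarith : 0 ≤ z.1 + z'.1)]
    calc |n3| * (|z.1 - z'.1| * (z.1 + z'.1)) ≤ 1 * (δ * 2) :=
          mul_le_mul b3 (mul_le_mul h1 (by linarith) (by linarith) hδ) (mul_nonneg (abs_nonneg _) (by linarith)) one_pos.le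
      _ = 2 * δ := by ring
  have c4 : |n3 * ((z.2 - z'.2) * (z.2 + z'.2))| ≤ 2 * δ := by
    rw [abs_mul, abs_mul, abs_of_nonneg (by linarith : 0 ≤ z.2 + z'.2)]
    calc |n3| * (|z.2 - z'.2| * (z.2 + z'.2)) ≤ 1 * (δ * 2) :=
          mul_le_mul b3 (mul_le_mul h2 (by linarith) (by linarith) hδ) (mul_nonneg (abs_nonneg _) (by linarith)) one_pos.le
      _ = 2 * δ := by ring
  rw [e]
  rw [abs_le] at h c1 c2 c3 c4 ⊢
  constructor <;> linarith [h.1, h.2, c1.1, c1.2, c2.1, c2.2, c3.1, c3.2, c4.1, c4.2]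

end Claimed.Agent.R256
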