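-- KEEP
import Claimed.Agent.R256.Rc.AtD

set_option autoImplicit false

namespace Claimed.Agent.R256

open MeasureTheory
open scoped BigOperators
open Classical

variable {η : ℝ} {p : RdClPar} (W : RcTw η p)

/-! ## 5. the factors -/

theorem rc_at_tl_add (a b : ℝ) : W.tl a * W.tl b = W.tl (a + b) := by
  unfold RcTw.tl
  rw [← Real.rpow_add (by norm_num), add_mul]

theorem rc_at_tl_pos (a : ℝ) : 0 < W.tl a := Real.rpow_pos_of_pos (by norm_num) _

theorem rc_at_tl_mono {a b : ℝ} (h : a ≤ b) : W.tl a ≤ W.tl b :=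
  gn_two_mono (mul_le_mul_of_nonneg_right h (Nat.cast_nonneg _))

theorem rc_at_Eb_pos (hV : W.X.Valid) (i : ℕ) : 0 < W.Eb i := mul_pos hV.e_pos (gn_two_pos _)

theorem rc_at_Kb_pos (hV : W.X.Valid) (i : ℕ) : 0 < W.Kb i := mul_pos hV.ka_pos (gn_two_pos _)

theorem rc_at_tot_nn (hV : W.X.Valid) (B : ℕ) (F : Finset W.Ps) : 0 ≤ (W.doc B F).tot :=
  Finset.sum_nonneg fun a _ => rc_at_am_nn W hV B F a

/-! ## 6. more measurability -/

theorem rc_at_meas_anP (w : ℕ) : Measurable (W.anP w) := by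
  have a1 : Measurable (fun ω => (p.A ω).1) := measurable_fst.comp p.mA
  have a2 : Measurable (fun ω => (p.A ω).2) := measurable_snd.comp p.mA
  unfold RcTw.anP reCell2
  exact Measurable.prodMk (rc_at_cell_meas _ a1) (rc_at_cell_meas _ a2)

theorem rc_at_meas_Z1 : Measurable fun ω => (W.ZP ω).1 := by
  have a1 : Measurable (fun ω => (p.A ω).1) := measurable_fst.comp p.mA
  show Measurable fun ω => W.R0⁻¹ * ((p.A ω).1 - W.R0 * (reCell W.R0 (p.A ω).1 : ℝ))
  exact (a1.sub ((rc_at_cellR_meas _ a1).const_mul _)).const_mul _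

theorem rc_at_meas_Z2 : Measurable fun ω => (W.ZP ω).2 := by
  have a2 : Measurable (fun ω => (p.A ω).2) := measurable_snd.comp p.mA
  show Measurable fun ω => W.R0⁻¹ * ((p.A ω).2 - W.R0 * (reCell W.R0 (p.A ω).2 : ℝ))
  exact (a2.sub ((rc_at_cellR_meas _ a2).const_mul _)).const_mul _

theorem rc_at_meas_hit (i b : ℕ) (pn : ReName × ReName → ℝ × ℝ × ℝ) (pc : ReName × ReName → ℝ) (wd : ℝ) (J : ℕ) :
    MeasurableSet (W.hit i b pn pc wd J) := by
  have hN : Measurable fun ω => (W.nmP i (W.aI i J) ω, W.nmP b (W.aI b J) ω) :=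
    (rc_at_meas_nmP W _ _).prodMk (rc_at_meas_nmP W _ _)
  have z1 := rc_at_meas_Z1 W
  have z2 := rc_at_meas_Z2 W
  have n1 : Measurable fun ω => (pn (W.nmP i (W.aI i J) ω, W.nmP b (W.aI b J) ω)).1 :=
    (Measurable.of_discrete (f := fun x : ReName × ReName => (pn x).1)).comp hN
  have n2 : Measurable fun ω => (pn (W.nmP i (W.aI i J) ω, W.nmP b (W.aI b J) ω)).2.1 :=
    (Measurable.of_discrete (f := fun x : ReName × ReName => (pn x).2.1)).comp hN
  have n3 : Measurable fun ω => (pn (W.nmP i (W.aI i J) ω, W.nmP b (W.aI b J) ω)).2.2 :=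
    (Measurable.of_discrete (f := fun x : ReName × ReName => (pn x).2.2)).comp hN
  have c : Measurable fun ω => pc (W.nmP i (W.aI i J) ω, W.nmP b (W.aI b J) ω) :=
    (Measurable.of_discrete (f := pc)).comp hN
  unfold RcTw.hit rtSq
  refine measurableSet_le (continuous_abs.measurable.comp ?_) measurable_const
  exact (((n1.mul z1).add (n2.mul z2)).add (n3.mul ((z1.pow_const 2).add (z2.pow_const 2)))).sub c

/-! ## 7. the fields -/

section fields

variable (hV : W.X.Valid) (hn : W.q * W.m ≤ W.E.n) (hR : 0 < W.R0) (B : ℕ) (F : Finset W.Ps) {t : ℝ}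
  (hft : W.ft ≤ W.tl t * (W.doc B F).tot)

include hV hn hft in
theorem rc_at_excF {N : ℝ} (h : W.ExcP t N) (i : ℕ) (h0 : 0 < i) (hi : i < W.q) (V : Finset ReName) :
    (W.doc B F).mass (fun a => (W.doc B F).nm i a ∈ V)
      ≤ (W.tl (2 * t) * ((V.card : ℝ) * (W.Kb i * W.R0 ^ 4) / W.Eb i) ^ (2 / 3 : ℝ) + W.tl (-(N - t))) * (W.doc B F).tot := by
  have h1 : (W.doc B F).mass (fun a => (W.doc B F).nm i a ∈ V) ≤ W.fm (fun J => {ω | W.nmP i (W.aI i J) ω ∈ V}) :=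
    rc_at_mass_le W hV B F _ _ (fun J => rc_at_meas_nmP W i _ (Finset.measurableSet V)) fun a ha ω hω => by
      show W.nmP i (W.aI i a.1.1) ω ∈ V
      rw [← rc_at_nm W hn B F hi.le a hω]
      exact ha
  have hX : 0 ≤ ((V.card : ℝ) * (W.Kb i * W.R0 ^ 4) / W.Eb i) ^ (2 / 3 : ℝ) :=
    Real.rpow_nonneg (div_nonneg (mul_nonneg (Nat.cast_nonneg _) (mul_nonneg (rc_at_Kb_pos W hV i).le (by positivity)))
      (rc_at_Eb_pos W hV i).le) _
  calc (W.doc B F).mass (fun a => (W.doc B F).nm i a ∈ V) ≤ _ := h1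
    _ ≤ _ := h i h0 hi V
    _ ≤ (W.tl t * ((V.card : ℝ) * (W.Kb i * W.R0 ^ 4) / W.Eb i) ^ (2 / 3 : ℝ) + W.tl (-N)) * (W.tl t * (W.doc B F).tot) :=
        mul_le_mul_of_nonneg_left hft (add_nonneg (mul_nonneg (rc_at_tl_pos W t).le hX) (rc_at_tl_pos W _).le)
    _ = (W.tl t * W.tl t * ((V.card : ℝ) * (W.Kb i * W.R0 ^ 4) / W.Eb i) ^ (2 / 3 : ℝ) + W.tl (-N) * W.tl t) * (W.doc B F).tot := by ring
    _ = _ := by
        rw [rc_at_tl_add, rc_at_tl_add]
        congr 3 <;> ring_nf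

include hV hn in
theorem rc_at_cntF (ht : 0 ≤ t) (h : W.CntP t) :
    ((W.doc B F).nval ((W.doc B F).nm W.q) : ℝ) ≤ W.tl (2 * t) * (W.Eb W.q / (W.Kb W.q * W.R0 ^ 4)) := by
  obtain ⟨Vq, hc, hq⟩ := h
  have h1 : ((W.doc B F).nval ((W.doc B F).nm W.q) : ℝ) ≤ (Vq.card : ℝ) := by
    unfold RcDoc.nval
    refine Nat.cast_le.2 (Finset.card_le_card ?_)
    intro x hx
    obtain ⟨a, ha, rfl⟩ := (@Finset.mem_image _ _ (fun a b => Classical.propDecidable (a = b)) _ _ _).1 hx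
    have ha' : 0 < (W.doc B F).am a := (Finset.mem_filter.1 ha).2
    rw [rc_at_am W hV] at ha'
    obtain ⟨l, -, hl⟩ := Finset.exists_lt_of_sum_lt (s := Finset.univ) (f := fun _ : Fin W.X.L => (0 : ℝ)) (by simpa using ha')
    by_contra hcon
    have hz : (W.X.lmu l).real {ω | W.X.iv l = a.1.1 ∧ W.psi B ω = a.2.1} = 0 := by
      refine rc_at_lmu_zero W.X l (rc_at_meas_atom W B a.1.1 (W.X.iv l) a.2.1) fun ω hω => ?_
      by_contra hne
      apply hcon
      have := hq l ω hne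
      rw [rc_at_nm W hn B F le_rfl a hω.2, rc_at_aI_q W hn, ← hω.1]
      exact this
    rw [hz] at hl
    exact lt_irrefl _ hl
  refine h1.trans (hc.trans (mul_le_mul_of_nonneg_right (rc_at_tl_mono W (by linarith)) ?_))
  exact div_nonneg (rc_at_Eb_pos W hV _).le (mul_nonneg (rc_at_Kb_pos W hV _).le (by positivity))

include hV hn hR in
theorem rc_at_memF (ht : 0 ≤ t) (hB : W.q * W.m ≤ B) (h : W.MemP t) (w : ℕ) (h0 : 0 < w) (hw : w < W.q) (x : ReName) (v : ℤ × ℤ) :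
    (W.doc B F).mass (fun a => (W.doc B F).nm W.q a = x ∧ (W.doc B F).an w a = v)
      ≤ W.tl (2 * t) * (W.Kb (W.q - w) * W.R0 ^ 4) * W.tl (-(3 * (w : ℝ))) := by
  have h1 : (W.doc B F).mass (fun a => (W.doc B F).nm W.q a = x ∧ (W.doc B F).an w a = v)
      ≤ W.fm (fun J => {ω | W.nmP W.q J ω = x ∧ W.anP w ω = v}) :=
    rc_at_mass_le W hV B F _ _
      (fun J => (rc_at_meas_nmP W W.q J (measurableSet_singleton x)).inter (rc_at_meas_anP W w (measurableSet_singleton v)))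
      fun a ha ω hω => by
        have e1 := rc_at_nm W hn B F le_rfl a hω
        rw [rc_at_aI_q W hn] at e1
        have e2 := rc_at_an W hR B F (le_trans (Nat.mul_le_mul_right _ hw.le) hB) a hω
        exact ⟨e1.symm.trans ha.1, e2.symm.trans ha.2⟩
  refine h1.trans ((h w h0 hw x v).trans ?_)
  refine mul_le_mul_of_nonneg_right (mul_le_mul_of_nonneg_right (rc_at_tl_mono W (by linarith)) ?_) (rc_at_tl_pos W _).le
  exact mul_nonneg (rc_at_Kb_pos W hV _).le (by positivity)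

include hV hn hft in
theorem rc_at_timeF {N : ℝ} (h : W.TimeP t N) (i l : ℕ) (h0 : 0 < i) (hil : i < l) (hl : l < W.q) (G : ℝ)
    (Lst : ℕ → (W.doc B F).Pa → Finset ℕ) (hG : ∀ I π, ((Lst I π).card : ℝ) ≤ G) :
    (W.doc B F).mass (fun a => (W.doc B F).anc l a ∈ Lst ((W.doc B F).anc i a) a.2)
      ≤ (W.tl (2 * t) * (G * W.Eb i / W.Eb l) ^ (2 / 3 : ℝ) + W.tl (-(N - t))) * (W.doc B F).tot := by
  rcases isEmpty_or_nonempty (W.doc B F).At with he | ⟨⟨a0⟩⟩
  · have e1 : (W.doc B F).mass (fun a => (W.doc B F).anc l a ∈ Lst ((W.doc B F).anc i a) a.2) = 0 := by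
      unfold RcDoc.mass
      exact Finset.sum_eq_zero fun a _ => (he.false a).elim
    have e2 : (W.doc B F).tot = 0 := by
      unfold RcDoc.tot
      exact Finset.sum_eq_zero fun a _ => (he.false a).elim
    rw [e1, e2, mul_zero]
  have hG0 : 0 ≤ G := le_trans (Nat.cast_nonneg _) (hG 0 a0.2)
  let LstP : ℕ → p.Om → Finset ℕ := fun I ω => if hh : W.psi B ω ∈ F then Lst I ⟨W.psi B ω, hh⟩ else ∅
  have hm : ∀ I I', MeasurableSet {ω | I' ∈ LstP I ω} := by
    intro I I'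
    have : {ω | I' ∈ LstP I ω} = {ω | W.psi B ω ∈ {π : W.Ps | ∃ hh : π ∈ F, I' ∈ Lst I ⟨π, hh⟩}} := by
      ext ω
      simp only [Set.mem_ofPred_eq, LstP]
      by_cases hh : W.psi B ω ∈ F
      · rw [dif_pos hh]
        exact ⟨fun h' => ⟨hh, h'⟩, fun ⟨_, h'⟩ => h'⟩
      · rw [dif_neg hh]
        exact ⟨fun h' => absurd h' (Finset.notMem_empty _), fun ⟨h', _⟩ => absurd h' hh⟩
    rw [this]
    exact rc_at_meas_pre W B _
  have hc : ∀ I ω, ((LstP I ω).card : ℝ) ≤ G := by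
    intro I ω
    simp only [LstP]
    by_cases hh : W.psi B ω ∈ F
    · rw [dif_pos hh]
      exact hG _ _
    · rw [dif_neg hh]
      simpa using hG0
  have h1 : (W.doc B F).mass (fun a => (W.doc B F).anc l a ∈ Lst ((W.doc B F).anc i a) a.2)
      ≤ W.fm (fun J => {ω | W.aI l J ∈ LstP (W.aI i J) ω}) :=
    rc_at_mass_le W hV B F _ _ (fun J => hm _ _) fun a ha ω hω => by
      rw [rc_at_anc W hn, rc_at_anc W hn] at ha
      have hh : W.psi B ω ∈ F := by rw [hω]; exact a.2.2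
      show W.aI l a.1.1 ∈ LstP (W.aI i a.1.1) ω
      simp only [LstP]
      rw [dif_pos hh]
      have e : (⟨W.psi B ω, hh⟩ : {π : W.Ps // π ∈ F}) = a.2 := Subtype.ext hω
      rw [e]
      exact ha
  have hX : 0 ≤ (G * W.Eb i / W.Eb l) ^ (2 / 3 : ℝ) :=
    Real.rpow_nonneg (div_nonneg (mul_nonneg hG0 (rc_at_Eb_pos W hV i).le) (rc_at_Eb_pos W hV l).le) _
  calc (W.doc B F).mass (fun a => (W.doc B F).anc l a ∈ Lst ((W.doc B F).anc i a) a.2) ≤ _ := h1
    _ ≤ _ := h i l h0 hil hl G LstP hm hc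
    _ ≤ (W.tl t * (G * W.Eb i / W.Eb l) ^ (2 / 3 : ℝ) + W.tl (-N)) * (W.tl t * (W.doc B F).tot) :=
        mul_le_mul_of_nonneg_left hft (add_nonneg (mul_nonneg (rc_at_tl_pos W t).le hX) (rc_at_tl_pos W _).le)
    _ = (W.tl t * W.tl t * (G * W.Eb i / W.Eb l) ^ (2 / 3 : ℝ) + W.tl (-N) * W.tl t) * (W.doc B F).tot := by ring
    _ = _ := by
        rw [rc_at_tl_add, rc_at_tl_add]
        congr 3 <;> ring_nf

include hV hn hR hft in
theorem rc_at_slabF {K : ℕ} {es ts : ℝ} (hK : 1 ≤ K) (hes : 0 ≤ es) (hB : 6 * rdLen B ≤ W.tl (-(es * W.q))) (h : W.SlabP K es ts)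
    (i S : ℕ) (h0 : 0 < i) (hS : 0 < S) (hiS : i + K * S < W.q) (pn : ReName × ReName → ℝ × ℝ × ℝ) (pc : ReName × ReName → ℝ)
    (hpn : ∀ x, (pn x).1 ^ 2 + (pn x).2.1 ^ 2 + (pn x).2.2 ^ 2 = 1) :
    (W.doc B F).mass (fun a => (W.doc B F).InSlab (pn ((W.doc B F).nm i a, (W.doc B F).nm (i + K * S) a))
      (pc ((W.doc B F).nm i a, (W.doc B F).nm (i + K * S) a)) (W.tl (-(es * S))) a) ≤ W.tl (-(ts - t)) * (W.doc B F).tot := by
  have hSq : S ≤ W.q := by nlinarith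
  have hw : 6 * rdLen B ≤ W.tl (-(es * S)) := hB.trans (rc_at_tl_mono W (by
    have : (S : ℝ) ≤ W.q := by exact_mod_cast hSq
    nlinarith))
  have h1 : (W.doc B F).mass (fun a => (W.doc B F).InSlab (pn ((W.doc B F).nm i a, (W.doc B F).nm (i + K * S) a))
      (pc ((W.doc B F).nm i a, (W.doc B F).nm (i + K * S) a)) (W.tl (-(es * S))) a)
      ≤ W.fm (W.hit i (i + K * S) pn pc (2 * W.tl (-(es * S)))) :=
    rc_at_mass_le W hV B F _ _ (fun J => rc_at_meas_hit W _ _ _ _ _ J) fun a ha ω hω => by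
      rw [rc_at_nm W hn B F (by omega : i ≤ W.q) a hω, rc_at_nm W hn B F hiS.le a hω] at ha
      obtain ⟨z1, z2⟩ := rc_at_Z W hR B F a hω
      have := rc_at_slab (hpn _) (rc_at_Zv01 W hR B F a) (rc_at_ZP01 W hR ω) z1 z2 ha
      have key := this.trans (by linarith : _ ≤ 2 * W.tl (-(es * S)))
      exact key
  calc _ ≤ _ := h1
    _ ≤ _ := h i S h0 hS hiS pn pc hpn
    _ ≤ W.tl (-ts) * (W.tl t * (W.doc B F).tot) := mul_le_mul_of_nonneg_left hft (rc_at_tl_pos W _).le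
    _ = W.tl (-ts) * W.tl t * (W.doc B F).tot := by ring
    _ = _ := by
        rw [rc_at_tl_add]
        congr 2
        ring

end fields

end Claimed.Agent.R256
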