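-- KEEP
import Claimed.Agent.R256.Rc.AtE

set_option autoImplicit false

namespace Claimed.Agent.R256

open MeasureTheory
open scoped BigOperators
open Classical

variable {η : ℝ} {p : RdClPar} (W : RcTw η p)

/-! ## 8. assembly -/

theorem rc_at_B (es : ℝ) (B : ℕ) (hB : es * W.q * W.m + 3 ≤ B) : 6 * rdLen B ≤ W.tl (-(es * W.q)) := by
  have e1 : rdLen B = (2 : ℝ) ^ (-(B : ℝ)) := by
    unfold rdLen
    rw [Real.rpow_neg (by norm_num), Real.rpow_natCast, inv_pow]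
  have e2 : (6 : ℝ) ≤ 2 ^ (3 : ℝ) := by
    have : (2 : ℝ) ^ (3 : ℝ) = 8 := by
      rw [show (3 : ℝ) = ((3 : ℕ) : ℝ) by norm_num, Real.rpow_natCast]
      norm_num
    rw [this]
    norm_num
  rw [e1]
  calc 6 * (2 : ℝ) ^ (-(B : ℝ)) ≤ 2 ^ (3 : ℝ) * 2 ^ (-(B : ℝ)) := mul_le_mul_of_nonneg_right e2 (gn_two_pos _).le
    _ = 2 ^ (3 + -(B : ℝ)) := (gn_two_add _ _).symm
    _ ≤ W.tl (-(es * W.q)) := gn_two_mono (by linarith)

/-- **ATOM** -/
theorem rc_at_main (hV : W.X.Valid) (hn : W.q * W.m ≤ W.E.n) (hR : 0 < W.R0) (t N c0 : ℝ) (K : ℕ) (es ts : ℝ) (hK : 1 ≤ K) (ht : 0 < t)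
    (hes : 0 < es) (h2 : 2 ≤ W.tl t) (hP : W.PreP t N c0 K es ts) :
    ∃ (B : ℕ) (F : Finset W.Ps), (W.doc B F).Pre (rndCl η).p0f (rndCl η).d0f (2 * t) (N - t) c0 K es (ts - t) := by
  obtain ⟨B, hB⟩ : ∃ B : ℕ, B = W.q * W.m + ⌈es * W.q * W.m⌉₊ + 3 := ⟨_, rfl⟩
  have hB1 : W.q * W.m ≤ B := by omega
  have hB2 : es * W.q * W.m + 3 ≤ B := by
    rw [hB]
    push_cast
    have := Nat.le_ceil (es * W.q * W.m)
    have h' : (0 : ℝ) ≤ (W.q : ℝ) * W.m := by positivity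
    linarith
  have hft0 : 0 < W.ft := lt_of_lt_of_le (mul_pos (rc_at_tl_pos W _) (rc_at_Eb_pos W hV _)) hP.totLo
  obtain ⟨F, hF⟩ := rc_at_tot_ge W hV B (half_pos hft0)
  have hF2 : W.ft ≤ 2 * (W.doc B F).tot := by linarith
  have htot := rc_at_tot_nn W hV B F
  have hft : W.ft ≤ W.tl t * (W.doc B F).tot := hF2.trans (mul_le_mul_of_nonneg_right h2 htot)
  refine ⟨B, F, hR, hV.e_pos, hV.ka_pos, rc_at_am_nn W hV B F, hP.sh_le, ?_, ?_, ?_, ?_, ?_, ?_⟩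
  · show W.tl (-(2 * t)) * W.Eb W.q ≤ (W.doc B F).tot
    have e1 : W.tl (-(2 * t)) = W.tl (-t) * W.tl (-t) := by
      rw [rc_at_tl_add]
      congr 1
      ring
    have e2 : W.tl (-t) * W.tl t = 1 := by
      rw [rc_at_tl_add]
      simp [RcTw.tl]
    calc W.tl (-(2 * t)) * W.Eb W.q = W.tl (-t) * (W.tl (-t) * W.Eb W.q) := by rw [e1]; ring
      _ ≤ W.tl (-t) * (W.tl t * (W.doc B F).tot) := mul_le_mul_of_nonneg_left (hP.totLo.trans hft) (rc_at_tl_pos W _).le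
      _ = (W.tl (-t) * W.tl t) * (W.doc B F).tot := by ring
      _ = (W.doc B F).tot := by rw [e2, one_mul]
  · exact fun i h0 hi V => rc_at_excF W hV hn B F hft hP.exc i h0 hi V
  · exact rc_at_cntF W hV hn B F ht.le hP.cnt
  · exact fun w h0 hw x v => rc_at_memF W hV hn hR B F ht.le hB1 hP.mem w h0 hw x v
  · exact fun i l h0 hil hl G Lst hG => rc_at_timeF W hV hn B F hft hP.time i l h0 hil hl G Lst hG
  · exact fun i S h0 hS hiS pn pc hpn => rc_at_slabF W hV hn hR B F hft hK hes.le (rc_at_B W es B hB2) hP.slab i S h0 hS hiS pn pc hpn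

end Claimed.Agent.R256
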