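-- KEEP
import Claimed.Agent.R256.Rc.Tow
import Claimed.Agent.R256.Rt.TaCl

/-!
# Row 256, unit RC, block (I-cl), FIELDS, file 1: the classical calculus of the final measure      (co-architect helper74; prefix `rc_fk_`)

GENERIC   `rc_fk_sum_iv`, `rc_fk_tm_le`    `(E.rs U).tm ≤ Σ_J ms (U J) (fin J)`
STACK     `rc_fk_stk_split`, `rc_fk_dp_*`, `rc_fk_cut`      the stack of a tower, cut at the stage `i`
CLASSICAL `rc_fk_fin_le`     the final state is dominated by the state behind the stage `i`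
          `rc_fk_st_le`      the state behind the stage `l` is dominated by the state behind the stage `i ≤ l`
          `rc_fk_reg`        the state behind a peel level is `2 β`-regular
          `rc_fk_post`       `Σ_I ‖st i I‖² = raw`
MEASURABILITY of the names of a particle.
-/

set_option autoImplicit false

namespace Claimed.Agent.R256

open MeasureTheory
open scoped BigOperators
open Classical

/-! ## 1. generic: the restricted labels -/

theorem rc_fk_rs_m {P : PkSys} (E : Xp P) (U : ℕ → Set P.X) (l : Fin E.L) :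
    (E.rs U).m l = P.en (tmL E.kf (E.iv l)) E.kf E.bT ((U (E.iv l)).indicator (E.th l)) (E.fin (E.iv l)) := rfl

theorem rc_fk_ind_mask {P : PkSys} (E : Xp P) (hE : E.Valid) {S : Set P.X} (hS : MeasurableSet S) (l : Fin E.L) :
    IsMask (S.indicator (E.th l)) := by
  have h := gn_th_mask E hE l
  refine ⟨h.1.indicator hS, fun x => ?_⟩
  by_cases hx : x ∈ S
  · rw [Set.indicator_of_mem hx]
    exact h.2 x
  · rw [Set.indicator_of_notMem hx]
    exact ⟨le_rfl, zero_le_one⟩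

theorem rc_fk_rs_m_nonneg {P : PkSys} (E : Xp P) (hE : E.Valid) (U : ℕ → Set P.X) (l : Fin E.L) : 0 ≤ (E.rs U).m l := by
  rw [rc_fk_rs_m]
  refine gn_en_nonneg _ _ _ (fun x => ?_) _
  exact Set.indicator_nonneg (fun y _ => hE.th_nn l y) x

/-- the restricted labels of one final interval read at most the energy of the set -/
theorem rc_fk_sum_iv {P : PkSys} (E : Xp P) (hE : E.Valid) (U : ℕ → Set P.X) (hU : ∀ J, MeasurableSet (U J)) (i : ℕ) :
    ∑ l, (if E.iv l = i then (E.rs U).m l else 0) ≤ P.ms (tmL E.kf i) E.kf E.bT (U i) (E.fin i) := by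
  have h1 : ∀ l ∈ (Finset.univ : Finset (Fin E.L)), IsMask (fun x => if E.iv l = i then (U i).indicator (E.th l) x else 0) := by
    intro l _
    by_cases h : E.iv l = i
    · simpa [h] using rc_fk_ind_mask E hE (hU i) l
    · simp only [h, if_false]
      exact ⟨measurable_const, fun _ => ⟨le_refl _, zero_le_one⟩⟩
  have hle : ∀ x, ∑ l, (if E.iv l = i then (U i).indicator (E.th l) x else 0) ≤ (U i).indicator (fun _ => (1 : ℝ)) x := by
    intro x
    by_cases hx : x ∈ U i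
    · simp only [Set.indicator_of_mem hx]
      exact hE.th_sum i x
    · simp [Set.indicator_of_notMem hx]
  have h2 : IsMask (fun x => ∑ l, (if E.iv l = i then (U i).indicator (E.th l) x else 0)) := by
    refine ⟨Finset.measurable_fun_sum _ fun l hl => (h1 l hl).1, fun x => ⟨Finset.sum_nonneg fun l hl => ((h1 l hl).2 x).1, ?_⟩⟩
    exact (hle x).trans ((gn_mask_ind (hU i)).2 x).2
  have h3 := gn_en_sum (tmL E.kf i) E.kf E.bT Finset.univ (fun l x => if E.iv l = i then (U i).indicator (E.th l) x else 0) h1 (E.fin i)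
  have h4 : ∀ l, (if E.iv l = i then (E.rs U).m l else 0)
      = P.en (tmL E.kf i) E.kf E.bT (fun x => if E.iv l = i then (U i).indicator (E.th l) x else 0) (E.fin i) := by
    intro l
    by_cases h : E.iv l = i
    · simp only [h, if_true]
      rw [rc_fk_rs_m, h]
    · simp only [h, if_false]
      unfold PkSys.en
      simp
  rw [Finset.sum_congr rfl fun l _ => h4 l, ← h3]
  exact gn_en_mono _ _ _ h2 (gn_mask_ind (hU i)) hle _

/-- the total restricted mass, by final intervals -/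
theorem rc_fk_tm_eq {P : PkSys} (E : Xp P) (hE : E.Valid) (U : ℕ → Set P.X) :
    (E.rs U).tm = ∑ J ∈ ivs E.k0 E.i0 E.kf, ∑ l, (if E.iv l = J then (E.rs U).m l else 0) := by
  rw [Finset.sum_comm]
  unfold Xp.tm
  refine Finset.sum_congr rfl fun l _ => ?_
  rw [Finset.sum_ite_eq]
  have : E.iv l ∈ ivs E.k0 E.i0 E.kf := (gn_mem_ivs _ _ _ _).2 (hE.iv_in l)
  rw [if_pos this]

theorem rc_fk_tm_le {P : PkSys} (E : Xp P) (hE : E.Valid) (U : ℕ → Set P.X) (hU : ∀ J, MeasurableSet (U J)) :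
    (E.rs U).tm ≤ ∑ J ∈ ivs E.k0 E.i0 E.kf, P.ms (tmL E.kf J) E.kf E.bT (U J) (E.fin J) := by
  rw [rc_fk_tm_eq E hE U]
  exact Finset.sum_le_sum fun J _ => rc_fk_sum_iv E hE U hU J

theorem rc_fk_tm_nonneg {P : PkSys} (E : Xp P) (hE : E.Valid) (U : ℕ → Set P.X) : 0 ≤ (E.rs U).tm :=
  Finset.sum_nonneg fun l _ => rc_fk_rs_m_nonneg E hE U l

/-- monotonicity of the restricted mass -/
theorem rc_fk_tm_mono {P : PkSys} (E : Xp P) (hE : E.Valid) (U U' : ℕ → Set P.X) (hU : ∀ J, MeasurableSet (U J)) (hU' : ∀ J, MeasurableSet (U' J))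
    (h : ∀ J, U J ⊆ U' J) : (E.rs U).tm ≤ (E.rs U').tm := by
  have key : ∀ l : Fin E.L, (E.rs U).m l ≤ (E.rs U').m l := by
    intro l
    rw [rc_fk_rs_m, rc_fk_rs_m]
    refine gn_en_mono _ _ _ (rc_fk_ind_mask E hE (hU _) l) (rc_fk_ind_mask E hE (hU' _) l) (fun x => ?_) _
    exact Set.indicator_le_indicator_of_subset (h _) (fun y => hE.th_nn l y) x
  exact Finset.sum_le_sum fun l _ => key l

/-! ## 2. the stack of a classical tower -/

namespace RcTw

variable {η : ℝ} {p : RdClPar} (W : RcTw η p)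

end RcTw

variable {η : ℝ} {p : RdClPar} (W : RcTw η p)

theorem rc_fk_stk_succ (i : ℕ) : W.stk (i + 1) = W.stk i ++ [W.sg (i + 1)] := by
  unfold RcTw.stk
  rw [List.range_succ, List.map_append]
  rfl

theorem rc_fk_stk_split (i j : ℕ) (h : i ≤ j) : ∃ r : List (Stg (p.sys η)), W.stk j = W.stk i ++ r ∧ ∀ σ ∈ r, ∃ a, i < a ∧ a ≤ j ∧ σ = W.sg a := by
  induction j, h using Nat.le_induction with
  | base => exact ⟨[], by simp, by simp⟩
  | succ j hj ih =>
    obtain ⟨r, h1, h2⟩ := ih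
    refine ⟨r ++ [W.sg (j + 1)], by rw [rc_fk_stk_succ, h1, List.append_assoc], fun σ hσ => ?_⟩
    rcases List.mem_append.1 hσ with h | h
    · obtain ⟨a, a1, a2, a3⟩ := h2 σ h
      exact ⟨a, a1, by omega, a3⟩
    · rw [List.mem_singleton] at h
      exact ⟨j + 1, by omega, le_rfl, h⟩

theorem rc_fk_stk_mem (i : ℕ) (σ : Stg (p.sys η)) (h : σ ∈ W.stk i) : ∃ a, 0 < a ∧ a ≤ i ∧ σ = W.sg a := by
  unfold RcTw.stk at h
  rw [List.mem_map] at h
  obtain ⟨a, ha, rfl⟩ := h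
  rw [List.mem_range] at ha
  exact ⟨a + 1, by omega, by omega, rfl⟩

theorem rc_fk_dp_mono {i j : ℕ} (h : i ≤ j) : W.dp i ≤ W.dp j := by
  unfold RcTw.dp
  exact Nat.add_le_add_left (Nat.mul_le_mul_right _ h) _

section ok

variable {W} {hg C A : ℕ} {τ : ℝ} (h : W.Ok hg C A τ)
include h

theorem rc_fk_kb : W.kb = W.E.k0 + (W.E.n - W.q * W.m) := by
  have := h.n_lo
  unfold RcTw.kb Xp.kf
  omega

theorem rc_fk_dp_q : W.dp W.q = W.E.kf := by
  have := h.n_lo
  unfold RcTw.dp RcTw.kb Xp.kf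
  omega

theorem rc_fk_dp_ge (i : ℕ) : W.E.k0 ≤ W.dp i := by
  unfold RcTw.dp
  rw [rc_fk_kb h]
  omega

theorem rc_fk_dp_le {i : ℕ} (hi : i ≤ W.q) : W.dp i ≤ W.E.kf := by
  rw [← rc_fk_dp_q h]
  exact rc_fk_dp_mono W hi

/-- `dp i - k0 = (n - q m) + i m` -/
theorem rc_fk_dp_sub (i : ℕ) : W.dp i - W.E.k0 = (W.E.n - W.q * W.m) + i * W.m := by
  unfold RcTw.dp
  rw [rc_fk_kb h]
  omega

theorem rc_fk_valid {i : ℕ} (hi : i ≤ hg) : (W.Ex i).Valid := (h.cls i hi).2.1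

theorem rc_fk_stm {i : ℕ} (hi : i ≤ hg) : StM (W.stk i) := gn_valid_stm (W.Ex i) (rc_fk_valid h hi)

/-- the stack `stk j` cut at the stage `i ≤ j` -/
theorem rc_fk_cut {i j : ℕ} (hij : i ≤ j) (hj : j ≤ hg) : ∃ r : List (Stg (p.sys η)), (W.Ex j).CutAt (W.dp i) (W.stk i) r ∧ StM r := by
  obtain ⟨r, h1, h2⟩ := rc_fk_stk_split W i j hij
  have hq := h.hg_lt
  have hc : (W.Ex j).CutAt (W.dp i) (W.stk i) r := by
    refine ⟨h1, fun σ hσ => ?_, fun σ hσ => ?_, rc_fk_dp_ge h i, rc_fk_dp_le h (by omega)⟩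
    · obtain ⟨a, _, a2, rfl⟩ := rc_fk_stk_mem W i σ hσ
      exact rc_fk_dp_mono W a2
    · obtain ⟨a, a1, _, rfl⟩ := h2 σ hσ
      exact rc_fk_dp_mono W a1.le
  exact ⟨r, hc, (gn_cut_stm _ (rc_fk_valid h hj) hc).2⟩

/-! ## 3. classical domination -/

/-- the final state of `Ex j` is dominated by the state behind the stage `i ≤ j` -/
theorem rc_fk_fin_le {i j : ℕ} (hij : i ≤ j) (hj : j ≤ hg) {S : Set p.Om} (hS : MeasurableSet S) (T T' : ℝ) (k k' b b' J : ℕ) :
    (p.sys η).ms T k b S ((W.Ex j).fin J) ≤ (p.sys η).ms T' k' b' S (W.st i (W.aI i J)) := by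
  obtain ⟨r, hc, hr⟩ := rc_fk_cut h hij hj
  rw [gn_fin_cut (W.Ex j) hc J]
  exact rt_fc_run_le η p _ _ r hr hS _ _ _ _ _ _ _

/-- the state behind the stage `l` is dominated by the state behind the stage `i ≤ l` -/
theorem rc_fk_st_le {i l : ℕ} (hil : i ≤ l) (hl : l ≤ hg) {S : Set p.Om} (hS : MeasurableSet S) (T T' : ℝ) (k k' b b' I : ℕ) :
    (p.sys η).ms T k b S (W.st l I) ≤ (p.sys η).ms T' k' b' S (W.st i (ancI (W.dp l) (W.dp i) I)) := by
  obtain ⟨r, hc, hr⟩ := rc_fk_cut h hil hl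
  have e : W.st l I = Xp.run (W.dp l) I r (W.st i (ancI (W.dp l) (W.dp i) I)) := by
    unfold RcTw.st Xp.at'
    have e1 : W.stk l = W.stk i ++ r := hc.1
    rw [e1, gn_run_append, gn_run_anc (rc_fk_dp_mono W hil) I (W.stk i) hc.2.1]
  rw [e]
  exact rt_fc_run_le η p _ _ r hr hS _ _ _ _ _ _ _

end ok

/-- a classical indicator mask restricts the energy -/
theorem rc_fk_ms_ind (η : ℝ) (p : RdClPar) (T : ℝ) (k b k' : ℕ) {A S : Set p.Om} (hA : MeasurableSet A) (hS : MeasurableSet S) (ψ : (p.sys η).Kc) :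
    (p.sys η).ms T k b A ((p.sys η).mulR k' (S.indicator fun _ => 1) ψ) = (p.sys η).ms T k b (A ∩ S) ψ := by
  have e1 := rt_ta_cl_ms η p T k b hA (show Lp p.Fb 2 p.m from (p.sys η).mulR k' (S.indicator fun _ => 1) ψ)
  have e2 := rt_ta_cl_ms η p T k b (hA.inter hS) (show Lp p.Fb 2 p.m from ψ)
  refine e1.trans (Eq.trans ?_ e2.symm)
  rw [← setIntegral_indicator hS]
  have h2 : ((show Lp p.Fb 2 p.m from (p.sys η).mulR k' (S.indicator fun _ => 1) ψ : Lp p.Fb 2 p.m) : p.Om → p.Fb) =ᵐ[p.m]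
      fun x => (((S.indicator fun _ => (1 : ℝ)) x : ℝ) : ℂ) • ((show Lp p.Fb 2 p.m from ψ : Lp p.Fb 2 p.m) : p.Om → p.Fb) x :=
    gn_mulR_coe (P := p.sys η) k' (gn_mask_ind hS) ψ
  refine integral_congr_ae (ae_restrict_of_ae ?_)
  filter_upwards [h2] with x hx
  rw [hx]
  by_cases hxS : x ∈ S
  · simp [hxS]
  · simp [hxS]

/-- the state behind the stage `i` = the mask of the stage applied to the state in front of it -/
theorem rc_fk_st_eq {W : RcTw η p} {i : ℕ} (h0 : 0 < i) (I : ℕ) :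
    W.st i I = (p.sys η).mulR (W.dp i) (W.Mk i I) (W.E.at' (W.dp i) I (W.stk (i - 1))) := by
  obtain ⟨c, rfl⟩ : ∃ c, i = c + 1 := ⟨i - 1, by omega⟩
  rw [Nat.add_sub_cancel]
  unfold RcTw.st Xp.at'
  rw [rc_fk_stk_succ, gn_run_append]
  show (p.sys η).tz (tmL (W.dp (c + 1)) (ancI (W.dp (c + 1)) (W.dp (c + 1)) I)) (W.dp (c + 1)) 0 (W.Mk (c + 1) (ancI (W.dp (c + 1)) (W.dp (c + 1)) I)) _ = _
  rw [gn_anc_self]
  exact rt_fc_tz η p _ _ _ _ _

section ok2

variable {W} {hg C A : ℕ} {τ : ℝ} (h : W.Ok hg C A τ)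
include h

/-- **the state behind a peel level is `2 β`-regular** -/
theorem rc_fk_reg {i : ℕ} (h0 : 0 < i) (hi : i ≤ hg) {I : ℕ} (hI : I ∈ W.iv i) :
    (p.sys η).Reg (tmL (W.dp i) I) (W.dp i) 0 (2 * W.be i) (W.st i I) := by
  obtain ⟨S, hS, hM⟩ := (h.lvl i h0 hi).lvl I hI
  intro Q hQ
  have hM' : W.Mk i I = S.indicator fun _ => 1 := hM
  rw [rc_fk_st_eq h0 I, hM']
  refine le_trans (le_of_eq (rc_fk_ms_ind η p (tmL (W.dp i) I) (W.dp i) 0 (W.dp i) ((rt_tight_cl η p).cellM Q (tmL (W.dp i) I) (W.dp i)) hS.meas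
    (W.E.at' (W.dp i) I (W.stk (i - 1))))) ?_
  exact hS.reg Q hQ

theorem rc_fk_mk_mask {i : ℕ} (h0 : 0 < i) (hi : i ≤ hg) (I : ℕ) : IsMask (W.Mk i I) := by
  have := rc_fk_stm h hi (W.sg i) (by
    unfold RcTw.stk
    rw [List.mem_map]
    exact ⟨i - 1, List.mem_range.2 (by omega), by rw [Nat.sub_add_cancel h0]⟩) I
  exact this

/-- the energy behind the stage `i` is the raw energy of the stage -/
theorem rc_fk_post {i : ℕ} (h0 : 0 < i) (hi : i ≤ hg) : ∑ I ∈ W.iv i, ‖W.st i I‖ ^ 2 = W.E.raw (W.stk (i - 1)) (W.sg i) := by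
  unfold Xp.raw
  refine Finset.sum_congr rfl fun I _ => ?_
  rw [rc_fk_st_eq h0 I]
  exact gn_mulR_normsq (P := p.sys η) (W.dp i) (rc_fk_mk_mask h h0 hi I) _

end ok2

/-! ## 4. measurability of the names of a particle -/

theorem rc_fk_meas_cell (w : ℝ) {f : p.Om → ℝ} (hf : Measurable f) : Measurable fun ω => reCell w (f ω) := by
  unfold reCell
  exact (hf.div_const w).floor

theorem rc_fk_meas_cell2 (w : ℝ) {f : p.Om → ℝ × ℝ} (hf : Measurable f) : Measurable fun ω => reCell2 w (f ω) := by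
  unfold reCell2
  exact (rc_fk_meas_cell w hf.fst).prodMk (rc_fk_meas_cell w hf.snd)

theorem rc_fk_meas_cor2 (w : ℝ) {f : p.Om → ℝ × ℝ} (hf : Measurable f) : Measurable fun ω => reCor2 w (f ω) := by
  unfold reCor2
  have h1 : Measurable fun ω => ((reCell w (f ω).1 : ℤ) : ℝ) := (measurable_from_top (f := fun z : ℤ => (z : ℝ))).comp (rc_fk_meas_cell w hf.fst)
  have h2 : Measurable fun ω => ((reCell w (f ω).2 : ℤ) : ℝ) := (measurable_from_top (f := fun z : ℤ => (z : ℝ))).comp (rc_fk_meas_cell w hf.snd)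
  exact (h1.const_mul w).prodMk (h2.const_mul w)

theorem rc_fk_meas_coA (p : RdClPar) (T : ℝ) : Measurable fun ω => (p.co T ω).A := p.mA

theorem rc_fk_meas_cob (p : RdClPar) (T : ℝ) : Measurable fun ω => (p.co T ω).b := by
  have h1 := p.mA
  have h2 := p.mB
  unfold RdClPar.co RtRow.flow
  fun_prop

theorem rc_fk_meas_coy (p : RdClPar) (T : ℝ) : Measurable fun ω => (p.co T ω).y := by
  have h1 := p.mA
  have h3 := p.mY
  unfold RdClPar.co RtRow.flow rtSq
  fun_prop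

theorem rc_fk_meas_nm (i I : ℕ) : Measurable (W.nmP i I) := by
  unfold RcTw.nmP reNm
  refine measurable_const.prodMk ((rc_fk_meas_cell2 _ (rc_fk_meas_coA p _)).prodMk ((rc_fk_meas_cell2 _ (rc_fk_meas_cob p _)).prodMk
    (rc_fk_meas_cell _ ?_)))
  have h1 := rc_fk_meas_cor2 W.R0 (rc_fk_meas_coA p (tmL (W.dp i) I))
  have h2 := rc_fk_meas_cob p (tmL (W.dp i) I)
  have h3 := rc_fk_meas_coy p (tmL (W.dp i) I)
  unfold rtIp
  exact h3.sub (((h1.fst.mul h2.fst).add (h1.snd.mul h2.snd)).const_mul 2)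

theorem rc_fk_meas_an (w : ℕ) : Measurable (W.anP w) := rc_fk_meas_cell2 _ p.mA

theorem rc_fk_meas_Z : Measurable W.ZP := by
  unfold RcTw.ZP
  exact (p.mA.sub (rc_fk_meas_cor2 W.R0 p.mA)).const_smul (W.R0⁻¹ : ℝ)

end Claimed.Agent.R256
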