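-- KEEP
import Claimed.Agent.R256.Rc.Tow
import Claimed.Agent.R256.Rc.FdKit

/-!
# Row 256, unit RC, block (I-cl), file 2: SHARED BASICS of classical towers      (chief helper106; prefix `rc_`)      SMALL LEAVES (each ≤ 150 l.)

Used by ALL blocks of (I-cl) (TOW, RAR, FIELDS, SLB, ATOM).   Prove IN PLACE, statements verbatim.
 §0 mesh arithmetic, stacks                                    `rc_tw_*`, `rc_stk_*`
 §1 classical calculus (`An = id`): ONE formula                `rc_en_run`: `en θ (run st v) = en (θ · rcWt st) v`, `rcWt` = product of the squares of the masks.   Everything else (commutation, insertion, monotonicity) is a POINTWISE identity of weights.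
 §2 restricted labels `E.rs U`                                 `rc_rs_valid`, `rc_rs_cls`, `rc_rs_m`, `rc_rs_tw`;   Hoelder `rc_hold`
 §3 measurability of the names                                 `rc_nmP_meas`, `rc_anP_meas`, `rc_ZP_meas`, `rc_psi_meas`, `rc_hit_meas`
 §4 consequences of `RcTw.Ok`                                  `rc_tw_ok_mono`, `rc_tw_valid`, `rc_tw_mask`, `rc_tw_ind`, `rc_st_reg`, `rc_st_sum`
 §5 the final measure                                          `rc_fm_nonneg`, `rc_fm_mono`, `rc_fm_add`, `rc_fm_union_le`, `rc_fm_tend`, `rc_fm_pt`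
-/

set_option autoImplicit false

namespace Claimed.Agent.R256

open MeasureTheory
open scoped BigOperators
open Classical

variable {η : ℝ} {p : RdClPar}

/-! ## 0. mesh arithmetic, stacks -/

theorem rc_tw_kb (W : RcTw η p) (h : W.q * W.m ≤ W.E.n) : W.E.k0 ≤ W.kb ∧ W.kb + W.q * W.m = W.E.kf := by
  unfold RcTw.kb Xp.kf
  omega

theorem rc_tw_dp_q (W : RcTw η p) (h : W.q * W.m ≤ W.E.n) : W.dp W.q = W.E.kf := (rc_tw_kb W h).2

theorem rc_tw_dp_mono (W : RcTw η p) {i j : ℕ} (h : i ≤ j) : W.dp i ≤ W.dp j := by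
  unfold RcTw.dp
  exact Nat.add_le_add_left (Nat.mul_le_mul_right _ h) _

theorem rc_tw_dp_le (W : RcTw η p) (h : W.q * W.m ≤ W.E.n) {i : ℕ} (hi : i ≤ W.q) : W.E.k0 ≤ W.dp i ∧ W.dp i ≤ W.E.kf :=
  ⟨(rc_tw_kb W h).1.trans (Nat.le_add_right _ _), (rc_tw_dp_mono W hi).trans (rc_tw_dp_q W h).le⟩

/-- the relative depth of the cut `i` -/
theorem rc_tw_dp_sub (W : RcTw η p) (h : W.q * W.m ≤ W.E.n) (i : ℕ) : W.dp i - W.E.k0 = (W.E.n - W.q * W.m) + i * W.m := by
  unfold RcTw.dp RcTw.kb Xp.kf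
  omega

/-- the remaining depth behind the cut `i` -/
theorem rc_tw_kf_sub (W : RcTw η p) (h : W.q * W.m ≤ W.E.n) {i : ℕ} (hi : i ≤ W.q) : W.E.kf - W.dp i = (W.q - i) * W.m := by
  have h1 := (rc_tw_kb W h).2
  have h2 : (W.q - i) * W.m + i * W.m = W.q * W.m := by rw [← Nat.add_mul, Nat.sub_add_cancel hi]
  unfold RcTw.dp
  omega

theorem rc_stk_mem (W : RcTw η p) (i : ℕ) (σ : Stg (p.sys η)) (h : σ ∈ W.stk i) : ∃ a, 0 < a ∧ a ≤ i ∧ σ = W.sg a := by
  unfold RcTw.stk at h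
  obtain ⟨a, ha, rfl⟩ := List.mem_map.1 h
  exact ⟨a + 1, Nat.succ_pos _, Nat.succ_le_of_lt (List.mem_range.1 ha), rfl⟩

theorem rc_stk_len (W : RcTw η p) (i : ℕ) : (W.stk i).length = i := by
  simp [RcTw.stk]

theorem rc_stk_succ (W : RcTw η p) (i : ℕ) : W.stk (i + 1) = W.stk i ++ [W.sg (i + 1)] := by
  simp [RcTw.stk, List.range_succ]

/-- a new level at the cut `j` does not change the stages before `j` -/
theorem rc_upd_stk (W : RcTw η p) (j : ℕ) (Mk' : ℕ → p.Om → ℝ) (β : ℝ) {i : ℕ} (hi : i < j) : (W.upd j Mk' β).stk i = W.stk i := by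
  unfold RcTw.stk
  refine List.map_congr_left fun a ha => ?_
  have ha' : a + 1 ≠ j := by
    have := List.mem_range.1 ha
    omega
  show (⟨_, 0, Function.update W.Mk j Mk' (a + 1)⟩ : Stg (p.sys η)) = ⟨_, 0, W.Mk (a + 1)⟩
  rw [Function.update_of_ne ha']
  rfl

theorem rc_upd_sg (W : RcTw η p) (j : ℕ) (Mk' : ℕ → p.Om → ℝ) (β : ℝ) : (W.upd j Mk' β).sg j = ⟨W.dp j, 0, Mk'⟩ := by
  show (⟨_, 0, Function.update W.Mk j Mk' j⟩ : Stg (p.sys η)) = _
  rw [Function.update_self]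
  rfl

theorem rc_withSt_nil {P : PkSys} (E : Xp P) (h : E.st = []) : E.withSt [] = E := by
  cases E
  simp only [Xp.withSt] at *
  simp [h]

/-! ## 1. classical calculus -/

/-- every state is in every plateau class -/
theorem rc_pl (b : ℕ) (v : (p.sys η).Kc) : v ∈ (p.sys η).Pl b := fun _ _ => rfl

/-- the weight of a stack on the branch of the interval `i` of depth `k'`: product of the squares of the masks -/
noncomputable def rcWt (k' i : ℕ) (st : List (Stg (p.sys η))) (ω : p.Om) : ℝ := (st.map fun σ => σ.M (ancI k' σ.k i) ω ^ 2).prod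

theorem rc_towb_eqns_cite : True := by
  have := @rcWt.eq_1
  trivial

theorem rc_en_lp (T : ℝ) (k b : ℕ) (θ : p.Om → ℝ) (v : Lp p.Fb 2 p.m) :
    (p.sys η).en T k b θ (v : (p.sys η).Kc) = ∫ x, θ x * ‖(v : p.Om → p.Fb) x‖ ^ 2 ∂p.m := rfl

theorem rc_mulR_lp (k' : ℕ) {M : p.Om → ℝ} (hM : IsMask M) (v : Lp p.Fb 2 p.m) :
    ∃ w : Lp p.Fb 2 p.m, (p.sys η).mulR k' M (v : (p.sys η).Kc) = w ∧ (w : p.Om → p.Fb) =ᵐ[p.m] fun x => ((M x : ℝ) : ℂ) • (v : p.Om → p.Fb) x :=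
  ⟨(p.sys η).mulR k' M (v : (p.sys η).Kc), rfl, gn_mulR_coe (P := p.sys η) k' hM v⟩

/-- **CL1**.   PLAN: `An = id`; `gn_mulR_coe`: `mulR k' M v =ᵐ M • v`; `‖(M ω : ℂ) • x‖² = M ω² ‖x‖²`; `integral_congr_ae`. -/
theorem rc_en_mulR (T : ℝ) (k b k' : ℕ) (θ : p.Om → ℝ) {M : p.Om → ℝ} (hM : IsMask M) (v : (p.sys η).Kc) :
    (p.sys η).en T k b θ ((p.sys η).mulR k' M v) = (p.sys η).en T k b (fun ω => θ ω * M ω ^ 2) v := by
  obtain ⟨w, hw, h0⟩ := rc_mulR_lp (η := η) k' hM v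
  have e1 : (p.sys η).en T k b θ ((p.sys η).mulR k' M v) = ∫ x, θ x * ‖(w : p.Om → p.Fb) x‖ ^ 2 ∂p.m := by
    rw [← rc_en_lp (η := η) T k b θ w, ← hw]
  rw [e1]
  refine Eq.trans ?_ (rc_en_lp (η := η) T k b (fun ω => θ ω * M ω ^ 2) v).symm
  apply integral_congr_ae
  filter_upwards [h0] with x h1
  rw [h1, norm_smul, Complex.norm_real, Real.norm_eq_abs, mul_pow, sq_abs]
  ring

/-- **CL2** the energy of a masked state.   PLAN: induction on `st` (generalizing `θ v`... use `rt_fc_tz`, `rc_en_mulR`); `List.prod_cons`, `mul_assoc`/`mul_comm` under `funext`. -/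
theorem rc_en_run (T : ℝ) (k b k' i : ℕ) (st : List (Stg (p.sys η))) (hst : ∀ σ ∈ st, ∀ j, IsMask (σ.M j)) (θ : p.Om → ℝ) (v : (p.sys η).Kc) :
    (p.sys η).en T k b θ (Xp.run k' i st v) = (p.sys η).en T k b (fun ω => θ ω * rcWt k' i st ω) v := by
  induction st generalizing v with
  | nil =>
    show (p.sys η).en T k b θ v = _
    congr 1
    funext ω
    simp [rcWt]
  | cons σ l ih =>
    have h1 := ih (fun σ' hσ' => hst σ' (List.mem_cons_of_mem _ hσ'))
      ((p.sys η).tz (tmL σ.k (ancI k' σ.k i)) σ.k σ.b (σ.M (ancI k' σ.k i)) v)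
    show (p.sys η).en T k b θ (Xp.run k' i l ((p.sys η).tz (tmL σ.k (ancI k' σ.k i)) σ.k σ.b (σ.M (ancI k' σ.k i)) v)) = _
    rw [h1, rt_fc_tz]
    refine (rc_en_mulR T k b σ.k (fun ω => θ ω * rcWt k' i l ω) (hst σ List.mem_cons_self (ancI k' σ.k i)) v).trans ?_
    congr 1
    funext ω
    simp only [rcWt, List.map_cons, List.prod_cons]
    ring

/-- the weight is a mask.   PLAN: induction; products of measurable functions with values in `[0,1]`. -/
theorem rc_wt_mask (k' i : ℕ) (st : List (Stg (p.sys η))) (hst : ∀ σ ∈ st, ∀ j, IsMask (σ.M j)) : IsMask (rcWt k' i st) := by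
  induction st with
  | nil =>
    have e : rcWt (η := η) (p := p) k' i [] = fun _ => 1 := by
      funext ω
      simp [rcWt]
    rw [e]
    exact ⟨measurable_const, fun _ => ⟨zero_le_one, le_refl _⟩⟩
  | cons σ l ih =>
    have e : rcWt k' i (σ :: l) = fun ω => σ.M (ancI k' σ.k i) ω ^ 2 * rcWt k' i l ω := by
      funext ω
      simp [rcWt]
    rw [e]
    exact gn_mask_mul (gn_mask_sq (hst σ List.mem_cons_self _)) (ih fun σ' hσ' => hst σ' (List.mem_cons_of_mem _ hσ'))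

/-- the weight depends only on the ancestor at a depth behind all stages.   PLAN: `ancI k' σ.k i = ancI k σ.k (ancI k' k i)` for `σ.k ≤ k ≤ k'` (`gn_anc_anc` of `Gen/BasA.lean`). -/
theorem rc_wt_anc (k' k i : ℕ) (hk : k ≤ k') (st : List (Stg (p.sys η))) (hst : ∀ σ ∈ st, σ.k ≤ k) : rcWt k' i st = rcWt k (ancI k' k i) st := by
  funext ω
  unfold rcWt
  congr 1
  refine List.map_congr_left fun σ hσ => ?_
  rw [gn_anc_anc (hst σ hσ) hk]

/-- `en`, `ms` do not depend on `(T, k, b)` -/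
theorem rc_en_indep (θ : p.Om → ℝ) (T T' : ℝ) (k1 k2 b1 b2 : ℕ) (v : (p.sys η).Kc) : (p.sys η).en T k1 b1 θ v = (p.sys η).en T' k2 b2 θ v := rfl

/-- the norm is the total energy -/
theorem rc_norm_sq (T : ℝ) (k b : ℕ) (v : (p.sys η).Kc) : ‖v‖ ^ 2 = (p.sys η).ms T k b Set.univ v := by
  have e : (p.sys η).ms T k b Set.univ v = (p.sys η).en T k b (fun _ => 1) v := by
    unfold PkSys.ms
    rw [Set.indicator_univ]
  rw [e, gn_en_one]
  rfl

/-! ## 2. restricted labels, Hoelder -/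

theorem rc_rs_m {P : PkSys} (E : Xp P) (U : ℕ → Set P.X) (l : Fin E.L) :
    (E.rs U).m l = P.en (tmL E.kf (E.iv l)) E.kf E.bT ((U (E.iv l)).indicator (E.th l)) (E.fin (E.iv l)) := rfl

theorem rc_rs_tw {P : PkSys} (E : Xp P) (U : ℕ → Set P.X) : (E.rs U).tw = E.tw := rfl

/-- PLAN: only the five fields on `th` change; `Measurable.indicator`, `Set.indicator_nonneg`, `Set.indicator_le_self'`. -/
theorem rc_rs_valid {P : PkSys} (E : Xp P) (hE : E.Valid) (U : ℕ → Set P.X) (hU : ∀ J, MeasurableSet (U J)) : (E.rs U).Valid := by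
  refine { e_pos := hE.e_pos, ka_pos := hE.ka_pos, budget := hE.budget, plat := hE.plat, reg := hE.reg, st_dep := hE.st_dep, st_mono := hE.st_mono,
           st_meas := hE.st_meas, st_bd := hE.st_bd, iv_in := hE.iv_in, ts_ok := hE.ts_ok, w_pos := hE.w_pos, th_meas := ?_, th_nn := ?_, th_supp := ?_, th_sum := ?_ }
  · intro l
    exact (hE.th_meas l).indicator (hU _)
  · intro l x
    exact Set.indicator_nonneg (fun y _ => hE.th_nn l y) x
  · intro l x hx
    refine hE.th_supp l x fun h0 => hx ?_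
    show (U (E.iv l)).indicator (E.th l) x = 0
    by_cases hm : x ∈ U (E.iv l)
    · rw [Set.indicator_of_mem hm, h0]
    · rw [Set.indicator_of_notMem hm]
  · intro i x
    refine le_trans (Finset.sum_le_sum fun l _ => ?_) (hE.th_sum i x)
    show (if E.iv l = i then (U (E.iv l)).indicator (E.th l) x else 0) ≤ if E.iv l = i then E.th l x else 0
    split_ifs
    · exact Set.indicator_le_self' (fun y _ => hE.th_nn l y) x
    · exact le_refl _

/-- PLAN: `rc_rs_valid`, `hR : AdmRoot` (same root, same `n`). -/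
theorem rc_rs_cls (M : Mdl) (hR : M.AdmRoot) {C A : ℕ} {q : M.Par} {E : Xp (M.sys q)} (hE : M.Cls C A q E) (U : ℕ → Set (M.sys q).X)
    (hU : ∀ J, MeasurableSet (U J)) : M.Cls C A q (E.rs U) := by
  obtain ⟨h1, h2, h3, h4, h5⟩ := hE
  exact ⟨h1, rc_rs_valid E h2 U hU, h3, h4, hR C A q E _ h5 ⟨rfl, rfl, rfl, rfl, rfl, rfl⟩ rfl⟩

/-- **Hoelder**: `Σ m = Σ (m^(3/2) w^(-1/2))^(2/3) w^(1/3) ≤ rd^(2/3) tw^(1/3)`.   PLAN: `Real.inner_le_Lp_mul_Lq` with exponents `3/2, 3` (`Real.HolderConjugate`), `m = tr^(2/3) w^(1/3)` (`gn_tr_eq`). -/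
theorem rc_hold {P : PkSys} (E : Xp P) (hE : E.Valid) : E.tm ≤ E.rd ^ (2 / 3 : ℝ) * E.tw ^ (1 / 3 : ℝ) := by
  have hc : (3 / 2 : ℝ).HolderConjugate 3 := by
    rw [Real.holderConjugate_iff]
    norm_num
  have key := Real.inner_le_Lp_mul_Lq (Finset.univ : Finset (Fin E.L)) (fun l => E.tr l ^ (2 / 3 : ℝ)) (fun l => E.w l ^ (1 / 3 : ℝ)) hc
  have e1 : ∀ l, E.tr l ^ (2 / 3 : ℝ) * E.w l ^ (1 / 3 : ℝ) = E.m l := by
    intro l
    have hm := gn_m_nonneg' E hE l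
    have hw := hE.w_pos l
    unfold Xp.tr
    rw [Real.div_rpow (Real.rpow_nonneg hm _) (Real.sqrt_nonneg _), ← Real.rpow_mul hm, Real.sqrt_eq_rpow, ← Real.rpow_mul hw.le]
    have a1 : (3 / 2 : ℝ) * (2 / 3) = 1 := by norm_num
    have a2 : (1 / 2 : ℝ) * (2 / 3) = 1 / 3 := by norm_num
    rw [a1, a2, Real.rpow_one]
    have : 0 < E.w l ^ (1 / 3 : ℝ) := Real.rpow_pos_of_pos hw _
    field_simp
  have e2 : ∀ l, |E.tr l ^ (2 / 3 : ℝ)| ^ (3 / 2 : ℝ) = E.tr l := by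
    intro l
    have ht := gn_tr_nonneg E hE l
    rw [abs_of_nonneg (Real.rpow_nonneg ht _), ← Real.rpow_mul ht]
    norm_num
  have e3 : ∀ l, |E.w l ^ (1 / 3 : ℝ)| ^ (3 : ℝ) = E.w l := by
    intro l
    have hw := hE.w_pos l
    rw [abs_of_nonneg (Real.rpow_nonneg hw.le _), ← Real.rpow_mul hw.le]
    norm_num
  simp only [e1, e2, e3] at key
  have a3 : (1 / (3 / 2) : ℝ) = 2 / 3 := by norm_num
  rw [a3] at key
  exact key

/-! ## 3. measurability of the names      (PROVED, helper252: all names are measurable maps into countable discrete spaces) -/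

theorem rc_tbm_cell (w : ℝ) : Measurable (reCell w) := by
  unfold reCell
  exact Int.measurable_floor.comp (measurable_id.div_const w)

theorem rc_tbm_cell2 (w : ℝ) : Measurable (reCell2 w) := by
  unfold reCell2
  exact ((rc_tbm_cell w).comp measurable_fst).prodMk ((rc_tbm_cell w).comp measurable_snd)

theorem rc_tbm_cast : Measurable fun z : ℤ => (z : ℝ) := Measurable.of_discrete

theorem rc_tbm_cor2 (w : ℝ) : Measurable (reCor2 w) := by
  unfold reCor2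
  exact (measurable_const.mul (rc_tbm_cast.comp ((rc_tbm_cell w).comp measurable_fst))).prodMk
    (measurable_const.mul (rc_tbm_cast.comp ((rc_tbm_cell w).comp measurable_snd)))

theorem rc_tbm_co_A (T : ℝ) : Measurable fun ω => (p.co T ω).A := p.mA

theorem rc_tbm_co_b (T : ℝ) : Measurable fun ω => (p.co T ω).b := by
  show Measurable fun ω => p.B ω + T • p.A ω
  exact p.mB.add (p.mA.const_smul T)

theorem rc_tbm_co_y (T : ℝ) : Measurable fun ω => (p.co T ω).y := by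
  show Measurable fun ω => p.Y ω + T * rtSq (p.A ω)
  unfold rtSq
  exact p.mY.add (measurable_const.mul ((p.mA.fst.pow_const 2).add (p.mA.snd.pow_const 2)))

theorem rc_tbm_nm (l R T : ℝ) : Measurable fun ω => reNm l R (p.co T ω) := by
  unfold reNm
  refine ((rc_tbm_cell2 R).comp (rc_tbm_co_A T)).prodMk (((rc_tbm_cell2 (l * R)).comp (rc_tbm_co_b T)).prodMk ((rc_tbm_cell (l * R ^ 2)).comp ?_))
  refine (rc_tbm_co_y T).sub (measurable_const.mul ?_)
  unfold rtIp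
  have h1 : Measurable fun ω => reCor2 R (p.co T ω).A := (rc_tbm_cor2 R).comp (rc_tbm_co_A T)
  exact (h1.fst.mul (rc_tbm_co_b T).fst).add (h1.snd.mul (rc_tbm_co_b T).snd)

theorem rc_tbm_nmP (W : RcTw η p) (i I : ℕ) : Measurable (W.nmP i I) := by
  unfold RcTw.nmP
  exact measurable_const.prodMk (rc_tbm_nm _ _ _)

theorem rc_nmP_meas (W : RcTw η p) (i I : ℕ) (V : Set ReName) : MeasurableSet {ω | W.nmP i I ω ∈ V} :=
  rc_tbm_nmP W i I (MeasurableSet.of_discrete (s := V))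

theorem rc_tbm_anP (W : RcTw η p) (w : ℕ) : Measurable (W.anP w) := by
  unfold RcTw.anP
  exact (rc_tbm_cell2 _).comp p.mA

theorem rc_anP_meas (W : RcTw η p) (w : ℕ) (V : Set (ℤ × ℤ)) : MeasurableSet {ω | W.anP w ω ∈ V} :=
  rc_tbm_anP W w (MeasurableSet.of_discrete (s := V))

theorem rc_ZP_meas (W : RcTw η p) : Measurable W.ZP := by
  unfold RcTw.ZP
  exact (p.mA.sub ((rc_tbm_cor2 _).comp p.mA)).const_smul (W.R0⁻¹ : ℝ)

theorem rc_tbm_psi (W : RcTw η p) (B : ℕ) : Measurable (W.psi B) := by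
  unfold RcTw.psi
  exact ((rc_tbm_cell2 _).comp p.mA).prodMk (measurable_pi_iff.2 fun x => rc_tbm_nmP W _ _)

theorem rc_psi_meas (W : RcTw η p) (B : ℕ) (V : Set W.Ps) : MeasurableSet {ω | W.psi B ω ∈ V} :=
  rc_tbm_psi W B (MeasurableSet.of_discrete (s := V))

theorem rc_hit_meas (W : RcTw η p) (i b : ℕ) (pn : ReName × ReName → ℝ × ℝ × ℝ) (pc : ReName × ReName → ℝ) (wd : ℝ) (J : ℕ) :
    MeasurableSet (W.hit i b pn pc wd J) := by
  unfold RcTw.hit
  have hx : Measurable fun ω => (W.nmP i (W.aI i J) ω, W.nmP b (W.aI b J) ω) := (rc_tbm_nmP W _ _).prodMk (rc_tbm_nmP W _ _)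
  have hpn : Measurable fun ω => pn (W.nmP i (W.aI i J) ω, W.nmP b (W.aI b J) ω) := (Measurable.of_discrete (f := pn)).comp hx
  have hpc : Measurable fun ω => pc (W.nmP i (W.aI i J) ω, W.nmP b (W.aI b J) ω) := (Measurable.of_discrete (f := pc)).comp hx
  have hZ := rc_ZP_meas W
  have hq : Measurable fun ω => rtSq (W.ZP ω) := by
    unfold rtSq
    exact (hZ.fst.pow_const 2).add (hZ.snd.pow_const 2)
  refine measurableSet_le ?_ measurable_const
  exact ((((hpn.fst.mul hZ.fst).add (hpn.snd.fst.mul hZ.snd)).add (hpn.snd.snd.mul hq)).sub hpc).abs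

/-! ## 4. consequences of `RcTw.Ok` -/

/-- monotonicity in the tolerance -/
theorem rc_tw_ok_mono (W : RcTw η p) {hg C A : ℕ} {τ τ' : ℝ} (h : W.Ok hg C A τ) (hτ : τ ≤ τ') : W.Ok hg C A τ' := by
  have hn : (0 : ℝ) ≤ W.E.n := Nat.cast_nonneg _
  have hV : (W.Ex 0).Valid := (h.cls 0 (Nat.zero_le _)).2.1
  have he : 0 < W.E.e := hV.e_pos
  have hka : 0 < W.E.ka := hV.ka_pos
  have hw : ∀ l, 0 < W.E.w l := hV.w_pos
  refine ⟨h.free, h.n_lo, h.n_hi, h.m_pos, h.hg_lt, h.R0_pos, h.cls, ?_, ?_, ?_, ?_, h.lvl, ?_, ?_⟩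
  · intro i hi
    exact le_trans (gn_two_mono (by nlinarith)) (h.cert i hi)
  · intro l
    obtain ⟨h1, h2⟩ := h.hom l
    exact ⟨le_trans (mul_le_mul_of_nonneg_left (gn_s_anti _ (by linarith)) (mul_pos hka (hw l)).le) h1,
      le_trans h2 (mul_le_mul_of_nonneg_left (gn_s_anti _ (by linarith)) (mul_pos hka (hw l)).le)⟩
  · exact le_trans h.tw (mul_le_mul_of_nonneg_left (gn_s_anti _ (by linarith)) (div_pos he hka).le)
  · intro l
    obtain ⟨h1, h2, h3⟩ := h.shape l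
    exact ⟨h1, h2, le_trans (gn_s_anti _ hτ) h3⟩
  · intro i h0 hi
    exact le_trans (h.be_hi i h0 hi) (mul_le_mul_of_nonneg_left (gn_two_mono (by nlinarith)) hka.le)
  · intro i h0 hi
    exact le_trans (h.raw_hi i h0 hi) (mul_le_mul_of_nonneg_left (gn_two_mono (by nlinarith)) he.le)

theorem rc_tw_valid (W : RcTw η p) {hg C A : ℕ} {τ : ℝ} (h : W.Ok hg C A τ) {i : ℕ} (hi : i ≤ hg) : (W.Ex i).Valid := (h.cls i hi).2.1

/-- the masks of the stages -/
theorem rc_tw_mask (W : RcTw η p) {hg C A : ℕ} {τ : ℝ} (h : W.Ok hg C A τ) {a : ℕ} (h0 : 0 < a) (ha : a ≤ hg) (I : ℕ) : IsMask (W.Mk a I) := by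
  have hV := rc_tw_valid W h ha
  have hmem : W.sg a ∈ (W.Ex a).st := by
    show W.sg a ∈ W.stk a
    obtain ⟨a', rfl⟩ : ∃ a', a = a' + 1 := ⟨a - 1, by omega⟩
    rw [rc_stk_succ]
    simp
  exact ⟨hV.st_meas _ hmem I, hV.st_bd _ hmem I⟩

theorem rc_stk_mask (W : RcTw η p) {hg C A : ℕ} {τ : ℝ} (h : W.Ok hg C A τ) {i : ℕ} (hi : i ≤ hg) : ∀ σ ∈ W.stk i, ∀ j, IsMask (σ.M j) := by
  intro σ hσ j
  obtain ⟨a, h0, ha, rfl⟩ := rc_stk_mem W i σ hσ
  exact rc_tw_mask W h h0 (ha.trans hi) j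

/-- the masks are indicators of peel levels -/
theorem rc_tw_ind (W : RcTw η p) {hg C A : ℕ} {τ : ℝ} (h : W.Ok hg C A τ) {a : ℕ} (h0 : 0 < a) (ha : a ≤ hg) {I : ℕ} (hI : I ∈ W.iv a) :
    ∃ S : Set p.Om, IsLvl (p.sys η) (tmL (W.dp a) I) (W.dp a) 0 (W.E.at' (W.dp a) I (W.stk (a - 1))) (W.be a) S ∧ W.Mk a I = S.indicator fun _ => 1 :=
  (h.lvl a h0 ha).lvl I hI

/-- **regularity behind the stage `a`**.   PLAN: `rc_tw_ind`; `st a I = mulR (1_S) (at' .. (stk (a-1)))` (`rc_stk_succ`, `run` of an appended stage, `ancI k k I = I`, `rt_fc_tz`);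
`ms (cell) (mulR 1_S ψ) = ms (cell ∩ S) ψ` (`rc_en_mulR`, indicators) `≤ 2 β wt` (`IsLvl.reg`). -/
theorem rc_st_reg (W : RcTw η p) {hg C A : ℕ} {τ : ℝ} (h : W.Ok hg C A τ) {a : ℕ} (h0 : 0 < a) (ha : a ≤ hg) {I : ℕ} (hI : I ∈ W.iv a) (b : ℕ) :
    (p.sys η).Reg (tmL (W.dp a) I) (W.dp a) b (2 * W.be a) (W.st a I) :=
  rc_fk_reg h h0 ha hI

/-- **energy behind the stage `a`**.   PLAN: termwise `ms univ (st a I) = en (Mk a I ^ 2) (at' ..)` (`rc_en_mulR` with `θ = 1`); then `Ok.raw_hi`. -/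
theorem rc_st_sum (W : RcTw η p) {hg C A : ℕ} {τ : ℝ} (h : W.Ok hg C A τ) {a : ℕ} (h0 : 0 < a) (ha : a ≤ hg) :
    W.em a (fun _ => Set.univ) ≤ W.E.e * (2 : ℝ) ^ ((rndCl η).d0f * ((W.dp a - W.E.k0 : ℕ) : ℝ) + τ * W.E.n) := by
  refine le_trans (le_of_eq ?_) (h.raw_hi a h0 ha)
  rw [← rc_fk_post h h0 ha]
  unfold RcTw.em
  exact Finset.sum_congr rfl fun I _ => (rc_norm_sq _ _ _ _).symm

/-- later states are restrictions of earlier states.   PLAN: `rc_en_run` for both; `stk l = stk a ++ ..`; the weight of the longer stack is `≤` the weight of the shorter one at the ancestor (`rc_wt_anc`, factors in `[0,1]`); `gn_en_mono`. -/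
theorem rc_st_le (W : RcTw η p) {hg C A : ℕ} {τ : ℝ} (h : W.Ok hg C A τ) {a l : ℕ} (hal : a ≤ l) (hl : l ≤ hg) (I : ℕ) {S : Set p.Om} (hS : MeasurableSet S) :
    (p.sys η).ms (tmL (W.dp l) I) (W.dp l) 0 S (W.st l I) ≤
      (p.sys η).ms (tmL (W.dp a) (ancI (W.dp l) (W.dp a) I)) (W.dp a) 0 S (W.st a (ancI (W.dp l) (W.dp a) I)) :=
  rc_fk_st_le h hal hl hS _ _ _ _ _ _ I

/-- **"for all towers of full height with a small tolerance"**:   `τ` is PACKAGE FREE, `A0 n0` depend on the package -/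
def RcAll (η : ℝ) (q : ℕ) (Φ : (p : RdClPar) → RcTw η p → Prop) : Prop :=
  ∃ τ : ℝ, 0 < τ ∧ ∀ C : ℕ, ∃ A0 n0 : ℕ, ∀ (A : ℕ) (p : RdClPar) (W : RcTw η p), A0 ≤ A → W.q = q → n0 ≤ W.E.n → W.Ok (q - 1) C A τ → Φ p W

theorem rc_all_eqns_cite : True := by
  have := @RcAll.eq_1
  trivial

theorem rc_all_and {η : ℝ} {q : ℕ} {Φ Ψ : (p : RdClPar) → RcTw η p → Prop} (h1 : RcAll η q Φ) (h2 : RcAll η q Ψ) :
    RcAll η q fun p W => Φ p W ∧ Ψ p W := by
  obtain ⟨τ1, ht1, H1⟩ := h1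
  obtain ⟨τ2, ht2, H2⟩ := h2
  refine ⟨min τ1 τ2, lt_min ht1 ht2, fun C => ?_⟩
  obtain ⟨A1, n1, H1⟩ := H1 C
  obtain ⟨A2, n2, H2⟩ := H2 C
  refine ⟨max A1 A2, max n1 n2, fun A p W hA hq hn hW => ⟨?_, ?_⟩⟩
  · exact H1 A p W (le_trans (le_max_left _ _) hA) hq (le_trans (le_max_left _ _) hn) (rc_tw_ok_mono W hW (min_le_left _ _))
  · exact H2 A p W (le_trans (le_max_right _ _) hA) hq (le_trans (le_max_right _ _) hn) (rc_tw_ok_mono W hW (min_le_right _ _))

theorem rc_all_mono {η : ℝ} {q : ℕ} {Φ Ψ : (p : RdClPar) → RcTw η p → Prop} (h1 : RcAll η q Φ) (h : ∀ p W, Φ p W → Ψ p W) : RcAll η q Ψ := by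
  obtain ⟨τ1, ht1, H1⟩ := h1
  refine ⟨τ1, ht1, fun C => ?_⟩
  obtain ⟨A1, n1, H1⟩ := H1 C
  exact ⟨A1, n1, fun A p W hA hq hn hW => h p W (H1 A p W hA hq hn hW)⟩

/-! ## 5. the final measure -/

theorem rc_fm_nonneg (W : RcTw η p) {C A : ℕ} {τ : ℝ} (h : W.Ok (W.q - 1) C A τ) (U : ℕ → Set p.Om) : 0 ≤ W.fm U :=
  rc_fk_tm_nonneg W.X (rc_tw_valid W h le_rfl) U

theorem rc_fm_mono_gen {P : PkSys} (E : Xp P) (hE : E.Valid) (U U' : ℕ → Set P.X) (hU : ∀ J, MeasurableSet (U J)) (hU' : ∀ J, MeasurableSet (U' J))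
    (hs : ∀ J ∈ ivs E.k0 E.i0 E.kf, U J ⊆ U' J) : (E.rs U).tm ≤ (E.rs U').tm := by
  have key : ∀ l : Fin E.L, (E.rs U).m l ≤ (E.rs U').m l := by
    intro l
    rw [rc_rs_m, rc_rs_m]
    refine gn_en_mono _ _ _ (rc_fk_ind_mask E hE (hU _) l) (rc_fk_ind_mask E hE (hU' _) l) (fun x => ?_) _
    exact Set.indicator_le_indicator_of_subset (hs _ ((gn_mem_ivs _ _ _ _).2 (hE.iv_in l))) (fun y => hE.th_nn l y) x
  exact Finset.sum_le_sum fun l _ => key l

/-- PLAN: termwise `gn_en_mono` (indicators of masks). -/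
theorem rc_fm_mono (W : RcTw η p) {C A : ℕ} {τ : ℝ} (h : W.Ok (W.q - 1) C A τ) {U U' : ℕ → Set p.Om} (hU : ∀ J, MeasurableSet (U J))
    (hU' : ∀ J, MeasurableSet (U' J)) (hs : ∀ J ∈ ivs W.E.k0 W.E.i0 W.E.kf, U J ⊆ U' J) : W.fm U ≤ W.fm U' := by
  exact rc_fm_mono_gen W.X (rc_tw_valid W h le_rfl) U U' hU hU' hs

theorem rc_fm_add_gen {P : PkSys} (E : Xp P) (hE : E.Valid) {ι : Type} (F : Finset ι) (U : ι → ℕ → Set P.X)
    (hU : ∀ a ∈ F, ∀ J, MeasurableSet (U a J)) (hd : ∀ a ∈ F, ∀ a' ∈ F, a ≠ a' → ∀ J, Disjoint (U a J) (U a' J)) :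
    (E.rs fun J => ⋃ a ∈ F, U a J).tm = ∑ a ∈ F, (E.rs (U a)).tm := by
  have key : ∀ l : Fin E.L, (E.rs fun J => ⋃ a ∈ F, U a J).m l = ∑ a ∈ F, (E.rs (U a)).m l := by
    intro l
    simp only [rc_rs_m]
    rw [← gn_en_sum _ _ _ F (fun a => (U a (E.iv l)).indicator (E.th l)) (fun a ha => rc_fk_ind_mask E hE (hU a ha _) l)]
    congr 1
    exact Finset.indicator_biUnion F (fun a => U a (E.iv l)) (fun a ha a' ha' hne => hd a ha a' ha' hne _)
  calc (E.rs fun J => ⋃ a ∈ F, U a J).tm = ∑ l : Fin E.L, ∑ a ∈ F, (E.rs (U a)).m l := Finset.sum_congr rfl fun l _ => key l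
    _ = ∑ a ∈ F, ∑ l : Fin E.L, (E.rs (U a)).m l := Finset.sum_comm
    _ = ∑ a ∈ F, (E.rs (U a)).tm := rfl

/-- finite additivity.   PLAN: termwise `gn_en_sum`; the indicator of a disjoint union is the sum of the indicators. -/
theorem rc_fm_add (W : RcTw η p) {C A : ℕ} {τ : ℝ} (h : W.Ok (W.q - 1) C A τ) {ι : Type} (F : Finset ι) (U : ι → ℕ → Set p.Om)
    (hU : ∀ a ∈ F, ∀ J, MeasurableSet (U a J)) (hd : ∀ a ∈ F, ∀ a' ∈ F, a ≠ a' → ∀ J, Disjoint (U a J) (U a' J)) :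
    W.fm (fun J => ⋃ a ∈ F, U a J) = ∑ a ∈ F, W.fm (U a) :=
  rc_fm_add_gen W.X (rc_tw_valid W h le_rfl) F U hU hd

theorem rc_fm_union_le (W : RcTw η p) {C A : ℕ} {τ : ℝ} (h : W.Ok (W.q - 1) C A τ) {U U' : ℕ → Set p.Om} (hU : ∀ J, MeasurableSet (U J))
    (hU' : ∀ J, MeasurableSet (U' J)) : W.fm (fun J => U J ∪ U' J) ≤ W.fm U + W.fm U' := by
  have h1 := rc_fm_add W h (Finset.univ : Finset Bool) (fun b J => if b then U J else U' J \ U J)
    (by
      intro a _ J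
      cases a
      · exact (hU' J).diff (hU J)
      · exact hU J)
    (by
      intro a _ a' _ hne J
      cases a <;> cases a'
      · exact absurd rfl hne
      · exact Set.disjoint_sdiff_left
      · exact Set.disjoint_sdiff_right
      · exact absurd rfl hne)
  have e : (fun J => ⋃ a ∈ (Finset.univ : Finset Bool), (if a then U J else U' J \ U J)) = fun J => U J ∪ U' J := by
    funext J
    ext x
    simp only [Finset.mem_univ, Set.iUnion_true, Set.mem_iUnion, Bool.exists_bool, Set.mem_union]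
    simp only [Bool.false_eq_true, if_false, if_true, Set.mem_sdiff]
    tauto
  rw [e] at h1
  rw [h1, Fintype.sum_bool]
  simp only [Bool.false_eq_true, if_false, if_true]
  exact add_le_add le_rfl (rc_fm_mono W h (fun J => (hU' J).diff (hU J)) hU' fun J _ => Set.sdiff_subset)


theorem rc_fm_t_set {P : PkSys} (E : Xp P) (hE : E.Valid) {S : Set P.X} (hS : MeasurableSet S) :
    (E.rs fun _ => S).tm = ∫ x in S, ∑ l, E.th l x * ‖(P.An (tmL E.kf (E.iv l)) E.kf E.bT (E.fin (E.iv l)) : P.X → P.Fb) x‖ ^ 2 ∂(P.rho E.kf) := by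
  rw [integral_finsetSum _ fun l _ => (gn_en_integrable _ _ _ (gn_th_mask E hE l) _).integrableOn]
  show ∑ l : Fin E.L, (E.rs fun _ => S).m l = _
  refine Finset.sum_congr rfl fun l _ => ?_
  rw [rc_rs_m, ← integral_indicator hS]
  unfold PkSys.en
  refine integral_congr_ae (Filter.Eventually.of_forall fun x => ?_)
  by_cases hx : x ∈ S
  · simp only [Set.indicator_of_mem hx]
  · simp only [Set.indicator_of_notMem hx, zero_mul]

theorem rc_fm_t_gen {P : PkSys} (E : Xp P) (hE : E.Valid) {α : Type} [Countable α] (X : P.X → α) (hX : ∀ V : Set α, MeasurableSet {ω | X ω ∈ V}) :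
    ∃ F : Finset α, (E.rs fun _ => Set.univ).tm ≤ 2 * (E.rs fun _ => {ω | X ω ∈ F}).tm := by
  obtain ⟨f, hf⟩ := exists_injective_nat α
  have hfin : ∀ n : ℕ, {x : α | f x < n}.Finite := fun n => (Set.finite_lt_nat n).preimage hf.injOn
  obtain ⟨g, hg⟩ : ∃ g : P.X → ℝ, g = fun x => ∑ l, E.th l x * ‖(P.An (tmL E.kf (E.iv l)) E.kf E.bT (E.fin (E.iv l)) : P.X → P.Fb) x‖ ^ 2 := ⟨_, rfl⟩
  have hgi : Integrable g (P.rho E.kf) := by
    rw [hg]
    exact integrable_finsetSum _ fun l _ => gn_en_integrable _ _ _ (gn_th_mask E hE l) _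
  have hkey : ∀ S : Set P.X, MeasurableSet S → (E.rs fun _ => S).tm = ∫ x in S, g x ∂(P.rho E.kf) := by
    intro S hS
    rw [hg]
    exact rc_fm_t_set E hE hS
  have hg0 : ∀ x, 0 ≤ g x := by
    intro x
    rw [hg]
    exact Finset.sum_nonneg fun l _ => mul_nonneg (hE.th_nn l x) (by positivity)
  have hm : ∀ n : ℕ, MeasurableSet {ω | X ω ∈ {x : α | f x < n}} := fun n => hX _
  have hmono : Monotone fun n : ℕ => {ω | X ω ∈ {x : α | f x < n}} := by
    intro n n' hn ω hω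
    exact lt_of_lt_of_le hω hn
  have hU : (⋃ n : ℕ, {ω | X ω ∈ {x : α | f x < n}}) = Set.univ := by
    refine Set.eq_univ_of_forall fun ω => Set.mem_iUnion.2 ⟨f (X ω) + 1, ?_⟩
    exact Nat.lt_succ_self _
  have hlim := tendsto_setIntegral_of_monotone hm hmono (hgi.integrableOn (s := ⋃ n : ℕ, {ω | X ω ∈ {x : α | f x < n}}))
  rw [hU] at hlim
  rw [hkey _ MeasurableSet.univ]
  by_cases h0 : 0 < ∫ x in Set.univ, g x ∂(P.rho E.kf)
  · have hev := hlim.eventually (lt_mem_nhds (half_lt_self h0))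
    obtain ⟨n, hn⟩ := hev.exists
    refine ⟨(hfin n).toFinset, ?_⟩
    have e : {ω | X ω ∈ (hfin n).toFinset} = {ω | X ω ∈ {x : α | f x < n}} := by
      ext ω
      simp
    rw [e, hkey _ (hm n)]
    linarith
  · refine ⟨∅, ?_⟩
    have e : {ω | X ω ∈ (∅ : Finset α)} = {ω | X ω ∈ (∅ : Set α)} := by
      ext ω
      simp
    rw [e, hkey _ (hX _)]
    have : 0 ≤ ∫ x in {ω | X ω ∈ (∅ : Set α)}, g x ∂(P.rho E.kf) := integral_nonneg fun x => hg0 x
    linarith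

/-- continuity from below along a countable observation: finitely many values carry half of the mass.
PLAN: every term `U ↦ en (1_U θ_l) (fin)` is a finite measure (`withDensity`); `α` countable: `Measure.sum`/`tendsto_measure_iUnion_atTop` along an enumeration; finitely many labels. -/
theorem rc_fm_tend (W : RcTw η p) {C A : ℕ} {τ : ℝ} (h : W.Ok (W.q - 1) C A τ) {α : Type} [Countable α] (X : p.Om → α)
    (hX : ∀ V : Set α, MeasurableSet {ω | X ω ∈ V}) : ∃ F : Finset α, W.ft ≤ 2 * W.fm fun _ => {ω | X ω ∈ F} := by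
  exact rc_fm_t_gen W.X (rc_tw_valid W h le_rfl) X hX

/-- **one final interval against the state behind the stage `a`**.   PLAN: only the labels with `iv l = J0` contribute; `Σ_l θ_l ≤ 1` (`Valid.th_sum`), `gn_en_sum`, `gn_en_mono`: `≤ ms U (X.fin J0)`;
`X.fin J0 = run kf J0 (stk (q-1)) v`; `rc_en_run`, `rc_wt_anc`: the weight is `≤` the weight of `stk a` at the ancestor. -/
theorem rc_fm_pt (W : RcTw η p) {C A : ℕ} {τ : ℝ} (h : W.Ok (W.q - 1) C A τ) {a : ℕ} (ha : a < W.q) (J0 : ℕ) {U : Set p.Om} (hU : MeasurableSet U) :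
    W.fm (fun J => {ω | J = J0 ∧ ω ∈ U}) ≤ (p.sys η).ms (tmL (W.dp a) (W.aI a J0)) (W.dp a) 0 U (W.st a (W.aI a J0)) := by
  have hX : W.X.Valid := rc_tw_valid W h le_rfl
  have hUm : ∀ J, MeasurableSet {ω | J = J0 ∧ ω ∈ U} := by
    intro J
    by_cases hJ : J = J0
    · simpa [hJ] using hU
    · simp [hJ]
  refine le_trans (rc_fk_tm_le W.X hX (fun J => {ω | J = J0 ∧ ω ∈ U}) hUm) ?_
  have hz : ∀ J, J ≠ J0 → (p.sys η).ms (tmL W.X.kf J) W.X.kf W.X.bT {ω | J = J0 ∧ ω ∈ U} (W.X.fin J) = 0 := by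
    intro J hJ
    have : ({ω | J = J0 ∧ ω ∈ U} : Set p.Om) = ∅ := by
      ext ω
      simp [hJ]
    exact (congrArg (fun S : Set p.Om => (p.sys η).ms (tmL W.X.kf J) W.X.kf W.X.bT S (W.X.fin J)) this).trans (gn_ms_empty _ _ _ _)
  by_cases hJ : J0 ∈ ivs W.X.k0 W.X.i0 W.X.kf
  swap
  · rw [Finset.sum_eq_zero fun J hJ' => hz J (fun e => hJ (e ▸ hJ'))]
    exact gn_ms_nonneg _ _ _ _ _
  rw [Finset.sum_eq_single_of_mem J0 hJ fun J _ hne => hz J hne]
  have e : ({ω | J0 = J0 ∧ ω ∈ U} : Set p.Om) = U := by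
    ext ω
    simp
  refine le_trans (le_of_eq (congrArg (fun S : Set p.Om => (p.sys η).ms (tmL W.X.kf J0) W.X.kf W.X.bT S (W.X.fin J0)) e)) ?_
  exact rc_fk_fin_le h (by omega) le_rfl hU _ _ _ _ _ _ J0

end Claimed.Agent.R256
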