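-- KEEP
import Claimed.Agent.R256.Rc.TowB
import Claimed.Agent.R256.Rc.AtF

/-!
# Row 256, unit RC, block (I-cl): EXITS of the block ATOM      (chief helper106; block architect helper38; prefix `rc_`, own files `Rc/At*.lean`, prefix `rc_at_`)

 `rc_atom`      particle level bounds `RcTw.PreP`  ⟹  `RcDoc.Pre` for the document `W.doc B F`      EST 900 l. (to be cut by the block architect: one leaf per field + DICT + MASS + FIN)
 `rc_pre_mono`  monotonicity of `RcDoc.Pre` in the tolerances                                       EST 120 l.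
 `rc_doc0_pre`  the trivial document for `q = 0`                                                    EST 80 l.
-/

set_option autoImplicit false

namespace Claimed.Agent.R256

open MeasureTheory
open scoped BigOperators
open Classical

/-- **ATOM**.
PLAN.   `B := q m + ⌈es q m⌉₊ + 3`.   `F` := `rc_fm_tend` for `X = psi B` (`rc_psi_meas`): `ft ≤ 2 fm {psi ∈ F}`.   `C := W.doc B F`, `a = (J, π)`, `ω_π` = the chosen particle of the fibre (fibres of `π ∈ F` without particles have mass `0`: drop them or note `ms = fm ∅ = 0`).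
 DICT  `C.dp i = W.dp i`, `C.dp q = kf` (`rc_tw_dp_q`), `C.anc i a = W.aI i J`, `C.pt i a = p.co (tmL ..) ω_π`;   for EVERY particle `ω` of the fibre `π`, `J ∈ Iv`, `i ≤ q`:
       `C.nm i a = W.nmP i (aI i J) ω` (both `= π.2 ⟨(i, aI i J), _⟩`; `aI i J ∈ iv i`),   `C.an w a = W.anP w ω` for `w m ≤ B` (nested cells: `⌊x/(R 2^-wm)⌋ = ⌊⌊x/(R 2^-B)⌋ / 2^(B - wm)⌋`),
       `|C.Zv a - W.ZP ω|_∞ ≤ 2^-B` (same `R0`-cell, same fine cell), components of `Z` in `[0,1)`.
 MASS  `C.mass S = fm (J ↦ {ω | psi ω ∈ F ∧ S (J, psi ω)})` (`rc_fm_add` over `Iv × F`; labels live on `Iv`);   `C.tot = fm {psi ∈ F}`;   `ft ≤ 2 tot ≤ tl t · tot`;   `tot ≤ ft`.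
 FIELDS  `totLo`: `tl (-2t) Eb q ≤ tl (-t) ft / .. ≤ tot`;   `excF`, `timeF`, `slabF`: `rc_fm_mono` into the particle event, then `· ft ≤ · tl t · tot`;   `memF`: absolute bound;   `cntF`: a charged atom has a label `l`, `iv l = J`, and a particle of the fibre with `θ_l ≠ 0`;
         `timeF`: `Lst' I ω := if psi ω ∈ F then Lst I ⟨psi ω, _⟩ else ∅` (measurable: finite union of fibres);   `slabF`: `|n·(Z,|Z|²) - n·(Z',|Z'|²)| ≤ 6 · 2^-B ≤ tl (-(es S))` (`S < q`), so the representative in the slab of width `w` puts the particle in the slab of width `2w`. -/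
theorem rc_atom {η : ℝ} {p : RdClPar} (W : RcTw η p) {C A : ℕ} {τ : ℝ} (hW : W.Ok (W.q - 1) C A τ) (t N c0 : ℝ) (K : ℕ) (es ts : ℝ) (hK : 1 ≤ K)
    (ht : 0 < t) (hes : 0 < es) (h2 : 2 ≤ W.tl t) (hP : W.PreP t N c0 K es ts) :
    ∃ (B : ℕ) (F : Finset W.Ps), (W.doc B F).Pre (rndCl η).p0f (rndCl η).d0f (2 * t) (N - t) c0 K es (ts - t) :=
  rc_at_main W (rc_tw_valid W hW le_rfl) hW.n_lo hW.R0_pos t N c0 K es ts hK ht hes h2 hP

/-- `tl` is monotone -/
theorem rc_pre_mono_tl (C : RcDoc) {x y : ℝ} (h : x ≤ y) : C.tl x ≤ C.tl y := by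
  unfold RcDoc.tl
  exact Real.rpow_le_rpow_of_exponent_le (by norm_num) (mul_le_mul_of_nonneg_right h (Nat.cast_nonneg _))

theorem rc_pre_mono_tl_pos (C : RcDoc) (x : ℝ) : 0 < C.tl x := by
  unfold RcDoc.tl
  exact Real.rpow_pos_of_pos (by norm_num) _

/-- monotonicity in the tolerances.   PLAN: `tl` is monotone; `0 ≤ tot` (`ms_nn`); every right hand side increases. -/
theorem rc_pre_mono (C : RcDoc) {p d t N c0 : ℝ} {K : ℕ} {es ts t' N' ts' : ℝ} (h : C.Pre p d t N c0 K es ts) (ht : t ≤ t') (hN : N' ≤ N) (hts : ts' ≤ ts) :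
    C.Pre p d t' N' c0 K es ts' := by
  have htot : 0 ≤ C.tot := Finset.sum_nonneg fun a _ => h.ms_nn a
  have hEb : ∀ i, 0 < C.Eb d i := fun i => mul_pos h.e_pos (Real.rpow_pos_of_pos (by norm_num) _)
  have hKb : ∀ i, 0 < C.Kb p i := fun i => mul_pos h.ka_pos (Real.rpow_pos_of_pos (by norm_num) _)
  have hR : 0 < C.R0 ^ 4 := pow_pos h.R0_pos 4
  have m1 := rc_pre_mono_tl C ht
  have m2 : C.tl (-t') ≤ C.tl (-t) := rc_pre_mono_tl C (by linarith)
  have m3 : C.tl (-N) ≤ C.tl (-N') := rc_pre_mono_tl C (by linarith)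
  have m4 : C.tl (-ts) ≤ C.tl (-ts') := rc_pre_mono_tl C (by linarith)
  refine ⟨h.R0_pos, h.e_pos, h.ka_pos, h.ms_nn, h.sh_le, ?_, ?_, ?_, ?_, ?_, ?_⟩
  · exact (mul_le_mul_of_nonneg_right m2 (hEb _).le).trans h.totLo
  · intro i hi hiq V
    refine (h.excF i hi hiq V).trans (mul_le_mul_of_nonneg_right ?_ htot)
    have hx : 0 ≤ ((V.card : ℝ) * (C.Kb p i * C.R0 ^ 4) / C.Eb d i) ^ (2 / 3 : ℝ) :=
      Real.rpow_nonneg (div_nonneg (mul_nonneg (Nat.cast_nonneg _) (mul_pos (hKb i) hR).le) (hEb i).le) _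
    exact add_le_add (mul_le_mul_of_nonneg_right m1 hx) m3
  · exact h.cntF.trans (mul_le_mul_of_nonneg_right m1 (div_pos (hEb _) (mul_pos (hKb _) hR)).le)
  · intro w hw hwq x v
    refine (h.memF w hw hwq x v).trans ?_
    exact mul_le_mul_of_nonneg_right (mul_le_mul_of_nonneg_right m1 (mul_pos (hKb _) hR).le) (rc_pre_mono_tl_pos C _).le
  · intro i l hi hil hlq G Lst hL
    have h0 := h.timeF i l hi hil hlq G Lst hL
    rcases le_or_gt 0 G with hG | hG
    · refine h0.trans (mul_le_mul_of_nonneg_right ?_ htot)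
      have hx : 0 ≤ (G * C.Eb d i / C.Eb d l) ^ (2 / 3 : ℝ) :=
        Real.rpow_nonneg (div_nonneg (mul_nonneg hG (hEb i).le) (hEb l).le) _
      exact add_le_add (mul_le_mul_of_nonneg_right m1 hx) m3
    · have hemp : IsEmpty C.Pa := ⟨fun π => by
        have := hL 0 π
        have h2 : (0 : ℝ) ≤ ((Lst 0 π).card : ℝ) := Nat.cast_nonneg _
        linarith⟩
      have ht0 : C.tot = 0 := by
        unfold RcDoc.tot
        exact Finset.sum_eq_zero fun a _ => (hemp.false a.2).elim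
      rw [ht0, mul_zero] at h0 ⊢
      exact h0
  · intro i S hi hS hiS pn pc hpn
    exact (h.slabF i S hi hS hiS pn pc hpn).trans (mul_le_mul_of_nonneg_right m4 htot)

/-- the trivial document: one atom of mass one -/
noncomputable def rcDoc0 (m : ℕ) : RcDoc where
  q := 0
  m := m
  k0 := 0
  R0 := 1
  e := 1
  ka := 1
  Pa := Unit
  fin := inferInstance
  ray := fun _ => ⟨0, 0, 0⟩
  Iv := {0}
  ms := fun _ _ => 1
  Dn := fun _ => 0
  Gn := fun _ _ => 0

theorem rc_xatom_eqns_cite : True := by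
  have := @rcDoc0.eq_1
  trivial

/-- PLAN: `sh = logb 2 1 / m = 0`; `tot = 1`, `Eb d 0 = 1`, `Kb p 0 = 1`, `nval ≤ card At = 1 ≤ tl t`; all other fields are vacuous (`i < 0`). -/
theorem rc_doc0_pre (m : ℕ) (p d t N : ℝ) (K : ℕ) (es ts : ℝ) (ht : 0 < t) : (rcDoc0 m).Pre p d t N 0 K es ts := by
  have hq : (rcDoc0 m).q = 0 := rfl
  have hcard : Fintype.card (rcDoc0 m).At = 1 := by
    rw [Fintype.card_eq_one_iff]
    refine ⟨(⟨0, Finset.mem_singleton_self 0⟩, ()), ?_⟩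
    rintro ⟨⟨J, hJ⟩, u⟩
    have : J = 0 := Finset.mem_singleton.1 hJ
    subst this
    rfl
  have htot : (rcDoc0 m).tot = 1 := by
    unfold RcDoc.tot
    have : ∀ a : (rcDoc0 m).At, (rcDoc0 m).am a = 1 := fun _ => rfl
    simp only [this]
    rw [Finset.sum_const, Finset.card_univ, hcard]
    simp
  have hEb : (rcDoc0 m).Eb d 0 = 1 := by
    unfold RcDoc.Eb
    show (1 : ℝ) * (2 : ℝ) ^ (d * ((0 : ℕ) : ℝ) * _) = 1
    simp
  have hKb : (rcDoc0 m).Kb p 0 = 1 := by
    unfold RcDoc.Kb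
    show (1 : ℝ) * (2 : ℝ) ^ (-(p * ((0 : ℕ) : ℝ) * _)) = 1
    simp
  have hR : (rcDoc0 m).R0 = 1 := rfl
  have h1 : (1 : ℝ) ≤ (rcDoc0 m).tl t := by
    unfold RcDoc.tl
    exact Real.one_le_rpow (by norm_num) (mul_nonneg ht.le (Nat.cast_nonneg _))
  have h2 : (rcDoc0 m).tl (-t) ≤ 1 := by
    unfold RcDoc.tl
    exact Real.rpow_le_one_of_one_le_of_nonpos (by norm_num) (by
      have := mul_nonneg ht.le (Nat.cast_nonneg (rcDoc0 m).m : (0 : ℝ) ≤ _)
      linarith)
  refine ⟨by rw [hR]; norm_num, by show (0 : ℝ) < 1; norm_num, by show (0 : ℝ) < 1; norm_num, fun a => by show (0 : ℝ) ≤ 1; norm_num, ?_, ?_, ?_, ?_, ?_, ?_, ?_⟩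
  · unfold RcDoc.sh
    show Real.logb 2 ((1 : ℝ) / (1 * 1 ^ 4)) / _ ≤ 0
    simp
  · rw [hq, hEb, htot, mul_one]
    exact h2
  · intro i hi hiq
    rw [hq] at hiq
    exact absurd hiq (Nat.not_lt_zero _)
  · rw [hq, hEb, hKb, hR]
    have h3 : ((rcDoc0 m).nval ((rcDoc0 m).nm 0) : ℝ) ≤ 1 := by
      have : (rcDoc0 m).nval ((rcDoc0 m).nm 0) ≤ 1 := by
        unfold RcDoc.nval
        refine (@Finset.card_image_le _ _ _ _ (fun a b => Classical.propDecidable (a = b))).trans ((Finset.card_filter_le _ _).trans ?_)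
        rw [Finset.card_univ, hcard]
      exact_mod_cast this
    norm_num
    linarith
  · intro w hw hwq
    rw [hq] at hwq
    exact absurd hwq (Nat.not_lt_zero _)
  · intro i l hi hil hlq
    rw [hq] at hlq
    exact absurd hlq (Nat.not_lt_zero _)
  · intro i S hi hS hiS
    rw [hq] at hiS
    exact absurd hiS (Nat.not_lt_zero _)

end Claimed.Agent.R256
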