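import Claimed.Agent.R256.Base.RndGeo

/-!
# Row 256, folder Rc, file FdNm : the round test of a name (ONE definition, shared by `Rc/FdMem.lean` (helper74) and `Rc/FdGeo.lean` (helper123), which both declared it: name clash removed by helper44)
-/

set_option autoImplicit false

namespace Claimed.Agent.R256

/-- the round test (width `2 R`) that contains the cell `c` of the names `reNm l R` -/
noncomputable def rcNmT (l R : ℝ) (c : (ℤ × ℤ) × (ℤ × ℤ) × ℤ) : RdTst :=
  ⟨2 * R, 1, (R * c.1.1, R * c.1.2), (l * R * c.2.1.1, l * R * c.2.1.2),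
    l * R ^ 2 * c.2.2 + 2 * rtIp (R * c.1.1, R * c.1.2) (l * R * c.2.1.1, l * R * c.2.1.2), rtLin⟩

theorem rc_nmt_eqns_cite : True := by
  have := @rcNmT.eq_1
  trivial

end Claimed.Agent.R256
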