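-- KEEP
import Claimed.Agent.R256.Rc.FdNm
import Claimed.Agent.R256.Rc.FdKit

/-!
# Row 256, unit RC, block (I-cl), FIELDS, file 2: `MemP` = lem:rt-memory at particle level      (co-architect helper74; prefix `rc_fm_`)

08 l.752-775.   Fix a terminal name `x = (J, c)` and an angular cell `v` of width `ϱ0 = R0 2^(-w m)`.   `i = q - w`, `I` = the ancestor of `J` at the cut `i`.
 1. `fm U ≤ ms (U J) (fin J) ≤ ms (U J) (st i I)`      (`rc_fk_tm_le`, `rc_fk_fin_le`: `Σ θ_l ≤ 1`, masks only decrease)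
 2. the particles of `U J` have, at the time of `I`, `|A - a0| ≤ 2 ϱ0` and their ray lies at the time of `J` in the round box of the name (`rc_fm_box`, width `2 R0`)
 3. `rc_ang_cover` + `rc_cover_ms` (`Rc/Plane.lean`) + `rc_fk_reg`:  mass `≤ 2 β_i 2^17 R0⁴ 2^(-3 w m)`
 4. `β_i ≤ κ_i 2^(τ n)`.
EXIT `rc_fm_mem`.
-/

set_option autoImplicit false

namespace Claimed.Agent.R256

open MeasureTheory
open scoped BigOperators
open Classical

/-! ## 1. geometry of a name -/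

theorem rc_fm_cell {w x : ℝ} {z : ℤ} (hw : 0 < w) (h : reCell w x = z) : 0 ≤ x - w * z ∧ x - w * z < w := by
  unfold reCell at h
  rw [Int.floor_eq_iff] at h
  obtain ⟨h1, h2⟩ := h
  rw [le_div_iff₀ hw] at h1
  rw [div_lt_iff₀ hw] at h2
  constructor <;> nlinarith

theorem rc_fm_sq {w a b : ℝ} (hw : 0 < w) (ha : 0 ≤ a ∧ a < w) (hb : 0 ≤ b ∧ b < w) : rtSq ((2 * w)⁻¹ • ((a, b) : ℝ × ℝ)) ≤ 1 ^ 2 := by
  have h1 : (2 * w)⁻¹ * a ≤ 1 / 2 := by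
    rw [inv_mul_le_iff₀ (by positivity)]
    linarith [ha.2]
  have h2 : (2 * w)⁻¹ * b ≤ 1 / 2 := by
    rw [inv_mul_le_iff₀ (by positivity)]
    linarith [hb.2]
  have h3 : 0 ≤ (2 * w)⁻¹ * a := mul_nonneg (by positivity) ha.1
  have h4 : 0 ≤ (2 * w)⁻¹ * b := mul_nonneg (by positivity) hb.1
  simp only [rtSq, Prod.smul_fst, Prod.smul_snd, smul_eq_mul]
  nlinarith

theorem rc_fm_eqns_cite : True := by
  have := @rcNmT.eq_1
  trivial

/-- a row lies in the round box of its name -/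
theorem rc_fm_box (k : ℕ) {R : ℝ} (hR : 0 < R) (x : RtRow) (c : (ℤ × ℤ) × (ℤ × ℤ) × ℤ) (h : reNm (rdLen k) R x = c) :
    x ∈ ((rcNmT (rdLen k) R c).toT k).box 1 := by
  have hl := rdLen_pos k
  have hlR : 0 < rdLen k * R := by positivity
  have hlR2 : 0 < rdLen k * R ^ 2 := by positivity
  unfold reNm reCell2 at h
  have hA1 := rc_fm_cell hR (congrArg (fun c => c.1.1) h)
  have hA2 := rc_fm_cell hR (congrArg (fun c => c.1.2) h)
  have hb1 := rc_fm_cell hlR (congrArg (fun c => c.2.1.1) h)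
  have hb2 := rc_fm_cell hlR (congrArg (fun c => c.2.1.2) h)
  have hy := rc_fm_cell hlR2 (congrArg (fun c => c.2.2) h)
  have hcor : reCor2 R x.A = (R * c.1.1, R * c.1.2) := by
    unfold reCor2
    rw [show reCell R x.A.1 = c.1.1 from congrArg (fun c => c.1.1) h, show reCell R x.A.2 = c.1.2 from congrArg (fun c => c.1.2) h]
  rw [hcor] at hy
  refine ⟨?_, ?_, ?_⟩
  · have e : ((rcNmT (rdLen k) R c).toT k).x x = (2 * (rdLen k * R))⁻¹ • ((x.b.1 - rdLen k * R * c.2.1.1, x.b.2 - rdLen k * R * c.2.1.2) : ℝ × ℝ) := by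
      unfold RtTest.x RdTst.toT rcNmT
      simp only
      congr 1
      · congr 1
        ring
    rw [e]
    exact rc_fm_sq hlR hb1 hb2
  · have e : ((rcNmT (rdLen k) R c).toT k).z x
        = (x.y - 2 * rtIp (R * c.1.1, R * c.1.2) x.b - rdLen k * R ^ 2 * c.2.2) / (4 * (rdLen k * R ^ 2)) := by
      unfold RtTest.z RdTst.toT rcNmT
      simp only [rtIp, Prod.fst_sub, Prod.snd_sub]
      congr 1 <;> ring
    rw [e, abs_le]
    constructor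
    · have : 0 ≤ (x.y - 2 * rtIp (R * c.1.1, R * c.1.2) x.b - rdLen k * R ^ 2 * c.2.2) / (4 * (rdLen k * R ^ 2)) :=
        div_nonneg hy.1 (by positivity)
      linarith
    · rw [div_le_one (by positivity)]
      linarith [hy.2]
  · have e : ((rcNmT (rdLen k) R c).toT k).V x = (2 * R)⁻¹ • ((x.A.1 - R * c.1.1, x.A.2 - R * c.1.2) : ℝ × ℝ) := by
      unfold RtTest.V RdTst.toT rcNmT
      rfl
    rw [e]
    exact rc_fm_sq hR hA1 hA2

/-- a point lies within `2 w` of the corner of its cell -/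
theorem rc_fm_ang {w : ℝ} (hw : 0 < w) (a : ℝ × ℝ) (v : ℤ × ℤ) (h : reCell2 w a = v) : rtSq (a - (w * v.1, w * v.2)) ≤ (2 * w) ^ 2 := by
  unfold reCell2 at h
  have h1 := rc_fm_cell hw (congrArg Prod.fst h)
  have h2 := rc_fm_cell hw (congrArg Prod.snd h)
  simp only [rtSq, Prod.fst_sub, Prod.snd_sub]
  nlinarith [h1.1, h1.2, h2.1, h2.2]

theorem rc_fm_len_add (a b : ℕ) : rdLen (a + b) = rdLen a * rdLen b := by
  unfold rdLen
  exact pow_add _ _ _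

theorem rc_fm_len_rpow (a : ℕ) : rdLen a = (2 : ℝ) ^ (-(a : ℝ)) := by
  unfold rdLen
  rw [Real.rpow_neg (by norm_num), Real.rpow_natCast, inv_pow]

theorem rc_fm_len_le_one (a : ℕ) : rdLen a ≤ 1 := by
  unfold rdLen
  exact pow_le_one₀ (by norm_num) (by norm_num)

/-! ## 2. one terminal name and one angular cell -/

variable {η : ℝ} {p : RdClPar} {W : RcTw η p}

theorem rc_fm_iv_ne (W : RcTw η p) (i : ℕ) : (W.iv i).Nonempty := by
  rw [← Finset.card_pos]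
  unfold RcTw.iv
  rw [gn_ivs_card]
  positivity

/-- the thresholds are nonnegative -/
theorem rc_fm_be_nonneg {hg C A : ℕ} {τ : ℝ} (h : W.Ok hg C A τ) {i : ℕ} (h0 : 0 < i) (hi : i ≤ hg) : 0 ≤ W.be i := by
  obtain ⟨I, hI⟩ := rc_fm_iv_ne W i
  have hr := rc_fk_reg h h0 hi hI (⟨1, 1, 0, 0, 0, rtLin⟩ : RdTst) (rt_round_adm (rdLen_pos _) one_pos _ _ _)
  have h1 := gn_ms_nonneg (P := p.sys η) (tmL (W.dp i) I) (W.dp i) 0
    ((p.sys η).cell (⟨1, 1, 0, 0, 0, rtLin⟩ : RdTst) (tmL (W.dp i) I) (W.dp i)) (W.st i I)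
  have h2 : (p.sys η).wt (⟨1, 1, 0, 0, 0, rtLin⟩ : RdTst) = 1 := by
    show (1 : ℝ) ^ 4 * (1 : ℝ) ^ (1 - η) = 1
    simp
  rw [h2] at hr
  linarith

theorem rc_fm_one {C A : ℕ} {τ : ℝ} (h : W.Ok (W.q - 1) C A τ) (w : ℕ) (hw0 : 0 < w) (hw : w < W.q) (x : ReName) (v : ℤ × ℤ) :
    W.fm (fun J => {ω | W.nmP W.q J ω = x ∧ W.anP w ω = v}) ≤ 2 * W.be (W.q - w) * (2 ^ 17 * W.R0 ^ 4 * rdLen (w * W.m) ^ 3) := by
  have hR := h.R0_pos
  have hi0 : 0 < W.q - w := by omega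
  have hi : W.q - w ≤ W.q - 1 := by omega
  have hbe := rc_fm_be_nonneg h hi0 hi
  have hδ := rdLen_pos (w * W.m)
  have hX : W.X.Valid := rc_fk_valid h le_rfl
  have hU : ∀ J, MeasurableSet {ω | W.nmP W.q J ω = x ∧ W.anP w ω = v} := fun J =>
    ((rc_fk_meas_nm W W.q J) (measurableSet_singleton x)).inter ((rc_fk_meas_an W w) (measurableSet_singleton v))
  have h1 := rc_fk_tm_le W.X hX (fun J => {ω | W.nmP W.q J ω = x ∧ W.anP w ω = v}) hU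
  refine le_trans h1 ?_
  have hz : ∀ J, J ≠ x.1 → (p.sys η).ms (tmL W.X.kf J) W.X.kf W.X.bT {ω | W.nmP W.q J ω = x ∧ W.anP w ω = v} (W.X.fin J) = 0 := by
    intro J hJ
    have : {ω | W.nmP W.q J ω = x ∧ W.anP w ω = v} = ∅ := by
      ext ω
      simp only [Set.mem_ofPred_eq, Set.mem_empty_iff_false, iff_false, not_and]
      intro hx
      exact absurd (congrArg Prod.fst hx) hJ
    exact (congrArg (fun S : Set p.Om => (p.sys η).ms (tmL W.X.kf J) W.X.kf W.X.bT S (W.X.fin J)) this).trans (gn_ms_empty _ _ _ _)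
  by_cases hJ : x.1 ∈ ivs W.X.k0 W.X.i0 W.X.kf
  swap
  · rw [Finset.sum_eq_zero fun J hJ' => hz J (fun e => hJ (e ▸ hJ'))]
    positivity
  rw [Finset.sum_eq_single_of_mem x.1 hJ fun J _ hne => hz J hne]
  -- the ancestor
  have hdq : W.dp W.q = W.E.kf := rc_fk_dp_q h
  have hdle : W.dp (W.q - w) ≤ W.E.kf := rc_fk_dp_le h (Nat.sub_le _ _)
  have hkf : W.E.kf = W.dp (W.q - w) + w * W.m := by
    rw [← hdq]
    unfold RcTw.dp
    have : W.q * W.m = (W.q - w) * W.m + w * W.m := by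
      rw [← Nat.add_mul, Nat.sub_add_cancel hw.le]
    omega
  have hI : W.aI (W.q - w) x.1 ∈ W.iv (W.q - w) := by
    unfold RcTw.iv RcTw.aI
    rw [gn_mem_ivs, gn_anc_anc (rc_fk_dp_ge h _) hdle]
    exact (gn_mem_ivs _ _ _ _).1 hJ
  refine le_trans (rc_fk_fin_le h hi le_rfl (hU x.1) _ (tmL (W.dp (W.q - w)) (W.aI (W.q - w) x.1)) _ (W.dp (W.q - w)) _ 0 x.1) ?_
  have hcut := gn_cutle_anc hdle x.1
  obtain ⟨_, hc1, hc2⟩ := hcut
  have hϱ0 : 0 < W.R0 * rdLen (w * W.m) := by positivity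
  have hcov := rc_ang_cover η (W.dp (W.q - w)) W.E.kf hdle (rcNmT (rdLen W.E.kf) W.R0 x.2) (by show 0 < 2 * W.R0; positivity)
    (W.R0 * rdLen (w * W.m) * v.1, W.R0 * rdLen (w * W.m) * v.2) (2 * (W.R0 * rdLen (w * W.m)))
    (tmL W.E.kf x.1 - tmL (W.dp (W.q - w)) (ancI W.E.kf (W.dp (W.q - w)) x.1)) (by positivity)
    (by
      show 2 * W.R0 * rdLen W.E.kf ≤ _
      rw [hkf, rc_fm_len_add]
      exact le_of_eq (by ring))
    (by linarith) (by unfold rdLen; linarith)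
  have hms := rc_cover_ms η p (tmL (W.dp (W.q - w)) (W.aI (W.q - w) x.1)) (W.dp (W.q - w)) 0 (W.st (W.q - w) (W.aI (W.q - w) x.1))
    (2 * W.be (W.q - w)) _ (by positivity) (rc_fk_reg h hi0 hi hI) _ hcov {ω | W.nmP W.q x.1 ω = x ∧ W.anP w ω = v} (hU x.1)
    (by
      rintro ω ⟨hω1, hω2⟩
      refine ⟨rc_fm_ang hϱ0 (p.A ω) v hω2, ?_⟩
      have e : (p.co (tmL (W.dp (W.q - w)) (W.aI (W.q - w) x.1)) ω).flow
          (tmL W.E.kf x.1 - tmL (W.dp (W.q - w)) (ancI W.E.kf (W.dp (W.q - w)) x.1)) = p.co (tmL W.E.kf x.1) ω := by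
        rw [← rt_ta_cl_co]
        unfold RcTw.aI
        rw [add_sub_cancel]
      rw [e]
      refine rc_fm_box W.E.kf hR _ _ ?_
      have := congrArg Prod.snd hω1
      unfold RcTw.nmP at this
      rw [hdq] at this
      exact this)
  refine le_trans hms (mul_le_mul_of_nonneg_left ?_ (by positivity))
  show 2 ^ 12 * ((2 * (W.R0 * rdLen (w * W.m))) ^ 4 + 2 * W.R0 * (2 * (W.R0 * rdLen (w * W.m))) ^ 3) ≤ _
  have hδ1 := rc_fm_len_le_one (w * W.m)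
  have e1 : rdLen (w * W.m) ^ 4 ≤ rdLen (w * W.m) ^ 3 := by
    have : rdLen (w * W.m) ^ 4 = rdLen (w * W.m) ^ 3 * rdLen (w * W.m) := by ring
    rw [this]
    exact mul_le_of_le_one_right (by positivity) hδ1
  have hR4 : 0 < W.R0 ^ 4 := by positivity
  calc 2 ^ 12 * ((2 * (W.R0 * rdLen (w * W.m))) ^ 4 + 2 * W.R0 * (2 * (W.R0 * rdLen (w * W.m))) ^ 3)
      = 2 ^ 16 * W.R0 ^ 4 * (rdLen (w * W.m) ^ 4 + rdLen (w * W.m) ^ 3) := by ring
    _ ≤ 2 ^ 16 * W.R0 ^ 4 * (rdLen (w * W.m) ^ 3 + rdLen (w * W.m) ^ 3) := by gcongr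
    _ = _ := by ring

/-! ## 3. numerics, exit -/

/-- `N < m` if `q (N + 1) ≤ n` -/
theorem rc_fm_m_gt {hg C A : ℕ} {τ : ℝ} (h : W.Ok hg C A τ) (N : ℕ) (hN : W.q * (N + 1) ≤ W.E.n) : N < W.m := by
  have e3 : N + 1 < W.m + 1 := Nat.lt_of_mul_lt_mul_left (lt_of_le_of_lt hN h.n_hi)
  omega

/-- `n ≤ 2 q m` -/
theorem rc_fm_n_le {hg C A : ℕ} {τ : ℝ} (h : W.Ok hg C A τ) : (W.E.n : ℝ) ≤ 2 * W.q * W.m := by
  have h1 := h.n_hi
  have h2 := h.m_pos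
  have h3 : W.E.n ≤ 2 * W.q * W.m := by nlinarith
  exact_mod_cast h3

/-- `τ n ≤ t m / 2` for `τ = t / (4 (q + 1))` -/
theorem rc_fm_tau {hg C A : ℕ} {τ : ℝ} (h : W.Ok hg C A τ) {t : ℝ} (ht : 0 < t) : t / (4 * ((W.q : ℝ) + 1)) * W.E.n ≤ t * W.m / 2 := by
  have h1 := rc_fm_n_le h
  have hq : (0 : ℝ) ≤ W.q := Nat.cast_nonneg _
  have hm : (0 : ℝ) ≤ W.m := Nat.cast_nonneg _
  rw [div_mul_eq_mul_div, div_le_iff₀ (by positivity)]
  nlinarith [mul_nonneg ht.le hm]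

/-- the threshold against the benchmark -/
theorem rc_fm_be_le (h0 : 0 < η) (h1 : η < 1) (hΓ : 0 < (rndCl η).Gam) {hg C A : ℕ} {τ : ℝ} (h : W.Ok hg C A τ) {i : ℕ} (hi0 : 0 < i) (hi : i ≤ hg) :
    W.be i ≤ W.Kb i * 2 ^ (τ * W.E.n) := by
  have hp : 1 ≤ (rndCl η).p0f := gn_p0f_ge (rndCl η) 1 (rt_gen_cl η h0 h1) hΓ
  have hka : 0 < W.E.ka := (rc_fk_valid h (Nat.zero_le _)).ka_pos
  refine le_trans (h.be_hi i hi0 hi) ?_
  unfold RcTw.Kb
  rw [mul_assoc, ← gn_two_add]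
  refine mul_le_mul_of_nonneg_left (gn_two_mono ?_) hka.le
  rw [rc_fk_dp_sub h i]
  have : ((i * W.m : ℕ) : ℝ) ≤ ((W.E.n - W.q * W.m + i * W.m : ℕ) : ℝ) := by
    exact_mod_cast Nat.le_add_left _ _
  push_cast at this ⊢
  nlinarith

/-- **EXIT: lem:rt-memory at particle level** -/
theorem rc_fm_mem (η : ℝ) (h0 : 0 < η) (h1 : η < 1) (hΓ : 0 < (rndCl η).Gam) (q : ℕ) (t : ℝ) (ht : 0 < t) :
    ∃ τ : ℝ, 0 < τ ∧ ∀ C : ℕ, ∃ A0 n0 : ℕ, ∀ (A : ℕ) (p : RdClPar) (W : RcTw η p), A0 ≤ A → W.q = q → n0 ≤ W.E.n →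
      W.Ok (q - 1) C A τ → W.MemP t := by
  refine ⟨t / (4 * ((q : ℝ) + 1)), by positivity, fun C => ⟨0, q * (⌈36 / t⌉₊ + 1), fun A p W _ hq hn h => ?_⟩⟩
  subst hq
  intro w hw0 hw x v
  refine le_trans (rc_fm_one h w hw0 hw x v) ?_
  have hi0 : 0 < W.q - w := by omega
  have hi : W.q - w ≤ W.q - 1 := by omega
  have hR := h.R0_pos
  have hbe := rc_fm_be_le h0 h1 hΓ h hi0 hi
  have hτ := rc_fm_tau h ht
  have hm : 36 / t ≤ W.m := by
    have a1 := rc_fm_m_gt h _ hn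
    have a2 : (⌈36 / t⌉₊ : ℝ) ≤ W.m := by exact_mod_cast a1.le
    exact (Nat.le_ceil _).trans a2
  rw [div_le_iff₀ ht] at hm
  have e3 : rdLen (w * W.m) ^ 3 = W.tl (-(3 * (w : ℝ))) := by
    unfold RcTw.tl
    rw [rc_fm_len_rpow, ← Real.rpow_natCast, ← Real.rpow_mul (by norm_num)]
    congr 1
    push_cast
    ring
  rw [e3]
  have hKb : 0 < W.Kb (W.q - w) := by
    unfold RcTw.Kb
    exact mul_pos (rc_fk_valid h (Nat.zero_le _)).ka_pos (gn_two_pos _)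
  have htl : 0 < W.tl (-(3 * (w : ℝ))) := gn_two_pos _
  have key : 2 ^ 18 * W.be (W.q - w) ≤ W.tl t * W.Kb (W.q - w) := by
    have a1 : (2 : ℝ) ^ 18 * 2 ^ (t / (4 * ((W.q : ℝ) + 1)) * W.E.n) ≤ W.tl t := by
      unfold RcTw.tl
      rw [← Real.rpow_natCast, ← gn_two_add]
      refine gn_two_mono ?_
      push_cast
      linarith
    calc 2 ^ 18 * W.be (W.q - w) ≤ 2 ^ 18 * (W.Kb (W.q - w) * 2 ^ (t / (4 * ((W.q : ℝ) + 1)) * W.E.n)) := by gcongr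
      _ = (2 ^ 18 * 2 ^ (t / (4 * ((W.q : ℝ) + 1)) * W.E.n)) * W.Kb (W.q - w) := by ring
      _ ≤ _ := by gcongr
  calc 2 * W.be (W.q - w) * (2 ^ 17 * W.R0 ^ 4 * W.tl (-(3 * (w : ℝ)))) = (2 ^ 18 * W.be (W.q - w)) * (W.R0 ^ 4 * W.tl (-(3 * (w : ℝ)))) := by ring
    _ ≤ (W.tl t * W.Kb (W.q - w)) * (W.R0 ^ 4 * W.tl (-(3 * (w : ℝ)))) := by gcongr
    _ = _ := by ring

end Claimed.Agent.R256
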