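import Claimed.Agent.R256.Rc.Doc
import Claimed.Agent.R256.Re.ProfGeo
import Claimed.Agent.R256.Base.RndCl

/-!
# Row 256, unit RC, block SLB-cl (classical lem:rt-slab-removal, 08 l.866-885), file 1: GEOMETRY AND NAMES      (architect helper159; prefix `rc_sl_`)

Model half (free step with label weights carried by disjoint classes, `gn_comp_on`, Hoelder): `Rc/Slm*.lean` (helper285).
* G1 `rc_sl_cap`     dichotomy of a plane slab in velocity space: small discriminant ⟹ all slab velocities of the unit cell lie in a ball of radius `32 / P`.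
* G2 `rc_sl_list`    the rays whose point at the terminal time lies in a label of width `≤ Λ R0` have at most `2^27 Λ^6` names at the ancestor time of any coarser depth.
* G3 `rc_sl_meas`    the classes (fibres of the names) are measurable sets of particles.
-/

set_option autoImplicit false

namespace Claimed.Agent.R256

open MeasureTheory
open scoped BigOperators

/-! ## G1. the dichotomy -/

/-- completing the square -/
theorem rc_sl_square (al Z : ℝ × ℝ) (be d0 : ℝ) :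
    be * (d0 + rtIp al Z + be * rtSq Z) = rtSq (be • Z + (1 / 2 : ℝ) • al) - (rtSq al - 4 * be * d0) / 4 := by
  simp only [rtSq, rtIp, Prod.fst_add, Prod.snd_add, Prod.smul_fst, Prod.smul_snd, smul_eq_mul]
  ring

/-- a slab which meets the unit cell and has a small discriminant has `|β| > 1/32` -/
theorem rc_sl_be {al Z : ℝ × ℝ} {be d0 w : ℝ} (hu : rtSq al + be ^ 2 = 1) (hw : w ≤ 1 / 16)
    (hD : rtSq al - 4 * be * d0 < 1 / 4) (hZ : rtSq Z ≤ 2) (hs : |d0 + rtIp al Z + be * rtSq Z| ≤ w) : 1 / 32 < |be| := by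
  by_contra hb
  push Not at hb
  have hal : rtSq al ≤ 1 ^ 2 := by nlinarith [sq_nonneg be]
  have hZ2 : rtSq Z ≤ (3 / 2 : ℝ) ^ 2 := by linarith
  have h1 := rtIp_abs_le (by norm_num) (by norm_num) hal hZ2
  have hZ0 := rtSq_nonneg Z
  have h2 : |be * rtSq Z| ≤ 1 / 16 := by
    rw [abs_mul, abs_of_nonneg hZ0]
    nlinarith [abs_nonneg be]
  have h3 : |d0| ≤ 2 := by
    have e : d0 = (d0 + rtIp al Z + be * rtSq Z) - rtIp al Z - be * rtSq Z := by ring
    rw [e]
    calc |(d0 + rtIp al Z + be * rtSq Z) - rtIp al Z - be * rtSq Z|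
        ≤ |(d0 + rtIp al Z + be * rtSq Z) - rtIp al Z| + |be * rtSq Z| := abs_sub _ _
      _ ≤ |d0 + rtIp al Z + be * rtSq Z| + |rtIp al Z| + |be * rtSq Z| := by
          have := abs_sub (d0 + rtIp al Z + be * rtSq Z) (rtIp al Z)
          linarith
      _ ≤ 2 := by linarith
  have h4 : |be * d0| ≤ 1 / 16 := by
    rw [abs_mul]
    nlinarith [abs_nonneg be, abs_nonneg d0]
  have h5 : be ^ 2 ≤ 1 / 1024 := by
    have : be ^ 2 = |be| ^ 2 := (sq_abs be).symm
    rw [this]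
    nlinarith [abs_nonneg be]
  have h6 := (abs_le.1 h4).2
  nlinarith

/-- **G1**: small discriminant ⟹ tiny cap.   `Zc = -α / (2β)`. -/
theorem rc_sl_cap {al Z : ℝ × ℝ} {be d0 w P : ℝ} (hu : rtSq al + be ^ 2 = 1) (hP : 2 ≤ P) (hw : w ≤ (1 / P) ^ 2 / 4)
    (hD : rtSq al - 4 * be * d0 < (1 / P) ^ 2) (hZ : rtSq Z ≤ 2) (hs : |d0 + rtIp al Z + be * rtSq Z| ≤ w) :
    rtSq (Z - (-(2 * be)⁻¹) • al) ≤ (32 / P) ^ 2 := by
  have hP0 : 0 < P := by linarith
  have hP2 : (1 / P) ^ 2 ≤ 1 / 4 := by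
    have h1 : 1 / P ≤ 1 / 2 := one_div_le_one_div_of_le (by norm_num) hP
    have h0 : 0 ≤ 1 / P := by positivity
    nlinarith
  have hb := rc_sl_be hu (by linarith) (by linarith) hZ hs
  have hb0 : be ≠ 0 := by
    intro h
    rw [h, abs_zero] at hb
    linarith
  have hb1 : |be| ≤ 1 := by
    have : be ^ 2 ≤ 1 := by nlinarith [rtSq_nonneg al]
    exact abs_le_one_iff_mul_self_le_one.2 (by nlinarith)
  have hsq := rc_sl_square al Z be d0
  have h1 : |be * (d0 + rtIp al Z + be * rtSq Z)| ≤ w := by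
    rw [abs_mul]
    calc |be| * |d0 + rtIp al Z + be * rtSq Z| ≤ 1 * w := mul_le_mul hb1 hs (abs_nonneg _) (by norm_num)
      _ = w := one_mul _
  have h2 : rtSq (be • Z + (1 / 2 : ℝ) • al) ≤ (1 / P) ^ 2 / 2 := by
    have := (abs_le.1 h1).2
    linarith
  have e : Z - (-(2 * be)⁻¹) • al = be⁻¹ • (be • Z + (1 / 2 : ℝ) • al) := by
    ext <;> simp <;> field_simp
  rw [e, re_aux_sq_smul]
  have h3 : be⁻¹ ^ 2 ≤ 32 ^ 2 := by
    have h4 : |be⁻¹| ≤ 32 := by
      rw [abs_inv]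
      have := inv_anti₀ (by norm_num : (0 : ℝ) < 1 / 32) hb.le
      simpa using this
    calc be⁻¹ ^ 2 = |be⁻¹| ^ 2 := (sq_abs _).symm
      _ ≤ 32 ^ 2 := pow_le_pow_left₀ (abs_nonneg _) h4 2
  calc be⁻¹ ^ 2 * rtSq (be • Z + (1 / 2 : ℝ) • al) ≤ 32 ^ 2 * ((1 / P) ^ 2 / 2) :=
        mul_le_mul h3 h2 (rtSq_nonneg _) (by norm_num)
    _ ≤ (32 / P) ^ 2 := by
        have : (32 / P) ^ 2 = 32 ^ 2 * (1 / P) ^ 2 := by ring
        rw [this]
        nlinarith [sq_nonneg (1 / P)]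

/-! ## G2. the list lemma for rays -/

/-- **G2**: `x` = point of the ray at the terminal time `T_J`, `s = T_I - T_J`, `|s| ≤ ℓ_k`. -/
theorem rc_sl_list {Λ R0 : ℝ} (hΛ : 1 ≤ Λ) (hR : 0 < R0) {k kf : ℕ} (hk : k ≤ kf) (Q : RdTst) (hr0 : 0 < Q.r) (hr : Q.r ≤ Λ * R0)
    (s : ℝ) (hs : |s| ≤ rdLen k) :
    ∃ Lst : Finset ((ℤ × ℤ) × (ℤ × ℤ) × ℤ), ((Lst.card : ℝ) ≤ 2 ^ 27 * Λ ^ 6) ∧
      ∀ x : RtRow, x ∈ Q.rows kf → reNm (rdLen k) R0 (x.flow s) ∈ Lst := by
  have hΛ0 : 0 ≤ Λ := le_trans zero_le_one hΛ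
  obtain ⟨L, hL, hm⟩ := re_list (Λ := 4 * Λ) (l := rdLen k) (R := R0) (R1 := R0) (R2 := R0) (δ := R0) (n := 0)
    (by linarith) (rdLen_pos k) hR le_rfl le_rfl le_rfl (by simp)
  refine ⟨L (reGn (rdLen k) R0 R0 R0 ((⟨Q.As, Q.bs, Q.ys⟩ : RtRow).flow s)), ?_, fun x hx => ?_⟩
  · refine (hL _).trans (le_of_eq ?_)
    ring
  · have hbox : x ∈ (Q.toT kf).box 2 := by
      obtain ⟨⟨h1, h2, h3⟩, _⟩ := hx
      exact ⟨h1.trans (by norm_num), h2.trans (by norm_num), h3.trans (by norm_num)⟩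
    have h1 := re_g3_near hΛ (rdLen_pos kf) hR (Q.toT kf) rfl hr0 hr hbox
    have hlen : rdLen kf ≤ rdLen k := by
      unfold rdLen
      exact pow_le_pow_of_le_one (by norm_num) (by norm_num) hk
    have h2 := re_near_flow h1 (by positivity) (rdLen_pos kf).le hR.le hlen hs
    have e : 2 * (2 * Λ) = 4 * Λ := by ring
    rw [e] at h2
    have h3 := hm _ _ h2
    rwa [re_g3_Gn (rdLen k) R0 (x.flow s)] at h3

/-! ## G3. measurability -/

theorem rc_sl_cell_meas {Om : Type} [MeasurableSpace Om] (w : ℝ) {f : Om → ℝ} (hf : Measurable f) : Measurable fun ω => reCell w (f ω) := by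
  unfold reCell
  exact (hf.div_const w).floor

/-- the phase name of a particle at a fixed time is a measurable function -/
theorem rc_sl_meas (p : RdClPar) (l R T : ℝ) : Measurable fun ω => reNm l R (p.co T ω) := by
  have hA1 : Measurable fun ω => (p.A ω).1 := p.mA.fst
  have hA2 : Measurable fun ω => (p.A ω).2 := p.mA.snd
  have hB1 : Measurable fun ω => (p.B ω).1 := p.mB.fst
  have hB2 : Measurable fun ω => (p.B ω).2 := p.mB.snd
  have hb1 : Measurable fun ω => (p.co T ω).b.1 := by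
    show Measurable fun ω => (p.B ω).1 + T * (p.A ω).1
    exact hB1.add (hA1.const_mul T)
  have hb2 : Measurable fun ω => (p.co T ω).b.2 := by
    show Measurable fun ω => (p.B ω).2 + T * (p.A ω).2
    exact hB2.add (hA2.const_mul T)
  have hy : Measurable fun ω => (p.co T ω).y := by
    show Measurable fun ω => p.Y ω + T * ((p.A ω).1 ^ 2 + (p.A ω).2 ^ 2)
    exact p.mY.add (((hA1.pow_const 2).add (hA2.pow_const 2)).const_mul T)
  have c1 : Measurable fun ω => reCell R (p.A ω).1 := rc_sl_cell_meas R hA1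
  have c2 : Measurable fun ω => reCell R (p.A ω).2 := rc_sl_cell_meas R hA2
  have hc1 : Measurable fun ω => ((reCell R (p.A ω).1 : ℤ) : ℝ) := measurable_from_top.comp c1
  have hc2 : Measurable fun ω => ((reCell R (p.A ω).2 : ℤ) : ℝ) := measurable_from_top.comp c2
  unfold reNm reCell2
  refine Measurable.prodMk (c1.prodMk c2) (Measurable.prodMk ((rc_sl_cell_meas _ hb1).prodMk (rc_sl_cell_meas _ hb2)) ?_)
  refine rc_sl_cell_meas _ ?_
  show Measurable fun ω => (p.co T ω).y - 2 * ((R * (reCell R (p.A ω).1 : ℝ)) * (p.co T ω).b.1 + (R * (reCell R (p.A ω).2 : ℝ)) * (p.co T ω).b.2)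
  exact hy.sub ((((hc1.const_mul R).mul hb1).add ((hc2.const_mul R).mul hb2)).const_mul 2)

end Claimed.Agent.R256
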