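-- KEEP
import Claimed.Agent.R256.Rc.FdMem
import Claimed.Agent.R256.Rc.SlbGeo

/-!
# Row 256, unit RC, block (I-cl), FIELDS, file 3: `CntP` = the terminal weight count at particle level      (helper65; prefix `rc_fc_`)      SORRY-FREE

 1. `rc_fc_w_ge`    every terminal label has the weight `w_l = r⁴ f^(1-η) ≥ R0⁴ s^τ`      (`Ok.shape`)
 2. `rc_fc_L_le`    `L R0⁴ s^τ ≤ tw ≤ (e/κ) s^(-(p+d)-τ)`      (`Ok.tw`)
 3. `rc_fc_set`     the rows of a label (width `< 2 R0`, length `ℓ_q`) meet `≤ 2^33` names `reNm ℓ_q R0` (`rc_sl_list` of `Rc/SlbGeo.lean` with `Λ = 2`, `s = 0`);   `Vq` = union over the labels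
 4. numerics: `33 + (p+d) n + 2 τ n ≤ t m + (p+d) q m`   (`n < q (m+1)`, `p + d ≤ 4`, `τ = t / (8 (q+1))`, `m ≥ (66 + 8 q)/t`).
EXIT `rc_fc_cnt`.
-/

set_option autoImplicit false

namespace Claimed.Agent.R256

open MeasureTheory
open scoped BigOperators
open Classical

variable {η : ℝ} {p : RdClPar} {W : RcTw η p}

theorem rc_fc_flow_zero (x : RtRow) : x.flow 0 = x := by
  cases x
  simp [RtRow.flow]

/-- the weight of a terminal label from below -/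
theorem rc_fc_w_ge (h0 : 0 < η) (h1 : η < 1) {hg C A : ℕ} {τ : ℝ} (hτ : 0 ≤ τ) (h : W.Ok hg C A τ) (l : Fin W.E.L) :
    W.R0 ^ 4 * W.E.s ^ τ ≤ W.E.w l := by
  obtain ⟨a1, -, a3⟩ := h.shape l
  have hs := gn_s_pos W.E
  have hsτ : 0 < W.E.s ^ τ := Real.rpow_pos_of_pos hs _
  show _ ≤ (rcT (W.E.ts l)).r ^ 4 * (rcT (W.E.ts l)).f ^ (1 - η)
  have b1 : W.R0 ^ 4 ≤ (rcT (W.E.ts l)).r ^ 4 := pow_le_pow_left₀ h.R0_pos.le a1 4
  have b2 : W.E.s ^ τ ≤ (rcT (W.E.ts l)).f ^ (1 - η) := by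
    calc W.E.s ^ τ ≤ W.E.s ^ (τ * (1 - η)) := gn_s_anti W.E (by nlinarith)
      _ = (W.E.s ^ τ) ^ (1 - η) := Real.rpow_mul hs.le _ _
      _ ≤ _ := Real.rpow_le_rpow hsτ.le a3 (by linarith)
  have hr : 0 ≤ (rcT (W.E.ts l)).r := h.R0_pos.le.trans a1
  exact mul_le_mul b1 b2 hsτ.le (by positivity)

/-- the number of terminal labels -/
theorem rc_fc_L_le (h0 : 0 < η) (h1 : η < 1) {hg C A : ℕ} {τ : ℝ} (hτ : 0 ≤ τ) (h : W.Ok hg C A τ) :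
    (W.E.L : ℝ) * (W.R0 ^ 4 * W.E.s ^ τ) ≤ W.E.e / W.E.ka * W.E.s ^ (-((rndCl η).p0f + (rndCl η).d0f) - τ) := by
  refine le_trans ?_ h.tw
  unfold Xp.tw
  calc (W.E.L : ℝ) * (W.R0 ^ 4 * W.E.s ^ τ) = ∑ _l : Fin W.E.L, W.R0 ^ 4 * W.E.s ^ τ := by simp
    _ ≤ ∑ l, W.E.w l := Finset.sum_le_sum fun l _ => rc_fc_w_ge h0 h1 hτ h l

/-- the names met by the terminal labels -/
theorem rc_fc_set {hg C A : ℕ} {τ : ℝ} (h : W.Ok hg C A τ) :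
    ∃ Vq : Finset ReName, (Vq.card : ℝ) ≤ W.E.L * 2 ^ 33 ∧ ∀ l ω, W.E.th l ω ≠ 0 → W.nmP W.q (W.E.iv l) ω ∈ Vq := by
  have hV : (W.Ex 0).Valid := rc_fk_valid h (Nat.zero_le _)
  have key : ∀ l : Fin W.E.L, ∃ Lst : Finset ((ℤ × ℤ) × (ℤ × ℤ) × ℤ), ((Lst.card : ℝ) ≤ 2 ^ 27 * 2 ^ 6) ∧
      ∀ x : RtRow, x ∈ (rcT (W.E.ts l)).rows W.E.kf → reNm (rdLen W.E.kf) W.R0 (x.flow 0) ∈ Lst := fun l =>
    rc_sl_list (Λ := 2) (by norm_num) h.R0_pos le_rfl (rcT (W.E.ts l)) (lt_of_lt_of_le h.R0_pos (h.shape l).1) (h.shape l).2.1.le 0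
      (by rw [abs_zero]; exact (rdLen_pos _).le)
  choose Lst hc hm using key
  refine ⟨Finset.univ.biUnion fun l => (Lst l).image fun c => (W.E.iv l, c), ?_, fun l ω hω => ?_⟩
  · have h1 : ((Finset.univ.biUnion fun l => (Lst l).image fun c => ((W.E.iv l, c) : ReName)).card : ℝ)
        ≤ ∑ l : Fin W.E.L, (((Lst l).image fun c => ((W.E.iv l, c) : ReName)).card : ℝ) := by
      exact_mod_cast Finset.card_biUnion_le
    refine h1.trans ?_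
    calc ∑ l : Fin W.E.L, (((Lst l).image fun c => ((W.E.iv l, c) : ReName)).card : ℝ) ≤ ∑ _l : Fin W.E.L, (2 : ℝ) ^ 33 := by
          refine Finset.sum_le_sum fun l _ => ?_
          have h2 : (((Lst l).image fun c => ((W.E.iv l, c) : ReName)).card : ℝ) ≤ ((Lst l).card : ℝ) := by
            exact_mod_cast Finset.card_image_le
          exact h2.trans ((hc l).trans (le_of_eq (by norm_num)))
      _ = W.E.L * 2 ^ 33 := by simp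
  · have hx : p.co (tmL W.E.kf (W.E.iv l)) ω ∈ (rcT (W.E.ts l)).rows W.E.kf := hV.th_supp l ω hω
    refine Finset.mem_biUnion.2 ⟨l, Finset.mem_univ _, Finset.mem_image.2 ⟨_, hm l _ hx, ?_⟩⟩
    rw [rc_fc_flow_zero]
    unfold RcTw.nmP
    rw [rc_fk_dp_q h]

/-- **EXIT: the terminal weight count at particle level** -/
theorem rc_fc_cnt (η : ℝ) (h0 : 0 < η) (h1 : η < 1) (hΓ : 0 < (rndCl η).Gam) (q : ℕ) (t : ℝ) (ht : 0 < t) :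
    ∃ τ : ℝ, 0 < τ ∧ ∀ C : ℕ, ∃ A0 n0 : ℕ, ∀ (A : ℕ) (p : RdClPar) (W : RcTw η p), A0 ≤ A → W.q = q → n0 ≤ W.E.n →
      W.Ok (q - 1) C A τ → W.CntP t := by
  refine ⟨t / (8 * ((q : ℝ) + 1)), by positivity, fun C => ⟨0, q * (⌈(66 + 8 * (q : ℝ)) / t⌉₊ + 1), fun A p W _ hq hn h => ?_⟩⟩
  subst hq
  obtain ⟨Vq, hcard, hmem⟩ := rc_fc_set h
  refine ⟨Vq, le_trans hcard ?_, hmem⟩
  have hG := rt_gen_cl η h0 h1
  have hp1 : 1 ≤ (rndCl η).p0f := gn_p0f_ge (rndCl η) 1 hG hΓ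
  have hp3 : (rndCl η).p0f ≤ 3 - 2 * (rndCl η).Gam := gn_p0f_le (rndCl η) 1 hG hΓ
  obtain ⟨hd0, hd1⟩ := gn_d0f_le (rndCl η) 1 hG hΓ
  have hL := rc_fc_L_le h0 h1 (by positivity) h
  have hV := rc_fk_valid h (Nat.zero_le _)
  have he : 0 < W.E.e := hV.e_pos
  have hka : 0 < W.E.ka := hV.ka_pos
  have hR4 : 0 < W.R0 ^ 4 := pow_pos h.R0_pos 4
  have hR0 : W.R0 ≠ 0 := h.R0_pos.ne'
  have hτ := rc_fm_tau h ht
  have hm : (66 + 8 * (W.q : ℝ)) / t ≤ W.m := by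
    have a1 := rc_fm_m_gt h _ hn
    have a2 : (⌈(66 + 8 * (W.q : ℝ)) / t⌉₊ : ℝ) ≤ W.m := by exact_mod_cast a1.le
    exact (Nat.le_ceil _).trans a2
  rw [div_le_iff₀ ht] at hm
  have hn' : (W.E.n : ℝ) ≤ W.q * W.m + W.q := by
    have := h.n_hi
    have h2 : W.E.n ≤ W.q * W.m + W.q := by nlinarith
    exact_mod_cast h2
  obtain ⟨τ, hτd⟩ : ∃ τ : ℝ, τ = t / (8 * ((W.q : ℝ) + 1)) := ⟨_, rfl⟩
  rw [← hτd] at hL
  have hτ2 : 2 * τ * W.E.n ≤ t * W.m / 2 := by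
    refine le_trans (le_of_eq ?_) hτ
    rw [hτd]
    field_simp
    ring
  rw [gn_s_rpow, gn_s_rpow, gn_two_neg] at hL
  obtain ⟨u, hu, hu0⟩ : ∃ u : ℝ, u = 2 ^ (τ * W.E.n) ∧ 0 < u := ⟨_, rfl, gn_two_pos _⟩
  obtain ⟨v, hv, hv0⟩ : ∃ v : ℝ, v = 2 ^ (-((-((rndCl η).p0f + (rndCl η).d0f) - τ) * W.E.n)) ∧ 0 < v := ⟨_, rfl, gn_two_pos _⟩
  rw [← hu, ← hv] at hL
  have k1 : (W.E.L : ℝ) ≤ W.E.e / W.E.ka / W.R0 ^ 4 * (v * u) := by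
    have e1 : (W.E.L : ℝ) = (W.E.L : ℝ) * (W.R0 ^ 4 * u⁻¹) * (u / W.R0 ^ 4) := by
      field_simp
    rw [e1]
    refine le_trans (mul_le_mul_of_nonneg_right hL (by positivity)) (le_of_eq ?_)
    field_simp
  have k2 : v * u * 2 ^ 33 ≤ 2 ^ (t * W.m) * 2 ^ ((rndCl η).d0f * W.q * W.m) * 2 ^ ((rndCl η).p0f * W.q * W.m) := by
    rw [hu, hv, ← Real.rpow_natCast 2 33, ← gn_two_add, ← gn_two_add, ← gn_two_add, ← gn_two_add]
    refine gn_two_mono ?_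
    have hq0 : (0 : ℝ) ≤ W.q := Nat.cast_nonneg _
    have hx : ((rndCl η).p0f + (rndCl η).d0f) * W.E.n ≤ ((rndCl η).p0f + (rndCl η).d0f) * (W.q * W.m) + 4 * W.q := by
      have a1 : ((rndCl η).p0f + (rndCl η).d0f) * W.E.n ≤ ((rndCl η).p0f + (rndCl η).d0f) * (W.q * W.m + W.q) :=
        mul_le_mul_of_nonneg_left hn' (by linarith)
      have a2 : ((rndCl η).p0f + (rndCl η).d0f) * W.q ≤ 4 * W.q := mul_le_mul_of_nonneg_right (by linarith) hq0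
      linarith
    push_cast
    nlinarith
  unfold RcTw.tl RcTw.Eb RcTw.Kb
  rw [gn_two_neg]
  calc (W.E.L : ℝ) * 2 ^ 33 ≤ W.E.e / W.E.ka / W.R0 ^ 4 * (v * u) * 2 ^ 33 := by gcongr
    _ = W.E.e / W.E.ka / W.R0 ^ 4 * (v * u * 2 ^ 33) := by ring
    _ ≤ W.E.e / W.E.ka / W.R0 ^ 4 * (2 ^ (t * W.m) * 2 ^ ((rndCl η).d0f * W.q * W.m) * 2 ^ ((rndCl η).p0f * W.q * W.m)) := by gcongr
    _ = _ := by
      have := gn_two_pos ((rndCl η).p0f * W.q * W.m)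
      field_simp

end Claimed.Agent.R256
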