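-- KEEP
import Claimed.Agent.R256.Rc.FdMem
import Claimed.Agent.R256.Rc.TowB

/-!
# Row 256, unit RC, block (I-cl), FIELDS, file 4: `ExcP` = (excess) at particle level      (helper212; prefix `rc_fe_`)

 1. `rc_fe_cell`    the particles of ONE name at the cut `i` carry `≤ 2 β_i (2 R0)⁴` of the state behind the stage `i`      (`rc_fm_box`, `rt_round_set`, `rc_fk_reg`)
 2. `rc_fe_em`      `em i {nmP ∈ V} ≤ card V · 2 β_i · 16 R0⁴`                                                          (fibres over the intervals)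
 3. `rc_fe_all`     … `≤ tl t · card V · Kb i R0⁴`  for all towers of small tolerance
 4. `rc_fe_num`     arithmetic: RAR + TOT + 3 ⟹ `ExcP`
EXIT: `rc_fe_exc` (consumed by `rc_p_exc`, `Rc/XFld.lean`).
-/

set_option autoImplicit false

namespace Claimed.Agent.R256

open MeasureTheory
open scoped BigOperators
open Classical

/-- finite subadditivity over a `Finset` -/
theorem rc_fe_ms_fin {P : PkSys} (T : ℝ) (k b : ℕ) {ι : Type} (F : Finset ι) (R : ι → Set P.X) (hR : ∀ a, MeasurableSet (R a)) (v : P.Kc) :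
    P.ms T k b (⋃ a ∈ F, R a) v ≤ ∑ a ∈ F, P.ms T k b (R a) v := by
  have := gn_mu_finite (P := P) T k b v
  rw [gn_ms_eq_mu T k b (Finset.measurableSet_biUnion F fun a _ => hR a)]
  simp_rw [gn_ms_eq_mu T k b (hR _)]
  exact measureReal_biUnion_finset_le F R

variable {η : ℝ} {p : RdClPar} {W : RcTw η p}

/-- the particles of one name -/
theorem rc_fe_cell {hg C A : ℕ} {τ : ℝ} (h : W.Ok hg C A τ) {i : ℕ} (h0 : 0 < i) (hi : i ≤ hg) {I : ℕ} (hI : I ∈ W.iv i) (x : ReName) :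
    (p.sys η).ms (tmL (W.dp i) I) (W.dp i) 0 {ω | W.nmP i I ω = x} (W.st i I) ≤ 2 * W.be i * (16 * W.R0 ^ 4) := by
  have hR := h.R0_pos
  have hT := rt_tight_cl η p
  have hreg := rc_fk_reg h h0 hi hI (rcNmT (rdLen (W.dp i)) W.R0 x.2) (rt_round_adm (rdLen_pos _) (show (0 : ℝ) < 2 * W.R0 by positivity) _ _ _)
  have hwt : (p.sys η).wt (rcNmT (rdLen (W.dp i)) W.R0 x.2) = 16 * W.R0 ^ 4 := by
    show (2 * W.R0) ^ 4 * (1 : ℝ) ^ (1 - η) = _
    rw [Real.one_rpow]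
    ring
  rw [hwt] at hreg
  refine le_trans (gn_ms_mono _ _ _ ((rc_fk_meas_nm W i I) (measurableSet_singleton x)) (hT.cellM _ _ _) ?_ _) hreg
  intro ω hω
  show p.co (tmL (W.dp i) I) ω ∈ ((rcNmT (rdLen (W.dp i)) W.R0 x.2).toT (W.dp i)).set 1
  have hb := rc_fm_box (W.dp i) hR (p.co (tmL (W.dp i) I) ω) x.2 (congrArg Prod.snd hω)
  have e := rt_round_set (rdLen (W.dp i)) (2 * W.R0) (rcNmT (rdLen (W.dp i)) W.R0 x.2).As (rcNmT (rdLen (W.dp i)) W.R0 x.2).bs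
    (rcNmT (rdLen (W.dp i)) W.R0 x.2).ys (M := 1) zero_le_one
  exact e.symm ▸ hb

/-- the selected energy of a finite set of names -/
theorem rc_fe_em {hg C A : ℕ} {τ : ℝ} (h : W.Ok hg C A τ) {i : ℕ} (h0 : 0 < i) (hi : i ≤ hg) (V : Finset ReName) :
    W.em i (fun I => {ω | W.nmP i I ω ∈ V}) ≤ (V.card : ℝ) * (2 * W.be i * (16 * W.R0 ^ 4)) := by
  have hbe := rc_fm_be_nonneg h h0 hi
  have hR := h.R0_pos
  have hc : 0 ≤ 2 * W.be i * (16 * W.R0 ^ 4) := by positivity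
  have h1 : ∀ I ∈ W.iv i, (p.sys η).ms (tmL (W.dp i) I) (W.dp i) 0 {ω | W.nmP i I ω ∈ V} (W.st i I)
      ≤ ((V.filter fun x => x.1 = I).card : ℝ) * (2 * W.be i * (16 * W.R0 ^ 4)) := by
    intro I hI
    have hm : ∀ x : ReName, MeasurableSet {ω | W.nmP i I ω = x} := fun x => (rc_fk_meas_nm W i I) (measurableSet_singleton x)
    have hsub : {ω | W.nmP i I ω ∈ V} ⊆ ⋃ x ∈ V.filter (fun x => x.1 = I), {ω | W.nmP i I ω = x} := by
      intro ω hω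
      simp only [Set.mem_iUnion, Finset.mem_filter]
      exact ⟨W.nmP i I ω, ⟨hω, rfl⟩, rfl⟩
    refine le_trans (gn_ms_mono _ _ _ (rc_nmP_meas W i I (V : Set ReName)) (Finset.measurableSet_biUnion _ fun x _ => hm x) hsub _) ?_
    refine le_trans (rc_fe_ms_fin _ _ _ _ _ hm _) ?_
    refine le_trans (Finset.sum_le_card_nsmul _ _ _ fun x _ => rc_fe_cell h h0 hi hI x) ?_
    rw [nsmul_eq_mul]
  unfold RcTw.em
  refine le_trans (Finset.sum_le_sum h1) ?_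
  rw [← Finset.sum_mul]
  refine mul_le_mul_of_nonneg_right ?_ hc
  have h2 : ∑ I ∈ W.iv i, (V.filter fun x => x.1 = I).card ≤ V.card := by
    rw [← Finset.card_biUnion]
    · refine Finset.card_le_card ?_
      intro x hx
      obtain ⟨I, -, hx⟩ := Finset.mem_biUnion.1 hx
      exact (Finset.mem_filter.1 hx).1
    · intro I _ I' _ hne
      rw [Function.onFun, Finset.disjoint_left]
      intro x hx hx'
      exact hne ((Finset.mem_filter.1 hx).2.symm.trans (Finset.mem_filter.1 hx').2)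
  exact_mod_cast h2

/-- … against the benchmarks, for all towers of small tolerance -/
theorem rc_fe_all (η : ℝ) (h0 : 0 < η) (h1 : η < 1) (hΓ : 0 < (rndCl η).Gam) (q : ℕ) (t : ℝ) (ht : 0 < t) :
    RcAll η q fun _ W => ∀ i, 0 < i → i < W.q → ∀ V : Finset ReName,
      W.em i (fun I => {ω | W.nmP i I ω ∈ V}) ≤ W.tl t * ((V.card : ℝ) * (W.Kb i * W.R0 ^ 4)) := by
  refine ⟨t / (4 * ((q : ℝ) + 1)), by positivity, fun C => ⟨0, q * (⌈10 / t⌉₊ + 1), fun A p W _ hq hn h => ?_⟩⟩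
  subst hq
  intro i hi0 hiq V
  have hi : i ≤ W.q - 1 := by omega
  refine le_trans (rc_fe_em h hi0 hi V) ?_
  have hR := h.R0_pos
  have hbe := rc_fm_be_le h0 h1 hΓ h hi0 hi
  have hτ := rc_fm_tau h ht
  have hm : 10 / t ≤ W.m := by
    have a1 := rc_fm_m_gt h _ hn
    have a2 : (⌈10 / t⌉₊ : ℝ) ≤ W.m := by exact_mod_cast a1.le
    exact (Nat.le_ceil _).trans a2
  rw [div_le_iff₀ ht] at hm
  have hKb : 0 < W.Kb i := by
    unfold RcTw.Kb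
    exact mul_pos (rc_fk_valid h (Nat.zero_le _)).ka_pos (gn_two_pos _)
  have key : 2 ^ 5 * W.be i ≤ W.tl t * W.Kb i := by
    have a1 : (2 : ℝ) ^ 5 * 2 ^ (t / (4 * ((W.q : ℝ) + 1)) * W.E.n) ≤ W.tl t := by
      unfold RcTw.tl
      rw [← Real.rpow_natCast, ← gn_two_add]
      refine gn_two_mono ?_
      push_cast
      linarith
    calc 2 ^ 5 * W.be i ≤ 2 ^ 5 * (W.Kb i * 2 ^ (t / (4 * ((W.q : ℝ) + 1)) * W.E.n)) := by gcongr
      _ = (2 ^ 5 * 2 ^ (t / (4 * ((W.q : ℝ) + 1)) * W.E.n)) * W.Kb i := by ring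
      _ ≤ _ := by gcongr
  calc (V.card : ℝ) * (2 * W.be i * (16 * W.R0 ^ 4)) = (2 ^ 5 * W.be i) * ((V.card : ℝ) * W.R0 ^ 4) := by ring
    _ ≤ (W.tl t * W.Kb i) * ((V.card : ℝ) * W.R0 ^ 4) := by gcongr
    _ = _ := by ring

/-- arithmetic -/
theorem rc_fe_num {m t N F Eq Ei em X ft : ℝ} (hm : 0 ≤ m) (ht : 0 < t) (hEq : 0 ≤ Eq) (hEi : 0 < Ei) (hem : 0 ≤ em) (hX : 0 ≤ X)
    (hrar : F ≤ (2 : ℝ) ^ (t / 4 * m) * Eq * (em / Ei) ^ (2 / 3 : ℝ) + (2 : ℝ) ^ (-(N + t) * m) * Eq)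
    (htot : (2 : ℝ) ^ (-(t / 4) * m) * Eq ≤ ft) (hemX : em ≤ (2 : ℝ) ^ (t / 4 * m) * X) :
    F ≤ ((2 : ℝ) ^ (t * m) * (X / Ei) ^ (2 / 3 : ℝ) + (2 : ℝ) ^ (-N * m)) * ft := by
  have hEq' : Eq ≤ (2 : ℝ) ^ (t / 4 * m) * ft := by
    have e : (2 : ℝ) ^ (t / 4 * m) * ((2 : ℝ) ^ (-(t / 4) * m) * Eq) = Eq := by
      rw [← mul_assoc, ← gn_two_add]
      have : t / 4 * m + -(t / 4) * m = 0 := by ring
      rw [this, Real.rpow_zero, one_mul]
    calc Eq = (2 : ℝ) ^ (t / 4 * m) * ((2 : ℝ) ^ (-(t / 4) * m) * Eq) := e.symm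
      _ ≤ _ := mul_le_mul_of_nonneg_left htot (gn_two_pos _).le
  have hft : 0 ≤ ft := le_trans (mul_nonneg (gn_two_pos _).le hEq) htot
  have h1 : (em / Ei) ^ (2 / 3 : ℝ) ≤ (2 : ℝ) ^ (t / 4 * m) * (X / Ei) ^ (2 / 3 : ℝ) := by
    have a1 : em / Ei ≤ (2 : ℝ) ^ (t / 4 * m) * (X / Ei) := by
      rw [← mul_div_assoc]
      exact div_le_div_of_nonneg_right hemX hEi.le
    have a2 : (em / Ei) ^ (2 / 3 : ℝ) ≤ ((2 : ℝ) ^ (t / 4 * m) * (X / Ei)) ^ (2 / 3 : ℝ) :=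
      Real.rpow_le_rpow (by positivity) a1 (by norm_num)
    rw [Real.mul_rpow (gn_two_pos _).le (by positivity), gn_two_mul] at a2
    refine a2.trans (mul_le_mul_of_nonneg_right (gn_two_mono ?_) (Real.rpow_nonneg (by positivity) _))
    have : 0 ≤ t / 4 * m := by positivity
    linarith
  have hXE : 0 ≤ (X / Ei) ^ (2 / 3 : ℝ) := Real.rpow_nonneg (by positivity) _
  have h2 : (2 : ℝ) ^ (t / 4 * m) * Eq * (em / Ei) ^ (2 / 3 : ℝ) ≤ (2 : ℝ) ^ (t * m) * (X / Ei) ^ (2 / 3 : ℝ) * ft := by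
    calc (2 : ℝ) ^ (t / 4 * m) * Eq * (em / Ei) ^ (2 / 3 : ℝ)
        ≤ (2 : ℝ) ^ (t / 4 * m) * ((2 : ℝ) ^ (t / 4 * m) * ft) * ((2 : ℝ) ^ (t / 4 * m) * (X / Ei) ^ (2 / 3 : ℝ)) := by
          have := gn_two_pos (t / 4 * m)
          gcongr
      _ = ((2 : ℝ) ^ (t / 4 * m) * (2 : ℝ) ^ (t / 4 * m) * (2 : ℝ) ^ (t / 4 * m)) * ((X / Ei) ^ (2 / 3 : ℝ) * ft) := by ring
      _ = (2 : ℝ) ^ (t / 4 * m + t / 4 * m + t / 4 * m) * ((X / Ei) ^ (2 / 3 : ℝ) * ft) := by rw [gn_two_add, gn_two_add]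
      _ ≤ (2 : ℝ) ^ (t * m) * ((X / Ei) ^ (2 / 3 : ℝ) * ft) := by
          refine mul_le_mul_of_nonneg_right (gn_two_mono ?_) (by positivity)
          have : 0 ≤ t * m := by positivity
          linarith
      _ = _ := by ring
  have h3 : (2 : ℝ) ^ (-(N + t) * m) * Eq ≤ (2 : ℝ) ^ (-N * m) * ft := by
    calc (2 : ℝ) ^ (-(N + t) * m) * Eq ≤ (2 : ℝ) ^ (-(N + t) * m) * ((2 : ℝ) ^ (t / 4 * m) * ft) := mul_le_mul_of_nonneg_left hEq' (gn_two_pos _).le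
      _ = (2 : ℝ) ^ (-(N + t) * m + t / 4 * m) * ft := by rw [gn_two_add]; ring
      _ ≤ _ := by
          refine mul_le_mul_of_nonneg_right (gn_two_mono ?_) hft
          have : 0 ≤ t * m := by positivity
          linarith
  calc F ≤ _ := hrar
    _ ≤ (2 : ℝ) ^ (t * m) * (X / Ei) ^ (2 / 3 : ℝ) * ft + (2 : ℝ) ^ (-N * m) * ft := add_le_add h2 h3
    _ = _ := by ring

/-- **EXIT**: one tower -/
theorem rc_fe_exc {C A : ℕ} {τ : ℝ} (h : W.Ok (W.q - 1) C A τ) {t N : ℝ} (ht : 0 < t)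
    (hrar : ∀ l, 0 < l → l < W.q → ∀ V : ℕ → Set p.Om, (∀ I, MeasurableSet (V I)) →
      W.fm (fun J => V (W.aI l J)) ≤ W.tl (t / 4) * W.Eb W.q * (W.em l V / W.Eb l) ^ (2 / 3 : ℝ) + W.tl (-(N + t)) * W.Eb W.q)
    (htot : W.tl (-(t / 4)) * W.Eb W.q ≤ W.ft)
    (hem : ∀ i, 0 < i → i < W.q → ∀ V : Finset ReName,
      W.em i (fun I => {ω | W.nmP i I ω ∈ V}) ≤ W.tl (t / 4) * ((V.card : ℝ) * (W.Kb i * W.R0 ^ 4))) : W.ExcP t N := by
  intro i hi0 hiq V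
  have he : 0 < W.E.e := (rc_fk_valid h (Nat.zero_le _)).e_pos
  have hEb : ∀ a, 0 < W.Eb a := fun a => mul_pos he (gn_two_pos _)
  have hKb : 0 < W.Kb i := mul_pos (rc_fk_valid h (Nat.zero_le _)).ka_pos (gn_two_pos _)
  have hR := h.R0_pos
  have hem0 : 0 ≤ W.em i (fun I => {ω | W.nmP i I ω ∈ V}) := Finset.sum_nonneg fun I _ => gn_ms_nonneg _ _ _ _ _
  exact rc_fe_num (Nat.cast_nonneg W.m) ht (hEb _).le (hEb i) hem0 (by positivity)
    (hrar i hi0 hiq (fun I => {ω | W.nmP i I ω ∈ V}) fun I => rc_nmP_meas W i I (V : Set ReName)) htot (hem i hi0 hiq V)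

end Claimed.Agent.R256
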