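-- KEEP
import Claimed.Agent.R256.Rc.FdMem
import Claimed.Agent.R256.Rc.TowB

/-!
# Row 256, unit RC, block (I-cl), FIELDS, file 3: `TimeP` = lem:rt-time at particle level      (co-architect helper74; prefix `rc_ft_`)

`V_I' := {ω | I' ∈ Lst (anc I') ω}`.   `em l V ≤ Σ_{I'} ms V_I' (st i (anc I'))` (masks decrease) `= Σ_I Σ_{I' below I} ms {I' ∈ Lst I ω} (st i I) ≤ G Σ_I ‖st i I‖² = G raw_i ≤ G Eb i 2^(q + τ n)`.
Then the rarity transfer (hypothesis `hrar` = `RcTw.Rar (t/4) (N + t)` of `Rc/XFld.lean`, unfolded) and the lower bound of the total final mass (`htot`).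
EXIT `rc_ft_time`.
-/

set_option autoImplicit false

namespace Claimed.Agent.R256

open MeasureTheory
open scoped BigOperators
open Classical

/-- counting: sets which cover every row at most `G` times -/
theorem rc_ft_count {P : PkSys} (T : ℝ) (k b : ℕ) (ψ : P.Kc) (F : Finset ℕ) (S : ℕ → Set P.X) (hS : ∀ I', MeasurableSet (S I')) (G : ℝ)
    (hG : ∀ x, ((F.filter fun I' => x ∈ S I').card : ℝ) ≤ G) : ∑ I' ∈ F, P.ms T k b (S I') ψ ≤ G * P.ms T k b Set.univ ψ := by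
  have hi : ∀ I' ∈ F, Integrable (fun x => (S I').indicator (fun _ => (1 : ℝ)) x * ‖(P.An T k b ψ : P.X → P.Fb) x‖ ^ 2) (P.rho k) :=
    fun I' _ => gn_en_integrable T k b (gn_mask_ind (hS I')) ψ
  have hu : Integrable (fun x => (Set.univ : Set P.X).indicator (fun _ => (1 : ℝ)) x * ‖(P.An T k b ψ : P.X → P.Fb) x‖ ^ 2) (P.rho k) :=
    gn_en_integrable T k b (gn_mask_ind MeasurableSet.univ) ψ
  unfold PkSys.ms PkSys.en
  rw [← integral_finsetSum F hi, ← integral_const_mul]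
  refine integral_mono (integrable_finsetSum F hi) (hu.const_mul G) fun x => ?_
  show ∑ I' ∈ F, (S I').indicator (fun _ => (1 : ℝ)) x * ‖(P.An T k b ψ : P.X → P.Fb) x‖ ^ 2
    ≤ G * ((Set.univ : Set P.X).indicator (fun _ => (1 : ℝ)) x * ‖(P.An T k b ψ : P.X → P.Fb) x‖ ^ 2)
  rw [← Finset.sum_mul, Set.indicator_univ, one_mul]
  refine mul_le_mul_of_nonneg_right ?_ (by positivity)
  refine le_trans (le_of_eq ?_) (hG x)
  rw [Finset.card_filter]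
  push_cast
  refine Finset.sum_congr rfl fun I' _ => ?_
  by_cases hx : x ∈ S I' <;> simp [hx]

variable {η : ℝ} {p : RdClPar} {W : RcTw η p}

theorem rc_ft_anc_mem {hg C A : ℕ} {τ : ℝ} (h : W.Ok hg C A τ) {i l : ℕ} (hil : i ≤ l) {I' : ℕ} (hI : I' ∈ W.iv l) :
    ancI (W.dp l) (W.dp i) I' ∈ W.iv i := by
  unfold RcTw.iv at hI ⊢
  rw [gn_mem_ivs] at hI ⊢
  rw [gn_anc_anc (rc_fk_dp_ge h i) (rc_fk_dp_mono W hil)]
  exact hI

/-- the selected energy at the cut `l` of the predicted intervals -/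
theorem rc_ft_em {hg C A : ℕ} {τ : ℝ} (h : W.Ok hg C A τ) {i l : ℕ} (hil : i ≤ l) (hl : l ≤ hg) (G : ℝ) (Lst : ℕ → p.Om → Finset ℕ)
    (hm : ∀ I I', MeasurableSet {ω | I' ∈ Lst I ω}) (hc : ∀ I ω, ((Lst I ω).card : ℝ) ≤ G) :
    W.em l (fun I' => {ω | I' ∈ Lst (ancI (W.dp l) (W.dp i) I') ω}) ≤ G * W.em i fun _ => Set.univ := by
  unfold RcTw.em
  have h1 : ∀ I' ∈ W.iv l, (p.sys η).ms (tmL (W.dp l) I') (W.dp l) 0 {ω | I' ∈ Lst (ancI (W.dp l) (W.dp i) I') ω} (W.st l I')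
      ≤ (p.sys η).ms (tmL (W.dp i) (ancI (W.dp l) (W.dp i) I')) (W.dp i) 0 {ω | I' ∈ Lst (ancI (W.dp l) (W.dp i) I') ω}
        (W.st i (ancI (W.dp l) (W.dp i) I')) := fun I' _ => rc_fk_st_le h hil hl (hm _ _) _ _ _ _ _ _ I'
  refine le_trans (Finset.sum_le_sum h1) ?_
  rw [← Finset.sum_fiberwise_of_maps_to (g := fun I' => ancI (W.dp l) (W.dp i) I') (t := W.iv i) fun I' hI => rc_ft_anc_mem h hil hI, Finset.mul_sum]
  refine Finset.sum_le_sum fun I _ => ?_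
  have h2 : ∑ I' ∈ (W.iv l).filter (fun I' => ancI (W.dp l) (W.dp i) I' = I),
      (p.sys η).ms (tmL (W.dp i) (ancI (W.dp l) (W.dp i) I')) (W.dp i) 0 {ω | I' ∈ Lst (ancI (W.dp l) (W.dp i) I') ω} (W.st i (ancI (W.dp l) (W.dp i) I'))
      = ∑ I' ∈ (W.iv l).filter (fun I' => ancI (W.dp l) (W.dp i) I' = I), (p.sys η).ms (tmL (W.dp i) I) (W.dp i) 0 {ω | I' ∈ Lst I ω} (W.st i I) := by
    refine Finset.sum_congr rfl fun I' hI' => ?_
    rw [(Finset.mem_filter.1 hI').2]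
  rw [h2]
  refine rc_ft_count (P := p.sys η) (tmL (W.dp i) I) (W.dp i) 0 (W.st i I) _ (fun I' => {ω | I' ∈ Lst I ω}) (fun I' => hm I I') G fun x => ?_
  refine le_trans ?_ (hc I x)
  have : (((W.iv l).filter (fun I' => ancI (W.dp l) (W.dp i) I' = I)).filter fun I' => x ∈ ({ω | I' ∈ Lst I ω} : Set p.Om)) ⊆ Lst I x := by
    intro I' hI'
    exact (Finset.mem_filter.1 hI').2
  exact_mod_cast Finset.card_le_card this

theorem rc_ft_tm_empty {P : PkSys} (E : Xp P) : (E.rs fun _ => ∅).tm = 0 := by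
  have key : ∀ l : Fin E.L, (E.rs fun _ => ∅).m l = 0 := by
    intro l
    rw [rc_fk_rs_m, Set.indicator_empty]
    unfold PkSys.en
    simp
  exact Finset.sum_eq_zero fun l _ => key l

theorem rc_ft_fm_empty (W : RcTw η p) : W.fm (fun _ => ∅) = 0 := rc_ft_tm_empty W.X

theorem rc_ft_tl_add (W : RcTw η p) (a b : ℝ) : W.tl (a + b) = W.tl a * W.tl b := by
  unfold RcTw.tl
  rw [add_mul, gn_two_add]

theorem rc_ft_tl_mono (W : RcTw η p) {a b : ℝ} (h : a ≤ b) : W.tl a ≤ W.tl b := by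
  unfold RcTw.tl
  exact gn_two_mono (mul_le_mul_of_nonneg_right h (Nat.cast_nonneg _))

theorem rc_ft_tl_pos (W : RcTw η p) (a : ℝ) : 0 < W.tl a := gn_two_pos _

/-- the energy behind the stage `i` against the benchmark -/
theorem rc_ft_raw_le (h0 : 0 < η) (h1 : η < 1) (hΓ : 0 < (rndCl η).Gam) {hg C A : ℕ} {τ : ℝ} (h : W.Ok hg C A τ) {i : ℕ} (hi0 : 0 < i) (hi : i ≤ hg) :
    (W.em i fun _ => Set.univ) ≤ W.Eb i * 2 ^ ((W.q : ℝ) + τ * W.E.n) := by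
  obtain ⟨hd0, hd1⟩ := gn_d0f_le (rndCl η) 1 (rt_gen_cl η h0 h1) hΓ
  have he : 0 < W.E.e := (rc_fk_valid h (Nat.zero_le _)).e_pos
  refine le_trans (rc_st_sum W h hi0 hi) ?_
  unfold RcTw.Eb
  rw [mul_assoc, ← gn_two_add]
  refine mul_le_mul_of_nonneg_left (gn_two_mono ?_) he.le
  rw [rc_fk_dp_sub h i]
  have hlt : W.E.n - W.q * W.m ≤ W.q := by
    have := h.n_hi
    have e : W.q * (W.m + 1) = W.q * W.m + W.q := by ring
    omega
  have hltR : ((W.E.n - W.q * W.m : ℕ) : ℝ) ≤ W.q := by exact_mod_cast hlt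
  have hnn : (0 : ℝ) ≤ ((W.E.n - W.q * W.m : ℕ) : ℝ) := Nat.cast_nonneg _
  push_cast
  nlinarith

/-- **EXIT: lem:rt-time at particle level**, from the rarity transfer and the total mass -/
theorem rc_ft_time (h0 : 0 < η) (h1 : η < 1) (hΓ : 0 < (rndCl η).Gam) {t N : ℝ} (ht : 0 < t) {C A : ℕ}
    (h : W.Ok (W.q - 1) C A (t / (16 * ((W.q : ℝ) + 1)))) (hm : 8 * (W.q : ℝ) / t ≤ W.m)
    (hrar : ∀ l, 0 < l → l < W.q → ∀ V : ℕ → Set p.Om, (∀ I, MeasurableSet (V I)) →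
      W.fm (fun J => V (W.aI l J)) ≤ W.tl (t / 4) * W.Eb W.q * (W.em l V / W.Eb l) ^ (2 / 3 : ℝ) + W.tl (-(N + t)) * W.Eb W.q)
    (htot : W.tl (-(t / 4)) * W.Eb W.q ≤ W.ft) : W.TimeP t N := by
  intro i l hi hil hl G Lst hmeas hcard
  by_cases hne : Nonempty p.Om
  swap
  · rw [not_nonempty_iff] at hne
    have e1 : (fun J => {ω | W.aI l J ∈ Lst (W.aI i J) ω}) = fun _ => (∅ : Set p.Om) := by
      funext J
      exact Set.eq_empty_of_isEmpty _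
    have e2 : W.ft = 0 := by
      unfold RcTw.ft
      rw [show (fun _ : ℕ => (Set.univ : Set p.Om)) = fun _ => ∅ from funext fun _ => Set.eq_empty_of_isEmpty _]
      exact rc_ft_fm_empty W
    rw [e1, rc_ft_fm_empty, e2, mul_zero]
  obtain ⟨ω0⟩ := hne
  have hG : 0 ≤ G := le_trans (Nat.cast_nonneg _) (hcard 0 ω0)
  have he : 0 < W.E.e := (rc_fk_valid h (Nat.zero_le _)).e_pos
  have hEb : ∀ a, 0 < W.Eb a := fun a => mul_pos he (gn_two_pos _)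
  have hem := rc_ft_em h hil.le (by omega : l ≤ W.q - 1) G Lst hmeas hcard
  obtain ⟨V, hV⟩ : ∃ V : ℕ → Set p.Om, V = fun I' => {ω | I' ∈ Lst (ancI (W.dp l) (W.dp i) I') ω} := ⟨_, rfl⟩
  rw [← hV] at hem
  have hVm : ∀ I', MeasurableSet (V I') := by
    intro I'
    rw [hV]
    exact hmeas _ _
  have hU : (fun J => {ω | W.aI l J ∈ Lst (W.aI i J) ω}) = fun J => V (W.aI l J) := by
    funext J
    have : W.aI i J = ancI (W.dp l) (W.dp i) (W.aI l J) := by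
      unfold RcTw.aI
      rw [gn_anc_anc (rc_fk_dp_mono W hil.le) (rc_fk_dp_le h hl.le)]
    rw [this, hV]
  rw [hU]
  refine le_trans (hrar l (by omega) hl V hVm) ?_
  have hraw := rc_ft_raw_le h0 h1 hΓ h hi (by omega : i ≤ W.q - 1)
  -- the constant
  have hc : (2 : ℝ) ^ ((W.q : ℝ) + t / (16 * ((W.q : ℝ) + 1)) * W.E.n) ≤ W.tl (t / 4) := by
    unfold RcTw.tl
    refine gn_two_mono ?_
    have a1 := rc_fm_n_le h
    have hq : (0 : ℝ) ≤ W.q := Nat.cast_nonneg _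
    have hmm : (0 : ℝ) ≤ W.m := Nat.cast_nonneg _
    have a2 : t / (16 * ((W.q : ℝ) + 1)) * W.E.n ≤ t * W.m / 8 := by
      rw [div_mul_eq_mul_div, div_le_iff₀ (by positivity)]
      nlinarith [mul_nonneg ht.le hmm]
    rw [div_le_iff₀ ht] at hm
    linarith
  have hx : W.em l V / W.Eb l ≤ G * W.Eb i / W.Eb l * W.tl (t / 4) := by
    rw [div_le_iff₀ (hEb l)]
    calc W.em l V ≤ G * W.em i fun _ => Set.univ := hem
      _ ≤ G * (W.Eb i * W.tl (t / 4)) := mul_le_mul_of_nonneg_left (hraw.trans (mul_le_mul_of_nonneg_left hc (hEb i).le)) hG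
      _ = G * W.Eb i / W.Eb l * W.tl (t / 4) * W.Eb l := by
        have := (hEb l).ne'
        field_simp
  have hem0 : 0 ≤ W.em l V / W.Eb l :=
    div_nonneg (Finset.sum_nonneg fun I _ => gn_ms_nonneg _ _ _ _ _) (hEb l).le
  have hy0 : 0 ≤ G * W.Eb i / W.Eb l := div_nonneg (mul_nonneg hG (hEb i).le) (hEb l).le
  have htl1 : 1 ≤ W.tl (t / 4) := by
    unfold RcTw.tl
    exact Real.one_le_rpow (by norm_num) (mul_nonneg (by positivity) (Nat.cast_nonneg _))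
  have hc0 := rc_ft_tl_pos W (t / 4)
  have hX : (W.em l V / W.Eb l) ^ (2 / 3 : ℝ)
      ≤ (G * W.Eb i / W.Eb l) ^ (2 / 3 : ℝ) * W.tl (t / 4) := by
    calc (W.em l V / W.Eb l) ^ (2 / 3 : ℝ)
        ≤ (G * W.Eb i / W.Eb l * W.tl (t / 4)) ^ (2 / 3 : ℝ) := Real.rpow_le_rpow hem0 hx (by norm_num)
      _ = (G * W.Eb i / W.Eb l) ^ (2 / 3 : ℝ) * W.tl (t / 4) ^ (2 / 3 : ℝ) := Real.mul_rpow hy0 hc0.le
      _ ≤ (G * W.Eb i / W.Eb l) ^ (2 / 3 : ℝ) * W.tl (t / 4) ^ (1 : ℝ) :=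
        mul_le_mul_of_nonneg_left (Real.rpow_le_rpow_of_exponent_le htl1 (by norm_num)) (Real.rpow_nonneg hy0 _)
      _ = _ := by rw [Real.rpow_one]
  have hEq : W.Eb W.q ≤ W.tl (t / 4) * W.ft := by
    have e : W.tl (t / 4) * W.tl (-(t / 4)) = 1 := by
      rw [← rc_ft_tl_add, add_neg_cancel]
      unfold RcTw.tl
      simp
    calc W.Eb W.q = W.tl (t / 4) * (W.tl (-(t / 4)) * W.Eb W.q) := by rw [← mul_assoc, e, one_mul]
      _ ≤ _ := mul_le_mul_of_nonneg_left htot hc0.le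
  have hft : 0 ≤ W.ft := le_trans (mul_nonneg (rc_ft_tl_pos W _).le (hEb _).le) htot
  have hY := Real.rpow_nonneg hy0 (2 / 3 : ℝ)
  have e3 : W.tl (t / 4) * W.tl (t / 4) * W.tl (t / 4) ≤ W.tl t := by
    rw [← rc_ft_tl_add, ← rc_ft_tl_add]
    exact rc_ft_tl_mono W (by linarith)
  have e4 : W.tl (-(N + t)) * W.tl (t / 4) ≤ W.tl (-N) := by
    rw [← rc_ft_tl_add]
    exact rc_ft_tl_mono W (by linarith)
  calc W.tl (t / 4) * W.Eb W.q * (W.em l V / W.Eb l) ^ (2 / 3 : ℝ) + W.tl (-(N + t)) * W.Eb W.q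
      ≤ W.tl (t / 4) * (W.tl (t / 4) * W.ft) * ((G * W.Eb i / W.Eb l) ^ (2 / 3 : ℝ) * W.tl (t / 4)) + W.tl (-(N + t)) * (W.tl (t / 4) * W.ft) := by
        have := rc_ft_tl_pos W (-(N + t))
        gcongr
    _ = (W.tl (t / 4) * W.tl (t / 4) * W.tl (t / 4) * (G * W.Eb i / W.Eb l) ^ (2 / 3 : ℝ) + W.tl (-(N + t)) * W.tl (t / 4)) * W.ft := by ring
    _ ≤ _ := by gcongr

end Claimed.Agent.R256
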