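import Claimed.Agent.R256.Rc.TowB

/-!
# Row 256, unit RC, block FIELDS: `rc_p_tot` = (CE) at the terminal cut, lower half      (helper159; prefix `rc_pt_`)      linked in `Rc/XFld.lean`
-/

set_option autoImplicit false

namespace Claimed.Agent.R256

open MeasureTheory
open scoped BigOperators
open Classical

theorem rc_pt_ft {η : ℝ} {p : RdClPar} (W : RcTw η p) : W.ft = W.X.tm := by
  have e : (W.X.rs fun _ => Set.univ) = W.X := by
    unfold Xp.rs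
    simp only [Set.indicator_univ]
  exact congrArg Xp.tm e

/-- masks decrease the masses -/
theorem rc_pt_m_le {η : ℝ} {p : RdClPar} (W : RcTw η p) {C A : ℕ} {τ : ℝ} (h : W.Ok (W.q - 1) C A τ) (l : Fin W.E.L) : W.X.m l ≤ W.E.m l := by
  have hX : W.X.Valid := rc_tw_valid W h le_rfl
  have hst := rc_stk_mask W h (le_refl (W.q - 1))
  have e1 : W.X.m l = (p.sys η).en (tmL W.E.kf (W.E.iv l)) W.E.kf W.E.bT (W.E.th l) (Xp.run W.E.kf (W.E.iv l) (W.stk (W.q - 1)) W.E.v) := rfl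
  have e2 : W.E.m l = (p.sys η).en (tmL W.E.kf (W.E.iv l)) W.E.kf W.E.bT (W.E.th l) W.E.v := by
    unfold Xp.m Xp.fin
    rw [h.free]
    rfl
  rw [e1, e2]
  refine le_trans (le_of_eq (rc_en_run _ _ _ _ _ _ hst _ _)) ?_
  have hth : IsMask (W.E.th l) := gn_th_mask W.X hX l
  have hwt := rc_wt_mask (η := η) (p := p) W.E.kf (W.E.iv l) (W.stk (W.q - 1)) hst
  refine gn_en_mono _ _ _ (gn_mask_mul hth hwt) hth (fun x => ?_) _
  have a1 := hth.2 x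
  have a2 := hwt.2 x
  nlinarith [a1.1, a2.2]

theorem rc_pt_num {e ka tm Γ pp τ n : ℝ} (he : 0 < e) (hka : 0 < ka) 
    (h : 2 ^ ((Γ - τ) * n) ≤ 2 ^ (n / 2) / (e * Real.sqrt ka) * (Real.sqrt (ka * 2 ^ (-((pp - τ) * n))) * tm)) :
    e * 2 ^ ((Γ + (pp - 1) / 2 - 3 * τ / 2) * n) ≤ tm := by
  have hs : 0 < Real.sqrt ka := Real.sqrt_pos.2 hka
  have e1 : Real.sqrt (ka * 2 ^ (-((pp - τ) * n))) = Real.sqrt ka * 2 ^ (-((pp - τ) * n) / 2) := by
    rw [Real.sqrt_mul hka.le, gn_two_sqrt]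
  rw [e1] at h
  have e2 : (2 : ℝ) ^ (n / 2) / (e * Real.sqrt ka) * (Real.sqrt ka * 2 ^ (-((pp - τ) * n) / 2) * tm)
      = 2 ^ (n / 2 + -((pp - τ) * n) / 2) * tm / e := by
    rw [gn_two_add]
    field_simp
  rw [e2, le_div_iff₀ he] at h
  have h3 : (2 : ℝ) ^ (-(n / 2 + -((pp - τ) * n) / 2)) * (2 ^ ((Γ - τ) * n) * e) ≤ tm := by
    have := mul_le_mul_of_nonneg_left h (gn_two_pos (-(n / 2 + -((pp - τ) * n) / 2))).le
    refine le_trans this (le_of_eq ?_)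
    rw [← mul_assoc, ← gn_two_add, neg_add_cancel, Real.rpow_zero, one_mul]
  refine le_trans (le_of_eq ?_) h3
  rw [← mul_assoc, ← gn_two_add, mul_comm]
  congr 2
  ring

theorem rc_pt_main (η : ℝ) (h0 : 0 < η) (h1 : η < 1) (hΓ : 0 < (rndCl η).Gam) (q : ℕ) (t : ℝ) (ht : 0 < t) :
    RcAll η q fun _ W => W.tl (-t) * W.Eb W.q ≤ W.ft := by
  obtain ⟨hd0, hd1⟩ := gn_d0f_le (rndCl η) 1 (rt_gen_cl η h0 h1) hΓ
  refine ⟨t / (3 * (q + 1)), by positivity, fun C => ⟨0, 0, fun A p W _ hWq _ hW => ?_⟩⟩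
  obtain ⟨τ, hτ⟩ : ∃ τ : ℝ, τ = t / (3 * (q + 1)) := ⟨_, rfl⟩
  rw [← hτ] at hW
  have hτ0 : 0 < τ := by
    rw [hτ]
    positivity
  have hW' : W.Ok (W.q - 1) C A τ := hWq.symm ▸ hW
  have hX : W.X.Valid := rc_tw_valid W hW' le_rfl
  have he : 0 < W.E.e := hX.e_pos
  have hka : 0 < W.E.ka := hX.ka_pos
  rw [rc_pt_ft]
  have hm : ∀ l : Fin W.X.L, W.X.m l ≤ W.E.ka * W.E.s ^ ((rndCl η).p0f - τ) * W.X.w l := by
    intro l
    refine le_trans (rc_pt_m_le W hW' l) (le_trans (hW.hom l).2 (le_of_eq ?_))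
    show W.E.ka * W.E.w l * _ = W.E.ka * _ * W.E.w l
    ring
  have hrd : W.X.rd ≤ Real.sqrt (W.E.ka * W.E.s ^ ((rndCl η).p0f - τ)) * W.X.tm := by
    rw [gn_rd_eq]
    unfold Xp.tm
    rw [Finset.mul_sum]
    exact Finset.sum_le_sum fun l _ => gn_tr_le W.X hX l (hm l)
  have hc : 2 ^ (((rndCl η).Gam - τ) * W.E.n) ≤ W.X.val := hW'.cert (W.q - 1) le_rfl
  have hv : W.X.val ≤ 2 ^ ((W.E.n : ℝ) / 2) / (W.E.e * Real.sqrt W.E.ka) * (Real.sqrt (W.E.ka * 2 ^ (-(((rndCl η).p0f - τ) * W.E.n))) * W.X.tm) := by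
    rw [← gn_s_rpow]
    exact mul_le_mul_of_nonneg_left hrd (div_nonneg (gn_two_pos _).le (mul_nonneg he.le (Real.sqrt_nonneg _)))
  refine le_trans ?_ (rc_pt_num he hka (hc.trans hv))
  have hq1 : 0 < q := by
    have := hW.hg_lt
    omega
  have c1 : (q : ℝ) * W.m ≤ W.E.n := by
    have := hW.n_lo
    rw [hWq] at this
    exact_mod_cast this
  have c2 : (W.E.n : ℝ) ≤ 2 * q * W.m := by
    have h2 := hW.n_hi
    rw [hWq] at h2
    have h3 : W.E.n ≤ 2 * q * W.m := by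
      have : q ≤ q * W.m := Nat.le_mul_of_pos_right _ hW.m_pos
      nlinarith
    exact_mod_cast h3
  unfold RcTw.tl RcTw.Eb
  rw [hWq, mul_left_comm, ← gn_two_add]
  refine mul_le_mul_of_nonneg_left (gn_two_mono ?_) he.le
  have e3 : (rndCl η).Gam + ((rndCl η).p0f - 1) / 2 = (rndCl η).d0f := rfl
  rw [e3]
  have hq0 : (0 : ℝ) < q := by exact_mod_cast hq1
  have hm0 : (0 : ℝ) ≤ W.m := Nat.cast_nonneg _
  have d1 : (rndCl η).d0f * (q * W.m) ≤ (rndCl η).d0f * W.E.n := mul_le_mul_of_nonneg_left c1 hd0.le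
  have d2 : τ * (3 * (q + 1)) = t := by
    rw [hτ]
    field_simp
  have d3 : 3 * τ / 2 * W.E.n ≤ 3 * τ / 2 * (2 * q * W.m) := mul_le_mul_of_nonneg_left c2 (by positivity)
  have d4 : 3 * τ / 2 * (2 * q * W.m) ≤ t * W.m := by
    rw [← d2]
    nlinarith [mul_nonneg hτ0.le hm0]
  nlinarith

end Claimed.Agent.R256
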