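import Claimed.Agent.R256.Rc.TowB

/-!
# Row 256, unit RC, block (I-cl), RAR = lem:rt-laws, classical: the rarity transfer from the cut `l` to the final law      (helper234; prefix `rc_rr_`)

`rc_rr_main` = `rc_rar` of `Rc/XFld.lean` with `RcAll`, `RcTw.Rar` unfolded.   Route: plan of helper106/123 in the docstring of `rc_rar`:
one more mask `1_V` at the cut `l` (`W.xr l V`), `fm (V ∘ aI l) = tm` (`rc_rr_fm`), Hoelder (`rc_hold`), `gn_tail` at the rate `Γ` behind the new mask (`rc_rr_tail`, `rc_rr_reg`, `rc_rr_norm`), numerology (`rc_rr_num`, `rc_rr_ineq`).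
-/

set_option autoImplicit false

namespace Claimed.Agent.R256

open MeasureTheory
open scoped BigOperators
open Classical

variable {η : ℝ} {p : RdClPar}

/-- the stages `l+1, .., j` -/
noncomputable def RcTw.stk2 (W : RcTw η p) (l j : ℕ) : List (Stg (p.sys η)) := (List.range (j - l)).map fun a => W.sg (l + a + 1)

/-- the mask of a family of sets of particles -/
noncomputable def rcMv (V : ℕ → Set p.Om) : ℕ → p.Om → ℝ := fun I => (V I).indicator fun _ => 1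

/-- the tower experiment with one more mask at the cut `l` -/
noncomputable def RcTw.xr (W : RcTw η p) (l : ℕ) (V : ℕ → Set p.Om) : Xp (p.sys η) :=
  W.X.ins (W.dp l) 0 (W.stk l) (W.stk2 l (W.q - 1)) (rcMv V)

theorem rc_rr_eqns_cite : True := by
  have := @RcTw.stk2.eq_1
  have := @rcMv.eq_1
  have := @RcTw.xr.eq_1
  trivial

theorem rc_rr_sub {a b : ℝ} (ha : 0 ≤ a) (hb : 0 ≤ b) : (a + b) ^ (2 / 3 : ℝ) ≤ a ^ (2 / 3 : ℝ) + b ^ (2 / 3 : ℝ) :=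
  Real.rpow_add_le_add_rpow ha hb (by norm_num) (by norm_num)

/-- cube of a `2/3` power -/
theorem rc_rr_cube23 {x : ℝ} (hx : 0 ≤ x) : (x ^ (2 / 3 : ℝ)) ^ 3 = x ^ 2 := by
  rw [← Real.rpow_natCast, ← Real.rpow_mul hx, ← Real.rpow_natCast]
  norm_num

theorem rc_rr_cube13 {x : ℝ} (hx : 0 ≤ x) : (x ^ (1 / 3 : ℝ)) ^ 3 = x := by
  rw [← Real.rpow_natCast, ← Real.rpow_mul hx]
  norm_num

theorem rc_rr_two_cube (x : ℝ) : ((2 : ℝ) ^ (x / 3)) ^ 3 = 2 ^ x := by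
  rw [← Real.rpow_natCast, gn_two_mul]
  congr 1
  push_cast
  ring

theorem rc_rr_two_sq (x : ℝ) : ((2 : ℝ) ^ x) ^ 2 = 2 ^ (2 * x) := by
  rw [← Real.rpow_natCast, gn_two_mul]
  congr 1
  push_cast
  ring

theorem rc_rr_two_comb (x y z : ℝ) : (2 : ℝ) ^ x * (2 ^ y) ^ 3 / (2 ^ z) ^ 2 = 2 ^ (x + 3 * y - 2 * z) := by
  rw [rc_rr_two_sq, ← Real.rpow_natCast (2 ^ y) 3, gn_two_mul, sub_eq_add_neg, gn_two_add, gn_two_add, gn_two_neg, div_eq_mul_inv]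
  congr 3
  push_cast
  ring

/-- **the numerology of RAR** (real numbers only) -/
theorem rc_rr_num {e κ em tm rd tw Γ pp d τ ε t N n m q l C' : ℝ}
    (he : 0 < e) (hκ : 0 < κ) (hem : 0 ≤ em) (htm : 0 ≤ tm) (hrd : 0 ≤ rd) (htw : 0 ≤ tw)
    (hd : d = Γ + (pp - 1) / 2) (hd0 : 0 ≤ d) (hl0 : 0 ≤ l) (hm0 : 0 ≤ m)
    (hold : tm ≤ rd ^ (2 / 3 : ℝ) * tw ^ (1 / 3 : ℝ))
    (htw' : tw ≤ e / κ * 2 ^ ((pp + d + τ) * n))
    (hrd' : rd ≤ 2 ^ (-((1 / 2 - Γ - ε) * ((q - l) * m))) * Real.sqrt (κ * 2 ^ (-(pp * (n - q * m + l * m)) + τ * n + 1))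
      * (em + 2 ^ (-(C' * n)) * e))
    (hsmall : 2 * ε * ((q - l) * m) + 2 * τ * n + 1 + d * (n - q * m) ≤ 3 * (t * m))
    (hC' : (t + N) * m ≤ 2 / 3 * (C' * n)) :
    tm ≤ 2 ^ (t * m) * (e * 2 ^ (d * q * m)) * (em / (e * 2 ^ (d * l * m))) ^ (2 / 3 : ℝ) + 2 ^ (-N * m) * (e * 2 ^ (d * q * m)) := by
  set δ : ℝ := 2 ^ (-(C' * n)) * e with hδ
  have hδ0 : 0 < δ := mul_pos (gn_two_pos _) he
  set Ebq : ℝ := e * 2 ^ (d * q * m) with hEbq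
  set Ebl : ℝ := e * 2 ^ (d * l * m) with hEbl
  have hq0 : 0 < Ebq := mul_pos he (gn_two_pos _)
  have hl0' : 0 < Ebl := mul_pos he (gn_two_pos _)
  set sm : ℝ := 2 * ε * ((q - l) * m) + 2 * τ * n + 1 + d * (n - q * m) with hsm
  set A : ℝ := em + δ with hA
  have hA0 : 0 < A := by positivity
  set κ' : ℝ := κ * 2 ^ (-(pp * (n - q * m + l * m)) + τ * n + 1) with hκ'
  have hκ'0 : 0 < κ' := mul_pos hκ (gn_two_pos _)
  -- cube
  have h1 : tm ^ 3 ≤ rd ^ 2 * tw := by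
    calc tm ^ 3 ≤ (rd ^ (2 / 3 : ℝ) * tw ^ (1 / 3 : ℝ)) ^ 3 := pow_le_pow_left₀ htm hold 3
      _ = rd ^ 2 * tw := by rw [mul_pow, rc_rr_cube23 hrd, rc_rr_cube13 htw]
  have h2 : rd ^ 2 ≤ 2 ^ (-(2 * ((1 / 2 - Γ - ε) * ((q - l) * m)))) * κ' * A ^ 2 := by
    calc rd ^ 2 ≤ (2 ^ (-((1 / 2 - Γ - ε) * ((q - l) * m))) * Real.sqrt κ' * A) ^ 2 := pow_le_pow_left₀ hrd hrd' 2
      _ = _ := by
        rw [mul_pow, mul_pow, Real.sq_sqrt hκ'0.le, rc_rr_two_sq]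
        congr 3
        ring
  set B : ℝ := 2 ^ (sm / 3) * Ebq * (A / Ebl) ^ (2 / 3 : ℝ) with hB
  have hB0 : 0 ≤ B := by positivity
  have h3 : rd ^ 2 * tw ≤ B ^ 3 := by
    have e1 : B ^ 3 = 2 ^ sm * Ebq ^ 3 * (A / Ebl) ^ 2 := by
      rw [hB, mul_pow, mul_pow, rc_rr_two_cube, rc_rr_cube23 (by positivity)]
    have e2 : 2 ^ sm * Ebq ^ 3 * (A / Ebl) ^ 2 = (2 ^ sm * (2 ^ (d * q * m)) ^ 3 / (2 ^ (d * l * m)) ^ 2) * e * A ^ 2 := by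
      rw [hEbq, hEbl]
      have := (gn_two_pos (d * l * m)).ne'
      field_simp
    have e3 := rc_rr_two_comb sm (d * q * m) (d * l * m)
    have e4 : 2 ^ (-(2 * ((1 / 2 - Γ - ε) * ((q - l) * m)))) * κ' * A ^ 2 * (e / κ * 2 ^ ((pp + d + τ) * n))
        = 2 ^ (sm + 3 * (d * q * m) - 2 * (d * l * m)) * e * A ^ 2 := by
      have : (2 : ℝ) ^ (sm + 3 * (d * q * m) - 2 * (d * l * m))
          = 2 ^ (-(2 * ((1 / 2 - Γ - ε) * ((q - l) * m)))) * 2 ^ (-(pp * (n - q * m + l * m)) + τ * n + 1) * 2 ^ ((pp + d + τ) * n) := by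
        rw [← gn_two_add, ← gn_two_add]
        congr 1
        rw [hsm, hd]
        ring
      rw [this, hκ']
      field_simp
    rw [e1, e2, e3, ← e4]
    exact mul_le_mul h2 htw' htw (by positivity)
  have h4 : tm ≤ B := by
    by_contra hcon
    push Not at hcon
    have := pow_lt_pow_left₀ hcon hB0 (by norm_num : (3 : ℕ) ≠ 0)
    linarith [h1.trans h3]
  -- split
  have h5 : (A / Ebl) ^ (2 / 3 : ℝ) ≤ (em / Ebl) ^ (2 / 3 : ℝ) + (δ / Ebl) ^ (2 / 3 : ℝ) := by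
    rw [hA, add_div]
    exact rc_rr_sub (by positivity) (by positivity)
  have h6 : (2 : ℝ) ^ (sm / 3) ≤ 2 ^ (t * m) := gn_two_mono (by linarith)
  have h7 : (δ / Ebl) ^ (2 / 3 : ℝ) = 2 ^ ((-(C' * n) - d * l * m) * (2 / 3)) := by
    have : δ / Ebl = 2 ^ (-(C' * n) - d * l * m) := by
      rw [hδ, hEbl, sub_eq_add_neg, gn_two_add, gn_two_neg (d * l * m)]
      field_simp
    rw [this, gn_two_mul]
  have h8 : (2 : ℝ) ^ (t * m) * (δ / Ebl) ^ (2 / 3 : ℝ) ≤ 2 ^ (-N * m) := by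
    rw [h7, ← gn_two_add]
    refine gn_two_mono ?_
    have : 0 ≤ d * l * m := by positivity
    nlinarith
  have h9 : 0 ≤ (em / Ebl) ^ (2 / 3 : ℝ) := by positivity
  have h10 : 0 ≤ (δ / Ebl) ^ (2 / 3 : ℝ) := by positivity
  calc tm ≤ 2 ^ (sm / 3) * Ebq * (A / Ebl) ^ (2 / 3 : ℝ) := h4
    _ ≤ 2 ^ (t * m) * Ebq * ((em / Ebl) ^ (2 / 3 : ℝ) + (δ / Ebl) ^ (2 / 3 : ℝ)) := by gcongr
    _ = 2 ^ (t * m) * Ebq * (em / Ebl) ^ (2 / 3 : ℝ) + (2 ^ (t * m) * (δ / Ebl) ^ (2 / 3 : ℝ)) * Ebq := by ring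
    _ ≤ 2 ^ (t * m) * Ebq * (em / Ebl) ^ (2 / 3 : ℝ) + 2 ^ (-N * m) * Ebq := by gcongr

theorem rc_rr_ind_sq {α : Type} (S : Set α) (x : α) :
    (Set.univ : Set α).indicator (fun _ => (1 : ℝ)) x * (S.indicator (fun _ => (1 : ℝ)) x) ^ 2 = S.indicator (fun _ => 1) x := by
  by_cases hx : x ∈ S <;> simp [hx]

theorem rc_rr_ind_mul {α : Type} (S : Set α) (f : α → ℝ) (x : α) (a b : ℝ) :
    S.indicator f x * (a * b) = f x * (a * ((S.indicator (fun _ => (1 : ℝ)) x) ^ 2 * b)) := by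
  by_cases hx : x ∈ S <;> simp [hx]

theorem rc_rr_stk (W : RcTw η p) {l j : ℕ} (h : l ≤ j) : W.stk j = W.stk l ++ W.stk2 l j := by
  unfold RcTw.stk RcTw.stk2
  obtain ⟨d, rfl⟩ := Nat.exists_eq_add_of_le h
  rw [Nat.add_sub_cancel_left, List.range_add, List.map_append, List.map_map]
  rfl

theorem rc_rr_stk2_mem (W : RcTw η p) (l j : ℕ) (σ : Stg (p.sys η)) (h : σ ∈ W.stk2 l j) : ∃ a, l < a ∧ a ≤ j ∧ σ = W.sg a := by
  unfold RcTw.stk2 at h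
  obtain ⟨a, ha, rfl⟩ := List.mem_map.1 h
  have := List.mem_range.1 ha
  exact ⟨l + a + 1, by omega, by omega, rfl⟩

theorem rc_rr_mv_mask {V : ℕ → Set p.Om} (hV : ∀ I, MeasurableSet (V I)) (I : ℕ) : IsMask (rcMv V I) := gn_mask_ind (hV I)

/-- the cut of the tower experiment at the depth of the stage `l` -/
theorem rc_rr_cut (W : RcTw η p) {C A : ℕ} {τ : ℝ} (h : W.Ok (W.q - 1) C A τ) {l : ℕ} (hl : l < W.q) :
    W.X.CutAt (W.dp l) (W.stk l) (W.stk2 l (W.q - 1)) := by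
  refine ⟨rc_rr_stk W (by omega), fun σ hσ => ?_, fun σ hσ => ?_, (rc_tw_dp_le W h.n_lo hl.le).1, (rc_tw_dp_le W h.n_lo hl.le).2⟩
  · obtain ⟨a, -, ha, rfl⟩ := rc_stk_mem W l σ hσ
    exact rc_tw_dp_mono W ha
  · obtain ⟨a, ha, -, rfl⟩ := rc_rr_stk2_mem W l _ σ hσ
    exact rc_tw_dp_mono W ha.le

theorem rc_rr_valid (W : RcTw η p) {C A : ℕ} {τ : ℝ} (h : W.Ok (W.q - 1) C A τ) {l : ℕ} (hl : l < W.q) {V : ℕ → Set p.Om}
    (hV : ∀ I, MeasurableSet (V I)) : (W.xr l V).Valid :=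
  gn_ins_valid W.X (rc_tw_valid W h le_rfl) (rc_rr_cut W h hl) 0 (rc_rr_mv_mask hV)

/-- the cut of the new experiment behind the new mask -/
theorem rc_rr_cut' (W : RcTw η p) {C A : ℕ} {τ : ℝ} (h : W.Ok (W.q - 1) C A τ) {l : ℕ} (hl : l < W.q) (V : ℕ → Set p.Om) :
    (W.xr l V).CutAt (W.dp l) (W.stk l ++ [⟨W.dp l, 0, rcMv V⟩]) (W.stk2 l (W.q - 1)) := by
  obtain ⟨-, h2, h3, h4, h5⟩ := rc_rr_cut W h hl
  refine ⟨?_, fun σ hσ => ?_, h3, h4, h5⟩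
  · show W.stk l ++ _ :: W.stk2 l (W.q - 1) = _
    simp
  · rcases List.mem_append.1 hσ with h' | h'
    · exact h2 σ h'
    · rw [List.mem_singleton] at h'
      rw [h']

/-- **1** the final measure of `V ∘ aI l` is the total mass of the new experiment -/
theorem rc_rr_fm (W : RcTw η p) {C A : ℕ} {τ : ℝ} (h : W.Ok (W.q - 1) C A τ) {l : ℕ} (hl : l < W.q) {V : ℕ → Set p.Om}
    (hV : ∀ I, MeasurableSet (V I)) : W.fm (fun J => V (W.aI l J)) = (W.xr l V).tm := by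
  have hst1 : ∀ σ ∈ W.stk (W.q - 1), ∀ j, IsMask (σ.M j) := rc_stk_mask W h le_rfl
  have hVal := rc_rr_valid W h hl hV
  have hst2 : ∀ σ ∈ W.stk l ++ (⟨W.dp l, 0, rcMv V⟩ : Stg (p.sys η)) :: W.stk2 l (W.q - 1), ∀ j, IsMask (σ.M j) :=
    fun σ hσ j => ⟨hVal.st_meas σ hσ j, hVal.st_bd σ hσ j⟩
  show ∑ a : Fin W.E.L, (W.X.rs fun J => V (W.aI l J)).m a = ∑ a : Fin W.E.L, (W.xr l V).m a
  refine Finset.sum_congr rfl fun a _ => ?_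
  show (p.sys η).en _ _ _ ((V (W.aI l (W.E.iv a))).indicator (W.E.th a)) (Xp.run W.E.kf (W.E.iv a) (W.stk (W.q - 1)) W.E.v)
    = (p.sys η).en _ _ _ (W.E.th a) (Xp.run W.E.kf (W.E.iv a) (W.stk l ++ (⟨W.dp l, 0, rcMv V⟩ : Stg (p.sys η)) :: W.stk2 l (W.q - 1)) W.E.v)
  refine (rc_en_run _ _ _ _ _ _ hst1 _ _).trans (Eq.trans ?_ (rc_en_run _ _ _ _ _ _ hst2 _ _).symm)
  congr 1
  funext ω
  rw [rc_rr_stk W (show l ≤ W.q - 1 by omega)]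
  unfold rcWt
  simp only [List.map_append, List.prod_append, List.map_cons, List.prod_cons]
  exact rc_rr_ind_mul _ _ _ _ _

/-- the states behind the new mask -/
theorem rc_rr_at (W : RcTw η p) (l I : ℕ) (V : ℕ → Set p.Om) :
    (W.xr l V).at' (W.dp l) I (W.stk l ++ [⟨W.dp l, 0, rcMv V⟩]) = (p.sys η).mulR (W.dp l) (rcMv V I) (W.st l I) := by
  unfold Xp.at'
  rw [gn_run_append]
  show (p.sys η).tz _ _ _ (rcMv V (ancI (W.dp l) (W.dp l) I)) _ = _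
  rw [gn_anc_self]
  exact rt_fc_tz η p _ _ _ _ _

/-- the energy behind the new mask -/
theorem rc_rr_norm (W : RcTw η p) (l I : ℕ) {V : ℕ → Set p.Om} (hV : ∀ I, MeasurableSet (V I)) :
    ‖(W.xr l V).at' (W.dp l) I (W.stk l ++ [⟨W.dp l, 0, rcMv V⟩])‖ ^ 2 = (p.sys η).ms (tmL (W.dp l) I) (W.dp l) 0 (V I) (W.st l I) := by
  rw [rc_rr_at]
  refine (rc_norm_sq (tmL (W.dp l) I) (W.dp l) 0 _).trans ?_
  refine (rc_en_mulR _ _ _ _ _ (rc_rr_mv_mask hV I) _).trans ?_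
  unfold PkSys.ms
  congr 1
  funext ω
  exact rc_rr_ind_sq (V I) ω

/-- regularity behind the new mask -/
theorem rc_rr_reg (W : RcTw η p) {C A : ℕ} {τ : ℝ} (h : W.Ok (W.q - 1) C A τ) {l : ℕ} (h0 : 0 < l) (hl : l < W.q) {V : ℕ → Set p.Om}
    (hV : ∀ I, MeasurableSet (V I)) {I : ℕ} (hI : I ∈ W.iv l) {κ' : ℝ} (hκ : 2 * W.be l ≤ κ') :
    (p.sys η).Reg (tmL (W.dp l) I) (W.dp l) 0 κ' ((W.xr l V).at' (W.dp l) I (W.stk l ++ [⟨W.dp l, 0, rcMv V⟩])) := by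
  intro Q hQ
  rw [rc_rr_at]
  have hT := rt_tight_cl η p
  refine (rt_fc_ms_mulR η p (hT.cellM _ _ _) _ _ _ _ (rc_rr_mv_mask hV I) _).trans ?_
  refine (rc_st_reg W h h0 (by omega) hI 0 Q hQ).trans ?_
  exact mul_le_mul_of_nonneg_right hκ (hT.wt_pos Q _ hQ).le


/-- `gn_tail` for the classical round model, at the rate `Γ` -/
theorem rc_rr_tail (η : ℝ) (h0 : 0 < η) (h1 : η < 1) (C : ℕ) (a0 ε : ℝ) (ha : 0 < a0) (hε : 0 < ε) :
    ∃ A n0 : ℕ, ∀ (p : RdClPar) (E : Xp (p.sys η)), n0 ≤ E.n → (rndCl η).Cls C A p E →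
      ∀ (k b' : ℕ) (st1 st2 : List (Stg (p.sys η))) (κ' : ℝ), E.CutAt k st1 st2 → a0 * E.n ≤ ((E.kf - k : ℕ) : ℝ) → b' ≤ C →
        E.s ^ (C : ℝ) * E.ka ≤ κ' → κ' ≤ E.s ^ (-(C : ℝ)) * E.ka →
        (∀ i ∈ ivs E.k0 E.i0 k, E.at' k i st1 ∈ (p.sys η).Pl b' ∧ (p.sys η).Reg (tmL k i) k b' κ' (E.at' k i st1)) →
        E.rd ≤ 2 ^ (-((1 / 2 - (rndCl η).Gam - ε) * ((E.kf - k : ℕ) : ℝ))) * Real.sqrt κ' *
          (∑ i ∈ ivs E.k0 E.i0 k, ‖E.at' k i st1‖ ^ 2 + E.s ^ (C : ℝ) * E.e) :=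
  gn_tail (rndCl η) 1 (rt_gen_cl η h0 h1) _ (gn_rate_gam _ 1 (rt_gen_cl η h0 h1)) C a0 ε ha hε

/-- the new experiment is in the class -/
theorem rc_rr_cls (h0 : 0 < η) (h1 : η < 1) (W : RcTw η p) {C A C' A' : ℕ} {τ : ℝ} (h : W.Ok (W.q - 1) C A τ) {l : ℕ} (hl : l < W.q) {V : ℕ → Set p.Om}
    (hV : ∀ I, MeasurableSet (V I)) (hC : C + 1 ≤ C') (hA : A' ≤ A) : (rndCl η).Cls C' A' p (W.xr l V) := by
  have hG := rt_gen_cl η h0 h1
  have c1 : (rndCl η).Cls C A p W.X := h.cls (W.q - 1) le_rfl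
  have c2 := gn_ins_cls (rndCl η) 1 hG c1 (rc_rr_cut W h hl) (b := 0) (Nat.zero_le _) (rc_rr_mv_mask hV)
  exact gn_cls_anti _ hG.scale hA (gn_cls_mono _ hG.scale hC c2)

/-- the inequalities between the numbers of RAR -/
theorem rc_rr_ineq {q m n l Q t τ ε d pp N C' : ℝ} (ht : 0 < t) (hQ : Q = q + 1) (hτ0 : 0 < τ) (hτ1 : τ ≤ 1) (hτQ : τ * Q ≤ t / 8) (hε0 : 0 < ε)
    (hεQ : ε * Q = t / 4) (_hd0 : 0 ≤ d) (hd1 : d ≤ 1) (hp1 : 1 ≤ pp) (hp3 : pp ≤ 3) (hC4 : 4 ≤ C') (hCN : 2 * (|N| + t) ≤ C')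
    (hn1 : q * m ≤ n) (hn2 : n ≤ q * (m + 1)) (hm : 1 ≤ m) (hl0 : 1 ≤ l) (hl : l + 1 ≤ q) (hbig : Q * (Q / t + 1) ≤ n) :
    1 / (2 * Q) * n ≤ (q - l) * m ∧ -(C' * n) ≤ -(pp * (n - q * m + l * m)) + τ * n + 1 ∧
      -(pp * (n - q * m + l * m)) + τ * n + 1 ≤ -(-C' * n) ∧
      2 * ε * ((q - l) * m) + 2 * τ * n + 1 + d * (n - q * m) ≤ 3 * (t * m) ∧ (t + N) * m ≤ 2 / 3 * (C' * n) := by
  have hq2 : 2 ≤ q := by linarith
  have hQ0 : 0 < Q := by linarith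
  have hm0 : 0 ≤ m := by linarith
  have hnm : m ≤ n := by
    have : 1 * m ≤ q * m := mul_le_mul_of_nonneg_right (by linarith) hm0
    linarith
  have hn0 : 0 ≤ n := hm0.trans hnm
  have c3 : q * (m + 1) = q * m + q := by ring
  have hn2Q : n ≤ 2 * Q * m := by
    have c1 : q ≤ q * m := le_mul_of_one_le_right (by linarith) hm
    have c2 : q * m ≤ Q * m := mul_le_mul_of_nonneg_right (by linarith) hm0
    linarith
  have hmbig : Q ≤ t * m := by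
    have h3 : Q * (Q / t + 1) ≤ Q * (m + 1) :=
      hbig.trans (hn2.trans (mul_le_mul_of_nonneg_right (by linarith) (by linarith)))
    have h4 : Q / t + 1 ≤ m + 1 := le_of_mul_le_mul_left h3 hQ0
    have h5 : Q / t ≤ m := by linarith
    rw [div_le_iff₀ ht] at h5
    linarith
  have hlm : l * m ≤ q * m := mul_le_mul_of_nonneg_right (by linarith) hm0
  have hj0 : 0 ≤ n - q * m + l * m := by
    have : 0 ≤ l * m := by positivity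
    linarith
  have hjn : n - q * m + l * m ≤ n := by linarith
  have hpj0 : 0 ≤ pp * (n - q * m + l * m) := mul_nonneg (by linarith) hj0
  have hpj3 : pp * (n - q * m + l * m) ≤ 3 * n := by
    have := mul_le_mul_of_nonneg_right hp3 hj0
    linarith
  have hτn : 0 ≤ τ * n := by positivity
  have hτn' : τ * n ≤ n := mul_le_of_le_one_left hn0 hτ1
  have hCn : 4 * n ≤ C' * n := mul_le_mul_of_nonneg_right hC4 hn0
  refine ⟨?_, by linarith, by linarith, ?_, ?_⟩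
  · rw [div_mul_eq_mul_div, one_mul, div_le_iff₀ (by positivity)]
    have c1 : 1 * m ≤ (q - l) * m := mul_le_mul_of_nonneg_right (by linarith) hm0
    have c2 : 1 * m * (2 * Q) ≤ (q - l) * m * (2 * Q) := mul_le_mul_of_nonneg_right c1 (by positivity)
    linarith
  · have a1 : ε * ((q - l) * m) ≤ t / 4 * m := by
      rw [← hεQ, mul_assoc]
      exact mul_le_mul_of_nonneg_left (mul_le_mul_of_nonneg_right (by linarith) hm0) hε0.le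
    have a2 : τ * n ≤ t / 4 * m := by
      calc τ * n ≤ τ * (2 * Q * m) := mul_le_mul_of_nonneg_left hn2Q hτ0.le
        _ = 2 * (τ * Q) * m := by ring
        _ ≤ 2 * (t / 8) * m := by gcongr
        _ = t / 4 * m := by ring
    have a3 : d * (n - q * m) ≤ q := by
      have b1 : 0 ≤ n - q * m := by linarith
      have b2 : n - q * m ≤ q := by linarith
      have := mul_le_mul_of_nonneg_right hd1 b1
      linarith
    have a4 : 0 ≤ t * m := by positivity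
    linarith
  · have b1 : (t + N) * m ≤ (|N| + t) * m := mul_le_mul_of_nonneg_right (by linarith [le_abs_self N]) hm0
    have b2 : (|N| + t) * m ≤ (|N| + t) * n := mul_le_mul_of_nonneg_left hnm (by positivity)
    have b3 : 2 * (|N| + t) * n ≤ C' * n := mul_le_mul_of_nonneg_right hCN hn0
    have b4 : 0 ≤ (|N| + t) * n := by positivity
    linarith

/-- one tower -/
theorem rc_rr_one (h0 : 0 < η) (h1 : η < 1) (hΓ : 0 < (rndCl η).Gam) (W : RcTw η p) {C A C' : ℕ} {τ ε t N Q : ℝ} (h : W.Ok (W.q - 1) C A τ)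
    (ht : 0 < t) (hQ : Q = (W.q : ℝ) + 1) (hτ0 : 0 < τ) (hτ1 : τ ≤ 1) (hτQ : τ * Q ≤ t / 8) (hε0 : 0 < ε) (hεQ : ε * Q = t / 4)
    (hC4 : (4 : ℝ) ≤ C') (hCN : 2 * (|N| + t) ≤ C') (hbig : Q * (Q / t + 1) ≤ W.E.n) {l : ℕ} (hl0 : 0 < l) (hl : l < W.q) {V : ℕ → Set p.Om}
    (hV : ∀ I, MeasurableSet (V I))
    (tail : ∀ κ' : ℝ, 1 / (2 * Q) * (W.E.n : ℝ) ≤ ((W.E.kf - W.dp l : ℕ) : ℝ) → W.E.s ^ (C' : ℝ) * W.E.ka ≤ κ' → κ' ≤ W.E.s ^ (-(C' : ℝ)) * W.E.ka →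
      2 * W.be l ≤ κ' →
      (W.xr l V).rd ≤ 2 ^ (-((1 / 2 - (rndCl η).Gam - ε) * ((W.E.kf - W.dp l : ℕ) : ℝ))) * Real.sqrt κ' * (W.em l V + W.E.s ^ (C' : ℝ) * W.E.e)) :
    W.fm (fun J => V (W.aI l J)) ≤ W.tl t * W.Eb W.q * (W.em l V / W.Eb l) ^ (2 / 3 : ℝ) + W.tl (-N) * W.Eb W.q := by
  have hG := rt_gen_cl η h0 h1
  have hpp1 : 1 ≤ (rndCl η).p0f := gn_p0f_ge _ 1 hG hΓ
  have hpp3 : (rndCl η).p0f ≤ 3 := by
    have := gn_p0f_le _ 1 hG hΓ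
    linarith
  obtain ⟨hd0, hd1⟩ := gn_d0f_le _ 1 hG hΓ
  have hVal := rc_rr_valid W h hl hV
  have hVX : W.X.Valid := rc_tw_valid W h le_rfl
  have he : 0 < W.E.e := hVX.e_pos
  have hka : 0 < W.E.ka := hVX.ka_pos
  have hn1 := h.n_lo
  have ekf : ((W.E.kf - W.dp l : ℕ) : ℝ) = ((W.q : ℝ) - l) * W.m := by
    rw [rc_tw_kf_sub W hn1 hl.le]
    push_cast [Nat.cast_sub hl.le]
    ring
  have edp : ((W.dp l - W.E.k0 : ℕ) : ℝ) = (W.E.n : ℝ) - W.q * W.m + l * W.m := by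
    rw [rc_tw_dp_sub W hn1 l]
    push_cast [Nat.cast_sub hn1]
    ring
  obtain ⟨i1, i2, i3, i4, i5⟩ := rc_rr_ineq (q := W.q) (m := W.m) (n := W.E.n) (l := l) (d := (rndCl η).d0f) (pp := (rndCl η).p0f) (N := N) (C' := C')
    ht hQ hτ0 hτ1 hτQ hε0 hεQ hd0.le hd1 hpp1 hpp3 hC4 hCN (by exact_mod_cast hn1) (by exact_mod_cast h.n_hi.le) (by exact_mod_cast h.m_pos)
    (by exact_mod_cast hl0) (by exact_mod_cast hl) hbig
  obtain ⟨κ', hκ'⟩ : ∃ κ' : ℝ, κ' = W.E.ka * 2 ^ (-((rndCl η).p0f * ((W.E.n : ℝ) - W.q * W.m + l * W.m)) + τ * W.E.n + 1) := ⟨_, rfl⟩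
  have hκ : 2 * W.be l ≤ κ' := by
    have hb := h.be_hi l hl0 (by omega)
    rw [edp] at hb
    rw [hκ', gn_two_add _ 1, Real.rpow_one]
    linarith
  have tail' := tail κ' (by rw [ekf]; exact i1)
    (by
      rw [gn_s_rpow, hκ', mul_comm]
      exact mul_le_mul_of_nonneg_left (gn_two_mono i2) hka.le)
    (by
      rw [gn_s_rpow, hκ', mul_comm (2 ^ _) W.E.ka]
      exact mul_le_mul_of_nonneg_left (gn_two_mono i3) hka.le) hκ
  rw [ekf, gn_s_rpow, hκ'] at tail'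
  have htw : W.E.tw ≤ W.E.e / W.E.ka * 2 ^ (((rndCl η).p0f + (rndCl η).d0f + τ) * W.E.n) := by
    have := h.tw
    rw [gn_s_rpow] at this
    refine this.trans (le_of_eq ?_)
    congr 2
    ring
  rw [rc_rr_fm W h hl hV]
  unfold RcTw.tl RcTw.Eb
  exact rc_rr_num (τ := τ) (ε := ε) (n := W.E.n) (C' := C') (tw := W.E.tw) (rd := (W.xr l V).rd) (Γ := (rndCl η).Gam) (pp := (rndCl η).p0f)
    (κ := W.E.ka) he hka
    (Finset.sum_nonneg fun I _ => gn_ms_nonneg _ _ _ _ _) (Finset.sum_nonneg fun a _ => gn_m_nonneg _ hVal a) (gn_rd_nonneg _ hVal)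
    (Finset.sum_nonneg fun a _ => (hVX.w_pos a).le) rfl hd0.le (by positivity) (by positivity) (rc_hold _ hVal) htw tail' i4 i5

/-- **RAR** = lem:rt-laws, classical -/
theorem rc_rr_main (η : ℝ) (h0 : 0 < η) (h1 : η < 1) (hΓ : 0 < (rndCl η).Gam) (q : ℕ) (t N : ℝ) (ht : 0 < t) :
    ∃ τ : ℝ, 0 < τ ∧ ∀ C : ℕ, ∃ A0 n0 : ℕ, ∀ (A : ℕ) (p : RdClPar) (W : RcTw η p), A0 ≤ A → W.q = q → n0 ≤ W.E.n → W.Ok (q - 1) C A τ →
      ∀ l, 0 < l → l < W.q → ∀ V : ℕ → Set p.Om, (∀ I, MeasurableSet (V I)) →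
        W.fm (fun J => V (W.aI l J)) ≤ W.tl t * W.Eb W.q * (W.em l V / W.Eb l) ^ (2 / 3 : ℝ) + W.tl (-N) * W.Eb W.q := by
  obtain ⟨Q, hQ⟩ : ∃ Q : ℝ, Q = (q : ℝ) + 1 := ⟨_, rfl⟩
  have hQ0 : 0 < Q := by rw [hQ]; positivity
  obtain ⟨τ, hτ⟩ : ∃ τ : ℝ, τ = min 1 (t / (8 * Q)) := ⟨_, rfl⟩
  obtain ⟨ε, hε⟩ : ∃ ε : ℝ, ε = t / (4 * Q) := ⟨_, rfl⟩
  have hτ0 : 0 < τ := by rw [hτ]; positivity
  have hε0 : 0 < ε := by rw [hε]; positivity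
  have hτ1 : τ ≤ 1 := by rw [hτ]; exact min_le_left _ _
  have hτQ : τ * Q ≤ t / 8 := by
    have : τ ≤ t / (8 * Q) := by rw [hτ]; exact min_le_right _ _
    calc τ * Q ≤ t / (8 * Q) * Q := mul_le_mul_of_nonneg_right this hQ0.le
      _ = t / 8 := by field_simp
  have hεQ : ε * Q = t / 4 := by rw [hε]; field_simp
  refine ⟨τ, hτ0, fun C => ?_⟩
  obtain ⟨C', hC'⟩ : ∃ C' : ℕ, C' = max (C + 1) (max 4 ⌈2 * (|N| + t)⌉₊) := ⟨_, rfl⟩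
  have hC1 : C + 1 ≤ C' := by rw [hC']; exact le_max_left _ _
  have hC4 : (4 : ℝ) ≤ C' := by
    have : 4 ≤ C' := by rw [hC']; exact le_trans (le_max_left _ _) (le_max_right _ _)
    exact_mod_cast this
  have hCN : 2 * (|N| + t) ≤ C' := by
    have : ⌈2 * (|N| + t)⌉₊ ≤ C' := by rw [hC']; exact le_trans (le_max_right _ _) (le_max_right _ _)
    exact (Nat.le_ceil _).trans (by exact_mod_cast this)
  obtain ⟨A', n', H⟩ := rc_rr_tail η h0 h1 C' (1 / (2 * Q)) ε (by positivity) hε0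
  refine ⟨A', max n' ⌈Q * (Q / t + 1)⌉₊, fun A p W hA hq hn hW l hl0 hl V hV => ?_⟩
  have hWq : W.Ok (W.q - 1) C A τ := by rw [hq]; exact hW
  have hnbig : Q * (Q / t + 1) ≤ W.E.n := by
    have : ⌈Q * (Q / t + 1)⌉₊ ≤ W.E.n := le_trans (le_max_right _ _) hn
    exact (Nat.le_ceil _).trans (by exact_mod_cast this)
  refine rc_rr_one h0 h1 hΓ W hWq ht (by rw [hQ, hq]) hτ0 hτ1 hτQ hε0 hεQ hC4 hCN hnbig hl0 hl hV fun κ' k1 k2 k3 k4 => ?_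
  have tail := H p (W.xr l V) (le_trans (le_max_left _ _) hn) (rc_rr_cls h0 h1 W hWq hl hV hC1 hA) (W.dp l) 0
    (W.stk l ++ [(⟨W.dp l, 0, rcMv V⟩ : Stg (p.sys η))]) (W.stk2 l (W.q - 1)) κ' (rc_rr_cut' W hWq hl V) k1 (Nat.zero_le _) k2 k3
    (fun I hI => ⟨rc_pl 0 _, rc_rr_reg W hWq hl0 hl hV hI k4⟩)
  have esum : ∑ I ∈ ivs W.E.k0 W.E.i0 (W.dp l), ‖(W.xr l V).at' (W.dp l) I (W.stk l ++ [(⟨W.dp l, 0, rcMv V⟩ : Stg (p.sys η))])‖ ^ 2 = W.em l V :=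
    Finset.sum_congr rfl fun I _ => rc_rr_norm W l I hV
  rw [← esum]
  exact tail

end Claimed.Agent.R256
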