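-- KEEP
import Claimed.Agent.R256.Rc.TowB
import Claimed.Agent.R256.Rc.FdTot
import Claimed.Agent.R256.Rc.FdTime
import Claimed.Agent.R256.Rc.XRar
import Claimed.Agent.R256.Rc.FdExc
import Claimed.Agent.R256.Rc.FdCnt

/-!
# Row 256, unit RC, block (I-cl): EXITS of the blocks RAR and FIELDS      (chief helper106; block architect helper123; prefix `rc_`)

All statements: `RcAll η q Φ` = `∃ τ > 0, ∀ C, ∃ A0 n0, ∀ A ≥ A0, ∀ p W, W.q = q → n0 ≤ n → W.Ok (q-1) C A τ → Φ p W`.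
NUMERICS.   `q m ≤ n < q (m+1) ≤ 2 q m`;   `2^(τ n) ≤ tl (2 q τ)`;   constants `c ≤ tl t` as soon as `m ≥ log₂ c / t` (`n0`);   `dp i - k0 = (n - q m) + i m ∈ [i m, i m + q)`;   `p := p0f ∈ [1, 3]`, `d := d0f ∈ (0, 1]`, `2Γ - 1 = 2d - p`.
 `rc_rar`     lem:rt-laws, classical (rarity transfer from the cut `l` to the final law)        EST 550 l.
 `rc_p_tot`   (CE) at the terminal cut, lower half                                              EST 200 l.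
 `rc_p_sh`    polynomial setup                                                                  EST 200 l.
 `rc_p_exc`   (excess)                                                                          EST 350 l.
 `rc_p_cnt`   the terminal weight count                                                         EST 450 l.
 `rc_p_mem`   lem:rt-memory                                                                     EST 400 l.
 `rc_p_time`  lem:rt-time                                                                       EST 400 l.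
-/

set_option autoImplicit false

namespace Claimed.Agent.R256

open MeasureTheory
open scoped BigOperators
open Classical

/-- the rarity transfer of a tower -/
def RcTw.Rar {η : ℝ} {p : RdClPar} (W : RcTw η p) (t N : ℝ) : Prop :=
  ∀ l, 0 < l → l < W.q → ∀ V : ℕ → Set p.Om, (∀ I, MeasurableSet (V I)) →
    W.fm (fun J => V (W.aI l J)) ≤ W.tl t * W.Eb W.q * (W.em l V / W.Eb l) ^ (2 / 3 : ℝ) + W.tl (-N) * W.Eb W.q

theorem rc_xfld_eqns_cite : True := by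
  have := @RcTw.Rar.eq_1
  trivial

/-- **RAR** = lem:rt-laws, classical.
PLAN.   `X' := W.X.ins (dp l) 0 (stk l) ((stk (q-1)).drop l) (fun I => 1_(V I))` (one more mask at the cut `l`).
 1 `fm (V ∘ aI l) = X'.tm`: termwise `rc_en_run`; the two weights agree pointwise (`1_V² = 1_V`; `ancI kf (dp l) (iv l) = aI l (iv l)`).
 2 `rc_hold`: `X'.tm ≤ X'.rd^(2/3) tw^(1/3)`, `X'.tw = E.tw ≤ (e/κ) 2^((p+d+τ) n)` (`Ok.tw`).
 3 `gn_tail` (rate `Γ`, `gn_rate_gam`; `a0 = 1/(2q)`, `ε`) for `X'` in the ENLARGED package `C' = max (C+1) (max 4 ⌈2N⌉)` (`gn_ins_cls`, `gn_cls_mono`) at the cut `dp l`, `st1 = stk l ++ [1_V]`, `b' = 0` (`rc_pl`),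
   `κ' := κ 2^(-p (dp l - k0) + τ n + 1)` (`≥ 2 β_l` by `Ok.be_hi`; polynomial): regularity by `rc_st_reg` and `ms (cell) (1_V ψ) ≤ ms (cell) ψ`;   `Σ_I ‖at'‖² = em l V` (`rc_norm_sq`, `rc_en_mulR`):
   `X'.rd ≤ 2^(-(1/2 - Γ - ε)(q-l) m) √κ' (em l V + s^C' e)`.
 4 exponents: `(2Γ-1)(q-l) m - p l m + (p+d) q m = 3 d q m - 2 d l m`;   `tm³ ≤ 2^(small) (Eb q)³ ((em + s^C' e)/Eb l)²`, `small = (2ε + 2τ) n + O(q)`;   `(x+y)^(2/3) ≤ x^(2/3) + y^(2/3)`;   `(s^C' e / Eb l)^(2/3) ≤ 2^(-(2/3) C' n) ≤ tl (-N - t)`. -/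
theorem rc_rar (η : ℝ) (h0 : 0 < η) (h1 : η < 1) (hΓ : 0 < (rndCl η).Gam) (q : ℕ) (t N : ℝ) (ht : 0 < t) : RcAll η q fun _ W => W.Rar t N :=
  rc_rr_main η h0 h1 hΓ q t N ht

/-- **TOT**.   PLAN: `ft = W.X.tm` (`U = univ`: `Set.indicator_univ`).   Masks decrease: `X.m l ≤ E.m l ≤ κ w_l s^(p-τ)` (`rc_en_run`, `rc_wt_mask`, `gn_en_mono`; `Ok.hom`).   `gn_tr_le`: `rd ≤ √(κ s^(p-τ)) tm`.
`Ok.cert` at `i = q-1`: `2^((Γ-τ) n) ≤ 2^(n/2)/(e √κ) rd`.   So `tm ≥ e 2^((Γ + (p-1)/2 - 3τ/2) n) = e 2^((d - 3τ/2) n) ≥ Eb q · 2^(-(3τ/2) n)` (`n ≥ q m`, `d > 0`). -/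
theorem rc_p_tot (η : ℝ) (h0 : 0 < η) (h1 : η < 1) (hΓ : 0 < (rndCl η).Gam) (q : ℕ) (t : ℝ) (ht : 0 < t) :
    RcAll η q fun _ W => W.tl (-t) * W.Eb W.q ≤ W.ft :=
  rc_pt_main η h0 h1 hΓ q t ht

/-- **SH**: the offset is bounded in terms of the package.
PLAN: `Ok.cert` gives a label `l` (`gn_val_nolabel`).   It is heavy: `s^5 κ w_l < κ w_l s^(p+τ) ≤ m_l ≤ ms (cell)` (`Ok.hom`, `p + τ ≤ 4`, `gn_en_le_ms`), `st' = []`, `k = kf`.   `rt_poly_cl C 5` gives `D'`: `s^D' e ≤ κ r_l⁴ < 16 κ R0⁴`.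
So `e/(κ R0⁴) ≤ 2^(4 + D' n)`, `logb 2 (..) / m ≤ (4 + D' n)/m ≤ 4 + 2 q D' =: c0`. -/
theorem rc_p_sh (η : ℝ) (h0 : 0 < η) (h1 : η < 1) (hΓ : 0 < (rndCl η).Gam) (q C : ℕ) :
    ∃ (c0 : ℝ) (A0 n0 : ℕ), ∀ (A : ℕ) (p : RdClPar) (W : RcTw η p) (τ : ℝ), A0 ≤ A → τ ≤ 1 → W.q = q → n0 ≤ W.E.n → W.Ok (q - 1) C A τ →
      Real.logb 2 (W.E.e / (W.E.ka * W.R0 ^ 4)) / W.m ≤ c0 := by
  obtain ⟨D', A1, n1, H⟩ := rt_poly_cl η h0 h1 C 5
  refine ⟨4 + 2 * (q : ℝ) * (D' : ℝ), A1, max n1 1, fun A p W τ hA hτ hq hn hOk => ?_⟩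
  have hn1 : n1 ≤ W.E.n := (le_max_left _ _).trans hn
  have hn2 : 1 ≤ W.E.n := (le_max_right _ _).trans hn
  have hEx : W.Ex 0 = W.E := by
    have hf := hOk.free
    unfold RcTw.Ex RcTw.stk Xp.withSt
    simp only [List.range_zero, List.map_nil]
    rw [← hf]
  have hcls : (rndCl η).Cls C A1 p W.E := by
    have := hOk.cls 0 (Nat.zero_le _)
    rw [hEx] at this
    exact gn_cls_anti _ (rt_scale_cl η) hA this
  have hval := hcls.2.1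
  have hcert := hOk.cert 0 (Nat.zero_le _)
  rw [hEx] at hcert
  have hL : W.E.L ≠ 0 := by
    intro h
    rw [gn_val_nolabel _ h] at hcert
    exact absurd hcert (not_le.2 (Real.rpow_pos_of_pos (by norm_num) _))
  let l : Fin W.E.L := ⟨0, Nat.pos_of_ne_zero hL⟩
  have hs0 : 0 < W.E.s := gn_s_pos _
  have hs1 : W.E.s < 1 := by
    unfold Xp.s
    exact pow_lt_one₀ (by norm_num) (by norm_num) (by omega)
  have hp3 : (rndCl η).p0f ≤ 3 := by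
    have := gn_p0f_le (rndCl η) 1 (rt_gen_cl η h0 h1) hΓ
    linarith
  have hka := hval.ka_pos
  have he := hval.e_pos
  have hw := hval.w_pos l
  have hheavy : W.E.s ^ ((5 : ℕ) : ℝ) * (W.E.ka * (p.sys η).wt (W.E.ts l))
      < (p.sys η).ms (tmL W.E.kf (W.E.iv l)) W.E.kf W.E.bT ((p.sys η).cell (W.E.ts l) (tmL W.E.kf (W.E.iv l)) W.E.kf)
        (Xp.run W.E.kf (W.E.iv l) [] W.E.v) := by
    have a1 := (hOk.hom l).1
    have a2 := gn_m_le_ms (rt_tight_cl η p) W.E hval l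
    have a3 : W.E.fin (W.E.iv l) = Xp.run W.E.kf (W.E.iv l) [] W.E.v := by
      unfold Xp.fin
      rw [hOk.free]
    rw [a3] at a2
    refine lt_of_lt_of_le ?_ (a1.trans a2)
    have a4 : W.E.s ^ ((5 : ℕ) : ℝ) < W.E.s ^ ((rndCl η).p0f + τ) :=
      Real.rpow_lt_rpow_of_exponent_gt hs0 hs1 (by push_cast; linarith)
    have a5 : 0 < W.E.ka * W.E.w l := mul_pos hka hw
    calc W.E.s ^ ((5 : ℕ) : ℝ) * (W.E.ka * (p.sys η).wt (W.E.ts l)) = W.E.ka * W.E.w l * W.E.s ^ ((5 : ℕ) : ℝ) := by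
          unfold Xp.w
          ring
      _ < W.E.ka * W.E.w l * W.E.s ^ ((rndCl η).p0f + τ) := mul_lt_mul_of_pos_left a4 a5
  have hst : StOk (P := p.sys η) W.E.k0 W.E.kf C C [] :=
    ⟨by simp, by simp, List.Pairwise.nil, by simp, by simp⟩
  obtain ⟨b1, -, -⟩ := H p W.E hn1 hcls W.E.kf (W.E.iv l) W.E.bT [] (W.E.ts l) (Nat.le_add_right _ _) le_rfl (hval.iv_in l)
    hcls.2.2.2.1.2.1 hst (hval.ts_ok l) hheavy
  obtain ⟨c1, c2, -⟩ := hOk.shape l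
  have hR0 := hOk.R0_pos
  change W.E.s ^ (D' : ℝ) * W.E.e ≤ W.E.ka * (rcT (W.E.ts l)).r ^ 4 at b1
  set r : ℝ := (rcT (W.E.ts l)).r with hr
  have hr4 : r ^ 4 ≤ 16 * W.R0 ^ 4 := by
    have : r ^ 4 ≤ (2 * W.R0) ^ 4 := pow_le_pow_left₀ (hR0.le.trans c1) c2.le 4
    calc r ^ 4 ≤ (2 * W.R0) ^ 4 := this
      _ = 16 * W.R0 ^ 4 := by ring
  have hden : 0 < W.E.ka * W.R0 ^ 4 := by positivity
  have hsD : 0 < W.E.s ^ (D' : ℝ) := Real.rpow_pos_of_pos hs0 _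
  have hmain : W.E.e / (W.E.ka * W.R0 ^ 4) ≤ (2 : ℝ) ^ (4 + (D' : ℝ) * W.E.n) := by
    rw [div_le_iff₀ hden]
    have e1 : (2 : ℝ) ^ (4 + (D' : ℝ) * W.E.n) = 16 * (W.E.s ^ (D' : ℝ))⁻¹ := by
      rw [gn_s_rpow, ← Real.rpow_neg (by norm_num), neg_neg, Real.rpow_add (by norm_num)]
      norm_num
    rw [e1]
    have e2 : W.E.s ^ (D' : ℝ) * W.E.e ≤ W.E.ka * (16 * W.R0 ^ 4) := b1.trans (mul_le_mul_of_nonneg_left hr4 hka.le)
    have e3 : W.E.e ≤ (W.E.s ^ (D' : ℝ))⁻¹ * (W.E.ka * (16 * W.R0 ^ 4)) := by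
      rw [← div_eq_inv_mul, le_div_iff₀ hsD]
      linarith
    linarith
  have hpos : 0 < W.E.e / (W.E.ka * W.R0 ^ 4) := div_pos he hden
  have hlog : Real.logb 2 (W.E.e / (W.E.ka * W.R0 ^ 4)) ≤ 4 + (D' : ℝ) * W.E.n := by
    rw [Real.logb_le_iff_le_rpow (by norm_num) hpos]
    exact hmain
  have hm : (1 : ℝ) ≤ W.m := by exact_mod_cast hOk.m_pos
  have hm0 : (0 : ℝ) < W.m := by linarith
  have hnm : (W.E.n : ℝ) ≤ 2 * (q : ℝ) * W.m := by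
    have h3 := hOk.n_hi
    rw [hq] at h3
    have h4 : (W.E.n : ℝ) ≤ (q : ℝ) * ((W.m : ℝ) + 1) := by exact_mod_cast h3.le
    have h5 : (q : ℝ) * ((W.m : ℝ) + 1) ≤ (q : ℝ) * (2 * W.m) := mul_le_mul_of_nonneg_left (by linarith) (Nat.cast_nonneg _)
    linarith
  rw [div_le_iff₀ hm0]
  have h6 : (D' : ℝ) * W.E.n ≤ (D' : ℝ) * (2 * (q : ℝ) * W.m) := mul_le_mul_of_nonneg_left hnm (Nat.cast_nonneg _)
  have h7 : (4 : ℝ) ≤ 4 * W.m := by linarith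
  calc Real.logb 2 (W.E.e / (W.E.ka * W.R0 ^ 4)) ≤ 4 + (D' : ℝ) * W.E.n := hlog
    _ ≤ 4 * W.m + (D' : ℝ) * (2 * (q : ℝ) * W.m) := by linarith
    _ = (4 + 2 * (q : ℝ) * (D' : ℝ)) * W.m := by ring

/-- **EXC** from RAR, TOT.
PLAN: `V_I := {ω | nmP i I ω ∈ V}` (`rc_nmP_meas`).   `em i V_· = Σ_I Σ_{x ∈ V, x.1 = I} ms {reNm .. = x.2} (st i I)` (disjoint fibres) `≤ card V · 2 β_i · 16 R0⁴`:
the cell of a name lies in ONE round test `rtRound ℓ_i (2 R0) cor(A) cor(b) ys`, `ys - 2 cor(A)·cor(b) = h ℓ_i R0²` (`|A - cor|² ≤ 2 R0²`, `|b - cor|² ≤ 2 (ℓ R0)²`, tilted height in `[0, ℓ R0²)`); it is admissible of weight `(2R0)⁴` (`rt_round_*`, `Rt/Tests.lean`); `rc_st_reg`.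
`β_i ≤ Kb i · 2^(τ n)` (`Ok.be_hi`, `dp i - k0 ≥ i m`).   `Rar (t/3) (N + t)`, `Eb q ≤ tl (t/3) ft`. -/
theorem rc_p_exc (η : ℝ) (h0 : 0 < η) (h1 : η < 1) (hΓ : 0 < (rndCl η).Gam) (q : ℕ) (t N : ℝ) (ht : 0 < t) : RcAll η q fun _ W => W.ExcP t N := by
  have hr := rc_rar η h0 h1 hΓ q (t / 4) (N + t) (by positivity)
  have ht' := rc_p_tot η h0 h1 hΓ q (t / 4) (by positivity)
  have he := rc_fe_all η h0 h1 hΓ q (t / 4) (by positivity)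
  obtain ⟨τ, hτ, H⟩ := rc_all_and (rc_all_and hr ht') he
  refine ⟨τ, hτ, fun C => ?_⟩
  obtain ⟨A0, n0, H⟩ := H C
  refine ⟨A0, n0, fun A p W hA hq hn hW => ?_⟩
  obtain ⟨⟨a1, a2⟩, a3⟩ := H A p W hA hq hn hW
  subst hq
  exact rc_fe_exc hW ht a1 a2 a3

/-- **CNT**.
PLAN: `L · R0⁴ s^τ ≤ Σ w_l = tw` (`Ok.shape`: `w_l = r⁴ f^(1-η) ≥ R0⁴ s^τ`), `Ok.tw`: `L ≤ (e/κ) 2^((p+d+2τ) n) / R0⁴`.
Every label meets `≤ 2^15 · 4^6` names: the rows of the cell lie in the box of the test: `ReNear 4 ℓ_q R0 (centre row) (co T ω)` (width `< 2 R0`); `re_list` (`Re/ProfGeo.lean`; `reGn l R R R = reNm l R`: see the bridge lemmas there).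
`Vq := ⋃_l {iv l} × Lst (name of the centre of `ts l`)`.   `2^((p+d) n) ≤ 2^((p+d) q m) 2^(4q)`. -/
theorem rc_p_cnt (η : ℝ) (h0 : 0 < η) (h1 : η < 1) (hΓ : 0 < (rndCl η).Gam) (q : ℕ) (t : ℝ) (ht : 0 < t) : RcAll η q fun _ W => W.CntP t := by
  exact rc_fc_cnt η h0 h1 hΓ q t ht

/-- **MEM** = lem:rt-memory.
PLAN: `x = (J0, c)`: the event forces `J = J0`.   `rc_fm_pt` at the cut `a = q - w`: `fm ≤ ms U (st a I)`, `I = aI a J0`, `U = {reNm ℓ_q R0 (co T_J0 ω) = c ∧ anP w ω = v}`.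
`rc_ang_cover` (`Rc/Plane.lean`): `k = dp a`, `k' = kf`, `Q` = the round test of width `2 R0` around the cell `c` (as in EXC), `a0` = corner of the angular cell `v`, `ϱ = 2 R_w`, `s = T_J0 - T_I ∈ [0, ℓ_a]`; `Q.r ℓ_q = 2 R0 ℓ_q = ϱ ℓ_a` (`ℓ_a = 2^(w m) ℓ_q`).
Weight `≤ 2^12 (16 R_w⁴ + 16 R0 R_w³) ≤ 2^17 R0⁴ tl (-3w)`.   `rc_cover_ms` with `κ = 2 β_a` (`rc_st_reg`), `co T_J0 ω = (co T_I ω).flow s` (`rt_fc_flow_flow`).   `β_a ≤ Kb a 2^(τ n)`. -/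
theorem rc_p_mem (η : ℝ) (h0 : 0 < η) (h1 : η < 1) (hΓ : 0 < (rndCl η).Gam) (q : ℕ) (t : ℝ) (ht : 0 < t) : RcAll η q fun _ W => W.MemP t := by
  exact rc_fm_mem η h0 h1 hΓ q t ht

/-- **TIME** = lem:rt-time, from RAR, TOT.
PLAN: `V_I' := {ω | I' ∈ Lst (ancI (dp l) (dp i) I') ω}`; `aI i J = ancI (dp l) (dp i) (aI l J)`.   `em l V ≤ Σ_{I'} ms V_I' (st i (anc I'))` (`rc_st_le`) `= Σ_{I ∈ iv i} Σ_{I' below I} ms {I' ∈ Lst I ω} (st i I)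
= Σ_I en (ω ↦ #(Lst I ω ∩ below I)) (st i I) ≤ G Σ_I ‖st i I‖² ≤ G · e 2^(d (dp i - k0) + τ n)` (`rc_st_sum`) `≤ G · Eb i · 2^(q + τ n)`.   `Rar (t/3) (N + t)`, `Eb q ≤ tl (t/3) ft`. -/
theorem rc_p_time (η : ℝ) (h0 : 0 < η) (h1 : η < 1) (hΓ : 0 < (rndCl η).Gam) (q : ℕ) (t N : ℝ) (ht : 0 < t) : RcAll η q fun _ W => W.TimeP t N := by
  obtain ⟨τ1, hτ1, H1⟩ := rc_all_and (rc_rar η h0 h1 hΓ q (t / 4) (N + t) (by positivity)) (rc_p_tot η h0 h1 hΓ q (t / 4) (by positivity))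
  refine ⟨min τ1 (t / (16 * ((q : ℝ) + 1))), lt_min hτ1 (by positivity), fun C => ?_⟩
  obtain ⟨A1, n1, H1⟩ := H1 C
  refine ⟨A1, max n1 (q * (⌈8 * (q : ℝ) / t⌉₊ + 1)), fun A p W hA hq hn hW => ?_⟩
  obtain ⟨hr, htot⟩ := H1 A p W hA hq (le_trans (le_max_left _ _) hn) (rc_tw_ok_mono W hW (min_le_left _ _))
  subst hq
  have hW2 := rc_tw_ok_mono W hW (min_le_right _ _)
  have hm : 8 * (W.q : ℝ) / t ≤ W.m := by
    have a1 := rc_fm_m_gt hW2 _ (le_trans (le_max_right _ _) hn)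
    have a2 : (⌈8 * (W.q : ℝ) / t⌉₊ : ℝ) ≤ W.m := by exact_mod_cast a1.le
    exact (Nat.le_ceil _).trans a2
  exact rc_ft_time h0 h1 hΓ ht hW2 hm hr htot

end Claimed.Agent.R256
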