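import Claimed.Agent.R256.Rc.Slb
import Claimed.Agent.R256.Rc.XFld

/-!
# Row 256, unit RC, block SLB-cl (classical lem:rt-slab-removal, 08 l.866-885), file 3: THE EXIT      (architect helper159; prefix `rc_sl_`)

  NUM   `rc_sl_n_*`      pure arithmetic of the mesh `q m ≤ n < q (m+1)` and of the step lengths
  E     `rc_sl_e_*`      the restricted experiment `W.X.rs U` of a tower: class, shapes, cut depths, Hoelder
  B     `rc_sl_mB`       mass of the hit particles with a large discriminant      (`rc_sm_compB`, `rc_sm_mass`)      step `n_B = ⌊c m⌋`, `c = min es 1 / 40`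
  A     `rc_sl_mA`       mass of the hit particles with a small discriminant      (`rc_sm_compA`, `rc_sm_mass`)      step `n_A = min ⌊ξ' n⌋ m`, `P = 2^(ξ' n)`
  EXIT  `rc_sl_main`     `∃ ts > 0, RcAll η q (SlabP 3 es ts)`      (`rc_p_tot` for the total mass);   linked as `rc_p_slab` in `Rc/XSlab.lean`
-/

set_option autoImplicit false

namespace Claimed.Agent.R256

open MeasureTheory
open scoped BigOperators
open Classical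

/-! ## NUM. arithmetic -/

theorem rc_sl_n_len (a : ℕ) : rdLen a = (2 : ℝ) ^ (-(a : ℝ)) := by
  unfold rdLen
  rw [gn_two_neg, gn_two_nat, inv_pow]

theorem rc_sl_n_large (q : ℕ) (K : ℝ) : ∃ n0 : ℕ, ∀ n m : ℕ, n0 ≤ n → n < q * (m + 1) → K ≤ m := by
  refine ⟨q * (⌈K⌉₊ + 1), fun n m hn h => ?_⟩
  have h1 : q * (⌈K⌉₊ + 1) < q * (m + 1) := lt_of_le_of_lt hn h
  have h2 : ⌈K⌉₊ + 1 < m + 1 := lt_of_mul_lt_mul_left h1 (Nat.zero_le _)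
  have h3 : ⌈K⌉₊ ≤ m := by omega
  exact (Nat.le_ceil K).trans (by exact_mod_cast h3)

theorem rc_sl_n_two {q m n : ℕ} (hm : 0 < m) (h2 : n < q * (m + 1)) : (n : ℝ) ≤ 2 * q * m := by
  have h3 : n ≤ 2 * q * m := by
    have : q ≤ q * m := Nat.le_mul_of_pos_right _ hm
    nlinarith
  exact_mod_cast h3

theorem rc_sl_n_half {q m n : ℕ} (hq : 5 ≤ q) (h1 : q * m ≤ n) {nB : ℕ} (hB : nB ≤ m) : (n : ℝ) / 2 ≤ ((n - nB : ℕ) : ℝ) := by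
  have h3 : 5 * m ≤ n := le_trans (Nat.mul_le_mul_right _ hq) h1
  have h4 : nB ≤ n := by omega
  rw [Nat.cast_sub h4]
  have h5 : (5 : ℝ) * m ≤ n := by exact_mod_cast h3
  have h6 : (nB : ℝ) ≤ m := by exact_mod_cast hB
  have h7 : (0 : ℝ) ≤ m := Nat.cast_nonneg _
  linarith

theorem rc_sl_n_B {q m n : ℕ} {c : ℝ} (hq : 5 ≤ q) (hm : 0 < m) (h1 : q * m ≤ n) (h2 : n < q * (m + 1)) (hc0 : 0 < c) (hc1 : c ≤ 1 / 40)
    (hmc : 2 / c ≤ m) :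
    ⌊c * m⌋₊ ≤ m ∧ c / (4 * q) * n ≤ (⌊c * m⌋₊ : ℝ) ∧ c / (4 * q) * n ≤ ((n - ⌊c * m⌋₊ : ℕ) : ℝ) := by
  have hm0 : (0 : ℝ) < m := by exact_mod_cast hm
  have hq0 : (5 : ℝ) ≤ q := by exact_mod_cast hq
  have hn0 : (0 : ℝ) ≤ n := Nat.cast_nonneg _
  have a1 : ⌊c * m⌋₊ ≤ m := by
    have : (⌊c * m⌋₊ : ℝ) ≤ m := (Nat.floor_le (by positivity)).trans (by nlinarith)
    exact_mod_cast this
  have a2 := rc_sl_n_two hm h2
  have a3 : 2 ≤ c * m := by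
    rw [div_le_iff₀ hc0] at hmc
    linarith
  have a4 : c * m - 1 < (⌊c * m⌋₊ : ℝ) := Nat.sub_one_lt_floor _
  have a5 : c / (4 * q) * n ≤ c * m / 2 := by
    rw [div_mul_eq_mul_div, div_le_iff₀ (by positivity)]
    nlinarith
  refine ⟨a1, by linarith, le_trans ?_ (rc_sl_n_half hq h1 a1)⟩
  have a6 : c / (4 * q) ≤ 1 / 2 := by
    rw [div_le_iff₀ (by positivity)]
    nlinarith
  nlinarith

theorem rc_sl_n_wB {m S nB : ℕ} {es c : ℝ} (hS : 0 < S) (hes : 0 < es) (hc : 40 * c ≤ es) (hnB : (nB : ℝ) ≤ c * m) (hm : 2 / es ≤ m) :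
    2 * (2 : ℝ) ^ (-(es * S) * m) ≤ rdLen nB ^ 20 := by
  have hS1 : (1 : ℝ) ≤ S := by exact_mod_cast hS
  have hm0 : (0 : ℝ) ≤ m := Nat.cast_nonneg _
  have a3 : 2 ≤ es * m := by
    rw [div_le_iff₀ hes] at hm
    linarith
  have e1 : rdLen nB ^ 20 = (2 : ℝ) ^ (-(nB : ℝ) * 20) := by
    rw [rc_sl_n_len, ← gn_two_mul]
    norm_cast
  have e2 : 2 * (2 : ℝ) ^ (-(es * S) * m) = 2 ^ (1 + -(es * S) * m) := by
    rw [gn_two_add, Real.rpow_one]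
  rw [e1, e2]
  apply gn_two_mono
  have : es * m ≤ es * S * m := by nlinarith [mul_nonneg hes.le hm0]
  nlinarith

theorem rc_sl_n_A {q m n : ℕ} {ξ : ℝ} (hq : 5 ≤ q) (hm : 0 < m) (h1 : q * m ≤ n) (h2 : n < q * (m + 1)) (hξ : 0 < ξ) (hn : 2 / ξ ≤ n) :
    min (ξ / 2) (1 / (2 * q)) * n ≤ ((min ⌊ξ * n⌋₊ m : ℕ) : ℝ) ∧ min (ξ / 2) (1 / (2 * q)) * n ≤ ((n - min ⌊ξ * n⌋₊ m : ℕ) : ℝ) := by
  have hm0 : (0 : ℝ) < m := by exact_mod_cast hm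
  have hq0 : (5 : ℝ) ≤ q := by exact_mod_cast hq
  have hn0 : (0 : ℝ) ≤ n := Nat.cast_nonneg _
  have a2 := rc_sl_n_two hm h2
  have a3 : 2 ≤ ξ * n := by
    rw [div_le_iff₀ hξ] at hn
    linarith
  have a4 : ξ * n - 1 < (⌊ξ * n⌋₊ : ℝ) := Nat.sub_one_lt_floor _
  constructor
  · rw [Nat.cast_min]
    refine le_min ?_ ?_
    · have := mul_le_mul_of_nonneg_right (min_le_left (ξ / 2) (1 / (2 * q))) hn0
      linarith
    · refine le_trans (mul_le_mul_of_nonneg_right (min_le_right (ξ / 2) (1 / (2 * q))) hn0) ?_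
      rw [div_mul_eq_mul_div, div_le_iff₀ (by positivity)]
      linarith
  · refine le_trans ?_ (rc_sl_n_half hq h1 (min_le_right _ _))
    refine le_trans (mul_le_mul_of_nonneg_right (min_le_right (ξ / 2) (1 / (2 * q))) hn0) ?_
    have a6 : 1 / (2 * (q : ℝ)) ≤ 1 / 2 := by
      rw [div_le_iff₀ (by positivity)]
      nlinarith
    nlinarith

theorem rc_sl_n_rA {n nA : ℕ} {ξ τ R0 : ℝ} (hR : 0 < R0) (hτ : 0 ≤ τ) (hnA : (nA : ℝ) ≤ ξ * n) :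
    R0 * (32 / 2 ^ (ξ * n)) ≤ 32 * 2 ^ (τ * n) * R0 * rdLen nA := by
  have hK : (1 : ℝ) ≤ 2 ^ (τ * n) := Real.one_le_rpow (by norm_num) (by positivity)
  have e1 : (32 : ℝ) / 2 ^ (ξ * n) = 32 * 2 ^ (-(ξ * n)) := by
    rw [gn_two_neg]
    rfl
  have h3 : (2 : ℝ) ^ (-(ξ * n)) ≤ rdLen nA := by
    rw [rc_sl_n_len]
    exact gn_two_mono (by linarith)
  have h4 := rdLen_pos nA
  rw [e1]
  calc R0 * (32 * 2 ^ (-(ξ * n))) ≤ R0 * (32 * rdLen nA) := by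
        refine mul_le_mul_of_nonneg_left ?_ hR.le
        linarith
    _ = 32 * 1 * R0 * rdLen nA := by ring
    _ ≤ 32 * 2 ^ (τ * n) * R0 * rdLen nA := by
        refine mul_le_mul_of_nonneg_right (mul_le_mul_of_nonneg_right ?_ hR.le) h4.le
        linarith

theorem rc_sl_n_wA {q m n S : ℕ} {es ξ : ℝ} (hq : 5 ≤ q) (hm0 : 0 < m) (h2 : n < q * (m + 1)) (hS : 0 < S) (hes : 0 < es) (hξ0 : 0 < ξ)
    (hξ : ξ ≤ es / (8 * q)) (hm : 6 / es ≤ m) : 2 * (2 : ℝ) ^ (-(es * S) * m) ≤ (1 / 2 ^ (ξ * n)) ^ 2 / 4 := by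
  have hS1 : (1 : ℝ) ≤ S := by exact_mod_cast hS
  have hmm : (0 : ℝ) < m := by exact_mod_cast hm0
  have hq0 : (5 : ℝ) ≤ q := by exact_mod_cast hq
  have a2 := rc_sl_n_two hm0 h2
  have a3 : 6 ≤ es * m := by
    rw [div_le_iff₀ hes] at hm
    linarith
  have e1 : (1 / (2 : ℝ) ^ (ξ * n)) ^ 2 / 4 = 2 ^ (-(ξ * n) * 2 + -2) := by
    have f1 : (2 : ℝ) ^ (-(ξ * n) * 2) = ((2 : ℝ) ^ (ξ * n))⁻¹ ^ 2 := by
      rw [← gn_two_mul (-(ξ * n)) 2, gn_two_neg]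
      norm_cast
    have f2 : (2 : ℝ) ^ (-2 : ℝ) = 1 / 4 := by
      rw [gn_two_neg]
      norm_num
    rw [gn_two_add, f1, f2, one_div]
    ring
  have e2 : 2 * (2 : ℝ) ^ (-(es * S) * m) = 2 ^ (1 + -(es * S) * m) := by
    rw [gn_two_add, Real.rpow_one]
  rw [e1, e2]
  apply gn_two_mono
  have b1 : es * m ≤ es * S * m := by nlinarith [mul_nonneg hes.le hmm.le]
  have b2 : ξ * n ≤ es * m / 4 := by
    have : ξ * (8 * q) ≤ es := by rwa [le_div_iff₀ (by positivity)] at hξ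
    have b3 : ξ * n ≤ ξ * (2 * q * m) := mul_le_mul_of_nonneg_left a2 hξ0.le
    nlinarith
  linarith

theorem rc_sl_n_fin {q m n : ℕ} {d σ τ e : ℝ} (he : 0 < e) (hd0 : 0 < d) (hd1 : d ≤ 1) (hσ : 0 < σ) (hτ : τ ≤ σ) (hq : 5 ≤ q) (h1 : q * m ≤ n)
    (h2 : n < q * (m + 1)) (hm : (1 + q) / (σ * q / 6) ≤ m) :
    2 * (e * 2 ^ ((d + τ / 3 - 2 * σ / 3) * n)) ≤ 2 ^ (-(σ * q / 12) * m) * (2 ^ (-(σ * q / 12) * m) * (e * 2 ^ (d * q * m))) := by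
  have hq0 : (5 : ℝ) ≤ q := by exact_mod_cast hq
  have hmm : (0 : ℝ) ≤ m := Nat.cast_nonneg _
  have c1 : (q : ℝ) * m ≤ n := by exact_mod_cast h1
  have c2 : (n : ℝ) ≤ q * (m + 1) := by exact_mod_cast h2.le
  have c3 : 1 + q ≤ m * (σ * q / 6) := by rwa [div_le_iff₀ (by positivity)] at hm
  have e1 : 2 * (e * (2 : ℝ) ^ ((d + τ / 3 - 2 * σ / 3) * n)) = e * 2 ^ (1 + (d + τ / 3 - 2 * σ / 3) * n) := by
    rw [gn_two_add, Real.rpow_one]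
    ring
  have e2 : (2 : ℝ) ^ (-(σ * q / 12) * m) * (2 ^ (-(σ * q / 12) * m) * (e * 2 ^ (d * q * m)))
      = e * 2 ^ (-(σ * q / 12) * m + (-(σ * q / 12) * m + d * q * m)) := by
    rw [gn_two_add, gn_two_add]
    ring
  rw [e1, e2]
  refine mul_le_mul_of_nonneg_left (gn_two_mono ?_) he.le
  have d1 : d * n ≤ d * (q * (m + 1)) := mul_le_mul_of_nonneg_left c2 hd0.le
  have d2 : d * q ≤ q := by nlinarith
  have d3 : (σ / 3) * (q * m) ≤ (σ / 3) * n := mul_le_mul_of_nonneg_left c1 (by positivity)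
  have d4 : (τ / 3 - 2 * σ / 3) * n ≤ -(σ / 3) * n := by
    refine mul_le_mul_of_nonneg_right ?_ (Nat.cast_nonneg _)
    linarith
  nlinarith

/-- `Kp = 32 · 2^(τ n)` -/
theorem rc_sl_n_K {n : ℕ} {ξ τ : ℝ} (hτ0 : 0 ≤ τ) (hτ : τ ≤ ξ / 2) (h32 : (32 : ℝ) ≤ 2 ^ (ξ / 2 * n)) :
    (2 : ℝ) ≤ 32 * 2 ^ (τ * n) ∧ 32 * 2 ^ (τ * n) ≤ (2 : ℝ) ^ (ξ * n) := by
  have hK : (1 : ℝ) ≤ 2 ^ (τ * n) := Real.one_le_rpow (by norm_num) (by positivity)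
  refine ⟨by linarith, ?_⟩
  have e : (2 : ℝ) ^ (ξ * n) = 2 ^ (ξ / 2 * n) * 2 ^ (ξ / 2 * n) := by
    rw [← gn_two_add]
    congr 1
    ring
  rw [e]
  exact mul_le_mul h32 (gn_two_mono (mul_le_mul_of_nonneg_right hτ (Nat.cast_nonneg _))) (gn_two_pos _).le (gn_two_pos _).le

/-! ## E. the restricted experiment of a tower -/

section E

variable {η : ℝ} {p : RdClPar} (W : RcTw η p) {C A : ℕ} {τ : ℝ}

theorem rc_sl_e_cls (h0 : 0 < η) (h1 : η < 1) (h : W.Ok (W.q - 1) C A τ) (U : ℕ → Set p.Om) (hU : ∀ J, MeasurableSet (U J)) {A' : ℕ} (hA : A' ≤ A) :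
    (rndCl η).Cls C A' p (W.X.rs U) := by
  have hG := rt_gen_cl η h0 h1
  exact gn_cls_anti _ hG.scale hA (rc_sl_rs_cls _ hG.root (h.cls (W.q - 1) le_rfl) U hU)

theorem rc_sl_e_shp (h : W.Ok (W.q - 1) C A τ) (U : ℕ → Set p.Om) (hτ : 0 ≤ τ) : rcShp (W.X.rs U) (32 * 2 ^ (τ * W.E.n)) W.R0 := by
  intro l
  obtain ⟨s1, s2, s3⟩ := h.shape l
  have hR := h.R0_pos
  have hK : (1 : ℝ) ≤ 2 ^ (τ * W.E.n) := Real.one_le_rpow (by norm_num) (by positivity)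
  refine ⟨le_trans ?_ s1, le_trans s2.le ?_, le_trans ?_ s3⟩
  · rw [div_le_iff₀ (by positivity)]
    nlinarith
  · nlinarith
  · rw [gn_s_rpow, gn_two_neg, one_div]
    refine inv_anti₀ (gn_two_pos _) ?_
    linarith [gn_two_pos (τ * W.E.n)]

/-- the depths of a cut at the distance `n' ≤ m` from the end -/
theorem rc_sl_e_cut (h : W.Ok (W.q - 1) C A τ) {n' b : ℕ} (hn : n' ≤ W.m) (hb : b < W.q) :
    W.dp b ≤ W.E.kf - n' ∧ W.E.kf - n' - W.E.k0 = W.E.n - n' ∧ W.E.kf - (W.E.kf - n') = n' := by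
  have h1 := rc_sl_dp_add W h (i := W.q - 1) (Nat.sub_le _ _)
  have e : W.q - (W.q - 1) = 1 := by omega
  rw [e, Nat.one_mul] at h1
  have h3 : W.dp b ≤ W.dp (W.q - 1) := rc_sl_dp_mono W (by omega)
  have h4 : W.E.kf = W.E.k0 + W.E.n := rfl
  refine ⟨by omega, by omega, by omega⟩

/-- Hoelder for the restricted experiment -/
theorem rc_sl_e_mass (h : W.Ok (W.q - 1) C A τ) (U : ℕ → Set p.Om) (hU : ∀ J, MeasurableSet (U J)) {σ : ℝ}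
    (hv : (W.X.rs U).val ≤ 2 ^ (((rndCl η).Gam - σ) * W.E.n)) :
    W.fm U ≤ W.E.e * 2 ^ (((rndCl η).d0f + τ / 3 - 2 * σ / 3) * W.E.n) := by
  have hV : (W.X.rs U).Valid := rc_sl_rs_valid _ (h.cls (W.q - 1) le_rfl).2.1 U hU
  exact rc_sm_mass (W.X.rs U) hV (rndCl η).Gam (rndCl η).p0f (rndCl η).d0f σ τ (by unfold Mdl.d0f; ring) hv h.tw

end E

/-! ## B. large discriminant -/

theorem rc_sl_mB (η : ℝ) (h0 : 0 < η) (h1 : η < 1) (hB : RcPlaneB η) (hΓ : 100 * η < (rndCl η).Gam) (q : ℕ) (hq : 5 ≤ q) (es : ℝ) (hes : 0 < es) :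
    ∃ ξ σ : ℝ, 0 < ξ ∧ 0 < σ ∧ ∀ C : ℕ, ∃ A0 n0 : ℕ, ∀ (A : ℕ) (p : RdClPar) (W : RcTw η p) (τ : ℝ), A0 ≤ A → W.q = q → n0 ≤ W.E.n → 0 ≤ τ → τ ≤ ξ / 2 →
      W.Ok (W.q - 1) C A τ → ∀ i S : ℕ, 0 < i → 0 < S → i + 3 * S < W.q → ∀ (pn : ReName × ReName → ℝ × ℝ × ℝ) (pc : ReName × ReName → ℝ),
      (∀ x, (pn x).1 ^ 2 + (pn x).2.1 ^ 2 + (pn x).2.2 ^ 2 = 1) → ∀ Pp : ℝ, 2 ≤ Pp → Pp ≤ 2 ^ (ξ * W.E.n) →
      W.fm (W.hitB i (i + 3 * S) pn pc (2 * W.tl (-(es * S))) ((1 / Pp) ^ 2)) ≤ W.E.e * 2 ^ (((rndCl η).d0f + τ / 3 - 2 * σ / 3) * W.E.n) := by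
  have hΓ0 : 0 < (rndCl η).Gam := by linarith
  have hq0 : (0 : ℝ) < q := by
    have : 0 < q := by omega
    exact_mod_cast this
  obtain ⟨c, hc⟩ : ∃ c : ℝ, c = min es 1 / 40 := ⟨_, rfl⟩
  have hc0 : 0 < c := by
    rw [hc]
    have : 0 < min es 1 := lt_min hes one_pos
    positivity
  have hc1 : c ≤ 1 / 40 := by
    rw [hc]
    have := min_le_right es 1
    linarith
  have hc2 : 40 * c ≤ es := by
    rw [hc]
    have := min_le_left es 1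
    linarith
  obtain ⟨ξ, hξ, H⟩ := rc_sm_compB η h0 h1 hB hΓ (c / (4 * q)) (by positivity)
  refine ⟨ξ, (rndCl η).Gam * (c / (4 * q)) / 2, hξ, by positivity, fun C => ?_⟩
  obtain ⟨A0, n1, H⟩ := H C
  obtain ⟨n2, hn2⟩ := gn_absorb 32 (ξ / 2) (by positivity)
  obtain ⟨n3, hn3⟩ := gn_absorb (2 ^ 66) ξ hξ
  obtain ⟨n4, hn4⟩ := rc_sl_n_large q (max (2 / c) (2 / es))
  refine ⟨A0, max n1 (max n2 (max n3 n4)), fun A p W τ hA hWq hn hτ0 hτ hW i S hi hS hiS pn pc hu Pp hP2 hP => ?_⟩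
  have hn1' : n1 ≤ W.E.n := le_trans (le_max_left _ _) hn
  have hn2' : n2 ≤ W.E.n := le_trans (le_trans (le_max_left _ _) (le_max_right _ _)) hn
  have hn3' : n3 ≤ W.E.n := le_trans (le_trans (le_trans (le_max_left _ _) (le_max_right _ _)) (le_max_right _ _)) hn
  have hn4' : n4 ≤ W.E.n := le_trans (le_trans (le_trans (le_max_right _ _) (le_max_right _ _)) (le_max_right _ _)) hn
  have hlo : q * W.m ≤ W.E.n := hWq ▸ hW.n_lo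
  have hhi : W.E.n < q * (W.m + 1) := hWq ▸ hW.n_hi
  have hmL := hn4 _ _ hn4' hhi
  obtain ⟨b1, b2, b3⟩ := rc_sl_n_B hq hW.m_pos hlo hhi hc0 hc1 (le_trans (le_max_left _ _) hmL)
  obtain ⟨nB, hnB⟩ : ∃ nB : ℕ, nB = ⌊c * W.m⌋₊ := ⟨_, rfl⟩
  rw [← hnB] at b1 b2 b3
  have b4 : (nB : ℝ) ≤ c * W.m := by
    rw [hnB]
    exact Nat.floor_le (by positivity)
  have hwd : 2 * W.tl (-(es * S)) ≤ rdLen nB ^ 20 := rc_sl_n_wB hS hes hc2 b4 (le_trans (le_max_right _ _) hmL)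
  obtain ⟨k1, k2⟩ := rc_sl_n_K hτ0 hτ (hn2 _ hn2')
  obtain ⟨b, hb⟩ : ∃ b : ℕ, b = i + 3 * S := ⟨_, rfl⟩
  rw [← hb] at hiS ⊢
  have hib : i ≤ b := by omega
  obtain ⟨c1, c2, c3⟩ := rc_sl_e_cut W hW b1 hiS
  obtain ⟨θ, hθ⟩ : ∃ θ : ℝ, θ = (1 / Pp) ^ 2 := ⟨_, rfl⟩
  rw [← hθ]
  have hθ1 : Pp ^ (-2 : ℝ) = θ := by
    rw [hθ, Real.rpow_neg (by linarith), one_div, inv_pow]
    norm_cast
  have hθ2 : θ ≤ 1 := by
    rw [hθ]
    refine pow_le_one₀ (by positivity) ?_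
    rw [div_le_one (by linarith)]
    linarith
  obtain ⟨U, hU⟩ : ∃ U, U = W.hitB i b pn pc (2 * W.tl (-(es * S))) θ := ⟨_, rfl⟩
  rw [← hU]
  have hUm : ∀ J, MeasurableSet (U J) := by
    intro J
    rw [hU]
    exact rc_sl_hitB_meas W hW hib hiS.le pn pc _ _ J
  refine rc_sl_e_mass W hW U hUm ?_
  have hth : ∀ (l : Fin W.E.L) (ω : p.Om), (W.X.rs U).th l ω ≠ 0 → ω ∈ W.hitB i b pn pc (2 * W.tl (-(es * S))) θ (W.E.iv l) ∧ W.E.th l ω ≠ 0 := by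
    intro l ω h
    have := rc_sl_rs_th W.X U l ω h
    rw [hU] at this
    exact this
  refine H p (W.X.rs U) hn1' (rc_sl_e_cls W h0 h1 hW U hUm hA) (W.E.kf - nB) (W.dp b) (rc_sl_cut W hW U b1) c1 ?_ ?_ (ReName × ReName)
    (fun I => W.slC i b I) (2 ^ 66) (32 * 2 ^ (τ * W.E.n)) Pp W.R0 W.slA
    (fun x => if θ ≤ RcTw.slD pn pc x then -(pc x) else 0) (fun x => if θ ≤ RcTw.slD pn pc x then (pn x).2.2 else 0)
    (fun x => if θ ≤ RcTw.slD pn pc x then ((pn x).1, (pn x).2.1) else (1, 0))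
    (by linarith) k2 ?_ hP2 hP hW.R0_pos (rc_sl_e_shp W hW U hτ0) (fun I x => rc_sl_cls_meas W i b I x) ?_ ?_ ?_
  · show c / (4 * q) * W.E.n ≤ ((W.E.kf - nB - W.E.k0 : ℕ) : ℝ)
    rw [c2]
    exact b3
  · show c / (4 * q) * W.E.n ≤ ((W.E.kf - (W.E.kf - nB) : ℕ) : ℝ)
    rw [c3]
    exact b2
  · refine le_trans (le_of_eq ?_) (hn3 _ hn3')
    norm_num
  · intro x
    by_cases hx : θ ≤ RcTw.slD pn pc x
    · simp only [if_pos hx]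
      refine ⟨?_, ?_⟩
      · unfold rtSq
        exact hu x
      · rw [hθ1]
        exact hx
    · simp only [if_neg hx]
      refine ⟨?_, ?_⟩
      · unfold rtSq
        norm_num
      · rw [hθ1]
        unfold rtSq
        norm_num
        exact hθ2
  · intro l
    obtain ⟨F, hF, hm⟩ := rc_sl_cls_list W hW hib hiS.le l
    exact ⟨F, hF, fun ω hω => hm ω (hth l ω hω).2⟩
  · intro l ω hω
    obtain ⟨⟨g1, g2⟩, -⟩ := hth l ω hω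
    have g2' : θ ≤ RcTw.slD pn pc (W.slC i b (W.aI b (W.E.iv l)) ω) := g2
    have := rc_sl_velB W hW hib hiS.le pn pc hwd k1 (W.E.iv l) ω g1
    show p.A ω ∈ rcSec (W.slA (W.slC i b (W.aI b (W.E.iv l)) ω)) W.R0 (32 * 2 ^ (τ * W.E.n))
      (if θ ≤ RcTw.slD pn pc (W.slC i b (W.aI b (W.E.iv l)) ω) then -(pc (W.slC i b (W.aI b (W.E.iv l)) ω)) else 0)
      (if θ ≤ RcTw.slD pn pc (W.slC i b (W.aI b (W.E.iv l)) ω) then (pn (W.slC i b (W.aI b (W.E.iv l)) ω)).2.2 else 0)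
      (if θ ≤ RcTw.slD pn pc (W.slC i b (W.aI b (W.E.iv l)) ω) then ((pn (W.slC i b (W.aI b (W.E.iv l)) ω)).1, (pn (W.slC i b (W.aI b (W.E.iv l)) ω)).2.1) else (1, 0))
      (rdLen (W.E.kf - (W.E.kf - nB)) ^ 20)
    rw [if_pos g2', if_pos g2', if_pos g2', c3]
    exact this

/-! ## A. small discriminant -/

theorem rc_sl_mA (η : ℝ) (h0 : 0 < η) (h1 : η < 1) (hA : RcPlaneA η) (hΓ : 0 < (rndCl η).Gam) (q : ℕ) (hq : 5 ≤ q) (ξ' : ℝ) (hξ' : 0 < ξ') :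
    ∃ ξ σ : ℝ, 0 < ξ ∧ 0 < σ ∧ ∀ C : ℕ, ∃ A0 n0 : ℕ, ∀ (A : ℕ) (p : RdClPar) (W : RcTw η p) (τ : ℝ), A0 ≤ A → W.q = q → n0 ≤ W.E.n → 0 ≤ τ → τ ≤ ξ / 2 →
      W.Ok (W.q - 1) C A τ → ∀ i b : ℕ, i ≤ b → b < W.q → ∀ (pn : ReName × ReName → ℝ × ℝ × ℝ) (pc : ReName × ReName → ℝ),
      (∀ x, (pn x).1 ^ 2 + (pn x).2.1 ^ 2 + (pn x).2.2 ^ 2 = 1) → ∀ wd : ℝ, wd ≤ (1 / 2 ^ (ξ' * W.E.n)) ^ 2 / 4 →
      W.fm (W.hitA i b pn pc wd ((1 / 2 ^ (ξ' * W.E.n)) ^ 2)) ≤ W.E.e * 2 ^ (((rndCl η).d0f + τ / 3 - 2 * σ / 3) * W.E.n) := by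
  have hq0 : (0 : ℝ) < q := by
    have : 0 < q := by omega
    exact_mod_cast this
  have ha0 : 0 < min (ξ' / 2) (1 / (2 * (q : ℝ))) := lt_min (by positivity) (by positivity)
  obtain ⟨ξ, hξ, H⟩ := rc_sm_compA η h0 h1 hA hΓ (min (ξ' / 2) (1 / (2 * (q : ℝ)))) ha0
  refine ⟨ξ, (rndCl η).Gam * (min (ξ' / 2) (1 / (2 * (q : ℝ)))) / 2, hξ, by positivity, fun C => ?_⟩
  obtain ⟨A0, n1, H⟩ := H C
  obtain ⟨n2, hn2⟩ := gn_absorb 32 (ξ / 2) (by positivity)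
  obtain ⟨n3, hn3⟩ := gn_absorb (2 ^ 66) ξ hξ
  obtain ⟨n4, hn4⟩ := exists_nat_ge (2 / ξ')
  refine ⟨A0, max n1 (max n2 (max n3 n4)), fun A p W τ hA hWq hn hτ0 hτ hW i b hib hiS pn pc hu wd hwd => ?_⟩
  have hn1' : n1 ≤ W.E.n := le_trans (le_max_left _ _) hn
  have hn2' : n2 ≤ W.E.n := le_trans (le_trans (le_max_left _ _) (le_max_right _ _)) hn
  have hn3' : n3 ≤ W.E.n := le_trans (le_trans (le_trans (le_max_left _ _) (le_max_right _ _)) (le_max_right _ _)) hn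
  have hn4' : n4 ≤ W.E.n := le_trans (le_trans (le_trans (le_max_right _ _) (le_max_right _ _)) (le_max_right _ _)) hn
  have hlo : q * W.m ≤ W.E.n := hWq ▸ hW.n_lo
  have hhi : W.E.n < q * (W.m + 1) := hWq ▸ hW.n_hi
  have hnL : 2 / ξ' ≤ W.E.n := hn4.trans (by exact_mod_cast hn4')
  obtain ⟨b2, b3⟩ := rc_sl_n_A hq hW.m_pos hlo hhi hξ' hnL
  obtain ⟨nA, hnA⟩ : ∃ nA : ℕ, nA = min ⌊ξ' * W.E.n⌋₊ W.m := ⟨_, rfl⟩
  rw [← hnA] at b2 b3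
  have b1 : nA ≤ W.m := hnA ▸ min_le_right _ _
  have b4 : (nA : ℝ) ≤ ξ' * W.E.n := by
    have : nA ≤ ⌊ξ' * W.E.n⌋₊ := hnA ▸ min_le_left _ _
    exact le_trans (by exact_mod_cast this) (Nat.floor_le (by positivity))
  obtain ⟨k1, k2⟩ := rc_sl_n_K hτ0 hτ (hn2 _ hn2')
  obtain ⟨c1, c2, c3⟩ := rc_sl_e_cut W hW b1 hiS
  obtain ⟨Pp, hPp⟩ : ∃ Pp : ℝ, Pp = 2 ^ (ξ' * W.E.n) := ⟨_, rfl⟩
  have hϱ : W.R0 * (32 / Pp) ≤ 32 * 2 ^ (τ * W.E.n) * W.R0 * rdLen nA := hPp ▸ rc_sl_n_rA hW.R0_pos hτ0 b4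
  rw [← hPp] at hwd ⊢
  have hP2 : 2 ≤ Pp := by
    rw [hPp]
    have a3 : 1 ≤ ξ' * W.E.n := by
      rw [div_le_iff₀ hξ'] at hnL
      linarith
    calc (2 : ℝ) = 2 ^ (1 : ℝ) := (Real.rpow_one 2).symm
      _ ≤ _ := gn_two_mono a3
  obtain ⟨U, hU⟩ : ∃ U, U = W.hitA i b pn pc wd ((1 / Pp) ^ 2) := ⟨_, rfl⟩
  rw [← hU]
  have hUm : ∀ J, MeasurableSet (U J) := by
    intro J
    rw [hU]
    exact rc_sl_hitA_meas W hW hib hiS.le pn pc _ _ J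
  refine rc_sl_e_mass W hW U hUm ?_
  have hth : ∀ (l : Fin W.E.L) (ω : p.Om), (W.X.rs U).th l ω ≠ 0 → ω ∈ W.hitA i b pn pc wd ((1 / Pp) ^ 2) (W.E.iv l) ∧ W.E.th l ω ≠ 0 := by
    intro l ω h
    have := rc_sl_rs_th W.X U l ω h
    rw [hU] at this
    exact this
  refine H p (W.X.rs U) hn1' (rc_sl_e_cls W h0 h1 hW U hUm hA) (W.E.kf - nA) (W.dp b) (rc_sl_cut W hW U b1) c1 ?_ ?_ (ReName × ReName)
    (fun I => W.slC i b I) (2 ^ 66) (32 * 2 ^ (τ * W.E.n)) W.R0 (W.slZ pn)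
    (by linarith) k2 ?_ hW.R0_pos (rc_sl_e_shp W hW U hτ0) (fun I x => rc_sl_cls_meas W i b I x) ?_ ?_
  · show min (ξ' / 2) (1 / (2 * (q : ℝ))) * W.E.n ≤ ((W.E.kf - nA - W.E.k0 : ℕ) : ℝ)
    rw [c2]
    exact b3
  · show min (ξ' / 2) (1 / (2 * (q : ℝ))) * W.E.n ≤ ((W.E.kf - (W.E.kf - nA) : ℕ) : ℝ)
    rw [c3]
    exact b2
  · refine le_trans (le_of_eq ?_) (hn3 _ hn3')
    norm_num
  · intro l
    obtain ⟨F, hF, hm⟩ := rc_sl_cls_list W hW hib hiS.le l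
    exact ⟨F, hF, fun ω hω => hm ω (hth l ω hω).2⟩
  · intro l ω hω
    have := rc_sl_velA W hW hib hiS.le pn pc hu hP2 hwd hϱ (W.E.iv l) ω (hth l ω hω).1
    show p.A ω ∈ rcCap (W.slZ pn (W.slC i b (W.aI b (W.E.iv l)) ω)) (32 * 2 ^ (τ * W.E.n) * W.R0 * rdLen (W.E.kf - (W.E.kf - nA)))
    rw [c3]
    exact this

/-! ## EXIT -/

theorem rc_sl_main (η : ℝ) (h0 : 0 < η) (h1 : η < 1) (hA : RcPlaneA η) (hB : RcPlaneB η) (hΓ : 100 * η < (rndCl η).Gam) (q : ℕ) (es : ℝ) (hes : 0 < es) :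
    ∃ ts : ℝ, 0 < ts ∧ RcAll η q fun _ W => W.SlabP 3 es ts := by
  by_cases hq : 5 ≤ q
  swap
  · refine ⟨1, one_pos, 1, one_pos, fun C => ⟨0, 0, fun A p W _ hWq _ _ i S hi hS hiS => ?_⟩⟩
    omega
  have hΓ0 : 0 < (rndCl η).Gam := by linarith
  have hq0 : (0 : ℝ) < q := by
    have : 0 < q := by omega
    exact_mod_cast this
  obtain ⟨hd0, hd1⟩ := gn_d0f_le (rndCl η) 1 (rt_gen_cl η h0 h1) hΓ0
  obtain ⟨ξB, σB, hξB, hσB, HB⟩ := rc_sl_mB η h0 h1 hB hΓ q hq es hes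
  obtain ⟨ξ', hξ'e⟩ : ∃ ξ' : ℝ, ξ' = min ξB (es / (8 * q)) := ⟨_, rfl⟩
  have hξ' : 0 < ξ' := hξ'e ▸ lt_min hξB (by positivity)
  obtain ⟨ξA, σA, hξA, hσA, HA⟩ := rc_sl_mA η h0 h1 hA hΓ0 q hq ξ' hξ'
  obtain ⟨σ, hσe⟩ : ∃ σ : ℝ, σ = min σA σB := ⟨_, rfl⟩
  have hσ : 0 < σ := hσe ▸ lt_min hσA hσB
  obtain ⟨τ0, hτ0, HT⟩ := rc_p_tot η h0 h1 hΓ0 q (σ * q / 12) (by positivity)
  refine ⟨σ * q / 12, by positivity, min τ0 (min (ξA / 2) (min (ξB / 2) σ)), lt_min hτ0 (lt_min (by positivity) (lt_min (by positivity) hσ)), fun C => ?_⟩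
  obtain ⟨AB, nB, HB⟩ := HB C
  obtain ⟨AA, nA, HA⟩ := HA C
  obtain ⟨AT, nT, HT⟩ := HT C
  obtain ⟨n4, hn4⟩ := rc_sl_n_large q (max (6 / es) ((1 + q) / (σ * q / 6)))
  obtain ⟨n5, hn5⟩ := exists_nat_ge (1 / ξ')
  refine ⟨max AB (max AA AT), max nB (max nA (max nT (max n4 n5))), fun A p W hAA hWq hn hW i S hi hS hiS pn pc hu => ?_⟩
  obtain ⟨τ, hτe⟩ : ∃ τ : ℝ, τ = min τ0 (min (ξA / 2) (min (ξB / 2) σ)) := ⟨_, rfl⟩
  rw [← hτe] at hW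
  have hτp : 0 < τ := hτe ▸ lt_min hτ0 (lt_min (by positivity) (lt_min (by positivity) hσ))
  have t1 : τ ≤ τ0 := hτe ▸ min_le_left _ _
  have t2 : τ ≤ ξA / 2 := hτe ▸ le_trans (min_le_right _ _) (min_le_left _ _)
  have t3 : τ ≤ ξB / 2 := hτe ▸ le_trans (min_le_right _ _) (le_trans (min_le_right _ _) (min_le_left _ _))
  have t4 : τ ≤ σ := hτe ▸ le_trans (min_le_right _ _) (le_trans (min_le_right _ _) (min_le_right _ _))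
  have hnB' : nB ≤ W.E.n := le_trans (le_max_left _ _) hn
  have hnA' : nA ≤ W.E.n := le_trans (le_trans (le_max_left _ _) (le_max_right _ _)) hn
  have hnT' : nT ≤ W.E.n := le_trans (le_trans (le_trans (le_max_left _ _) (le_max_right _ _)) (le_max_right _ _)) hn
  have hn4' : n4 ≤ W.E.n := le_trans (le_trans (le_trans (le_trans (le_max_left _ _) (le_max_right _ _)) (le_max_right _ _)) (le_max_right _ _)) hn
  have hn5' : n5 ≤ W.E.n := le_trans (le_trans (le_trans (le_trans (le_max_right _ _) (le_max_right _ _)) (le_max_right _ _)) (le_max_right _ _)) hn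
  have hW' : W.Ok (W.q - 1) C A τ := hWq.symm ▸ hW
  have hlo : q * W.m ≤ W.E.n := hWq ▸ hW.n_lo
  have hhi : W.E.n < q * (W.m + 1) := hWq ▸ hW.n_hi
  have hmL := hn4 _ _ hn4' hhi
  have hV : W.X.Valid := (hW'.cls (W.q - 1) le_rfl).2.1
  have he : 0 < W.E.e := hV.e_pos
  have htot : W.tl (-(σ * q / 12)) * W.Eb W.q ≤ W.ft :=
    HT A p W (le_trans (le_trans (le_max_right _ _) (le_max_right _ _)) hAA) hWq hnT' (rc_tw_ok_mono W hW t1)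
  obtain ⟨Pp, hPp⟩ : ∃ Pp : ℝ, Pp = 2 ^ (ξ' * W.E.n) := ⟨_, rfl⟩
  have hP2 : 2 ≤ Pp := by
    rw [hPp]
    have a3 : 1 ≤ ξ' * W.E.n := by
      have : 1 / ξ' ≤ W.E.n := hn5.trans (by exact_mod_cast hn5')
      rw [div_le_iff₀ hξ'] at this
      linarith
    calc (2 : ℝ) = 2 ^ (1 : ℝ) := (Real.rpow_one 2).symm
      _ ≤ _ := gn_two_mono a3
  have hPle : Pp ≤ 2 ^ (ξB * W.E.n) := by
    rw [hPp]
    exact gn_two_mono (mul_le_mul_of_nonneg_right (hξ'e ▸ min_le_left _ _) (Nat.cast_nonneg _))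
  have hwd : 2 * W.tl (-(es * S)) ≤ (1 / 2 ^ (ξ' * W.E.n)) ^ 2 / 4 :=
    rc_sl_n_wA hq hW.m_pos hhi hS hes hξ' (hξ'e ▸ min_le_right _ _) (le_trans (le_max_left _ _) hmL)
  have mB := HB A p W τ (le_trans (le_max_left _ _) hAA) hWq hnB' hτp.le t3 hW' i S hi hS hiS pn pc hu Pp hP2 hPle
  have mA := HA A p W τ (le_trans (le_trans (le_max_left _ _) (le_max_right _ _)) hAA) hWq hnA' hτp.le t2 hW' i (i + 3 * S) (by omega) hiS pn pc hu _ hwd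
  rw [← hPp] at mA
  have hib : i ≤ i + 3 * S := by omega
  have hsplit : W.fm (W.hit i (i + 3 * S) pn pc (2 * W.tl (-(es * S))))
      ≤ W.fm (W.hitA i (i + 3 * S) pn pc (2 * W.tl (-(es * S))) ((1 / Pp) ^ 2)) + W.fm (W.hitB i (i + 3 * S) pn pc (2 * W.tl (-(es * S))) ((1 / Pp) ^ 2)) := by
    have e : W.hit i (i + 3 * S) pn pc (2 * W.tl (-(es * S)))
        = fun J => W.hitA i (i + 3 * S) pn pc (2 * W.tl (-(es * S))) ((1 / Pp) ^ 2) J ∪ W.hitB i (i + 3 * S) pn pc (2 * W.tl (-(es * S))) ((1 / Pp) ^ 2) J := by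
      funext J
      exact rc_sl_hit_split W _ _ _ _ _ _ J
    rw [e]
    exact rc_sl_rs_union W.X hV _ _ (fun J => rc_sl_hitA_meas W hW' hib hiS.le pn pc _ _ J) (fun J => rc_sl_hitB_meas W hW' hib hiS.le pn pc _ _ J)
  have hmono : ∀ σ' : ℝ, σ ≤ σ' → W.E.e * 2 ^ (((rndCl η).d0f + τ / 3 - 2 * σ' / 3) * W.E.n) ≤ W.E.e * 2 ^ (((rndCl η).d0f + τ / 3 - 2 * σ / 3) * W.E.n) := by
    intro σ' hσ'
    refine mul_le_mul_of_nonneg_left (gn_two_mono (mul_le_mul_of_nonneg_right ?_ (Nat.cast_nonneg _))) he.le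
    linarith
  have hfin := rc_sl_n_fin (τ := τ) he hd0 hd1 hσ t4 hq hlo hhi (le_trans (le_max_right _ _) hmL)
  have hEb : W.Eb W.q = W.E.e * 2 ^ ((rndCl η).d0f * q * W.m) := by
    unfold RcTw.Eb
    rw [hWq]
  calc W.fm (W.hit i (i + 3 * S) pn pc (2 * W.tl (-(es * S))))
      ≤ 2 * (W.E.e * 2 ^ (((rndCl η).d0f + τ / 3 - 2 * σ / 3) * W.E.n)) := by
        have := hmono σA (hσe ▸ min_le_left _ _)
        have := hmono σB (hσe ▸ min_le_right _ _)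
        linarith
    _ ≤ W.tl (-(σ * q / 12)) * (W.tl (-(σ * q / 12)) * W.Eb W.q) := by
        rw [hEb]
        exact hfin
    _ ≤ W.tl (-(σ * q / 12)) * W.ft := mul_le_mul_of_nonneg_left htot (gn_two_pos _).le

end Claimed.Agent.R256
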