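-- KEEP
import Claimed.Agent.R256.Rc.TowB
import Claimed.Agent.R256.Rc.SlbMain

/-!
# Row 256, unit RC, block (I-cl): EXIT of the block SLB = lem:rt-slab-removal, CLASSICAL half      (chief helper106; prefix `rc_`, own files `Rc/Sl*.lean`, prefix `rc_sl_`)

    `rc_p_slab`:   `RcPlaneA η → RcPlaneB η → 100 η < Γ → ∃ ts > 0, RcAll η q (SlabP 3 es ts)`            EST 2900 l.   ARCHITECT POST (cut: `Rc/SlC.lean`)
Source: 08-round-entropy.tex l.849-886.
PLAN.   `C0` := max of the two constants of `RcPlaneA/B`;   `γ := Γ - 4η > 0`;   `ν := γ/8`, `c1 := γ/(8 C0)`, `ν' := c1 γ / (64 C0)` ..;   STEP LENGTHS  `n_B := ⌊es m / 20⌋ - 1`,  `P := 2^(c1 n_B)`,  `n_A := ⌊c1 n_B⌋`  (both `≤ m`, both `≥ a0 n`).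
 0 SPLIT     a pair `x` of names is of type B if `|α_x|² + 4 β_x c_x ≥ P^-2` (`(α, β) = pn x`, `d0 = - pc x`), else of type A.   `hit = hit_A ∪ hit_B` (measurable), `rc_fm_union_le`.
 1 RESTRICT  `fm hit_* = (W.X.rs hit_*).tm`;   `W.X.rs hit_* ∈ Cls C A` (`rc_rs_cls`);   `rc_hold`: `tm ≤ rd^(2/3) tw^(1/3)`.
 2 COMPOSE   `gn_comp_on` (rate `Γ` on the prefix, rate `γ'_*` on the free tails of a class `Th_*`) at the cut `k = kf - n_*` (behind all stages: `n_* ≤ m`):   `val (X.rs hit_*) ≤ 2^(Γ n - (Γ - γ'_*) n_* + ε n)`.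
             `Th_*` must hold for the tails with ARBITRARY root state: it is a property of the LABELS only.
 3 CLASSES   `Th p T` := the labels of `T` have widths in `[R0, 2 R0)`, thickness `≥ 2^(-ν' T.n)`, and their functions `θ_l` are carried by finitely many disjoint measurable PIECES `G_x`, every label meets `≤ L0` pieces, and on every piece
               (A) `|A ω - a_x| ≤ 11 R0 T.s`                                     or
               (B) `Z = (A ω - a_x)/R0`: `|Z|² ≤ 2`, `|d0 + α·Z + β|Z|²| ≤ T.s^20`, `|α|² + β² = 1`, `|α|² - 4 β d0 ≥ (2^(c1' T.n))^-2`.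
 4 DECOMPOSE (no model theory) `T` valid, free: `T_x := T` with the root state `1_{G_x} ψ`, budget `‖1_{G_x} ψ‖²` is valid with the same `κ`;   `m_l = Σ_x m_{l,x}` (`≤ L0` terms): `m_l^(3/2) ≤ L0^(1/2) Σ_x m_{l,x}^(3/2)`;   `Σ_x e_x ≤ ‖ψ‖² ≤ e`:
             `val T ≤ L0^(1/2) sup_x val T_x`.      `RcPlaneA/B` on `T_x` (frame `⟨R0, a_x, ..⟩`, `Kp = max 11 (2^(ν' n))`):   `γ'_A = C0 ν'`,   `γ'_B = 4η + ν + C0 c1 + C0 ν'`.
 5 TAILS     the tails of `W.X.rs hit_*` at `k` belong to `Th_*`:   pieces `G_x = {ω | pair (I, ω) = x} ∩ slab x`;   the ancestors at the cuts `i`, `b` of a final interval below `I` depend only on `I`;   `a_x` = the corner of the `R0`-cell of `A` (part of the name), shifted by `R0 Z_c` in the case (A).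
             LIST: the particles of one label (box of width `< 2 R0` at the final time) have `≤ L0 = (2^15 8^6)²` pairs of names (`re_near_flow`, `re_list`).
             CAP (type A): `|β| ≥ 1/20`, `|Z - Z_c|² ≤ D/(4β²) + w/|β|`, `Z_c = -α/(2β)`: `|Z - Z_c| ≤ 11/P ≤ 11 · 2^-n_A`.
             WIDTH (type B): `2 tl (-(es S)) ≤ 2^(-20 n_B)`.
 6 NUMERICS  `tm³ ≤ rd² tw`, `rd = val e √κ 2^(-n/2)`, `tw ≤ (e/κ) 2^((p+d+τ) n)`, `2Γ - 1 + p + d = 3d`:   `fm hit_* ≤ e 2^(d n) 2^(-(2/3)(Γ - γ'_*) n_* + (ε + τ) n)`;   `ft ≥ e 2^((d - 3τ/2) n)` (`rc_p_tot`).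
             `ts := (1/3) min_* (Γ - γ'_*) n_*/m` (depends on `es`, `η`, `Γ`, `C0` only);   `ε, τ ≪ ts / q`.
-/

set_option autoImplicit false

namespace Claimed.Agent.R256

open MeasureTheory
open scoped BigOperators
open Classical

/-- **BLOCK SLB** -/
theorem rc_p_slab (η : ℝ) (h0 : 0 < η) (h1 : η < 1) (hA : RcPlaneA η) (hB : RcPlaneB η) (hΓ : 100 * η < (rndCl η).Gam) (q : ℕ) (es : ℝ) (hes : 0 < es) :
    ∃ ts : ℝ, 0 < ts ∧ RcAll η q fun _ W => W.SlabP 3 es ts :=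
  rc_sl_main η h0 h1 hA hB hΓ q es hes

end Claimed.Agent.R256
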