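-- KEEP
import Claimed.Agent.R256.Rc.TowB
import Claimed.Agent.R256.Gen.Contract

/-!
# Row 256, unit RC, block (I-cl), exit `rc_tow_base` of the block TOW      (helper247; chief helper106; block architect helper123; prefix `rc_tb_`)

Free, two-sided homogeneous, THICK, ROUND extremisers of the classical round model with the weight count.
 `rc_tb_pig`     pigeonhole over the fibres of a map into `{0, .., N}`
 `rc_tb_dy`      the dyadic class of a number in `[ϱ, 2^N ϱ]`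
 `rc_tb_width`   polynomial width  ==>  one of `D n + 1` dyadic classes
 `rc_tb_ext`     THICK + DYAD + CNT on the level of experiments
 `rc_tb_main`    the tower
-/

set_option autoImplicit false

namespace Claimed.Agent.R256

open MeasureTheory
open scoped BigOperators
open Classical

/-- pigeonhole over the fibres of `a` -/
theorem rc_tb_pig {ι : Type} (S : Finset ι) (a : ι → ℕ) (N : ℕ) (ha : ∀ l ∈ S, a l ≤ N) (t : ι → ℝ) :
    ∃ j, j ≤ N ∧ ∑ l ∈ S, t l ≤ ((N : ℝ) + 1) * ∑ l ∈ S.filter (fun l => a l = j), t l := by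
  by_contra hcon
  push Not at hcon
  have h1 : ∑ l ∈ S, t l = ∑ j ∈ Finset.range (N + 1), ∑ l ∈ S.filter (fun l => a l = j), t l :=
    (Finset.sum_fiberwise_of_maps_to (fun l hl => Finset.mem_range.2 (Nat.lt_succ_of_le (ha l hl))) t).symm
  have h2 : ∑ j ∈ Finset.range (N + 1), ((N : ℝ) + 1) * ∑ l ∈ S.filter (fun l => a l = j), t l
      < ∑ j ∈ Finset.range (N + 1), ∑ l ∈ S, t l :=
    Finset.sum_lt_sum_of_nonempty ⟨0, by simp⟩ (fun j hj => hcon j (Nat.lt_succ_iff.1 (Finset.mem_range.1 hj)))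
  rw [← Finset.mul_sum, ← h1, Finset.sum_const, Finset.card_range, nsmul_eq_mul] at h2
  push_cast at h2
  exact lt_irrefl _ h2

/-- the dyadic class of a number in `[ϱ, 2^N ϱ]` -/
theorem rc_tb_dy (ϱ : ℝ) (hϱ : 0 < ϱ) (N : ℕ) (r : ℝ) (h1 : ϱ ≤ r) (h2 : r ≤ 2 ^ N * ϱ) :
    ∃ j, j ≤ N ∧ 2 ^ j * ϱ ≤ r ∧ r < 2 * (2 ^ j * ϱ) := by
  obtain ⟨j, hj1, hj2⟩ := exists_nat_pow_near (x := r / ϱ) ((one_le_div hϱ).2 h1) (one_lt_two)
  refine ⟨j, ?_, (le_div_iff₀ hϱ).1 hj1, ?_⟩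
  · have : (2 : ℝ) ^ j ≤ 2 ^ N := hj1.trans ((div_le_iff₀ hϱ).2 h2)
    exact (pow_le_pow_iff_right₀ one_lt_two).1 this
  · have := (div_lt_iff₀ hϱ).1 hj2
    rw [pow_succ] at this
    linarith

/-- polynomial width: one of `D n + 1` dyadic classes over `ϱ = (s^D e / κ)^(1/4)` -/
theorem rc_tb_width {P : PkSys} (E : Xp P) (D : ℕ) (r : ℝ) (he : 0 < E.e) (hk : 0 < E.ka) (hr : 0 < r)
    (h1 : E.s ^ (D : ℝ) * E.e ≤ E.ka * r ^ 4) (h2 : E.ka * r ^ 4 ≤ E.s ^ (-(D : ℝ)) * E.e) :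
    ∃ j, j ≤ D * E.n ∧ 2 ^ j * (E.s ^ (D : ℝ) * E.e / E.ka) ^ (1 / 4 : ℝ) ≤ r ∧
      r < 2 * (2 ^ j * (E.s ^ (D : ℝ) * E.e / E.ka) ^ (1 / 4 : ℝ)) := by
  have hs := gn_s_pos E
  have hx : 0 < E.s ^ (D : ℝ) * E.e / E.ka := div_pos (mul_pos (Real.rpow_pos_of_pos hs _) he) hk
  obtain ⟨x, hxe⟩ : ∃ x, x = E.s ^ (D : ℝ) * E.e / E.ka := ⟨_, rfl⟩
  rw [← hxe] at hx ⊢
  have hϱ : 0 < x ^ (1 / 4 : ℝ) := Real.rpow_pos_of_pos hx _
  have h4 : (x ^ (1 / 4 : ℝ)) ^ 4 = x := by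
    rw [← Real.rpow_natCast, ← Real.rpow_mul hx.le]
    norm_num
  have g1 : x ≤ r ^ 4 := by
    rw [hxe, div_le_iff₀ hk]
    linarith
  have g2 : r ^ 4 ≤ (2 ^ (D * E.n)) ^ 4 * x := by
    have e1 : E.s ^ (-(D : ℝ)) * E.e = E.ka * (E.s ^ (-(2 * D : ℝ)) * x) := by
      rw [hxe]
      have : E.s ^ (-(D : ℝ)) = E.s ^ (-(2 * D : ℝ)) * E.s ^ (D : ℝ) := by
        rw [← Real.rpow_add hs]
        congr 1
        ring
      rw [this]
      field_simp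
    rw [e1] at h2
    have e2 : r ^ 4 ≤ E.s ^ (-(2 * D : ℝ)) * x := le_of_mul_le_mul_left h2 hk
    refine e2.trans (mul_le_mul_of_nonneg_right ?_ hx.le)
    rw [gn_s_rpow, ← pow_mul, ← gn_two_nat]
    refine gn_two_mono ?_
    push_cast
    have : (0 : ℝ) ≤ (D : ℝ) * E.n := by positivity
    nlinarith
  refine rc_tb_dy _ hϱ _ r ?_ ?_
  · refine (pow_le_pow_iff_left₀ hϱ.le hr.le (by norm_num : (4 : ℕ) ≠ 0)).1 ?_
    rw [h4]
    exact g1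
  · refine (pow_le_pow_iff_left₀ hr.le (by positivity) (by norm_num : (4 : ℕ) ≠ 0)).1 ?_
    rw [mul_pow, h4]
    exact g2

/-- **THICK + DYAD + CNT** on the level of experiments -/
theorem rc_tb_ext (η : ℝ) (h0 : 0 < η) (h1 : η < 1) (P6 : (cylCl η).Rate (η / 2)) (hΓ : 100 * η < (rndCl η).Gam) (τ : ℝ) (hτ : 0 < τ) :
    ∃ C : ℕ, ∀ A n0 : ℕ, ∃ (p : RdClPar) (E : Xp (p.sys η)) (R0 : ℝ), n0 ≤ E.n ∧ (rndCl η).Cls C A p E ∧ E.st = [] ∧ 0 < R0 ∧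
      2 ^ (((rndCl η).Gam - τ) * E.n) ≤ E.val ∧ E.Hom ((rndCl η).p0f - τ) ((rndCl η).p0f + τ) ∧
      E.tw ≤ E.e / E.ka * E.s ^ (-((rndCl η).p0f + (rndCl η).d0f) - τ) ∧
      ∀ l, R0 ≤ (rcT (E.ts l)).r ∧ (rcT (E.ts l)).r < 2 * R0 ∧ E.s ^ τ ≤ (rcT (E.ts l)).f := by
  have hG := rt_gen_cl η h0 h1
  have hΓ0 : 0 < (rndCl η).Gam := by linarith
  obtain ⟨c, hc, HTE⟩ := rt_te_cl η (rndCl η).Gam (η / 2) h0 h1 (gn_rate_gam (rndCl η) 1 hG) P6 (by positivity) (by linarith) τ 1 hτ one_pos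
  obtain ⟨τ', hτ', hτa, hτb, hτc⟩ : ∃ τ' : ℝ, 0 < τ' ∧ τ' ≤ τ / 8 ∧ τ' ≤ c / 2 ∧ τ' ≤ 1 :=
    ⟨min (τ / 8) (min (c / 2) 1), lt_min (by positivity) (lt_min (by positivity) one_pos), min_le_left _ _,
      (min_le_right _ _).trans (min_le_left _ _), (min_le_right _ _).trans (min_le_right _ _)⟩
  obtain ⟨C, H⟩ := gn_extf (rndCl η) 1 hG hΓ0 τ' τ' hτ' hτ'
  refine ⟨C, fun A n0 => ?_⟩
  obtain ⟨D, A1, n1, HP⟩ := rt_poly_cl η h0 h1 C 5
  obtain ⟨A2, n2, HR⟩ := gn_rate_gam (rndCl η) 1 hG C τ' hτ'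
  obtain ⟨A3, n3, HT⟩ := HTE C
  obtain ⟨n4, H4⟩ := gn_absorb 2 (c - τ') (by linarith)
  obtain ⟨n5, H5⟩ := gn_absorb_poly D 2 τ' hτ'
  obtain ⟨p, E, hn, hcls, hfree, hHom, hval⟩ := H (max A (max A1 (max A2 A3))) (max n0 (max n1 (max n2 (max n3 (max n4 (max n5 1))))))
  have hn0 : n0 ≤ E.n := le_trans (by simp) hn
  have hn1 : n1 ≤ E.n := le_trans (by simp) hn
  have hn2 : n2 ≤ E.n := le_trans (by simp) hn
  have hn3 : n3 ≤ E.n := le_trans (by simp) hn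
  have hn4 : n4 ≤ E.n := le_trans (by simp) hn
  have hn5 : n5 ≤ E.n := le_trans (by simp) hn
  have hn6 : 1 ≤ E.n := le_trans (by simp) hn
  have hcA : (rndCl η).Cls C A p E := gn_cls_anti _ hG.scale (by simp) hcls
  have hc1 : (rndCl η).Cls C A1 p E := gn_cls_anti _ hG.scale (by simp) hcls
  have hc2 : (rndCl η).Cls C A2 p E := gn_cls_anti _ hG.scale (by simp) hcls
  have hc3 : (rndCl η).Cls C A3 p E := gn_cls_anti _ hG.scale (by simp) hcls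
  have hV : E.Valid := hcls.2.1
  have hT : ((rndCl η).sys p).Tight := hG.tight p hcls.1
  have hnn : (0 : ℝ) ≤ E.n := Nat.cast_nonneg _
  have hn1' : (1 : ℝ) ≤ E.n := by exact_mod_cast hn6
  have hs := gn_s_pos E
  -- the widths are polynomial
  have hW : ∀ l, E.s ^ (D : ℝ) * E.e ≤ E.ka * (rcT (E.ts l)).r ^ 4 ∧ E.ka * (rcT (E.ts l)).r ^ 4 ≤ E.s ^ (-(D : ℝ)) * E.e := by
    intro l
    have hm := gn_m_le_ms hT E hV l
    have hfin : E.fin (E.iv l) = Xp.run E.kf (E.iv l) [] E.v := by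
      unfold Xp.fin
      rw [hfree]
    rw [hfin] at hm
    have hlow := (hHom l).1
    have hw := hV.w_pos l
    have hlt : E.s ^ ((5 : ℕ) : ℝ) * (E.ka * ((rndCl η).sys p).wt (E.ts l)) <
        ((rndCl η).sys p).ms (tmL E.kf (E.iv l)) E.kf E.bT (((rndCl η).sys p).cell (E.ts l) (tmL E.kf (E.iv l)) E.kf)
          (Xp.run E.kf (E.iv l) [] E.v) := by
      refine lt_of_lt_of_le ?_ (hlow.trans hm)
      rw [mul_comm]
      refine mul_lt_mul_of_pos_left ?_ (mul_pos hV.ka_pos hw)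
      rw [gn_s_rpow, gn_s_rpow]
      refine Real.rpow_lt_rpow_of_exponent_lt one_lt_two ?_
      have := gn_p0f_le (rndCl η) 1 hG hΓ0
      push_cast
      nlinarith
    have := HP p E hn1 hc1 E.kf (E.iv l) E.bT [] (E.ts l) (Nat.le_add_right _ _) le_rfl (hV.iv_in l) hcls.2.2.2.1.2.1
      ⟨by simp, by simp, by simp, by simp, by simp⟩ (hV.ts_ok l) hlt
    exact ⟨this.1, this.2.1⟩
  have hr : ∀ l, 0 < (rcT (E.ts l)).r := fun l => (hV.ts_ok l).r_pos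
  obtain ⟨ϱ, hϱe⟩ : ∃ ϱ, ϱ = (E.s ^ (D : ℝ) * E.e / E.ka) ^ (1 / 4 : ℝ) := ⟨_, rfl⟩
  have hϱ : 0 < ϱ := by
    rw [hϱe]
    exact Real.rpow_pos_of_pos (div_pos (mul_pos (Real.rpow_pos_of_pos hs _) hV.e_pos) hV.ka_pos) _
  have hdy : ∀ l, ∃ j, j ≤ D * E.n ∧ 2 ^ j * ϱ ≤ (rcT (E.ts l)).r ∧ (rcT (E.ts l)).r < 2 * (2 ^ j * ϱ) := fun l => by
    rw [hϱe]
    exact rc_tb_width E D _ hV.e_pos hV.ka_pos (hr l) (hW l).1 (hW l).2
  choose a ha1 ha2 ha3 using hdy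
  -- THICK
  obtain ⟨S, hS⟩ : ∃ S : Finset (Fin E.L), S = Finset.univ.filter (fun l => E.s ^ τ ≤ (rcT (E.ts l)).f) := ⟨_, rfl⟩
  have hSm : ∀ l, l ∈ S ↔ E.s ^ τ ≤ (rcT (E.ts l)).f := fun l => by
    rw [hS, Finset.mem_filter]
    exact ⟨fun h => h.2, fun h => ⟨Finset.mem_univ _, h⟩⟩
  have hsplit := gn_val_split E S
  have hthin : (E.pick (E.sel Sᶜ)).val ≤ 2 ^ (((rndCl η).Gam - c) * E.n) := by
    refine HT p (E.pick (E.sel Sᶜ)) hn3 (gn_cls_pick _ hG.root hc3 _ (gn_sel_inj _ _)) ?_ ?_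
    · intro σ hσ
      have h' : σ ∈ E.st := hσ
      rw [hfree] at h'
      exact absurd h' (List.not_mem_nil)
    · intro l
      have h' := gn_sel_mem E Sᶜ l
      rw [Finset.mem_compl, hSm] at h'
      exact (not_le.1 h').le
  have h2thin : 2 * (E.pick (E.sel Sᶜ)).val ≤ E.val := by
    have e1 : (2 : ℝ) ^ (((rndCl η).Gam - τ') * E.n) = 2 ^ ((c - τ') * E.n) * 2 ^ (((rndCl η).Gam - c) * E.n) := by
      rw [← gn_two_add]
      congr 1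
      ring
    calc 2 * (E.pick (E.sel Sᶜ)).val ≤ 2 ^ ((c - τ') * E.n) * 2 ^ (((rndCl η).Gam - c) * E.n) :=
          mul_le_mul (H4 _ hn4) hthin (gn_val_nonneg _ (gn_pick_valid' E hV _ (gn_sel_inj _ _))) (gn_two_pos _).le
      _ = 2 ^ (((rndCl η).Gam - τ') * E.n) := e1.symm
      _ ≤ E.val := hval
  have hthick : E.val ≤ 2 * (E.pick (E.sel S)).val := by linarith
  -- DYAD
  obtain ⟨j, hj, hpig⟩ := rc_tb_pig S a (D * E.n) (fun l _ => ha1 l) E.tr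
  obtain ⟨S', hS'⟩ : ∃ S' : Finset (Fin E.L), S' = S.filter (fun l => a l = j) := ⟨_, rfl⟩
  rw [← hS'] at hpig
  have hSm' : ∀ l, l ∈ S' ↔ l ∈ S ∧ a l = j := fun l => by rw [hS', Finset.mem_filter]
  have hK : 0 < 2 ^ ((E.n : ℝ) / 2) / (E.e * Real.sqrt E.ka) :=
    div_pos (gn_two_pos _) (mul_pos hV.e_pos (Real.sqrt_pos.2 hV.ka_pos))
  have hv' : (E.pick (E.sel S)).val ≤ (((D * E.n : ℕ) : ℝ) + 1) * (E.pick (E.sel S')).val := by
    rw [gn_pick_sel_val, gn_pick_sel_val, mul_left_comm]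
    exact mul_le_mul_of_nonneg_left hpig hK.le
  have hV' : (E.pick (E.sel S')).Valid := gn_pick_valid' E hV _ (gn_sel_inj _ _)
  have hv0 : 0 ≤ (E.pick (E.sel S')).val := gn_val_nonneg _ hV'
  have hcert : (2 : ℝ) ^ (((rndCl η).Gam - 2 * τ') * E.n) ≤ (E.pick (E.sel S')).val := by
    have e5 := H5 E.n hn5
    have e6 : (2 : ℝ) * (((D * E.n : ℕ) : ℝ) + 1) ≤ 2 ^ (τ' * E.n) := by
      refine le_trans ?_ e5
      have h1' : (1 : ℝ) ≤ ((D * E.n + 1 : ℕ) : ℝ) := by exact_mod_cast Nat.le_add_left 1 _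
      have h2' := le_self_pow₀ h1' (by norm_num : (3 : ℕ) ≠ 0)
      push_cast at h2' ⊢
      linarith
    have e7 : (2 : ℝ) ^ (((rndCl η).Gam - τ') * E.n) ≤ 2 ^ (τ' * E.n) * (E.pick (E.sel S')).val := by
      calc (2 : ℝ) ^ (((rndCl η).Gam - τ') * E.n) ≤ E.val := hval
        _ ≤ 2 * (E.pick (E.sel S)).val := hthick
        _ ≤ 2 * ((((D * E.n : ℕ) : ℝ) + 1) * (E.pick (E.sel S')).val) := by linarith
        _ = (2 * (((D * E.n : ℕ) : ℝ) + 1)) * (E.pick (E.sel S')).val := by ring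
        _ ≤ 2 ^ (τ' * E.n) * (E.pick (E.sel S')).val := mul_le_mul_of_nonneg_right e6 hv0
    have e8 : (2 : ℝ) ^ (((rndCl η).Gam - 2 * τ') * E.n) = 2 ^ (-(τ' * E.n)) * 2 ^ (((rndCl η).Gam - τ') * E.n) := by
      rw [← gn_two_add]
      congr 1
      ring
    rw [e8]
    calc (2 : ℝ) ^ (-(τ' * E.n)) * 2 ^ (((rndCl η).Gam - τ') * E.n)
        ≤ 2 ^ (-(τ' * E.n)) * (2 ^ (τ' * E.n) * (E.pick (E.sel S')).val) := mul_le_mul_of_nonneg_left e7 (gn_two_pos _).le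
      _ = (E.pick (E.sel S')).val := by
          rw [← mul_assoc, ← gn_two_add]
          simp
  -- CNT
  have hHom' : (E.pick (E.sel S')).Hom ((rndCl η).p0f - τ') ((rndCl η).p0f + τ') := by
    intro l
    obtain ⟨e1, e2, -⟩ := gn_pick_m' E (E.sel S') l
    rw [e1, e2]
    exact hHom (E.sel S' l)
  have hhi : (E.pick (E.sel S')).val ≤ 2 ^ (((rndCl η).Gam + 2 * τ') * E.n) :=
    (HR p (E.pick (E.sel S')) hn2 (gn_cls_pick _ hG.root hc2 _ (gn_sel_inj _ _))).trans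
      (gn_two_mono (mul_le_mul_of_nonneg_right (by linarith) hnn))
  have hcnt := (gn_cnt (E.pick (E.sel S')) hV' (rndCl η).Gam (rndCl η).p0f τ' (2 * τ') hτ'.le (by positivity) hHom' hcert hhi).2.2
  refine ⟨p, E.pick (E.sel S'), 2 ^ j * ϱ, hn0, gn_cls_pick _ hG.root hcA _ (gn_sel_inj _ _), hfree, by positivity, ?_, ?_, ?_, ?_⟩
  · exact le_trans (gn_two_mono (mul_le_mul_of_nonneg_right (by linarith) hnn)) hcert
  · intro l
    have hkw : 0 ≤ (E.pick (E.sel S')).ka * (E.pick (E.sel S')).w l := (mul_pos hV'.ka_pos (hV'.w_pos l)).le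
    exact ⟨le_trans (mul_le_mul_of_nonneg_left (gn_s_anti _ (by linarith)) hkw) (hHom' l).1,
      le_trans (hHom' l).2 (mul_le_mul_of_nonneg_left (gn_s_anti _ (by linarith)) hkw)⟩
  · refine le_trans hcnt (mul_le_mul_of_nonneg_left (gn_s_anti _ ?_) (div_pos hV'.e_pos hV'.ka_pos).le)
    unfold Mdl.d0f
    linarith
  · intro l
    have hm := gn_sel_mem E S' l
    rw [hSm', hSm] at hm
    obtain ⟨hf, haj⟩ := hm
    have g2 := ha2 (E.sel S' l)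
    have g3 := ha3 (E.sel S' l)
    rw [haj] at g2 g3
    exact ⟨g2, g3, hf⟩

/-- **BASE**: free, two-sided homogeneous, THICK, ROUND extremisers with the weight count, as towers of height `0` -/
theorem rc_tb_main (η : ℝ) (h0 : 0 < η) (h1 : η < 1) (P6 : (cylCl η).Rate (η / 2)) (hΓ : 100 * η < (rndCl η).Gam) (q : ℕ) (hq : 0 < q) (τ : ℝ)
    (hτ : 0 < τ) : ∃ C : ℕ, ∀ A n0 : ℕ, ∃ (p : RdClPar) (W : RcTw η p), W.q = q ∧ n0 ≤ W.E.n ∧ W.Ok 0 C A τ := by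
  obtain ⟨C, H⟩ := rc_tb_ext η h0 h1 P6 hΓ τ hτ
  refine ⟨C, fun A n0 => ?_⟩
  obtain ⟨p, E, R0, hn, hcls, hfree, hR0, hval, hHom, htw, hsh⟩ := H A (max n0 q)
  have hn0 : n0 ≤ E.n := le_trans (le_max_left _ _) hn
  have hnq : q ≤ E.n := le_trans (le_max_right _ _) hn
  let W : RcTw η p := ⟨E, q, E.n / q, R0, fun _ _ _ => 0, fun _ => 0⟩
  have hEx : W.Ex 0 = E := rc_withSt_nil E hfree
  refine ⟨p, W, rfl, hn0, ?_⟩
  refine ⟨hfree, Nat.mul_div_le _ _, Nat.lt_mul_div_succ _ hq, Nat.div_pos hnq hq, hq, hR0, ?_, ?_, hHom, htw, hsh, ?_, ?_, ?_⟩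
  · intro i hi
    obtain rfl : i = 0 := by omega
    rw [hEx]
    exact hcls
  · intro i hi
    obtain rfl : i = 0 := by omega
    rw [hEx]
    exact hval
  · intro i h0 hi
    omega
  · intro i h0 hi
    omega
  · intro i h0 hi
    omega

end Claimed.Agent.R256
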