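-- KEEP
import Claimed.Agent.R256.Rc.TowB
import Claimed.Agent.R256.Rc.TwBase
import Claimed.Agent.R256.Re.PeelA2
import Claimed.Agent.R256.Gen.Contract

/-!
# Row 256, unit RC, block (I-cl): EXITS of the block TOW      (chief helper106; block architect helper123; prefix `rc_`)

 `rc_peel`      GENERIC (any model with `Gen g`): ONE preserving peel level behind all stages of an experiment with a certificate, with the upper halves of (CE).      EST 350 l.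
 `rc_tow_base`  free homogeneous ROUND extremisers of the classical model.                                                                              EST 600 l. (cut: THICK + DYAD + CNT)
-/

set_option autoImplicit false

namespace Claimed.Agent.R256

open MeasureTheory
open scoped BigOperators
open Classical

/-- the cut of `X` at the depth `k` behind all stages (generic) -/
theorem rc_pe_cut {P : PkSys} (X : Xp P) (k : ℕ) (hst : ∀ σ ∈ X.st, σ.k ≤ k) (h0 : X.k0 ≤ k) (h1 : k ≤ X.kf) : X.CutAt k X.st [] :=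
  ⟨(List.append_nil _).symm, hst, fun _ h => absurd h (List.not_mem_nil), h0, h1⟩

/-- **LEVEL (generic)**: one of the levels of the peeled decomposition at the depth `k` behind all the stages of `X` keeps `rd / (D n + 1)³`. -/
theorem rc_pe_level (M : Mdl) (g : ℝ) (hG : M.Gen g) (C D : ℕ) (hD : 10 ≤ D) :
    ∃ Cs : ℝ, 1 ≤ Cs ∧ ∃ A n0 : ℕ, ∀ (p : M.Par) (X : Xp (M.sys p)) (k b : ℕ), n0 ≤ X.n → M.Cls C A p X → (∀ σ ∈ X.st, σ.k ≤ k) → X.k0 ≤ k →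
      k ≤ X.kf → b ≤ C + 1 → (∀ I ∈ ivs X.k0 X.i0 k, X.at' k I X.st ∈ (M.sys p).Pl b) → 2 ^ (-((X.n : ℝ) / 2)) ≤ X.val →
      ∃ (Mk : ℕ → (M.sys p).X → ℝ) (β : ℝ), (X.ins k b X.st [] Mk).LvlAt X.st ⟨k, b, Mk⟩ [] β ∧ X.InsAt k b X.st [] [] Mk (2 * β) ∧
        X.s ^ (D : ℝ) * X.ka ≤ β ∧ β ≤ Cs * X.ka ∧ X.rd ≤ ((D * X.n + 1 : ℕ) : ℝ) ^ 3 * (X.ins k b X.st [] Mk).rd := by
  obtain ⟨Cs, hCs, A, n1, H1⟩ := gn_dec_ins M g hG (C + 1) D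
  obtain ⟨n2, H2⟩ := gn_lev_rem M g hG (C + 1) D Cs (by linarith)
  obtain ⟨n3, H3⟩ := gn_absorb_poly D 1 (1 / 4) (by norm_num)
  refine ⟨Cs, hCs, A, max n1 (max n2 (max n3 1)), fun p X k b hn hX hst h0 h1 hb hpl hval => ?_⟩
  have hn1 : n1 ≤ X.n := le_trans (by simp) hn
  have hn2 : n2 ≤ X.n := le_trans (by simp) hn
  have hn3 : n3 ≤ X.n := le_trans (by simp) hn
  have hn4 : 1 ≤ X.n := le_trans (by simp) hn
  have hX' : M.Cls (C + 1) A p X := gn_cls_mono M hG.scale (Nat.le_succ C) hX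
  have hV : X.Valid := hX.2.1
  have hT : (M.sys p).Tight := hG.tight p hX.1
  have hcut : X.CutAt k X.st [] := rc_pe_cut X k hst h0 h1
  obtain ⟨Mk, hlev, hrem, hsum⟩ := H1 p X hn1 hX' k b X.st [] [] hcut (by simp) (by simp) hb hpl
  have hmsk : ∀ j, j < D * X.n + 1 → ∀ i, IsMask (Mk j i) := by
    intro j hj
    rcases Nat.lt_succ_iff_lt_or_eq.1 hj with h | h
    · exact (hlev j h).2.msk
    · rw [h]; exact hrem.msk
  have hvalid : ∀ j, j < D * X.n + 1 → (X.ins k b X.st [] (Mk j)).Valid := fun j hj =>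
    gn_ins_valid X hV hcut b (hmsk j hj)
  obtain ⟨j, hj, hpig⟩ := re_pe_pigeon (Finset.range (D * X.n + 1)) ⟨0, by simp⟩ X.rd (gn_rd_nonneg X hV)
    (fun j => if j < D * X.n + 1 then (X.ins k b X.st [] (Mk j)).rd else 0) (by
      intro j
      by_cases hj : j < D * X.n + 1
      · simp only [if_pos hj]; exact gn_rd_nonneg _ (hvalid j hj)
      · simp only [if_neg hj]; exact le_rfl) (by
      refine hsum.trans (le_of_eq ?_)
      refine Finset.sum_congr rfl fun j hj => ?_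
      rw [if_pos (Finset.mem_range.1 hj)]
      rfl)
  have hj' := Finset.mem_range.1 hj
  simp only [if_pos hj', Finset.card_range] at hpig
  have hc : 0 < 2 ^ ((X.n : ℝ) / 2) / (X.e * Real.sqrt X.ka) :=
    div_pos (gn_two_pos _) (mul_pos hV.e_pos (Real.sqrt_pos.2 hV.ka_pos))
  rcases Nat.lt_succ_iff_lt_or_eq.1 hj' with h | h
  · obtain ⟨_, hβ1, hβ2⟩ := gn_dec_beta X hV.ka_pos D Cs hCs j h
    exact ⟨Mk j, _, (hlev j h).1, (hlev j h).2, hβ1, hβ2, hpig⟩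
  · exfalso
    subst h
    have h3 := H2 p X A hn2 hX' k b X.st [] [] (Mk (D * X.n)) hrem hb
    have h4 := H3 X.n hn3
    have hnn : (1 : ℝ) ≤ X.n := by exact_mod_cast hn4
    have hD' : (10 : ℝ) ≤ D := by exact_mod_cast hD
    have h5 : X.val ≤ ((D * X.n + 1 : ℕ) : ℝ) ^ 3 * 2 ^ ((4 - (D : ℝ) / 2) * X.n) := by
      have e : X.val = 2 ^ ((X.n : ℝ) / 2) / (X.e * Real.sqrt X.ka) * X.rd := rfl
      rw [e]
      refine (mul_le_mul_of_nonneg_left hpig hc.le).trans ?_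
      rw [mul_left_comm]
      exact mul_le_mul_of_nonneg_left h3 (by positivity)
    have h6 : X.val ≤ 2 ^ (1 / 4 * (X.n : ℝ) + (4 - (D : ℝ) / 2) * X.n) := by
      rw [gn_two_add]
      refine h5.trans (mul_le_mul_of_nonneg_right ?_ (gn_two_pos _).le)
      linarith
    have h7 : (2 : ℝ) ^ (1 / 4 * (X.n : ℝ) + (4 - (D : ℝ) / 2) * X.n) < 2 ^ (-((X.n : ℝ) / 2)) := by
      refine Real.rpow_lt_rpow_of_exponent_lt (by norm_num) ?_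
      nlinarith
    linarith

/-- **PEEL (generic)**: a PRESERVING peel level at the depth `k` behind all the stages of `X`, with the benchmarks (CE) of the FREE regime. -/
theorem rc_pe_main (M : Mdl) (g : ℝ) (hG : M.Gen g) (hΓ : 0 < M.Gam) (K : ℕ) (a0 ξ : ℝ) (ha : 0 < a0) (hξ : 0 < ξ) :
    ∃ τ : ℝ, 0 < τ ∧ ∀ C : ℕ, ∃ A0 n0 : ℕ, ∀ (A : ℕ) (p : M.Par) (X : Xp (M.sys p)) (k b : ℕ), A0 ≤ A → n0 ≤ X.n → M.Cls C A p X → X.st.length ≤ K →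
      X.tw ≤ X.e / X.ka * X.s ^ (-(M.p0f + M.d0f) - τ) → 2 ^ ((M.Gam - τ) * X.n) ≤ X.val →
      (∀ σ ∈ X.st, σ.k ≤ k) → X.k0 ≤ k → a0 * X.n ≤ ((k - X.k0 : ℕ) : ℝ) → ((k - X.k0 : ℕ) : ℝ) ≤ (1 - a0) * X.n →
      b ≤ C + 1 → (∀ I ∈ ivs X.k0 X.i0 k, X.at' k I X.st ∈ (M.sys p).Pl b) →
      ∃ (Mk : ℕ → (M.sys p).X → ℝ) (β : ℝ), (X.ins k b X.st [] Mk).LvlAt X.st ⟨k, b, Mk⟩ [] β ∧ X.InsAt k b X.st [] [] Mk (2 * β) ∧
        M.Cls (C + 1) A p (X.ins k b X.st [] Mk) ∧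
        2 ^ ((M.Gam - ξ) * X.n) ≤ (X.ins k b X.st [] Mk).val ∧
        X.ka * (2 : ℝ) ^ (-(M.p0f * ((k - X.k0 : ℕ) : ℝ)) - ξ * X.n) ≤ β ∧ β ≤ X.ka * (2 : ℝ) ^ (-(M.p0f * ((k - X.k0 : ℕ) : ℝ)) + ξ * X.n) ∧
        X.e * (2 : ℝ) ^ (M.d0f * ((k - X.k0 : ℕ) : ℝ) - ξ * X.n) ≤ (X.ins k b X.st [] Mk).post X.st ⟨k, b, Mk⟩ ∧
        (X.ins k b X.st [] Mk).raw X.st ⟨k, b, Mk⟩ ≤ X.e * (2 : ℝ) ^ (M.d0f * ((k - X.k0 : ℕ) : ℝ) + ξ * X.n) := by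
  obtain ⟨τ2, hτ2, H2⟩ := gn_ss2f M g hG hΓ a0 ξ ha hξ (K + 1)
  obtain ⟨τ, hτ, hτa, hτb, hτc⟩ : ∃ τ : ℝ, 0 < τ ∧ τ ≤ τ2 / 2 ∧ τ ≤ ξ / 2 ∧ τ ≤ 1 / 2 :=
    ⟨min (τ2 / 2) (min (ξ / 2) (1 / 2)), lt_min (by positivity) (lt_min (by positivity) (by norm_num)), min_le_left _ _,
      (min_le_right _ _).trans (min_le_left _ _), (min_le_right _ _).trans (min_le_right _ _)⟩
  refine ⟨τ, hτ, fun C => ?_⟩
  obtain ⟨Cs, hCs, A1, n1, H1⟩ := rc_pe_level M g hG C 10 le_rfl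
  obtain ⟨A2, n2, H2⟩ := H2 (C + 1)
  obtain ⟨n3, H3⟩ := gn_absorb_poly 10 1 τ hτ
  refine ⟨max A1 A2, max n1 (max n2 n3), fun A p X k b hA hn hX hK htw hval hst h0 hj1 hj2 hb hpl => ?_⟩
  have hn1 : n1 ≤ X.n := le_trans (by simp) hn
  have hn2 : n2 ≤ X.n := le_trans (by simp) hn
  have hn3 : n3 ≤ X.n := le_trans (by simp) hn
  have hnn : (0 : ℝ) ≤ X.n := Nat.cast_nonneg _
  have hV : X.Valid := hX.2.1
  have h1 : k ≤ X.kf := by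
    have : ((k - X.k0 : ℕ) : ℝ) ≤ X.n := by nlinarith
    have h' : k - X.k0 ≤ X.n := by exact_mod_cast this
    unfold Xp.kf
    omega
  have hX1 : M.Cls C A1 p X := gn_cls_anti M hG.scale (le_trans (le_max_left _ _) hA) hX
  have hΓ0 := hΓ.le
  have hv0 : (2 : ℝ) ^ (-((X.n : ℝ) / 2)) ≤ X.val := by
    refine le_trans (gn_two_mono ?_) hval
    nlinarith
  obtain ⟨Mk, β, hL, hI, -, -, hrd⟩ := H1 p X k b hn1 hX1 hst h0 h1 hb hpl hv0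
  have hcut := rc_pe_cut X k hst h0 h1
  have hcls : M.Cls (C + 1) A p (X.ins k b X.st [] Mk) := gn_ins_cls M g hG hX hcut hb hI.msk
  have hcls2 : M.Cls (C + 1) A2 p (X.ins k b X.st [] Mk) := gn_cls_anti M hG.scale (le_trans (le_max_right _ _) hA) hcls
  have hc : 0 < 2 ^ ((X.n : ℝ) / 2) / (X.e * Real.sqrt X.ka) :=
    div_pos (gn_two_pos _) (mul_pos hV.e_pos (Real.sqrt_pos.2 hV.ka_pos))
  -- the certificate
  have hcert : (2 : ℝ) ^ ((M.Gam - 2 * τ) * X.n) ≤ (X.ins k b X.st [] Mk).val := by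
    have e1 : X.val ≤ ((10 * X.n + 1 : ℕ) : ℝ) ^ 3 * (X.ins k b X.st [] Mk).val := by
      have e : X.val = 2 ^ ((X.n : ℝ) / 2) / (X.e * Real.sqrt X.ka) * X.rd := rfl
      have e' : (X.ins k b X.st [] Mk).val = 2 ^ ((X.n : ℝ) / 2) / (X.e * Real.sqrt X.ka) * (X.ins k b X.st [] Mk).rd := rfl
      rw [e, e', mul_left_comm]
      exact mul_le_mul_of_nonneg_left hrd hc.le
    have e2 := H3 X.n hn3
    rw [one_mul] at e2
    have hv' : 0 ≤ (X.ins k b X.st [] Mk).val := mul_nonneg hc.le (gn_rd_nonneg _ hcls.2.1)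
    have e3 : (2 : ℝ) ^ ((M.Gam - τ) * X.n) ≤ 2 ^ (τ * X.n) * (X.ins k b X.st [] Mk).val :=
      hval.trans (e1.trans (mul_le_mul_of_nonneg_right e2 hv'))
    have e4 : (2 : ℝ) ^ ((M.Gam - 2 * τ) * X.n) = 2 ^ (-(τ * X.n)) * 2 ^ ((M.Gam - τ) * X.n) := by
      rw [← gn_two_add]
      congr 1
      ring
    rw [e4]
    calc (2 : ℝ) ^ (-(τ * X.n)) * 2 ^ ((M.Gam - τ) * X.n) ≤ 2 ^ (-(τ * X.n)) * (2 ^ (τ * X.n) * (X.ins k b X.st [] Mk).val) :=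
          mul_le_mul_of_nonneg_left e3 (gn_two_pos _).le
      _ = (X.ins k b X.st [] Mk).val := by
          rw [← mul_assoc, ← gn_two_add]
          simp
  have hlen : (X.ins k b X.st [] Mk).st.length ≤ K + 1 := by
    show (X.st ++ [(⟨k, b, Mk⟩ : Stg (M.sys p))]).length ≤ K + 1
    rw [List.length_append]
    simpa using hK
  have htw2 : (X.ins k b X.st [] Mk).tw ≤ (X.ins k b X.st [] Mk).e / (X.ins k b X.st [] Mk).ka *
      (X.ins k b X.st [] Mk).s ^ (-(M.p0f + M.d0f) - τ2) := by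
    refine le_trans htw (mul_le_mul_of_nonneg_left (gn_s_anti _ (by linarith)) (div_pos hV.e_pos hV.ka_pos).le)
  have hcert2 : (2 : ℝ) ^ ((M.Gam - τ2) * ((X.ins k b X.st [] Mk).n : ℝ)) ≤ (X.ins k b X.st [] Mk).val :=
    le_trans (gn_two_mono (mul_le_mul_of_nonneg_right (by linarith) hnn)) hcert
  have hmain := H2 p (X.ins k b X.st [] Mk) hn2 hcls2 hlen htw2 hcert2 X.st [] ⟨k, b, Mk⟩ β hL hj1 hj2
  refine ⟨Mk, β, hL, hI, hcls, le_trans (gn_two_mono (mul_le_mul_of_nonneg_right (by linarith) hnn)) hcert, hmain.1, hmain.2.1, hmain.2.2.1, hmain.2.2.2⟩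

/-- **PEEL** (generic).
PLAN.   `τs` := `gn_ss2f M g hG hΓ a0 ξ (K+1)`; `τ := min (τs/2) (ξ/2)`.   Given `C`: `D := 12`; `gn_dec_ins (C, D)` (`st1 = X.st`, `st2a = st2b = []`): masks `Mk j`, `j ≤ D n`, `rd^(1/3) ≤ Σ_j rd_j^(1/3)`.
By `gn_cube` (contrapositive) some `j` has `rd_j ≥ rd / (D n + 1)³`.   `j = D n` is impossible: `gn_lev_rem` gives `val_j ≤ 2^((4 - D/2) n) = 2^(-2n)`, but `val / (Dn+1)³ ≥ 2^((Γ - τ) n - τ n) ≥ 2^(-n)` (`gn_absorb_poly`, `τ ≤ 1/2`).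
So `j < D n`: `LvlAt` with `β = 2^-(j+1) Cs κ`; `Cls (C+1)` by `gn_ins_cls` (`IsMask` from `InsAt.msk`); `val_j ≥ 2^((Γ - 2τ) n)`; `gn_ss2f` at the package `C+1` (`gn_cls_anti` to its `A`), `tw`, `raw` do not see the stack (`rfl`). -/
theorem rc_peel (M : Mdl) (g : ℝ) (hG : M.Gen g) (hΓ : 0 < M.Gam) (K : ℕ) (a0 ξ : ℝ) (ha : 0 < a0) (hξ : 0 < ξ) :
    ∃ τ : ℝ, 0 < τ ∧ ∀ C : ℕ, ∃ A0 n0 : ℕ, ∀ (A : ℕ) (p : M.Par) (X : Xp (M.sys p)) (k b : ℕ), A0 ≤ A → n0 ≤ X.n → M.Cls C A p X →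
      X.st.length ≤ K → X.tw ≤ X.e / X.ka * X.s ^ (-(M.p0f + M.d0f) - τ) → 2 ^ ((M.Gam - τ) * X.n) ≤ X.val → X.CutAt k X.st [] → b ≤ C →
      (∀ i ∈ ivs X.k0 X.i0 k, X.at' k i X.st ∈ (M.sys p).Pl b) → a0 * X.n ≤ ((k - X.k0 : ℕ) : ℝ) → ((k - X.k0 : ℕ) : ℝ) ≤ (1 - a0) * X.n →
      ∃ (Mk : ℕ → (M.sys p).X → ℝ) (β : ℝ), (X.ins k b X.st [] Mk).LvlAt X.st ⟨k, b, Mk⟩ [] β ∧ M.Cls (C + 1) A p (X.ins k b X.st [] Mk) ∧
        2 ^ ((M.Gam - ξ) * X.n) ≤ (X.ins k b X.st [] Mk).val ∧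
        β ≤ X.ka * (2 : ℝ) ^ (-(M.p0f * ((k - X.k0 : ℕ) : ℝ)) + ξ * X.n) ∧
        X.raw X.st ⟨k, b, Mk⟩ ≤ X.e * (2 : ℝ) ^ (M.d0f * ((k - X.k0 : ℕ) : ℝ) + ξ * X.n) := by
  obtain ⟨τ, hτ, H⟩ := rc_pe_main M g hG hΓ K a0 ξ ha hξ
  refine ⟨τ, hτ, fun C => ?_⟩
  obtain ⟨A0, n0, H⟩ := H C
  refine ⟨A0, n0, fun A p X k b hA hn hX hK htw hval hcut hb hpl hj1 hj2 => ?_⟩
  obtain ⟨Mk, β, g1, -, g3, g4, -, g6, -, g8⟩ := H A p X k b hA hn hX hK htw hval hcut.2.1 hcut.2.2.2.1 hj1 hj2 (hb.trans (Nat.le_succ _)) hpl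
  exact ⟨Mk, β, g1, g3, g4, g6, g8⟩

/-- **BASE**: free, two-sided homogeneous, THICK, ROUND (one dyadic class of widths) extremisers with the weight count.
PLAN.   `c` := `rt_te_cl η Γ (η/2) .. (τ := τ) (h := 1)` (thin exclusion; `Γ = Gam`, `gn_rate_gam`, `η/2 < 100 η < Γ`; `c` is PACKAGE FREE).   `τ' := min (τ/8) (c/2)`.   `C` := `gn_extf (ξ := τ') (τ := τ')`.
Given `A n0`: `D := 5 ≥ p0f + τ' + 1`; `rt_poly_cl C D` gives `D' A1 n1`; `gn_rate_gam (C, τ')` gives `A2 n2`; the TE constants `A3 n3` at `C`; take the extremiser `E` for `max ..`.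
 THICK  `gn_pick_split` (`S l := E.s^τ ≤ f_l`): `rd = rd_thick + rd_thin`; the thin part is in the class (`gn_cls_pick`), free: `val_thin ≤ 2^((Γ-c) n) ≤ val/2`.   So `val_thick ≥ 2^((Γ-τ') n - 1)`.
 DYAD   every label is heavy (`Hom` lower bound, `gn_en_le_ms`): `rt_poly_cl` gives `s^D' e ≤ κ r⁴ ≤ s^-D' e`: the widths lie in `≤ D' n / 2 + 2` dyadic classes `[2^a ϱ, 2^(a+1) ϱ)`, `ϱ = (s^D' e/κ)^(1/4)`;
        `rd` is additive over the classes (`gn_pick_split` iterated, or `Finset.sum_fiberwise`): one class has `val ≥ val_thick / (D' n + 2) ≥ 2^((Γ - 2τ') n)`.   `R0 := 2^a ϱ`.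
 CNT    `Hom` is inherited by `pick` (`gn_pick_m`); `val ≤ 2^((Γ+τ') n)`; `gn_cnt` gives `tw`.      `m := n / q`; `Mk`, `be` arbitrary; `Ex 0 = E` (`rc_withSt_nil`); the fields on `0 < i ≤ 0` are vacuous. -/
theorem rc_tow_base (η : ℝ) (h0 : 0 < η) (h1 : η < 1) (P6 : (cylCl η).Rate (η / 2)) (hΓ : 100 * η < (rndCl η).Gam) (q : ℕ) (hq : 0 < q) (τ : ℝ)
    (hτ : 0 < τ) : ∃ C : ℕ, ∀ A n0 : ℕ, ∃ (p : RdClPar) (W : RcTw η p), W.q = q ∧ n0 ≤ W.E.n ∧ W.Ok 0 C A τ := by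
  exact rc_tb_main η h0 h1 P6 hΓ q hq τ hτ

end Claimed.Agent.R256
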