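-- KEEP
import Claimed.Agent.R256.Rc.XTow
import Claimed.Agent.R256.Rc.XFld
import Claimed.Agent.R256.Rc.XSlab
import Claimed.Agent.R256.Rc.XAtom

/-!
# Row 256, unit RC, block (I-cl): GLUE of `rc_src_main`      (chief helper106; prefix `rc_`)      SORRY-FREE

    `rc_src_main`  ⟸  `rc_tow` (towers of full height: `rc_tow_base`, `rc_peel`)  +  FIELDS (`Rc/XFld.lean`)  +  SLB (`Rc/XSlab.lean`)  +  ATOM (`Rc/XAtom.lean`).
ORDER OF THE CONSTANTS.   `q es` → `ts'` (SLB), `ts = ts'/2` → `t N` → `t1 = min (t/2) (ts'/2)`, `N1 = N + t1` → `τ` (minimum over the field blocks, `≤ 1`) → `C` (`rc_tow`) → `c0` (`rc_p_sh`) → `m0` → `A0 n0` → the tower → `B F` (ATOM).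
-/

set_option autoImplicit false

namespace Claimed.Agent.R256

open MeasureTheory
open scoped BigOperators
open Classical

/-! ## 1. Towers exist -/

/-- **STEP** (glue of `rc_peel` with `K = q`, `a0 = 1/(2q)`) -/
theorem rc_tow_step (η : ℝ) (h0 : 0 < η) (h1 : η < 1) (hΓ : 0 < (rndCl η).Gam) (q : ℕ) (ξ : ℝ) (hξ : 0 < ξ) :
    ∃ τ : ℝ, 0 < τ ∧ ∀ C : ℕ, ∃ A0 n0 : ℕ, ∀ (A : ℕ) (p : RdClPar) (W : RcTw η p) (hg : ℕ), A0 ≤ A → W.q = q → n0 ≤ W.E.n →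
      W.Ok hg C A τ → hg + 1 < q → ∃ W' : RcTw η p, W'.q = q ∧ W'.E = W.E ∧ W'.Ok (hg + 1) (C + 1) A ξ := by
  rcases Nat.eq_zero_or_pos q with hq | hq
  · subst hq
    exact ⟨1, one_pos, fun _ => ⟨0, 0, fun _ _ _ _ _ _ _ _ h => absurd h (Nat.not_lt_zero _)⟩⟩
  have hqR : (0 : ℝ) < q := by exact_mod_cast hq
  have hG := rt_gen_cl η h0 h1
  obtain ⟨τP, hτP, HP⟩ := rc_peel (rndCl η) 1 hG hΓ q (1 / (2 * q)) ξ (by positivity) hξ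
  refine ⟨min τP ξ, lt_min hτP hξ, fun C => ?_⟩
  obtain ⟨AP, nP, HP⟩ := HP C
  refine ⟨AP, nP, fun A p W hg hA hWq hn hW hlt => ?_⟩
  have hWP := rc_tw_ok_mono W hW (min_le_left _ _)
  have hWξ := rc_tw_ok_mono W hW (min_le_right _ _)
  -- arithmetic
  have hm1 : 1 ≤ W.m := hW.m_pos
  have hnhi := hW.n_hi
  have hnlo := hW.n_lo
  have hnlo' := hnlo
  rw [hWq] at hnhi hnlo
  have hmR : (1 : ℝ) ≤ W.m := by exact_mod_cast hm1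
  have hnhiR : (W.E.n : ℝ) < q * ((W.m : ℝ) + 1) := by exact_mod_cast hnhi
  have hnloR : (q : ℝ) * W.m ≤ W.E.n := by exact_mod_cast hnlo
  have ha0 : 1 / (2 * (q : ℝ)) * W.E.n ≤ W.m := by
    rw [div_mul_eq_mul_div, one_mul, div_le_iff₀ (by positivity)]
    nlinarith
  have hkk : W.dp (hg + 1) - W.E.k0 = (W.E.n - W.q * W.m) + (hg + 1) * W.m := rc_tw_dp_sub W hnlo' _
  have hle : hg + 1 ≤ W.q := by omega
  obtain ⟨hd1, hd2⟩ := rc_tw_dp_le W hnlo' hle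
  have hkkR : ((W.dp (hg + 1) - W.E.k0 : ℕ) : ℝ) = ((W.E.n : ℝ) - q * W.m) + ((hg : ℝ) + 1) * W.m := by
    rw [hkk, hWq]
    push_cast [Nat.cast_sub hnlo]
    ring
  have hgR : ((hg : ℝ) + 1) + 1 ≤ q := by exact_mod_cast hlt
  have hgR0 : (0 : ℝ) ≤ hg := Nat.cast_nonneg _
  have hcut : (W.Ex hg).CutAt (W.dp (hg + 1)) (W.Ex hg).st [] := by
    refine ⟨(List.append_nil _).symm, ?_, by simp, hd1, hd2⟩
    intro σ hσ
    obtain ⟨a, _, ha, rfl⟩ := rc_stk_mem W hg σ hσ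
    exact rc_tw_dp_mono W (by omega)
  have key : ∃ (Mk : ℕ → p.Om → ℝ) (β : ℝ), ((W.Ex hg).ins (W.dp (hg + 1)) 0 (W.Ex hg).st [] Mk).LvlAt (W.Ex hg).st ⟨W.dp (hg + 1), 0, Mk⟩ [] β ∧
      (rndCl η).Cls (C + 1) A p ((W.Ex hg).ins (W.dp (hg + 1)) 0 (W.Ex hg).st [] Mk) ∧
      2 ^ (((rndCl η).Gam - ξ) * W.E.n) ≤ ((W.Ex hg).ins (W.dp (hg + 1)) 0 (W.Ex hg).st [] Mk).val ∧
      β ≤ W.E.ka * (2 : ℝ) ^ (-((rndCl η).p0f * ((W.dp (hg + 1) - W.E.k0 : ℕ) : ℝ)) + ξ * W.E.n) ∧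
      W.E.raw (W.stk hg) ⟨W.dp (hg + 1), 0, Mk⟩ ≤ W.E.e * (2 : ℝ) ^ ((rndCl η).d0f * ((W.dp (hg + 1) - W.E.k0 : ℕ) : ℝ) + ξ * W.E.n) :=
    HP A p (W.Ex hg) (W.dp (hg + 1)) 0 hA hn (hW.cls hg le_rfl) (by
      show (W.stk hg).length ≤ q
      rw [rc_stk_len]
      omega) hWP.tw (hWP.cert hg le_rfl) hcut (Nat.zero_le _) (fun i _ => rc_pl 0 _) (by
      show 1 / (2 * (q : ℝ)) * W.E.n ≤ ((W.dp (hg + 1) - W.E.k0 : ℕ) : ℝ)
      rw [hkkR]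
      nlinarith) (by
      show ((W.dp (hg + 1) - W.E.k0 : ℕ) : ℝ) ≤ (1 - 1 / (2 * (q : ℝ))) * W.E.n
      rw [hkkR]
      nlinarith)
  obtain ⟨Mk, β, g1, g2, g3, g4, g5⟩ := key
  -- the new tower
  have hstk : ∀ i ≤ hg, (W.upd (hg + 1) Mk β).stk i = W.stk i := fun i hi => rc_upd_stk W _ _ _ (by omega)
  have hEx : ∀ i ≤ hg, (W.upd (hg + 1) Mk β).Ex i = W.Ex i := fun i hi => by
    show W.E.withSt ((W.upd (hg + 1) Mk β).stk i) = W.E.withSt (W.stk i)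
    rw [hstk i hi]
  have hsg1 : (W.upd (hg + 1) Mk β).sg (hg + 1) = ⟨W.dp (hg + 1), 0, Mk⟩ := rc_upd_sg W (hg + 1) Mk β
  have hstk1 : (W.upd (hg + 1) Mk β).stk (hg + 1) = W.stk hg ++ [⟨W.dp (hg + 1), 0, Mk⟩] := by
    rw [rc_stk_succ, hstk hg le_rfl, hsg1]
  have hEx1 : (W.upd (hg + 1) Mk β).Ex (hg + 1) = (W.Ex hg).ins (W.dp (hg + 1)) 0 (W.Ex hg).st [] Mk := by
    show W.E.withSt ((W.upd (hg + 1) Mk β).stk (hg + 1)) = _
    rw [hstk1]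
    rfl
  have hsg : ∀ i, i ≤ hg → (W.upd (hg + 1) Mk β).sg i = W.sg i := fun i hi => by
    show (⟨_, 0, Function.update W.Mk (hg + 1) Mk i⟩ : Stg (p.sys η)) = ⟨_, 0, W.Mk i⟩
    rw [Function.update_of_ne (by omega)]
    rfl
  have hbe : ∀ i, i ≤ hg → (W.upd (hg + 1) Mk β).be i = W.be i := fun i hi => by
    show Function.update W.be (hg + 1) β i = W.be i
    rw [Function.update_of_ne (by omega)]
  have hbe1 : (W.upd (hg + 1) Mk β).be (hg + 1) = β := by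
    show Function.update W.be (hg + 1) β (hg + 1) = β
    rw [Function.update_self]
  refine ⟨W.upd (hg + 1) Mk β, hWq, rfl, ?_⟩
  refine ⟨hW.free, hW.n_lo, hW.n_hi, hW.m_pos, by show hg + 1 < W.q; omega, hW.R0_pos, ?_, ?_, hWξ.hom, hWξ.tw, hWξ.shape, ?_, ?_, ?_⟩
  · intro i hi
    rcases Nat.lt_or_ge hg i with h | h
    · obtain rfl : i = hg + 1 := by omega
      rw [hEx1]
      exact g2
    · rw [hEx i h]
      exact gn_cls_mono _ hG.scale (Nat.le_succ C) (hW.cls i h)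
  · intro i hi
    rcases Nat.lt_or_ge hg i with h | h
    · obtain rfl : i = hg + 1 := by omega
      rw [hEx1]
      exact g3
    · rw [hEx i h]
      exact hWξ.cert i h
  · intro i hi0 hi
    rcases Nat.lt_or_ge hg i with h | h
    · obtain rfl : i = hg + 1 := by omega
      rw [hEx1, hbe1, hsg1, Nat.add_sub_cancel, hstk hg le_rfl]
      exact g1
    · rw [hEx i h, hbe i h, hsg i h, hstk (i - 1) (by omega)]
      exact hW.lvl i hi0 h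
  · intro i hi0 hi
    rcases Nat.lt_or_ge hg i with h | h
    · obtain rfl : i = hg + 1 := by omega
      rw [hbe1]
      exact g4
    · rw [hbe i h]
      exact hWξ.be_hi i hi0 h
  · intro i hi0 hi
    rcases Nat.lt_or_ge hg i with h | h
    · obtain rfl : i = hg + 1 := by omega
      rw [hsg1, Nat.add_sub_cancel, hstk hg le_rfl]
      exact g5
    · rw [hsg i h, hstk (i - 1) (by omega)]
      exact hWξ.raw_hi i hi0 h

/-- towers of every height -/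
theorem rc_tow_ht (η : ℝ) (h0 : 0 < η) (h1 : η < 1) (P6 : (cylCl η).Rate (η / 2)) (hΓ : 100 * η < (rndCl η).Gam) (q : ℕ) (hg : ℕ) (hq : hg < q)
    (τ : ℝ) (hτ : 0 < τ) : ∃ C : ℕ, ∀ A n0 : ℕ, ∃ (A' : ℕ) (p : RdClPar) (W : RcTw η p), A ≤ A' ∧ W.q = q ∧ n0 ≤ W.E.n ∧ W.Ok hg C A' τ := by
  have hΓ0 : 0 < (rndCl η).Gam := lt_trans (by positivity) hΓ
  induction hg generalizing τ with
  | zero =>
    obtain ⟨C, h⟩ := rc_tow_base η h0 h1 P6 hΓ q hq τ hτ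
    refine ⟨C, fun A n0 => ?_⟩
    obtain ⟨p, W, g1, g2, g3⟩ := h A n0
    exact ⟨A, p, W, le_rfl, g1, g2, g3⟩
  | succ hg ih =>
    obtain ⟨τ', hτ', hs⟩ := rc_tow_step η h0 h1 hΓ0 q τ hτ
    obtain ⟨C, h⟩ := ih (by omega) τ' hτ'
    obtain ⟨A0, n1, hs⟩ := hs C
    refine ⟨C + 1, fun A n0 => ?_⟩
    obtain ⟨A', p, W, e0, e1, e2, e3⟩ := h (max A A0) (max n0 n1)
    obtain ⟨W', g1, g2, g3⟩ := hs A' p W hg (le_trans (le_max_right _ _) e0) e1 (le_trans (le_max_right _ _) e2) e3 hq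
    exact ⟨A', p, W', le_trans (le_max_left _ _) e0, g1, by rw [g2]; exact le_trans (le_max_left _ _) e2, g3⟩

/-- **TOW**: towers of full height -/
theorem rc_tow (η : ℝ) (h0 : 0 < η) (h1 : η < 1) (P6 : (cylCl η).Rate (η / 2)) (hΓ : 100 * η < (rndCl η).Gam) (q : ℕ) (hq : 0 < q) (τ : ℝ)
    (hτ : 0 < τ) : ∃ C : ℕ, ∀ A n0 : ℕ, ∃ (A' : ℕ) (p : RdClPar) (W : RcTw η p), A ≤ A' ∧ W.q = q ∧ n0 ≤ W.E.n ∧ W.Ok (q - 1) C A' τ :=
  rc_tow_ht η h0 h1 P6 hΓ q (q - 1) (by omega) τ hτ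

/-! ## 2. Glue -/

/-- **BLOCK (I-cl)** -/
theorem rc_src_main (η : ℝ) (h0 : 0 < η) (h1 : η < 1) (P6 : (cylCl η).Rate (η / 2)) (hA : RcPlaneA η) (hB : RcPlaneB η)
    (hΓ : 100 * η < (rndCl η).Gam) : RcSrc (rndCl η).p0f (rndCl η).d0f 3 := by
  have hΓ0 : 0 < (rndCl η).Gam := lt_trans (by positivity) hΓ
  intro q es hes
  rcases Nat.eq_zero_or_pos q with hq | hq
  · subst hq
    exact ⟨1, one_pos, fun t N ht => ⟨0, fun m0 => ⟨rcDoc0 m0, rfl, le_rfl, rc_doc0_pre m0 _ _ _ _ _ _ _ ht⟩⟩⟩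
  obtain ⟨ts', hts', hS⟩ := rc_p_slab η h0 h1 hA hB hΓ q es hes
  refine ⟨ts' / 2, by positivity, fun t N ht => ?_⟩
  obtain ⟨t1, ht1, ht1a, ht1b⟩ : ∃ t1 : ℝ, 0 < t1 ∧ 2 * t1 ≤ t ∧ t1 ≤ ts' / 2 :=
    ⟨min (t / 2) (ts' / 2), lt_min (by positivity) (by positivity), by linarith [min_le_left (t / 2) (ts' / 2)], min_le_right _ _⟩
  have hall := rc_all_and (rc_all_and (rc_all_and (rc_p_tot η h0 h1 hΓ0 q t1 ht1) (rc_p_exc η h0 h1 hΓ0 q t1 (N + t1) ht1))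
    (rc_all_and (rc_p_cnt η h0 h1 hΓ0 q t1 ht1) (rc_p_mem η h0 h1 hΓ0 q t1 ht1))) (rc_all_and (rc_p_time η h0 h1 hΓ0 q t1 (N + t1) ht1) hS)
  obtain ⟨τ, hτ, H⟩ := hall
  obtain ⟨C, hT⟩ := rc_tow η h0 h1 P6 hΓ q hq (min τ 1) (lt_min hτ one_pos)
  obtain ⟨c0, A1, n1, Hsh⟩ := rc_p_sh η h0 h1 hΓ0 q C
  obtain ⟨A2, n2, H⟩ := H C
  refine ⟨c0, fun m0 => ?_⟩
  obtain ⟨A, p, W, hA', hWq, hn, hW⟩ := hT (max A1 A2) (max (max n1 n2) (q * (max m0 ⌈1 / t1⌉₊ + 1)))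
  have hm : max m0 ⌈1 / t1⌉₊ ≤ W.m := by
    have e1 : q * (max m0 ⌈1 / t1⌉₊ + 1) ≤ W.E.n := le_trans (le_max_right _ _) hn
    have e2 := hW.n_hi
    rw [hWq] at e2
    have e3 : max m0 ⌈1 / t1⌉₊ + 1 < W.m + 1 := Nat.lt_of_mul_lt_mul_left (lt_of_le_of_lt e1 e2)
    omega
  have hsh := Hsh A p W (min τ 1) (le_trans (le_max_left _ _) hA') (min_le_right _ _) hWq
    (le_trans (le_trans (le_max_left _ _) (le_max_left _ _)) hn) hW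
  obtain ⟨⟨⟨f1, f2⟩, f3, f4⟩, f5, f6⟩ := H A p W (le_trans (le_max_right _ _) hA') hWq
    (le_trans (le_trans (le_max_right _ _) (le_max_left _ _)) hn) (rc_tw_ok_mono W hW (min_le_left _ _))
  have hP : W.PreP t1 (N + t1) c0 3 es ts' := ⟨hsh, f1, f2, f3, f4, f5, f6⟩
  have h2 : 2 ≤ W.tl t1 := by
    have e1 : 1 / t1 ≤ (W.m : ℝ) := (Nat.le_ceil _).trans (by exact_mod_cast le_trans (le_max_right _ _) hm)
    have e2 : 1 ≤ t1 * W.m := by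
      rw [div_le_iff₀ ht1] at e1
      linarith
    calc (2 : ℝ) = 2 ^ (1 : ℝ) := (Real.rpow_one 2).symm
      _ ≤ W.tl t1 := gn_two_mono e2
  have hW' : W.Ok (W.q - 1) C A (min τ 1) := by rw [hWq]; exact hW
  obtain ⟨B, F, hPre⟩ := rc_atom W hW' t1 (N + t1) c0 3 es ts' (by norm_num) ht1 hes h2 hP
  exact ⟨W.doc B F, hWq, le_trans (le_max_left _ _) hm, rc_pre_mono _ hPre ht1a (by linarith) (by linarith)⟩

end Claimed.Agent.R256
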