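-- KEEP
import Claimed.Agent.R256.Rc.Prof
import Claimed.Agent.R256.Rnd.ClMain
import Claimed.Agent.R256.Rt.Contract
import Claimed.Agent.R256.Gen.Contract
import Claimed.Agent.R256.Base.Cyl
import Claimed.Agent.R256.Rc.TowC
import Claimed.Agent.R256.Rc.PlbMain

/-!
# Row 256, unit RC = thm:round, CLASSICAL half: CONTRACT      (chief helper106; prefix `rc_`)

    `rc_main : (cylCl η).Rate (η/2) → (rndCl η).Rate (100 η)`      (= `re_cl` of `Re/Contract.lean`)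
CHAIN (by contradiction):   `¬ Rate (100 η)`  ⟹  `Γ := (rndCl η).Gam > 100 η`;   `p := p0f`, `d := d0f` (FREE regime of `Gen`), `p = 1 + 2d - 2Γ`, `1 ≤ p`, `0 < d ≤ 1`, `Γ ≤ d`
    ⟹ (I-cl)  `rc_src`  : `RcSrc p d 3`      model level       `Rc/Tow*.lean`, `Rc/Plane*.lean`
    ⟹ (II-cl) `rc_prof` : `RnProfCl ..` for ALL parameters      finite laws      `Rc/Prof.lean`
    ⟹ `False` by `rn_cl 4 d Γ` (helper38, `Rnd/ClMain.lean`).
ENTRY from Rt (helper216): `rt_gen_cl` (`Gen 1`), `rt_te_cl` (thin exclusion, uses P6), `rt_poly_cl`, `rt_G1`, `rt_cov_cl`;   from Gen (helper199): everything;   from Kin (helper132): `KinMeasC`.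
-/

set_option autoImplicit false

namespace Claimed.Agent.R256

/-- the exponent is large if the rate fails -/
theorem rc_gam_gt (η : ℝ) (h0 : 0 < η) (h1 : η < 1) (hn : ¬ (rndCl η).Rate (100 * η)) : 100 * η < (rndCl η).Gam := by
  by_contra h
  exact hn ((rndCl η).bs_rate_mono (gn_rate_gam _ 1 (rt_gen_cl η h0 h1)) (not_lt.1 h))

/-- **BLOCK (I-cl)**: classical documents exist      (glue: `Rc/TowC.lean`; (tiny-cap): `Rc/Plane.lean`; (sec): `Rc/PlbMain.lean`, helper183, DIRECT route, closed first;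
the second route `rc_planeB_of_abs (rc_absB kin_meas)` (`Rc/PlaneN.lean`, `Rc/Plane.lean`, `Rc/Ab*.lean`) is NOT consumed) -/
theorem rc_src (η : ℝ) (h0 : 0 < η) (h1 : η < 1) (P6 : (cylCl η).Rate (η / 2)) (hΓ : 100 * η < (rndCl η).Gam) :
    RcSrc (rndCl η).p0f (rndCl η).d0f 3 :=
  rc_src_main η h0 h1 P6 (rc_planeA η h0 h1) (rc_pb_planeB η h0 h1) hΓ

/-- **thm:round, classical half** -/
theorem rc_main (η : ℝ) (h0 : 0 < η) (h1 : η < 1) (P6 : (cylCl η).Rate (η / 2)) : (rndCl η).Rate (100 * η) := by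
  by_contra hn
  have hG := rt_gen_cl η h0 h1
  have hΓ := rc_gam_gt η h0 h1 hn
  have hΓ0 : 0 < (rndCl η).Gam := lt_trans (by positivity) hΓ
  have hsrc := rc_src η h0 h1 P6 hΓ
  obtain ⟨hd0, hd1⟩ := gn_d0f_le _ 1 hG hΓ0
  have hp := gn_p0f_ge _ 1 hG hΓ0
  have hpe : (rndCl η).p0f = 1 + 2 * (rndCl η).d0f - 2 * (rndCl η).Gam := by
    unfold Mdl.d0f
    ring
  have hΓd : (rndCl η).Gam ≤ (rndCl η).d0f := by
    unfold Mdl.d0f
    linarith
  rw [hpe] at hsrc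
  obtain ⟨r, N, k0, M0, e, τ, es, he, hτ, hes, hno⟩ := rn_cl 4 (rndCl η).d0f (rndCl η).Gam (by norm_num) hd0 hd1 hΓ0 hΓd
  exact hno (rc_prof _ _ hd0 hd1 hΓ0 hΓd hsrc r N k0 M0 e τ es he hτ hes)

end Claimed.Agent.R256
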