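-- KEEP
import Claimed.Agent.R256.Rc.Plane
import Claimed.Agent.R256.Re.SecMain
import Claimed.Agent.R256.Kin.MeasMain

/-!
# Row 256, unit RC, block PLANE-B-cl = (sec), CLASSICAL (08-round-entropy.tex l.340-430), file 1: DEFINITIONS      (architect helper183; prefix `rc_pb_`, defs `pb..`/`Pb..`)
EXIT of the block (`Rc/PlbMain.lean`):   `rc_pb_planeB : RcPlaneB η`   (`RcPlaneB` of `Rc/Plane.lean`, helper106).
ROUTE.   NO normalisation step, NO cubes, NO position charts: we work with the PHYSICAL rows at the root time and REUSE THE CLOSED WAVE GEOMETRY of helper290 (`Re/SecDefs, SecLin, SecMain`):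
a patch datum `c : SecPt` (root cut `k`, root time `T0`, frame width `r`, exact direction `Ao`, unit gradient `e`, curvature `bt`) with a **FAKE PLANCK CONSTANT**: `c.h = Δ^16`, `Δ = 2^-n`, so that the wave width `2Λ√h` is `W = 2ΛΔ⁸`.
 * `re_sc_squares`, `re_sc_patch_mk` : the velocities are cut into `(100 Kp P)²` squares, each with a patch datum, `Λ = 8 Kp P`.
 * chart (L) `c.Lm`; the ray of a row `x` in the chart is a straight line (`rc_pb_ray`):  new time `t`, `b₁' = pbB x t`, `y' = pbY x t`, `b₂' = pbS x t`, slopes `X = pbX x`, `X² + X₂²`, `X₂ = pbX2 x` (`|X| ≤ 1/4`, `|X₂| ≤ W`).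
 * WINDOWS of the new time `[t_j, t_j + ℓE)`, `t_j = j ℓE`, `ℓE = 2^-a`, `2^a ≥ 1 + 16Λ²`;   SLABS `⌊b₂'(t_j)/W⌋ = σ`;   kinetic data of the window: `X`, `B = b₁'(t_j)/ℓE`, `Y = y'(t_j)/ℓE`, mesh `δ = 2^-(n-a)`, `ℓE δ = Δ`.
 * a kinetic box `R × R × R²` of a window and a slab is a TILE at enlargement `3`:  `re_sc_geo` puts it into ONE enlarged hyperquadric test, `rt_G1` gives (slice-reg).
 * `KinMeasGridC` on every (window, slab);   ONE relabelling lemma (`rc_pb_rel`) passes from the labels of the experiment to the new cells `(j, σ, n', d)`.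
All definitions are FROZEN.
-/

set_option autoImplicit false

namespace Claimed.Agent.R256

open MeasureTheory
open scoped BigOperators

namespace SecPt

variable (c : SecPt)

/-- the event of the ray of the row `x` (a row AT THE ROOT TIME `T0`) at the time lag `s`, in the chart -/
noncomputable def pbEv (x : RtRow) (s : ℝ) : TV × ℝ := c.Lm (c.T0 + s, ((x.flow s).b, (x.flow s).y))

/-- `D = dt'/du` of a row -/
noncomputable def pbD (x : RtRow) : ℝ := c.D (c.ang x.A)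

/-- the slope `X = A₁'` -/
noncomputable def pbX (x : RtRow) : ℝ := c.X x.A

/-- the transverse slope `X₂ = A₂' = F/D` -/
noncomputable def pbX2 (x : RtRow) : ℝ := c.F (c.ang x.A) / c.D (c.ang x.A)

/-- the new time at the lag `0` -/
noncomputable def pbT (x : RtRow) : ℝ := (c.pbEv x 0).1 0

/-- `b₁'` at the new time `t` -/
noncomputable def pbB (x : RtRow) (t : ℝ) : ℝ := (c.pbEv x 0).1 1 + (t - c.pbT x) * c.pbX x

/-- `y'` at the new time `t` -/
noncomputable def pbY (x : RtRow) (t : ℝ) : ℝ := (c.pbEv x 0).1 2 + (t - c.pbT x) * (c.pbX x ^ 2 + c.pbX2 x ^ 2)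

/-- `b₂'` at the new time `t` -/
noncomputable def pbS (x : RtRow) (t : ℝ) : ℝ := (c.pbEv x 0).2 + (t - c.pbT x) * c.pbX2 x

/-- the old time lag at the new time `t` -/
noncomputable def pbLag (x : RtRow) (t : ℝ) : ℝ := c.l * ((t - c.pbT x) / c.pbD x)

/-- the row belongs to the patch -/
def PbIn (Λ : ℝ) (x : RtRow) : Prop := rtSq (c.ang x.A) * (1 + |c.bt|) ^ 2 ≤ 1 / 64 ∧ |c.F (c.ang x.A)| ≤ Λ * √c.h

/-- the slab width `W = 2Λ√h` -/
noncomputable def pbW (Λ : ℝ) : ℝ := 2 * Λ * √c.h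

/-- the rows of the window `j` (length `2^-a`) and of the slab `σ` -/
def pbG (Λ : ℝ) (a : ℕ) (j σ : ℤ) : Set RtRow :=
  {x | c.PbIn Λ x ∧ |c.pbLag x (j * (1 / 2 : ℝ) ^ a)| ≤ 3 * c.l ∧ ⌊c.pbS x (j * (1 / 2 : ℝ) ^ a) / c.pbW Λ⌋ = σ}

/-- kinetic position of the window `j` -/
noncomputable def pbKB (a : ℕ) (j : ℤ) (x : RtRow) : ℝ := c.pbB x (j * (1 / 2 : ℝ) ^ a) / (1 / 2 : ℝ) ^ a

/-- kinetic height of the window `j` -/
noncomputable def pbKY (a : ℕ) (j : ℤ) (x : RtRow) : ℝ := c.pbY x (j * (1 / 2 : ℝ) ^ a) / (1 / 2 : ℝ) ^ a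

/-- the lattice square (side `δ = 2^-k`) of the kinetic ray of the window `j` at the kinetic time `m δ` -/
noncomputable def pbGrid (a k : ℕ) (j : ℤ) (m : ℕ) (x : RtRow) : ℤ × ℤ :=
  kinMGrid c.pbX (c.pbKB a j) (c.pbKY a j) ((1 / 2 : ℝ) ^ k) (m * (1 / 2 : ℝ) ^ k) x

end SecPt

/-- indices of the new cells: window `j`, slab `σ`, kinetic time `m`, lattice square `d` -/
abbrev PbIx : Type := ℤ × ℤ × ℕ × (ℤ × ℤ)

namespace SecPt

variable (c : SecPt)

/-- **the new cell** -/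
def pbCell (Λ : ℝ) (a k : ℕ) (β : PbIx) : Set RtRow := {x | x ∈ c.pbG Λ a β.1 β.2.1 ∧ c.pbGrid a k β.1 β.2.2.1 x = β.2.2.2}

/-- the global index of the new time of the event at the old time `J Δ ℓ`, `Δ = 2^-n` -/
noncomputable def pbN (n J : ℕ) (x : RtRow) : ℤ := ⌊(c.pbT x + J * (1 / 2 : ℝ) ^ n * c.pbD x) / (1 / 2 : ℝ) ^ n⌋

/-- **the new cell of the event of a row at the old time `J Δ ℓ`** (`k = n - a`) -/
noncomputable def pbIx (Λ : ℝ) (n a J : ℕ) (x : RtRow) : PbIx :=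
  (c.pbN n J x / 2 ^ (n - a),
    ⌊c.pbS x ((c.pbN n J x / 2 ^ (n - a) : ℤ) * (1 / 2 : ℝ) ^ a) / c.pbW Λ⌋,
    (c.pbN n J x % 2 ^ (n - a)).toNat,
    c.pbGrid a (n - a) (c.pbN n J x / 2 ^ (n - a)) (c.pbN n J x % 2 ^ (n - a)).toNat x)

end SecPt

/-- **the scales of a patch**:   `Δ = 2^-n ≤ Λ^-4`, fake Planck parameter `h = Δ^16`, window length `2^-a` -/
structure PbSc (c : SecPt) (Λ : ℝ) (n a : ℕ) : Prop where
  ok : c.Ok
  Λ_ge : 16 ≤ Λ
  bt : |c.bt| ≤ Λ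
  h_eq : c.h = ((1 / 2 : ℝ) ^ n) ^ 16
  a_le : a ≤ n
  a_lo : 1 + 16 * Λ ^ 2 ≤ (2 : ℝ) ^ a
  a_hi : (2 : ℝ) ^ a ≤ 34 * Λ ^ 2
  small : Λ ^ 4 * (1 / 2 : ℝ) ^ n ≤ 1

/-- `κ`-regularity of a measure of rows for all admissible tests of length `l` -/
def RcNu.RegL (X : RcNu) (η κ l : ℝ) : Prop :=
  ∀ τ : RtTest, τ.Adm 1 → τ.l = l → (X.mu {ω | X.row ω ∈ τ.set 1}).toReal ≤ κ * τ.w η

/-- **fractional labels** on a measure of rows: old time index, test, weight -/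
structure PbLab (X : RcNu) where
  L : ℕ
  J : Fin L → ℕ
  Q : Fin L → RdTst
  th : Fin L → X.Om → ℝ

/-- validity of the labels: root cut `k0`, `n` bits, labels of width `≤ Kp r` -/
structure PbLab.Ok {X : RcNu} (Y : PbLab X) (k0 n : ℕ) (Kp r : ℝ) : Prop where
  J_lt : ∀ l, Y.J l < 2 ^ n
  r_pos : ∀ l, 0 < (Y.Q l).r
  r_le : ∀ l, (Y.Q l).r ≤ Kp * r
  meas : ∀ l, Measurable (Y.th l)
  nn : ∀ l ω, 0 ≤ Y.th l ω
  supp : ∀ l ω, Y.th l ω ≠ 0 → (X.row ω).flow (Y.J l * (1 / 2 : ℝ) ^ n * rdLen k0) ∈ ((Y.Q l).toT (k0 + n)).box 1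
  sum : ∀ j ω, ∑ l, (if Y.J l = j then Y.th l ω else 0) ≤ 1

theorem rc_pb_defs_eqns_cite : True := by
  have := @SecPt.pbEv.eq_1
  have := @SecPt.pbD.eq_1
  have := @SecPt.pbX.eq_1
  have := @SecPt.pbX2.eq_1
  have := @SecPt.pbT.eq_1
  have := @SecPt.pbB.eq_1
  have := @SecPt.pbY.eq_1
  have := @SecPt.pbS.eq_1
  have := @SecPt.pbLag.eq_1
  have := @SecPt.PbIn.eq_1
  have := @SecPt.pbW.eq_1
  have := @SecPt.pbG.eq_1
  have := @SecPt.pbKB.eq_1
  have := @SecPt.pbKY.eq_1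
  have := @SecPt.pbGrid.eq_1
  have := @SecPt.pbCell.eq_1
  have := @SecPt.pbN.eq_1
  have := @SecPt.pbIx.eq_1
  have := @RcNu.RegL.eq_1
  trivial

end Claimed.Agent.R256
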