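import Claimed.Agent.R256.Rc.PlbDefs

/-!
# Row 256, unit RC, block PLANE-B-cl, file 2: GEOMETRY OF ROWS IN THE CHART      (architect helper183; prefix `rc_pb_`)      MODEL FREE, MEASURE FREE, PAPER FREE
Every `sorry` is a leaf `L-256-RC-PB-*` (name in the docstring).   Statements FROZEN (a defect: one line to helper183);  auxiliary lemmas directly above your theorem, prefix `rc_pb_<leaf>_`;  edit only your block.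
NOTATION.   `Δ = (1/2)^n`, `ℓE = (1/2)^a`, `k = n - a`, `δ = (1/2)^k`, `ℓE δ = Δ`, `W = c.pbW Λ = 2ΛΔ⁸`, `t_j = j ℓE`, `ℓ = c.l`.
For a row `x` of the patch: `T = pbT x`, `D = pbD x ∈ [1/2, 2]`, `X = pbX x`, `X₂ = pbX2 x`.   Event at the old lag `s`: new time `T + (s/ℓ) D` (`rc_pb_ray`).
-/

set_option autoImplicit false

namespace Claimed.Agent.R256

open MeasureTheory
open scoped BigOperators

/-! ## 1. The ray in the chart (PROVED) -/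

theorem rc_pb_ray_bo (c : SecPt) (hc : c.Ok) (x : RtRow) (s : ℝ) :
    c.uo (c.T0 + s) = s / c.l ∧
    c.bo (c.T0 + s) ((x.flow s).b, (x.flow s).y) = c.bo (c.T0 + 0) ((x.flow 0).b, (x.flow 0).y) + (s / c.l) • c.ang x.A ∧
    c.yo (c.T0 + s) ((x.flow s).b, (x.flow s).y) = c.yo (c.T0 + 0) ((x.flow 0).b, (x.flow 0).y) + s / c.l * rtSq (c.ang x.A) := by
  have hl : c.l ≠ 0 := (rdLen_pos c.k).ne'
  have hr : c.r ≠ 0 := hc.r_pos.ne'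
  have he := hc.e_unit
  obtain ⟨⟨A1, A2⟩, ⟨b1, b2⟩, y⟩ := x
  refine ⟨?_, ?_, ?_⟩
  · unfold SecPt.uo
    ring
  · ext <;>
    · simp only [SecPt.bo, SecPt.ang, RtRow.flow, rtRot, Prod.smul_mk, Prod.fst_sub, Prod.snd_sub,
        Prod.smul_fst, Prod.smul_snd, smul_eq_mul, Prod.mk_add_mk]
      field_simp
      ring
  · have e : rtSq (c.ang (A1, A2)) = rtSq (c.r⁻¹ • ((A1, A2) - c.Ao)) := by
      unfold SecPt.ang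
      rw [rt_rot_sq, he, one_mul]
    simp only at e ⊢
    rw [e]
    simp only [SecPt.yo, RtRow.flow, rtSq, rtIp, Prod.smul_mk, Prod.fst_sub, Prod.snd_sub,
        Prod.smul_fst, Prod.smul_snd, smul_eq_mul, Prod.mk_add_mk]
    field_simp
    ring

/-- **the ray of a row is a straight line of the chart**, parametrised by the new time -/
theorem rc_pb_ray (c : SecPt) (hc : c.Ok) (x : RtRow) (hD : c.pbD x ≠ 0) (s : ℝ) :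
    (c.pbEv x s).1 0 = c.pbT x + s / c.l * c.pbD x ∧
    (c.pbEv x s).1 1 = c.pbB x (c.pbT x + s / c.l * c.pbD x) ∧
    (c.pbEv x s).1 2 = c.pbY x (c.pbT x + s / c.l * c.pbD x) ∧
    (c.pbEv x s).2 = c.pbS x (c.pbT x + s / c.l * c.pbD x) := by
  obtain ⟨h1, h2, h3⟩ := rc_pb_ray_bo c hc x s
  obtain ⟨g1, -, -⟩ := rc_pb_ray_bo c hc x 0
  have h4 := (re_sc_two c (c.ang x.A) (c.ang x.A) hD hD).2
  unfold SecPt.pbD at hD ⊢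
  unfold SecPt.pbB SecPt.pbY SecPt.pbS SecPt.pbT SecPt.pbX SecPt.pbX2 SecPt.X SecPt.pbEv SecPt.Lm
  simp only [(tri_tvec_apply _ _ _).1, (tri_tvec_apply _ _ _).2.1, (tri_tvec_apply _ _ _).2.2]
  rw [h1, h2, h3, g1]
  obtain ⟨D, hDd⟩ : ∃ D, D = c.D (c.ang x.A) := ⟨_, rfl⟩
  have hDe : D = 1 + 2 * c.bt * (c.ang x.A).2 + c.bt ^ 2 * rtSq (c.ang x.A) := by rw [hDd]; rfl
  rw [← hDd] at hD h4 ⊢
  simp only [Prod.fst_add, Prod.snd_add, Prod.smul_fst, Prod.smul_snd, smul_eq_mul]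
  refine ⟨?_, ?_, ?_, ?_⟩
  · rw [hDe]; ring
  · field_simp
    ring
  · have : rtSq (c.ang x.A) = ((c.ang x.A).1 ^ 2 + c.F (c.ang x.A) ^ 2) / D := by
      rw [h4]; field_simp
    rw [this]
    field_simp
    ring
  · have hF : c.F (c.ang x.A) = (c.ang x.A).2 + c.bt * rtSq (c.ang x.A) := rfl
    rw [hF]
    field_simp
    ring

/-! ## 2. Sizes -/

/-- **LEAF L-256-RC-PB-BASIC.**   `re_sc_D_bd` (`1/64 ≤ 1/16`);   `rtSq a ≤ 1/64` (since `(1+|bt|)² ≥ 1`), so `|a.1| ≤ 1/8`, `|X| = |a.1|/D ≤ 1/4`;   `|X₂| = |F|/D ≤ 2Λ√h = W`. -/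
theorem rc_pb_basic (c : SecPt) (Λ : ℝ) (x : RtRow) (hx : c.PbIn Λ x) :
    1 / 2 ≤ c.pbD x ∧ c.pbD x ≤ 2 ∧ |c.pbX x| ≤ 1 / 4 ∧ |c.pbX2 x| ≤ c.pbW Λ := by
  obtain ⟨h1, h2⟩ := hx
  obtain ⟨d1, d2⟩ := re_sc_D_bd c (c.ang x.A) (h1.trans (by norm_num))
  have hD0 : 0 < c.D (c.ang x.A) := by linarith
  have hs : 0 ≤ rtSq (c.ang x.A) := by unfold rtSq; positivity
  have hb : (1 : ℝ) ≤ (1 + |c.bt|) ^ 2 := by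
    have := abs_nonneg c.bt
    nlinarith
  have h3 : rtSq (c.ang x.A) ≤ 1 / 64 := by
    have := mul_le_mul_of_nonneg_left hb hs
    linarith
  have h4 : |(c.ang x.A).1| ≤ 1 / 8 := by
    apply abs_le_of_sq_le_sq' _ (by norm_num) |> abs_le.2
    have : (c.ang x.A).1 ^ 2 ≤ rtSq (c.ang x.A) := by
      unfold rtSq
      have := sq_nonneg (c.ang x.A).2
      linarith
    calc (c.ang x.A).1 ^ 2 ≤ 1 / 64 := this.trans h3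
      _ = (1 / 8) ^ 2 := by norm_num
  have hF0 : 0 ≤ Λ * √c.h := (abs_nonneg _).trans h2
  refine ⟨d1, d2, ?_, ?_⟩
  · show |(c.ang x.A).1 / c.D (c.ang x.A)| ≤ 1 / 4
    rw [abs_div, abs_of_pos hD0, div_le_iff₀ hD0]
    linarith
  · show |c.F (c.ang x.A) / c.D (c.ang x.A)| ≤ 2 * Λ * √c.h
    rw [abs_div, abs_of_pos hD0, div_le_iff₀ hD0]
    nlinarith

/-- **LEAF L-256-RC-PB-SC: the numerology of the scales.**   `√h = Δ⁸` (`Real.sqrt_eq_iff`, `h = (Δ⁸)²`);   `Δ ≤ Λ^-4 ≤ 16^-4 = (1/2)^16`;   `2ΛΔ ≤ 1`;   `pow_add`, `Nat.add_sub_cancel'`. -/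
theorem rc_pb_sc (c : SecPt) (Λ : ℝ) (n a : ℕ) (h : PbSc c Λ n a) :
    c.pbW Λ = 2 * Λ * ((1 / 2 : ℝ) ^ n) ^ 8 ∧ 0 < c.pbW Λ ∧ ((1 / 2 : ℝ) ^ n) ^ 8 ≤ c.pbW Λ ∧ c.pbW Λ ≤ ((1 / 2 : ℝ) ^ n) ^ 7 ∧
    Λ ^ 2 * c.pbW Λ ≤ ((1 / 2 : ℝ) ^ n) ^ 6 ∧ (1 / 2 : ℝ) ^ n ≤ (1 / 2 : ℝ) ^ 16 ∧
    (1 / 2 : ℝ) ^ a * (1 / 2 : ℝ) ^ (n - a) = (1 / 2 : ℝ) ^ n ∧ (1 / 2 : ℝ) ^ a * (1 + 16 * c.bt ^ 2) ≤ 1 ∧ (1 / 2 : ℝ) ^ a ≤ 1 / 4097 := by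
  obtain ⟨Δ, hΔ⟩ : ∃ Δ : ℝ, Δ = (1 / 2 : ℝ) ^ n := ⟨_, rfl⟩
  have hΔ0 : 0 < Δ := by rw [hΔ]; positivity
  have hΔ1 : Δ ≤ 1 := by rw [hΔ]; exact pow_le_one₀ (by norm_num) (by norm_num)
  have hΛ := h.Λ_ge
  have hΛ0 : 0 < Λ := by linarith
  have hsm := h.small
  rw [← hΔ] at hsm ⊢
  have hW : c.pbW Λ = 2 * Λ * Δ ^ 8 := by
    unfold SecPt.pbW
    rw [h.h_eq, ← hΔ, show Δ ^ 16 = (Δ ^ 8) ^ 2 by ring, Real.sqrt_sq (by positivity)]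
  have hΛ2 : 256 ≤ Λ ^ 2 := by nlinarith
  have hΛ3 : 2 ≤ Λ ^ 3 := by nlinarith
  have hΛ4 : 65536 ≤ Λ ^ 4 := by nlinarith
  have h2Λ : 2 * Λ * Δ ≤ 1 := by
    refine le_trans ?_ hsm
    have : 2 * Λ ≤ Λ ^ 4 := by nlinarith
    exact mul_le_mul_of_nonneg_right this hΔ0.le
  have h2Λ3 : 2 * Λ ^ 3 * Δ ≤ 1 := by
    refine le_trans ?_ hsm
    have : 2 * Λ ^ 3 ≤ Λ ^ 4 := by nlinarith [pow_pos hΛ0 3]
    exact mul_le_mul_of_nonneg_right this hΔ0.le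
  have ha2 : (1 / 2 : ℝ) ^ a * 2 ^ a = 1 := by
    rw [← mul_pow]; norm_num
  have ha0 : (0 : ℝ) < (1 / 2 : ℝ) ^ a := by positivity
  refine ⟨hW, ?_, ?_, ?_, ?_, ?_, ?_, ?_, ?_⟩
  · rw [hW]; positivity
  · rw [hW]
    have : 0 < Δ ^ 8 := by positivity
    nlinarith
  · rw [hW]
    calc 2 * Λ * Δ ^ 8 = (2 * Λ * Δ) * Δ ^ 7 := by ring
      _ ≤ 1 * Δ ^ 7 := mul_le_mul_of_nonneg_right h2Λ (by positivity)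
      _ = Δ ^ 7 := one_mul _
  · rw [hW]
    calc Λ ^ 2 * (2 * Λ * Δ ^ 8) = (2 * Λ ^ 3 * Δ) * Δ * Δ ^ 6 := by ring
      _ ≤ 1 * 1 * Δ ^ 6 := by
        refine mul_le_mul_of_nonneg_right ?_ (by positivity)
        exact mul_le_mul h2Λ3 hΔ1 hΔ0.le (by norm_num)
      _ = Δ ^ 6 := by ring
  · have h1 : 65536 * Δ ≤ 1 := le_trans (mul_le_mul_of_nonneg_right hΛ4 hΔ0.le) hsm
    have : (1 / 2 : ℝ) ^ 16 = 1 / 65536 := by norm_num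
    rw [this]
    linarith
  · rw [hΔ, ← pow_add, Nat.add_sub_cancel' h.a_le]
  · have hbt : c.bt ^ 2 ≤ Λ ^ 2 := by
      rw [← sq_abs c.bt]
      exact pow_le_pow_left₀ (abs_nonneg _) h.bt 2
    calc (1 / 2 : ℝ) ^ a * (1 + 16 * c.bt ^ 2) ≤ (1 / 2 : ℝ) ^ a * 2 ^ a :=
          mul_le_mul_of_nonneg_left (le_trans (by linarith) h.a_lo) ha0.le
      _ = 1 := ha2
  · have h1 : (4097 : ℝ) ≤ 2 ^ a := le_trans (by linarith) h.a_lo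
    have h2 : (1 / 2 : ℝ) ^ a * 4097 ≤ 1 := by
      calc (1 / 2 : ℝ) ^ a * 4097 ≤ (1 / 2 : ℝ) ^ a * 2 ^ a := mul_le_mul_of_nonneg_left h1 ha0.le
        _ = 1 := ha2
    rw [le_div_iff₀ (by norm_num)]
    exact h2

/-! ## 3. The index of an event -/

theorem rc_pb_ixev_fl (v w : ℝ) (hw : 0 < w) : (⌊v⌋ : ℝ) * w ≤ v * w ∧ v * w < (⌊v⌋ : ℝ) * w + w := by
  constructor
  · exact mul_le_mul_of_nonneg_right (Int.floor_le v) hw.le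
  · have := mul_lt_mul_of_pos_right (Int.lt_floor_add_one v) hw
    linarith

theorem rc_pb_ixev_aux (Δ ℓE δ W T X X2 B0 Y0 S0 t : ℝ) (k : ℕ) (N : ℤ)
    (hΔ : 0 < Δ) (hΔs : Δ ≤ (1 / 2 : ℝ) ^ 16) (hℓE : ℓE * δ = Δ) (hδ : δ = (1 / 2 : ℝ) ^ k) (hℓ0 : 0 < ℓE) (hℓ1 : ℓE ≤ 1) (hW0 : 0 < W) (hW : W ≤ Δ ^ 7)
    (hX : |X| ≤ 1 / 4) (hX2 : |X2| ≤ W) (hN : N = ⌊t / Δ⌋) :
    ((N : ℝ) * Δ ≤ t ∧ t < ((N : ℝ) + 1) * Δ) ∧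
    |(⌊((B0 + (((N / 2 ^ k : ℤ) : ℝ) * ℓE - T) * X) / ℓE + (((N % 2 ^ k).toNat : ℝ) * δ) * X) / δ⌋ : ℝ) * Δ - (B0 + (t - T) * X)| ≤ 2 * Δ ∧
    |(⌊((Y0 + (((N / 2 ^ k : ℤ) : ℝ) * ℓE - T) * (X ^ 2 + X2 ^ 2)) / ℓE + (((N % 2 ^ k).toNat : ℝ) * δ) * X ^ 2) / δ⌋ : ℝ) * Δ - (Y0 + (t - T) * (X ^ 2 + X2 ^ 2))| ≤ 2 * Δ ∧
    |(⌊(S0 + (((N / 2 ^ k : ℤ) : ℝ) * ℓE - T) * X2) / W⌋ : ℝ) * W - (S0 + (t - T) * X2)| ≤ 2 * W ∧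
    (N = (N / 2 ^ k) * 2 ^ k + (((N % 2 ^ k).toNat : ℕ) : ℤ) ∧ (N % 2 ^ k).toNat < 2 ^ k) := by
  have hδ0 : 0 < δ := by rw [hδ]; positivity
  have hpk : (0 : ℤ) < 2 ^ k := by positivity
  have hr0 : 0 ≤ N % 2 ^ k := Int.emod_nonneg N hpk.ne'
  have hr1 : N % 2 ^ k < 2 ^ k := Int.emod_lt_of_pos N hpk
  have hm : (((N % 2 ^ k).toNat : ℕ) : ℤ) = N % 2 ^ k := Int.toNat_of_nonneg hr0
  have h5a : N = (N / 2 ^ k) * 2 ^ k + (((N % 2 ^ k).toNat : ℕ) : ℤ) := by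
    rw [hm, mul_comm]
    exact (Int.mul_ediv_add_emod N (2 ^ k)).symm
  have h5b : (N % 2 ^ k).toNat < 2 ^ k := by
    have : (((N % 2 ^ k).toNat : ℕ) : ℤ) < ((2 ^ k : ℕ) : ℤ) := by
      rw [hm]; push_cast; exact hr1
    exact_mod_cast this
  obtain ⟨j, hj⟩ : ∃ j : ℤ, j = N / 2 ^ k := ⟨_, rfl⟩
  obtain ⟨m, hmm⟩ : ∃ m : ℕ, m = (N % 2 ^ k).toNat := ⟨_, rfl⟩
  rw [← hj, ← hmm] at h5a ⊢
  rw [← hmm] at h5b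
  obtain ⟨K, hK⟩ : ∃ K : ℝ, K = (2 : ℝ) ^ k := ⟨_, rfl⟩
  have hδK : δ * K = 1 := by rw [hδ, hK, ← mul_pow]; norm_num
  have hℓK : ℓE = Δ * K := by
    calc ℓE = ℓE * (δ * K) := by rw [hδK, mul_one]
      _ = (ℓE * δ) * K := by ring
      _ = Δ * K := by rw [hℓE]
  have hNr : (N : ℝ) = (j : ℝ) * K + (m : ℝ) := by
    have : (N : ℝ) = (((j * 2 ^ k + (m : ℤ)) : ℤ) : ℝ) := by rw [← h5a]
    rw [this, hK]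
    push_cast
    ring
  have hmK : (m : ℝ) + 1 ≤ K := by
    have : m + 1 ≤ 2 ^ k := h5b
    rw [hK]
    exact_mod_cast this
  have hm0 : (0 : ℝ) ≤ m := Nat.cast_nonneg m
  -- floor of t
  have hN1 : (N : ℝ) * Δ ≤ t := by
    have := (rc_pb_ixev_fl (t / Δ) Δ hΔ).1
    rwa [← hN, div_mul_cancel₀ _ hΔ.ne'] at this
  have hN2 : t < (N : ℝ) * Δ + Δ := by
    have := (rc_pb_ixev_fl (t / Δ) Δ hΔ).2
    rwa [← hN, div_mul_cancel₀ _ hΔ.ne'] at this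
  obtain ⟨u, hu⟩ : ∃ u : ℝ, u = t - (N : ℝ) * Δ := ⟨_, rfl⟩
  have hu0 : 0 ≤ u := by rw [hu]; linarith
  have hu1 : u < Δ := by rw [hu]; linarith
  have htj : t - (j : ℝ) * ℓE = u + (m : ℝ) * Δ := by
    rw [hu, hNr, hℓK]; ring
  have hmΔ : (m : ℝ) * Δ + Δ ≤ ℓE := by
    rw [hℓK]
    nlinarith
  have hmΔ0 : 0 ≤ (m : ℝ) * Δ := by positivity
  have hΔ1 : Δ ≤ 1 / 4 := hΔs.trans (by norm_num)
  obtain ⟨hXa, hXb⟩ := abs_le.1 hX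
  obtain ⟨hX2a, hX2b⟩ := abs_le.1 hX2
  refine ⟨⟨hN1, by linarith⟩, ?_, ?_, ?_, h5a, h5b⟩
  · obtain ⟨v, hv⟩ : ∃ v : ℝ, v = ((B0 + ((j : ℝ) * ℓE - T) * X) / ℓE + ((m : ℝ) * δ) * X) / δ := ⟨_, rfl⟩
    rw [← hv]
    have hvΔ : v * Δ = B0 + ((j : ℝ) * ℓE - T) * X + (m : ℝ) * Δ * X := by
      rw [hv, ← hℓE]
      field_simp
    obtain ⟨f1, f2⟩ := rc_pb_ixev_fl v Δ hΔ
    have e : B0 + (t - T) * X = v * Δ + u * X := by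
      rw [hvΔ]
      have : t = (j : ℝ) * ℓE + (u + (m : ℝ) * Δ) := by linarith
      rw [this]; ring
    have huX : |u * X| ≤ Δ * (1 / 4) := by
      rw [abs_mul, abs_of_nonneg hu0]
      exact mul_le_mul hu1.le hX (abs_nonneg _) hΔ.le
    obtain ⟨g1, g2⟩ := abs_le.1 huX
    rw [e, abs_le]
    constructor <;> linarith
  · obtain ⟨v, hv⟩ : ∃ v : ℝ, v = ((Y0 + ((j : ℝ) * ℓE - T) * (X ^ 2 + X2 ^ 2)) / ℓE + ((m : ℝ) * δ) * X ^ 2) / δ := ⟨_, rfl⟩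
    rw [← hv]
    have hvΔ : v * Δ = Y0 + ((j : ℝ) * ℓE - T) * (X ^ 2 + X2 ^ 2) + (m : ℝ) * Δ * X ^ 2 := by
      rw [hv, ← hℓE]
      field_simp
    obtain ⟨f1, f2⟩ := rc_pb_ixev_fl v Δ hΔ
    have e : Y0 + (t - T) * (X ^ 2 + X2 ^ 2) = v * Δ + (u * (X ^ 2 + X2 ^ 2) + (m : ℝ) * Δ * X2 ^ 2) := by
      rw [hvΔ]
      have : t = (j : ℝ) * ℓE + (u + (m : ℝ) * Δ) := by linarith
      rw [this]; ring
    have hXsq : X ^ 2 ≤ 1 / 16 := by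
      have := pow_le_pow_left₀ (abs_nonneg X) hX 2
      rw [sq_abs] at this
      linarith [show ((1 : ℝ) / 4) ^ 2 = 1 / 16 by norm_num]
    have hX2sq : X2 ^ 2 ≤ Δ / 4 := by
      have h1 := pow_le_pow_left₀ (abs_nonneg X2) (hX2.trans hW) 2
      rw [sq_abs] at h1
      have h2 : (Δ ^ 7) ^ 2 = Δ * Δ ^ 13 := by ring
      have h3 : Δ ^ 13 ≤ 1 / 4 := by
        calc Δ ^ 13 ≤ Δ ^ 1 := pow_le_pow_of_le_one hΔ.le (by linarith) (by norm_num)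
          _ = Δ := pow_one _
          _ ≤ 1 / 4 := hΔ1
      rw [h2] at h1
      calc X2 ^ 2 ≤ Δ * Δ ^ 13 := h1
        _ ≤ Δ * (1 / 4) := mul_le_mul_of_nonneg_left h3 hΔ.le
        _ = Δ / 4 := by ring
    have hX2sq0 : 0 ≤ X2 ^ 2 := sq_nonneg _
    have hXsq0 : 0 ≤ X ^ 2 := sq_nonneg _
    have e0 : 0 ≤ u * (X ^ 2 + X2 ^ 2) + (m : ℝ) * Δ * X2 ^ 2 := by positivity
    have e1 : u * (X ^ 2 + X2 ^ 2) ≤ Δ * (1 / 16 + 1 / 16) := by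
      refine mul_le_mul hu1.le ?_ (by positivity) hΔ.le
      linarith
    have e2 : (m : ℝ) * Δ * X2 ^ 2 ≤ 1 * (Δ / 4) := by
      refine mul_le_mul ?_ hX2sq hX2sq0 (by norm_num)
      linarith
    rw [e, abs_le]
    constructor <;> linarith
  · obtain ⟨v, hv⟩ : ∃ v : ℝ, v = (S0 + ((j : ℝ) * ℓE - T) * X2) / W := ⟨_, rfl⟩
    rw [← hv]
    have hvW : v * W = S0 + ((j : ℝ) * ℓE - T) * X2 := by
      rw [hv, div_mul_cancel₀ _ hW0.ne']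
    obtain ⟨f1, f2⟩ := rc_pb_ixev_fl v W hW0
    have e : S0 + (t - T) * X2 = v * W + (u + (m : ℝ) * Δ) * X2 := by
      rw [hvW]
      have : t = (j : ℝ) * ℓE + (u + (m : ℝ) * Δ) := by linarith
      rw [this]; ring
    have hq : |(u + (m : ℝ) * Δ) * X2| ≤ 1 * W := by
      rw [abs_mul, abs_of_nonneg (by positivity)]
      refine mul_le_mul ?_ hX2 (abs_nonneg _) (by norm_num)
      linarith
    obtain ⟨g1, g2⟩ := abs_le.1 hq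
    rw [e, abs_le]
    constructor <;> linarith

/-- **LEAF L-256-RC-PB-IXEV: the new cell of an event is close to the event.**
`P = pbEv x (JΔℓ)`, `N = pbN n J x`, `β = pbIx Λ n a J x = (j, σ, m, d)`.   By `rc_pb_ray` (`s/ℓ = JΔ`): `P.1 0 = T + JΔD =: t`, `P.1 1 = pbB x t`, `P.1 2 = pbY x t`, `P.2 = pbS x t`.
 (1) `N = ⌊t/Δ⌋`: `Int.floor_le`, `Int.lt_floor_add_one`.     (5) `Int.ediv_add_emod`/`Int.emod_add_ediv`, `Int.toNat_of_nonneg (Int.emod_nonneg ..)`, `Int.emod_lt_of_pos`.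
 `t_j + mΔ = NΔ` (`ℓE = 2^k Δ`), hence `0 ≤ t - t_j < ℓE`.
 (2) `d.1 = ⌊(pbKB + mδX)/δ⌋ = ⌊pbB x (NΔ)/Δ⌋` (`(B(t_j)/ℓE + mδX)/δ = (B(t_j) + mΔX)/Δ`), `|pbB x (NΔ) - pbB x t| ≤ Δ|X| ≤ Δ/4`.
 (3) `d.2 = ⌊(pbY x t_j + mΔX²)/Δ⌋`, `pbY x t - (pbY x t_j + mΔX²) = (t - NΔ)(X² + X₂²) + mΔX₂²`, `0 ≤ .. ≤ Δ(1/16 + W²) + ℓE W² ≤ Δ`  (`W² ≤ Δ^14`).
 (4) `σ = ⌊pbS x t_j/W⌋`, `|pbS x t - pbS x t_j| ≤ ℓE |X₂| ≤ W`. -/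
theorem rc_pb_ixev (c : SecPt) (Λ : ℝ) (n a : ℕ) (h : PbSc c Λ n a) (J : ℕ) (x : RtRow) (hx : c.PbIn Λ x) :
    ((c.pbN n J x : ℝ) * (1 / 2 : ℝ) ^ n ≤ (c.pbEv x (J * (1 / 2 : ℝ) ^ n * c.l)).1 0 ∧
      (c.pbEv x (J * (1 / 2 : ℝ) ^ n * c.l)).1 0 < ((c.pbN n J x : ℝ) + 1) * (1 / 2 : ℝ) ^ n) ∧
    |((c.pbIx Λ n a J x).2.2.2.1 : ℝ) * (1 / 2 : ℝ) ^ n - (c.pbEv x (J * (1 / 2 : ℝ) ^ n * c.l)).1 1| ≤ 2 * (1 / 2 : ℝ) ^ n ∧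
    |((c.pbIx Λ n a J x).2.2.2.2 : ℝ) * (1 / 2 : ℝ) ^ n - (c.pbEv x (J * (1 / 2 : ℝ) ^ n * c.l)).1 2| ≤ 2 * (1 / 2 : ℝ) ^ n ∧
    |((c.pbIx Λ n a J x).2.1 : ℝ) * c.pbW Λ - (c.pbEv x (J * (1 / 2 : ℝ) ^ n * c.l)).2| ≤ 2 * c.pbW Λ ∧
    (c.pbN n J x = (c.pbIx Λ n a J x).1 * 2 ^ (n - a) + ((c.pbIx Λ n a J x).2.2.1 : ℤ) ∧ (c.pbIx Λ n a J x).2.2.1 < 2 ^ (n - a)) := by
  obtain ⟨hD1, hD2, hX, hX2⟩ := rc_pb_basic c Λ x hx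
  obtain ⟨-, hW0, -, hW7, -, hΔs, hℓδ, -, hℓs⟩ := rc_pb_sc c Λ n a h
  have hl : c.l ≠ 0 := (rdLen_pos c.k).ne'
  obtain ⟨r0, r1, r2, r3⟩ := rc_pb_ray c h.ok x (by linarith) (J * (1 / 2 : ℝ) ^ n * c.l)
  have es : (J * (1 / 2 : ℝ) ^ n * c.l) / c.l = J * (1 / 2 : ℝ) ^ n := by field_simp
  rw [es] at r0 r1 r2 r3
  rw [r0, r1, r2, r3]
  exact rc_pb_ixev_aux ((1 / 2 : ℝ) ^ n) ((1 / 2 : ℝ) ^ a) ((1 / 2 : ℝ) ^ (n - a)) (c.pbW Λ) (c.pbT x) (c.pbX x) (c.pbX2 x)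
    ((c.pbEv x 0).1 1) ((c.pbEv x 0).1 2) ((c.pbEv x 0).2) (c.pbT x + J * (1 / 2 : ℝ) ^ n * c.pbD x) (n - a) (c.pbN n J x)
    (by positivity) hΔs hℓδ rfl (by positivity) (hℓs.trans (by norm_num)) hW0 hW7 hX hX2 rfl

/-- helper of `rc_pb_mem`: the window of a global time index -/
theorem rc_pb_mem_win (N : ℤ) (k : ℕ) (Δ E t : ℝ) (hΔ : 0 < Δ) (hE : E = 2 ^ k * Δ) (h1 : (N : ℝ) * Δ ≤ t) (h2 : t < ((N : ℝ) + 1) * Δ) :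
    ((N / 2 ^ k : ℤ) : ℝ) * E ≤ t ∧ t < ((N / 2 ^ k : ℤ) : ℝ) * E + E := by
  have hp : (0 : ℤ) < 2 ^ k := by positivity
  have e1 : (2 : ℤ) ^ k * (N / 2 ^ k) + N % 2 ^ k = N := Int.mul_ediv_add_emod N (2 ^ k)
  have e2 : 0 ≤ N % 2 ^ k := Int.emod_nonneg _ hp.ne'
  have e3 : N % 2 ^ k + 1 ≤ 2 ^ k := Int.emod_lt_of_pos _ hp
  obtain ⟨j, hj⟩ : ∃ j : ℤ, j = N / 2 ^ k := ⟨_, rfl⟩
  obtain ⟨m, hm⟩ : ∃ m : ℤ, m = N % 2 ^ k := ⟨_, rfl⟩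
  rw [← hj, ← hm] at e1
  rw [← hm] at e2 e3
  rw [← hj]
  have f1 : (2 : ℝ) ^ k * (j : ℝ) + (m : ℝ) = (N : ℝ) := by exact_mod_cast e1
  have f2 : (0 : ℝ) ≤ (m : ℝ) := by exact_mod_cast e2
  have f3 : (m : ℝ) + 1 ≤ (2 : ℝ) ^ k := by exact_mod_cast e3
  rw [← f1] at h1 h2
  rw [hE]
  have g1 : 0 ≤ (m : ℝ) * Δ := mul_nonneg f2 hΔ.le
  have g2 : ((m : ℝ) + 1) * Δ ≤ (2 : ℝ) ^ k * Δ := mul_le_mul_of_nonneg_right f3 hΔ.le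
  constructor
  · calc (j : ℝ) * (2 ^ k * Δ) ≤ (j : ℝ) * (2 ^ k * Δ) + (m : ℝ) * Δ := le_add_of_nonneg_right g1
      _ = (2 ^ k * (j : ℝ) + (m : ℝ)) * Δ := by ring
      _ ≤ t := h1
  · calc t < (2 ^ k * (j : ℝ) + (m : ℝ) + 1) * Δ := h2
      _ = (j : ℝ) * (2 ^ k * Δ) + ((m : ℝ) + 1) * Δ := by ring
      _ ≤ (j : ℝ) * (2 ^ k * Δ) + 2 ^ k * Δ := by linarith

/-- helper of `rc_pb_mem`: the lag -/
theorem rc_pb_mem_lag (l T D tj t E u : ℝ) (hl : 0 < l) (hD1 : 1 / 2 ≤ D) (ht : t = T + u * D) (hu0 : 0 ≤ u) (hu1 : u ≤ 1) (hE : E ≤ 1)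
    (h1 : tj ≤ t) (h2 : t < tj + E) : |l * ((tj - T) / D)| ≤ 3 * l := by
  have hD : 0 < D := by linarith
  have a1 : (tj - T) / D ≤ 3 := by
    rw [div_le_iff₀ hD]
    have : u * D ≤ 1 * D := mul_le_mul_of_nonneg_right hu1 hD.le
    linarith
  have a2 : -3 ≤ (tj - T) / D := by
    rw [le_div_iff₀ hD]
    have : 0 ≤ u * D := mul_nonneg hu0 hD.le
    linarith
  rw [abs_mul, abs_of_pos hl, mul_comm]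
  exact mul_le_mul_of_nonneg_right (abs_le.2 ⟨a2, a1⟩) hl.le

/-- **LEAF L-256-RC-PB-MEM: a row lies in the new cell of each of its events.**
`β = pbIx Λ n a J x = (j, σ, m, d)`.   All clauses of `pbCell`/`pbG` hold by definition (`rfl`) except `|pbLag x t_j| ≤ 3ℓ`:   `t = T + JΔD`, `0 ≤ t - t_j < ℓE` (as in IXEV), `pbLag x t_j/ℓ = (t_j - T)/D = JΔ - (t - t_j)/D ∈ (-2ℓE, 1)`  (`JΔ < 1`, `D ≥ 1/2`). -/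
theorem rc_pb_mem (c : SecPt) (Λ : ℝ) (n a : ℕ) (h : PbSc c Λ n a) (J : ℕ) (hJ : J < 2 ^ n) (x : RtRow) (hx : c.PbIn Λ x) :
    x ∈ c.pbCell Λ a (n - a) (c.pbIx Λ n a J x) := by
  obtain ⟨hD1, -, -, -⟩ := rc_pb_basic c Λ x hx
  obtain ⟨-, -, -, -, -, -, hE, -, hE2⟩ := rc_pb_sc c Λ n a h
  have hl : 0 < c.l := rdLen_pos c.k
  refine ⟨⟨hx, ?_, rfl⟩, rfl⟩
  show |c.l * ((((c.pbN n J x / 2 ^ (n - a) : ℤ) : ℝ) * (1 / 2 : ℝ) ^ a - c.pbT x) / c.pbD x)| ≤ 3 * c.l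
  have hΔ : (0 : ℝ) < (1 / 2 : ℝ) ^ n := by positivity
  have hEk : (1 / 2 : ℝ) ^ a = 2 ^ (n - a) * (1 / 2 : ℝ) ^ n := by
    rw [← hE]
    have : (2 : ℝ) ^ (n - a) * (1 / 2 : ℝ) ^ (n - a) = 1 := by
      rw [← mul_pow]
      norm_num
    calc (1 / 2 : ℝ) ^ a = (1 / 2 : ℝ) ^ a * ((2 : ℝ) ^ (n - a) * (1 / 2 : ℝ) ^ (n - a)) := by rw [this, mul_one]
      _ = _ := by ring
  have n1 : ((c.pbN n J x : ℤ) : ℝ) * (1 / 2 : ℝ) ^ n ≤ c.pbT x + J * (1 / 2 : ℝ) ^ n * c.pbD x := by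
    rw [← le_div_iff₀ hΔ]
    exact Int.floor_le _
  have n2 : c.pbT x + J * (1 / 2 : ℝ) ^ n * c.pbD x < (((c.pbN n J x : ℤ) : ℝ) + 1) * (1 / 2 : ℝ) ^ n := by
    rw [← div_lt_iff₀ hΔ]
    exact Int.lt_floor_add_one _
  obtain ⟨w1, w2⟩ := rc_pb_mem_win (c.pbN n J x) (n - a) _ _ _ hΔ hEk n1 n2
  have hJ1 : (J : ℝ) * (1 / 2 : ℝ) ^ n ≤ 1 := by
    have h1 : (J : ℝ) ≤ 2 ^ n := by exact_mod_cast hJ.le
    have h2 : (2 : ℝ) ^ n * (1 / 2 : ℝ) ^ n = 1 := by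
      rw [← mul_pow]
      norm_num
    calc (J : ℝ) * (1 / 2 : ℝ) ^ n ≤ 2 ^ n * (1 / 2 : ℝ) ^ n := mul_le_mul_of_nonneg_right h1 hΔ.le
      _ = 1 := h2
  exact rc_pb_mem_lag c.l (c.pbT x) (c.pbD x) _ _ ((1 / 2 : ℝ) ^ a) ((J : ℝ) * (1 / 2 : ℝ) ^ n) hl hD1 rfl (by positivity) hJ1
    (hE2.trans (by norm_num)) w1 w2

/-- helper of `rc_pb_time`: the arithmetic -/
theorem rc_pb_time_aux (Δ W Λ bt p0 p0' s s' y y' N σ d j j' : ℝ) (hΔ : 0 < Δ) (hΔ1 : Δ ≤ 1) (hΛ : 16 ≤ Λ) (hbt : |bt| ≤ Λ)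
    (hW0 : 0 < W) (hW : Λ ^ 2 * W ≤ Δ ^ 6)
    (a1 : N * Δ ≤ p0) (a2 : p0 < (N + 1) * Δ) (b1 : N * Δ ≤ p0') (b2 : p0' < (N + 1) * Δ)
    (a3 : |d * Δ - y| ≤ 2 * Δ) (b3 : |d * Δ - y'| ≤ 2 * Δ) (a4 : |σ * W - s| ≤ 2 * W) (b4 : |σ * W - s'| ≤ 2 * W)
    (e : j * Δ = p0 - 2 * bt * s + bt ^ 2 * y) (e' : j' * Δ = p0' - 2 * bt * s' + bt ^ 2 * y') : |j - j'| ≤ 5 * Λ ^ 2 := by
  rw [abs_le] at a3 b3 a4 b4
  have h1 : |p0 - p0'| ≤ Δ := abs_le.2 ⟨by linarith, by linarith⟩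
  have h2 : |s - s'| ≤ 4 * W := abs_le.2 ⟨by linarith [a4.1, a4.2, b4.1, b4.2], by linarith [a4.1, a4.2, b4.1, b4.2]⟩
  have h3 : |y - y'| ≤ 4 * Δ := abs_le.2 ⟨by linarith [a3.1, a3.2, b3.1, b3.2], by linarith [a3.1, a3.2, b3.1, b3.2]⟩
  have hΛ0 : 0 ≤ Λ := by linarith
  have h4 : |bt * (s - s')| ≤ Λ * (4 * W) := by
    rw [abs_mul]
    exact mul_le_mul hbt h2 (abs_nonneg _) hΛ0
  have h5 : |bt ^ 2 * (y - y')| ≤ Λ ^ 2 * (4 * Δ) := by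
    rw [abs_mul, abs_pow]
    exact mul_le_mul (pow_le_pow_left₀ (abs_nonneg _) hbt 2) h3 (abs_nonneg _) (by positivity)
  have h6 : Δ ^ 6 ≤ Δ := pow_le_of_le_one hΔ.le hΔ1 (by norm_num)
  have h7 : 8 * Λ * W ≤ Λ ^ 2 * W := by
    refine mul_le_mul_of_nonneg_right ?_ hW0.le
    have : 8 * Λ ≤ Λ * Λ := mul_le_mul_of_nonneg_right (by linarith) hΛ0
    calc 8 * Λ ≤ Λ * Λ := this
      _ = Λ ^ 2 := by ring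
  have h8 : (2 : ℝ) ≤ Λ ^ 2 := by
    have : 16 * 16 ≤ Λ * Λ := mul_le_mul hΛ hΛ (by norm_num) hΛ0
    calc (2 : ℝ) ≤ 16 * 16 := by norm_num
      _ ≤ Λ * Λ := this
      _ = Λ ^ 2 := by ring
  have h9 : (j - j') * Δ = (p0 - p0') - 2 * (bt * (s - s')) + bt ^ 2 * (y - y') := by
    calc (j - j') * Δ = j * Δ - j' * Δ := by ring
      _ = _ := by rw [e, e']; ring
  have h10 : |j - j'| * Δ ≤ 5 * Λ ^ 2 * Δ := by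
    have q1 : |j - j'| * Δ = |(j - j') * Δ| := by rw [abs_mul, abs_of_pos hΔ]
    rw [q1, h9]
    rw [abs_le] at h1 h4 h5
    have q2 : 2 * Δ ≤ Λ ^ 2 * Δ := mul_le_mul_of_nonneg_right h8 hΔ.le
    refine abs_le.2 ⟨?_, ?_⟩
    · linarith [h1.1, h4.2, h5.1]
    · linarith [h1.2, h4.1, h5.2]
  exact le_of_mul_le_mul_right h10 hΔ

/-- **LEAF L-256-RC-PB-TIME: a new cell is visited at few old times.**
`P, P'` the two events.   `re_sc_tm_Lm`: `c.tm P = c.uo (T0 + JΔℓ) = JΔ`, i.e. `JΔ = P.1 0 - 2 bt P.2 + bt² P.1 2`.   By `rc_pb_ixev` and `he` (same `N` by clause (5)): `|P.1 0 - P'.1 0| ≤ Δ`, `|P.2 - P'.2| ≤ 4W`, `|P.1 2 - P'.1 2| ≤ 4Δ`.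
So `|J - J'| Δ ≤ Δ + 8ΛW + 4Λ²Δ ≤ 5Λ²Δ`  (`8ΛW ≤ Δ`, `Λ² ≥ 256`). -/
theorem rc_pb_time (c : SecPt) (Λ : ℝ) (n a : ℕ) (h : PbSc c Λ n a) (J J' : ℕ) (x x' : RtRow) (hx : c.PbIn Λ x) (hx' : c.PbIn Λ x')
    (he : c.pbIx Λ n a J x = c.pbIx Λ n a J' x') : |(J : ℝ) - J'| ≤ 5 * Λ ^ 2 := by
  obtain ⟨-, hW0, -, -, hW2, hΔ16, -, -, -⟩ := rc_pb_sc c Λ n a h
  obtain ⟨⟨a1, a2⟩, -, a3, a4, a5, -⟩ := rc_pb_ixev c Λ n a h J x hx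
  obtain ⟨⟨b1, b2⟩, -, b3, b4, b5, -⟩ := rc_pb_ixev c Λ n a h J' x' hx'
  rw [← he] at b3 b4 b5
  have hN : c.pbN n J' x' = c.pbN n J x := by rw [a5, b5]
  rw [hN] at b1 b2
  have hl : c.l ≠ 0 := (rdLen_pos c.k).ne'
  have hΔ : (0 : ℝ) < (1 / 2 : ℝ) ^ n := by positivity
  have hΔ1 : (1 / 2 : ℝ) ^ n ≤ 1 := hΔ16.trans (by norm_num)
  have key : ∀ (K : ℕ) (z : RtRow), (K : ℝ) * (1 / 2 : ℝ) ^ n = (c.pbEv z (K * (1 / 2 : ℝ) ^ n * c.l)).1 0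
      - 2 * c.bt * (c.pbEv z (K * (1 / 2 : ℝ) ^ n * c.l)).2 + c.bt ^ 2 * (c.pbEv z (K * (1 / 2 : ℝ) ^ n * c.l)).1 2 := by
    intro K z
    have t1 := re_sc_tm_Lm c (c.T0 + K * (1 / 2 : ℝ) ^ n * c.l, ((z.flow (K * (1 / 2 : ℝ) ^ n * c.l)).b, (z.flow (K * (1 / 2 : ℝ) ^ n * c.l)).y))
    have t2 := (rc_pb_ray_bo c h.ok z (K * (1 / 2 : ℝ) ^ n * c.l)).1
    have t3 : (K : ℝ) * (1 / 2 : ℝ) ^ n * c.l / c.l = (K : ℝ) * (1 / 2 : ℝ) ^ n := by field_simp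
    rw [t3] at t2
    exact t2.symm.trans t1.symm
  exact rc_pb_time_aux _ _ Λ c.bt _ _ _ _ _ _ _ _ _ _ _ hΔ hΔ1 h.Λ_ge h.bt hW0 hW2 a1 a2 b1 b2 a3 b3 a4 b4 (key J x) (key J' x')

/-- **LEAF L-256-RC-PB-WIN: a row is relevant for few windows.**   `|pbLag x t_j| = ℓ |t_j - T|/D ≤ 3ℓ`, `D ≤ 2`: `|t_j - T| ≤ 6`;   `|j - j'| ℓE ≤ 12`. -/
theorem rc_pb_win (c : SecPt) (Λ : ℝ) (a : ℕ) (x : RtRow) (hx : c.PbIn Λ x) (j j' : ℤ)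
    (hj : |c.pbLag x (j * (1 / 2 : ℝ) ^ a)| ≤ 3 * c.l) (hj' : |c.pbLag x (j' * (1 / 2 : ℝ) ^ a)| ≤ 3 * c.l) : |(j : ℝ) - j'| ≤ 12 * 2 ^ a := by
  obtain ⟨d1, d2, -, -⟩ := rc_pb_basic c Λ x hx
  have hD0 : 0 < c.pbD x := by linarith
  have hl : 0 < c.l := rdLen_pos c.k
  have key : ∀ t : ℝ, |c.pbLag x t| ≤ 3 * c.l → |t - c.pbT x| ≤ 6 := by
    intro t ht
    unfold SecPt.pbLag at ht
    rw [abs_mul, abs_of_pos hl, abs_div, abs_of_pos hD0, mul_comm 3, mul_le_mul_iff_right₀ hl, div_le_iff₀ hD0] at ht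
    linarith
  have k1 := key _ hj
  have k2 := key _ hj'
  have h2 : (0:ℝ) < (1 / 2 : ℝ) ^ a := by positivity
  have e : (j : ℝ) - j' = (((j : ℝ) * (1 / 2 : ℝ) ^ a - c.pbT x) - ((j' : ℝ) * (1 / 2 : ℝ) ^ a - c.pbT x)) * 2 ^ a := by
    have : ((1 / 2 : ℝ) ^ a) * 2 ^ a = 1 := by rw [← mul_pow]; norm_num
    calc (j : ℝ) - j' = ((j : ℝ) - j') * (((1 / 2 : ℝ) ^ a) * 2 ^ a) := by rw [this, mul_one]
      _ = _ := by ring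
  rw [e, abs_mul, abs_of_pos (by positivity : (0:ℝ) < 2 ^ a)]
  apply mul_le_mul_of_nonneg_right _ (by positivity)
  calc _ ≤ |(j : ℝ) * (1 / 2 : ℝ) ^ a - c.pbT x| + |(j' : ℝ) * (1 / 2 : ℝ) ^ a - c.pbT x| := abs_sub _ _
    _ ≤ 12 := by linarith

/-! ## 4. Labels -/

theorem rc_pb_labev_id (c : SecPt) (t : ℝ) (b b' : ℝ × ℝ) (y y' : ℝ) :
    c.bo t (b, y) - c.bo t (b', y') = rtRot c.e ((c.l * c.r)⁻¹ • (b - b')) ∧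
    c.yo t (b, y) - c.yo t (b', y') = ((y - y') - 2 * rtIp c.Ao (b - b')) / (c.l * c.r ^ 2) := by
  constructor
  · ext <;>
    · simp only [SecPt.bo, rtRot, Prod.smul_fst, Prod.smul_snd, Prod.fst_sub, Prod.snd_sub, smul_eq_mul]
      ring
  · simp only [SecPt.yo, rtIp, Prod.fst_sub, Prod.snd_sub]
    ring

theorem rc_pb_labev_fin (bt Λ Kp Δ β2 γ : ℝ) (hΛ : 16 ≤ Λ) (hbt : |bt| ≤ Λ) (hKp : 1 ≤ Kp) (hΔ : 0 ≤ Δ) (h2 : |β2| ≤ 2 * Kp * Δ) (h3 : |γ| ≤ 7 * Kp ^ 2 * Δ) :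
    |2 * bt * β2 + bt ^ 2 * γ| ≤ 8 * Λ ^ 2 * Kp ^ 2 * Δ ∧ |β2 + bt * γ| ≤ 8 * Λ * Kp ^ 2 * Δ := by
  have hK2 : Kp ≤ Kp ^ 2 := by nlinarith
  have hΛ0 : 0 ≤ Λ := by linarith
  have hKp0 : 0 ≤ Kp := by linarith
  have a1 : |bt * β2| ≤ Λ * (2 * Kp * Δ) := by
    rw [abs_mul]; exact mul_le_mul hbt h2 (abs_nonneg _) hΛ0
  have a2 : |bt * γ| ≤ Λ * (7 * Kp ^ 2 * Δ) := by
    rw [abs_mul]; exact mul_le_mul hbt h3 (abs_nonneg _) hΛ0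
  have a3 : |bt ^ 2 * γ| ≤ Λ ^ 2 * (7 * Kp ^ 2 * Δ) := by
    rw [abs_mul, abs_pow]
    exact mul_le_mul (pow_le_pow_left₀ (abs_nonneg _) hbt 2) h3 (abs_nonneg _) (by positivity)
  have hKD : Kp * Δ ≤ Kp ^ 2 * Δ := mul_le_mul_of_nonneg_right hK2 hΔ
  have hKD0 : 0 ≤ Kp ^ 2 * Δ := by positivity
  constructor
  · calc |2 * bt * β2 + bt ^ 2 * γ| ≤ |2 * bt * β2| + |bt ^ 2 * γ| := abs_add_le _ _
      _ = 2 * |bt * β2| + |bt ^ 2 * γ| := by rw [mul_assoc, abs_mul]; norm_num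
      _ ≤ 2 * (Λ * (2 * Kp * Δ)) + Λ ^ 2 * (7 * Kp ^ 2 * Δ) := by linarith
      _ = 4 * Λ * (Kp * Δ) + 7 * Λ ^ 2 * (Kp ^ 2 * Δ) := by ring
      _ ≤ 4 * Λ * (Kp ^ 2 * Δ) + 7 * Λ ^ 2 * (Kp ^ 2 * Δ) := by gcongr
      _ ≤ Λ ^ 2 * (Kp ^ 2 * Δ) + 7 * Λ ^ 2 * (Kp ^ 2 * Δ) := by
          have : 4 * Λ ≤ Λ ^ 2 := by nlinarith
          gcongr
      _ = 8 * Λ ^ 2 * Kp ^ 2 * Δ := by ring
  · calc |β2 + bt * γ| ≤ |β2| + |bt * γ| := abs_add_le _ _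
      _ ≤ 2 * Kp * Δ + Λ * (7 * Kp ^ 2 * Δ) := by linarith
      _ = 2 * (Kp * Δ) + 7 * Λ * (Kp ^ 2 * Δ) := by ring
      _ ≤ 2 * (Kp ^ 2 * Δ) + 7 * Λ * (Kp ^ 2 * Δ) := by gcongr
      _ ≤ Λ * (Kp ^ 2 * Δ) + 7 * Λ * (Kp ^ 2 * Δ) := by
          have : 2 ≤ Λ := by linarith
          gcongr
      _ = 8 * Λ * Kp ^ 2 * Δ := by ring

theorem rc_pb_labev_ang (c : SecPt) (hc : c.Ok) (Λ : ℝ) (x : RtRow) (hx : c.PbIn Λ x) : rtSq (x.A - c.Ao) ≤ (c.r / 8) ^ 2 := by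
  have h1 := hx.1
  have hr := hc.r_pos
  have h2 : rtSq (c.ang x.A) ≤ 1 / 64 := by
    have h3 : 1 ≤ (1 + |c.bt|) ^ 2 := one_le_pow₀ (by linarith [abs_nonneg c.bt])
    calc rtSq (c.ang x.A) = rtSq (c.ang x.A) * 1 := (mul_one _).symm
      _ ≤ rtSq (c.ang x.A) * (1 + |c.bt|) ^ 2 := mul_le_mul_of_nonneg_left h3 (rtSq_nonneg _)
      _ ≤ 1 / 64 := h1
  have e : rtSq (c.ang x.A) = rtSq (x.A - c.Ao) / c.r ^ 2 := by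
    unfold SecPt.ang
    rw [rt_rot_sq, hc.e_unit, one_mul]
    simp only [rtSq, Prod.smul_fst, Prod.smul_snd, smul_eq_mul]
    field_simp
  rw [e, div_le_iff₀ (by positivity)] at h2
  calc rtSq (x.A - c.Ao) ≤ 1 / 64 * c.r ^ 2 := h2
    _ = (c.r / 8) ^ 2 := by ring
/-- **LEAF L-256-RC-PB-LABEV: two rows of the patch in one label have close events.**
`τ = Q.toT (c.k + n)`: `τ.l = rdLen (c.k + n) = ℓΔ`, `τ.r = Q.r ≤ Kp r`.   `e = x.flow s`, `e' = x'.flow s ∈ τ.box 1`:   `|e.b - e'.b| ≤ 2ℓΔ Kp r`,   `e.y - e'.y = 2 As·(e.b - e'.b) + ε`, `|ε| ≤ 2ℓΔ Kp² r²`,   `|x.A - As| ≤ Kp r`.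
`rtSq (c.ang x.A) ≤ 1/64` and `re_sc_ang_sub`-type identity (`rt_rot_sq`, `e_unit`): `|x.A - Ao| ≤ r/8`, so `|As - Ao| ≤ (Kp + 1/8) r`.
Chart (unfold `pbEv, Lm, bo, yo`):   `bo - bo' = Rot_e ((ℓ r)⁻¹ (e.b - e'.b))`, Euclidean norm `≤ 2KpΔ` (each component too);   `yo - yo' = (2(As - Ao)·(e.b - e'.b) + ε)/(ℓ r²)`, `|..| ≤ 4(Kp + 1/8)KpΔ + 2Kp²Δ ≤ 7Kp²Δ`.
`t' = uo + 2 bt bo₂ + bt² yo`: `≤ 4ΛKpΔ + 7Λ²Kp²Δ ≤ 8Λ²Kp²Δ`;   `b₂' = bo₂ + bt yo`: `≤ 2KpΔ + 7ΛKp²Δ ≤ 8ΛKp²Δ`. -/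
theorem rc_pb_labev (c : SecPt) (hc : c.Ok) (Λ Kp : ℝ) (hΛ : 16 ≤ Λ) (hbt : |c.bt| ≤ Λ) (hKp : 1 ≤ Kp) (n : ℕ) (Q : RdTst) (hQ0 : 0 < Q.r) (hQ : Q.r ≤ Kp * c.r)
    (s : ℝ) (x x' : RtRow) (hx : c.PbIn Λ x) (hx' : c.PbIn Λ x') (he : x.flow s ∈ (Q.toT (c.k + n)).box 1) (he' : x'.flow s ∈ (Q.toT (c.k + n)).box 1) :
    |(c.pbEv x s).1 0 - (c.pbEv x' s).1 0| ≤ 8 * Λ ^ 2 * Kp ^ 2 * (1 / 2 : ℝ) ^ n ∧ |(c.pbEv x s).1 1 - (c.pbEv x' s).1 1| ≤ 2 * Kp * (1 / 2 : ℝ) ^ n ∧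
    |(c.pbEv x s).1 2 - (c.pbEv x' s).1 2| ≤ 7 * Kp ^ 2 * (1 / 2 : ℝ) ^ n ∧ |(c.pbEv x s).2 - (c.pbEv x' s).2| ≤ 8 * Λ * Kp ^ 2 * (1 / 2 : ℝ) ^ n := by
  have hr := hc.r_pos
  have hl : 0 < c.l := rdLen_pos c.k
  obtain ⟨Δ, hΔ⟩ : ∃ Δ : ℝ, Δ = (1 / 2 : ℝ) ^ n := ⟨_, rfl⟩
  have hΔ0 : 0 < Δ := by rw [hΔ]; positivity
  rw [← hΔ]
  have hτl : (Q.toT (c.k + n)).l = c.l * Δ := by
    show rdLen (c.k + n) = rdLen c.k * Δ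
    unfold rdLen
    rw [pow_add, hΔ]; norm_num
  have hτl0 : 0 < (Q.toT (c.k + n)).l := by rw [hτl]; positivity
  have hτr : (Q.toT (c.k + n)).r = Q.r := rfl
  rw [rc_a1_box_iff _ hτl0 hQ0] at he he'
  rw [hτl, hτr] at he he'
  obtain ⟨p1, p2, p3⟩ := he
  obtain ⟨q1, q2, q3⟩ := he'
  have hKp0 : 0 < Kp := by linarith
  obtain ⟨b, hb⟩ : ∃ b, b = (x.flow s).b := ⟨_, rfl⟩
  obtain ⟨b', hb'⟩ : ∃ b', b' = (x'.flow s).b := ⟨_, rfl⟩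
  obtain ⟨y, hy⟩ : ∃ y, y = (x.flow s).y := ⟨_, rfl⟩
  obtain ⟨y', hy'⟩ : ∃ y', y' = (x'.flow s).y := ⟨_, rfl⟩
  have hA : (x.flow s).A = x.A := rfl
  rw [← hb] at p1 p2
  rw [← hy] at p2
  rw [← hb'] at q1 q2
  rw [← hy'] at q2
  rw [hA] at p3
  obtain ⟨As, hAs⟩ : ∃ As, As = (Q.toT (c.k + n)).As := ⟨_, rfl⟩
  obtain ⟨bs, hbs⟩ : ∃ bs, bs = (Q.toT (c.k + n)).bs := ⟨_, rfl⟩
  obtain ⟨ys, hys⟩ : ∃ ys, ys = (Q.toT (c.k + n)).ys := ⟨_, rfl⟩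
  rw [← hbs] at p1 p2 q1 q2
  rw [← hAs, ← hys] at p2 q2
  rw [← hAs] at p3
  -- u = b - b'
  have hu : rtSq (b - b') ≤ (2 * (c.l * Δ * Q.r)) ^ 2 := by
    have e : b - b' = (b - bs) - (b' - bs) := by abel
    rw [e]
    have := rt_chp_sq_sub (by positivity) (by positivity) p1 q1
    calc _ ≤ (c.l * Δ * Q.r + c.l * Δ * Q.r) ^ 2 := this
      _ = _ := by ring
  -- As - Ao
  have hAo : rtSq (As - c.Ao) ≤ (c.r / 8 + Q.r) ^ 2 := by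
    have e : As - c.Ao = (x.A - c.Ao) - (x.A - As) := by abel
    rw [e]
    exact rt_chp_sq_sub (by positivity) hQ0.le (rc_pb_labev_ang c hc Λ x hx) p3
  obtain ⟨i1, i2⟩ := rc_pb_labev_id c (c.T0 + s) b b' y y'
  -- β
  have hβ : rtSq (c.bo (c.T0 + s) (b, y) - c.bo (c.T0 + s) (b', y')) ≤ (2 * Kp * Δ) ^ 2 := by
    rw [i1, rt_rot_sq, hc.e_unit, one_mul]
    have h1 := rt_chp_sq_smul (c := (c.l * c.r)⁻¹) (b := (c.l * c.r)⁻¹) (by rw [abs_of_pos (by positivity)]) hu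
    calc _ ≤ ((c.l * c.r)⁻¹ * (2 * (c.l * Δ * Q.r))) ^ 2 := h1
      _ = (2 * Δ * (Q.r / c.r)) ^ 2 := by congr 1; field_simp
      _ ≤ (2 * Δ * Kp) ^ 2 := by
          apply pow_le_pow_left₀ (by positivity)
          apply mul_le_mul_of_nonneg_left _ (by positivity)
          rw [div_le_iff₀ hr]; exact hQ
      _ = _ := by ring
  have hβ1 := rt_chp_fst (by positivity) hβ
  have hβ2 := rt_chp_snd (by positivity) hβ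
  -- γ
  have hγ : |c.yo (c.T0 + s) (b, y) - c.yo (c.T0 + s) (b', y')| ≤ 7 * Kp ^ 2 * Δ := by
    rw [i2, abs_div, abs_of_pos (by positivity : 0 < c.l * c.r ^ 2), div_le_iff₀ (by positivity)]
    have e : (y - y') - 2 * rtIp c.Ao (b - b') = 2 * rtIp (As - c.Ao) (b - b') + ((y - ys - 2 * rtIp As (b - bs)) - (y' - ys - 2 * rtIp As (b' - bs))) := by
      simp only [rtIp, Prod.fst_sub, Prod.snd_sub]
      ring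
    rw [e]
    have h1 := rtIp_abs_le (by positivity) (by positivity) hAo hu
    have h2 : |(y - ys - 2 * rtIp As (b - bs)) - (y' - ys - 2 * rtIp As (b' - bs))| ≤ c.l * Δ * Q.r ^ 2 + c.l * Δ * Q.r ^ 2 :=
      (abs_sub _ _).trans (add_le_add p2 q2)
    have hlD : 0 < c.l * Δ := by positivity
    have hQ2 : Q.r ^ 2 ≤ (Kp * c.r) ^ 2 := pow_le_pow_left₀ hQ0.le hQ 2
    have hK2 : Kp ≤ Kp ^ 2 := by nlinarith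
    calc |2 * rtIp (As - c.Ao) (b - b') + ((y - ys - 2 * rtIp As (b - bs)) - (y' - ys - 2 * rtIp As (b' - bs)))|
        ≤ |2 * rtIp (As - c.Ao) (b - b')| + |(y - ys - 2 * rtIp As (b - bs)) - (y' - ys - 2 * rtIp As (b' - bs))| := abs_add_le _ _
      _ = 2 * |rtIp (As - c.Ao) (b - b')| + |(y - ys - 2 * rtIp As (b - bs)) - (y' - ys - 2 * rtIp As (b' - bs))| := by rw [abs_mul]; norm_num
      _ ≤ 2 * ((c.r / 8 + Q.r) * (2 * (c.l * Δ * Q.r))) + (c.l * Δ * Q.r ^ 2 + c.l * Δ * Q.r ^ 2) := by linarith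
      _ = (c.l * Δ) * (c.r * Q.r / 2 + 6 * Q.r ^ 2) := by ring
      _ ≤ (c.l * Δ) * (c.r * (Kp * c.r) / 2 + 6 * (Kp * c.r) ^ 2) := by gcongr
      _ = (c.l * Δ) * c.r ^ 2 * (Kp / 2 + 6 * Kp ^ 2) := by ring
      _ ≤ (c.l * Δ) * c.r ^ 2 * (7 * Kp ^ 2) := by
          apply mul_le_mul_of_nonneg_left _ (by positivity)
          linarith
      _ = 7 * Kp ^ 2 * Δ * (c.l * c.r ^ 2) := by ring
  obtain ⟨f1, f2⟩ := rc_pb_labev_fin c.bt Λ Kp Δ _ _ hΛ hbt hKp hΔ0.le hβ2 hγ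
  unfold SecPt.pbEv SecPt.Lm
  simp only [(tri_tvec_apply _ _ _).1, (tri_tvec_apply _ _ _).2.1, (tri_tvec_apply _ _ _).2.2]
  rw [← hb, ← hb', ← hy, ← hy']
  refine ⟨?_, ?_, hγ, ?_⟩
  · have e : c.uo (c.T0 + s) + 2 * c.bt * (c.bo (c.T0 + s) (b, y)).2 + c.bt ^ 2 * c.yo (c.T0 + s) (b, y) - (c.uo (c.T0 + s) + 2 * c.bt * (c.bo (c.T0 + s) (b', y')).2 + c.bt ^ 2 * c.yo (c.T0 + s) (b', y'))
        = 2 * c.bt * (c.bo (c.T0 + s) (b, y) - c.bo (c.T0 + s) (b', y')).2 + c.bt ^ 2 * (c.yo (c.T0 + s) (b, y) - c.yo (c.T0 + s) (b', y')) := by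
      rw [Prod.snd_sub]; ring
    rw [e]; exact f1
  · rw [← Prod.fst_sub]; exact hβ1
  · have e : (c.bo (c.T0 + s) (b, y)).2 + c.bt * c.yo (c.T0 + s) (b, y) - ((c.bo (c.T0 + s) (b', y')).2 + c.bt * c.yo (c.T0 + s) (b', y'))
        = (c.bo (c.T0 + s) (b, y) - c.bo (c.T0 + s) (b', y')).2 + c.bt * (c.yo (c.T0 + s) (b, y) - c.yo (c.T0 + s) (b', y')) := by
      rw [Prod.snd_sub]; ring
    rw [e]; exact f2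

theorem rc_pb_box_mem (w z : ℤ) (M : ℝ) (h : |(w : ℝ) - z| ≤ M) : w ∈ Finset.Icc (z - ⌊M⌋) (z + ⌊M⌋) := by
  have h1 : |w - z| ≤ ⌊M⌋ := by
    rw [Int.le_floor]
    push_cast
    exact h
  rw [abs_le] at h1
  rw [Finset.mem_Icc]
  constructor <;> linarith [h1.1, h1.2]

theorem rc_pb_box_one (z0 : ℤ) (M : ℝ) (h : 0 ≤ M) :
    ((Finset.Icc (z0 - ⌊M⌋) (z0 + ⌊M⌋)).card : ℝ) ≤ 2 * M + 1 ∧ ∀ w : ℤ, |(w : ℝ) - z0| ≤ M → w ∈ Finset.Icc (z0 - ⌊M⌋) (z0 + ⌊M⌋) := by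
  have hf : 0 ≤ ⌊M⌋ := Int.floor_nonneg.2 h
  have hfl : (⌊M⌋ : ℝ) ≤ M := Int.floor_le M
  constructor
  · rw [Int.card_Icc]
    have e : (z0 + ⌊M⌋ + 1 - (z0 - ⌊M⌋)) = 2 * ⌊M⌋ + 1 := by ring
    rw [e]
    have e1 : (((2 * ⌊M⌋ + 1).toNat : ℤ) : ℝ) = 2 * (⌊M⌋ : ℝ) + 1 := by
      rw [Int.toNat_of_nonneg (by omega)]
      push_cast
      ring
    have e2 : (((2 * ⌊M⌋ + 1).toNat : ℕ) : ℝ) = (((2 * ⌊M⌋ + 1).toNat : ℤ) : ℝ) := (Int.cast_natCast _).symm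
    rw [e2, e1]
    linarith
  · intro w hw
    rw [abs_le] at hw
    rw [Finset.mem_Icc]
    constructor
    · have h1 : z0 - w ≤ ⌊M⌋ := Int.le_floor.2 (by push_cast; linarith [hw.1])
      omega
    · have h1 : w - z0 ≤ ⌊M⌋ := Int.le_floor.2 (by push_cast; linarith [hw.2])
      omega

theorem rc_pb_box_card (z : ℤ) (M : ℝ) (h : 0 ≤ M) : ((Finset.Icc (z - ⌊M⌋) (z + ⌊M⌋)).card : ℝ) ≤ 2 * M + 1 := by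
  rw [Int.card_Icc]
  have h0 : 0 ≤ ⌊M⌋ := Int.floor_nonneg.mpr h
  have e : (((z + ⌊M⌋ + 1 - (z - ⌊M⌋)).toNat : ℕ) : ℤ) = 2 * ⌊M⌋ + 1 := by
    rw [Int.toNat_of_nonneg (by linarith)]; ring
  have e2 : (((z + ⌊M⌋ + 1 - (z - ⌊M⌋)).toNat : ℕ) : ℝ) = 2 * (⌊M⌋ : ℝ) + 1 := by
    have : ((((z + ⌊M⌋ + 1 - (z - ⌊M⌋)).toNat : ℕ) : ℤ) : ℝ) = ((2 * ⌊M⌋ + 1 : ℤ) : ℝ) := by rw [e]
    push_cast at this
    exact this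
  rw [e2]
  have := Int.floor_le M
  linarith
/-- **LEAF L-256-RC-PB-BOX (paper free): integer boxes.**   `Lst = image f (Icc ×ˢ Icc ×ˢ Icc ×ˢ Icc)`, `Icc (z0 - ⌊M⌋) (z0 + ⌊M⌋)` has `2⌊M⌋ + 1 ≤ 2M + 1` elements (`Int.card_Icc`), `Finset.card_image_le`, `Finset.card_product`. -/
theorem rc_pb_box {ι : Type} [DecidableEq ι] (f : ℤ × ℤ × ℤ × ℤ → ι) (z : ℤ × ℤ × ℤ × ℤ) (M1 M2 M3 M4 : ℝ) (h1 : 0 ≤ M1) (h2 : 0 ≤ M2) (h3 : 0 ≤ M3) (h4 : 0 ≤ M4) :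
    ∃ Lst : Finset ι, (Lst.card : ℝ) ≤ (2 * M1 + 1) * (2 * M2 + 1) * (2 * M3 + 1) * (2 * M4 + 1) ∧ (∀ β ∈ Lst, ∃ w, f w = β) ∧
      ∀ w : ℤ × ℤ × ℤ × ℤ, |(w.1 : ℝ) - z.1| ≤ M1 → |(w.2.1 : ℝ) - z.2.1| ≤ M2 → |(w.2.2.1 : ℝ) - z.2.2.1| ≤ M3 → |(w.2.2.2 : ℝ) - z.2.2.2| ≤ M4 → f w ∈ Lst := by
  refine ⟨(Finset.Icc (z.1 - ⌊M1⌋) (z.1 + ⌊M1⌋) ×ˢ Finset.Icc (z.2.1 - ⌊M2⌋) (z.2.1 + ⌊M2⌋) ×ˢ Finset.Icc (z.2.2.1 - ⌊M3⌋) (z.2.2.1 + ⌊M3⌋) ×ˢ Finset.Icc (z.2.2.2 - ⌊M4⌋) (z.2.2.2 + ⌊M4⌋)).image f, ?_, ?_, ?_⟩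
  · have c1 := rc_pb_box_card z.1 M1 h1
    have c2 := rc_pb_box_card z.2.1 M2 h2
    have c3 := rc_pb_box_card z.2.2.1 M3 h3
    have c4 := rc_pb_box_card z.2.2.2 M4 h4
    calc _ ≤ (((Finset.Icc (z.1 - ⌊M1⌋) (z.1 + ⌊M1⌋) ×ˢ Finset.Icc (z.2.1 - ⌊M2⌋) (z.2.1 + ⌊M2⌋) ×ˢ Finset.Icc (z.2.2.1 - ⌊M3⌋) (z.2.2.1 + ⌊M3⌋) ×ˢ Finset.Icc (z.2.2.2 - ⌊M4⌋) (z.2.2.2 + ⌊M4⌋)).card : ℕ) : ℝ) := by
          exact_mod_cast Finset.card_image_le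
      _ = ((Finset.Icc (z.1 - ⌊M1⌋) (z.1 + ⌊M1⌋)).card : ℝ) * (((Finset.Icc (z.2.1 - ⌊M2⌋) (z.2.1 + ⌊M2⌋)).card : ℝ) * (((Finset.Icc (z.2.2.1 - ⌊M3⌋) (z.2.2.1 + ⌊M3⌋)).card : ℝ) * ((Finset.Icc (z.2.2.2 - ⌊M4⌋) (z.2.2.2 + ⌊M4⌋)).card : ℝ))) := by
          rw [Finset.card_product, Finset.card_product, Finset.card_product]
          push_cast
          ring
      _ ≤ (2 * M1 + 1) * ((2 * M2 + 1) * ((2 * M3 + 1) * (2 * M4 + 1))) := by gcongr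
      _ = _ := by ring
  · intro β hβ
    obtain ⟨w, _, hw⟩ := Finset.mem_image.mp hβ
    exact ⟨w, hw⟩
  · intro w a1 a2 a3 a4
    apply Finset.mem_image_of_mem
    simp only [Finset.mem_product]
    exact ⟨rc_pb_box_mem _ _ _ a1, rc_pb_box_mem _ _ _ a2, rc_pb_box_mem _ _ _ a3, rc_pb_box_mem _ _ _ a4⟩

/-- the map from four integers to the index of a new cell -/
def rcPbLabF (k : ℕ) (w : ℤ × ℤ × ℤ × ℤ) : PbIx := (w.1 / 2 ^ k, w.2.1, (w.1 % 2 ^ k).toNat, (w.2.2.1, w.2.2.2))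

theorem rc_pb_lab_f_lt (k : ℕ) (w : ℤ × ℤ × ℤ × ℤ) : (rcPbLabF k w).2.2.1 < 2 ^ k := by
  show (w.1 % 2 ^ k).toNat < 2 ^ k
  have h1 : (0:ℤ) < 2 ^ k := by positivity
  have h2 := Int.emod_lt_of_pos w.1 h1
  have h3 := Int.emod_nonneg w.1 h1.ne'
  zify
  rw [Int.toNat_of_nonneg h3]
  exact_mod_cast h2

theorem rc_pb_lab_f_eq (c : SecPt) (Λ : ℝ) (n a J : ℕ) (x : RtRow) :
    c.pbIx Λ n a J x = rcPbLabF (n - a) (c.pbN n J x, (c.pbIx Λ n a J x).2.1, (c.pbIx Λ n a J x).2.2.2.1, (c.pbIx Λ n a J x).2.2.2.2) := rfl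

theorem rc_pb_lab_d (d d0 p p0 Δ M : ℝ) (hΔ : 0 < Δ) (h1 : |d * Δ - p| ≤ 2 * Δ) (h2 : |d0 * Δ - p0| ≤ 2 * Δ) (h3 : |p - p0| ≤ M * Δ) : |d - d0| ≤ M + 4 := by
  have e : (d - d0) * Δ = (d * Δ - p) - (d0 * Δ - p0) + (p - p0) := by ring
  have h4 : |(d - d0) * Δ| ≤ (M + 4) * Δ := by
    rw [e]
    calc _ ≤ |(d * Δ - p) - (d0 * Δ - p0)| + |p - p0| := abs_add_le _ _
      _ ≤ (|d * Δ - p| + |d0 * Δ - p0|) + |p - p0| := by gcongr; exact abs_sub _ _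
      _ ≤ (M + 4) * Δ := by linarith
  rw [abs_mul, abs_of_pos hΔ] at h4
  exact le_of_mul_le_mul_right h4 hΔ

theorem rc_pb_lab_N (N N0 p p0 Δ M : ℝ) (hΔ : 0 < Δ) (h1 : N * Δ ≤ p ∧ p < (N + 1) * Δ) (h2 : N0 * Δ ≤ p0 ∧ p0 < (N0 + 1) * Δ) (h3 : |p - p0| ≤ M * Δ) : |N - N0| ≤ M + 1 := by
  have h4 := abs_le.mp h3
  rw [abs_le]
  constructor
  · have : (-(M + 1)) * Δ ≤ (N - N0) * Δ := by nlinarith [h1.1, h1.2, h2.1, h2.2, h4.1, h4.2]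
    exact le_of_mul_le_mul_right this hΔ
  · have : (N - N0) * Δ ≤ (M + 1) * Δ := by nlinarith [h1.1, h1.2, h2.1, h2.2, h4.1, h4.2]
    exact le_of_mul_le_mul_right this hΔ

theorem rc_pb_lab_num (Λ Kp q : ℝ) (hΛ : 16 ≤ Λ) (hKp : 1 ≤ Kp) (hq : 1 ≤ q) :
    (2 * (8 * Λ ^ 2 * Kp ^ 2 + 1) + 1) * (2 * (8 * Λ * Kp ^ 2 * q + 4) + 1) * (2 * (2 * Kp + 4) + 1) * (2 * (7 * Kp ^ 2 + 4) + 1) ≤ (17 * Λ ^ 2 * Kp ^ 2) ^ 4 * q := by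
  have hK2 : 1 ≤ Kp ^ 2 := one_le_pow₀ hKp
  have hKK : Kp ≤ Kp ^ 2 := by nlinarith
  have hL2 : 16 * Λ ≤ Λ ^ 2 := by nlinarith
  have hL256 : 256 ≤ Λ ^ 2 := by nlinarith
  obtain ⟨A, hA⟩ : ∃ A, A = Λ ^ 2 * Kp ^ 2 := ⟨_, rfl⟩
  have hA256 : 256 ≤ A := by rw [hA]; nlinarith
  have hAK : Kp ^ 2 ≤ A := by rw [hA]; nlinarith
  have hAL : 16 * (Λ * Kp ^ 2) ≤ A := by
    rw [hA]
    have := mul_le_mul_of_nonneg_right hL2 (by positivity : (0:ℝ) ≤ Kp ^ 2)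
    linarith
  have b1 : 2 * (8 * Λ ^ 2 * Kp ^ 2 + 1) + 1 ≤ 17 * A := by rw [hA]; nlinarith
  have b2 : 2 * (8 * Λ * Kp ^ 2 * q + 4) + 1 ≤ 17 * A * q := by
    have h1 : 16 * (Λ * Kp ^ 2) * q ≤ A * q := mul_le_mul_of_nonneg_right hAL (by linarith)
    have h2 : 9 ≤ A * q := by nlinarith
    nlinarith
  have b3 : 2 * (2 * Kp + 4) + 1 ≤ 17 * A := by linarith
  have b4 : 2 * (7 * Kp ^ 2 + 4) + 1 ≤ 17 * A := by linarith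
  have hΛ0 : 0 < Λ := by linarith
  have hKp0 : 0 < Kp := by linarith
  have hq0 : 0 < q := by linarith
  calc _ ≤ (17 * A) * (17 * A * q) * (17 * A) * (17 * A) := by gcongr
    _ = (17 * Λ ^ 2 * Kp ^ 2) ^ 4 * q := by rw [hA]; ring
/-- **LEAF L-256-RC-PB-LAB: the rows of the patch in one label meet few new cells.**
No row satisfies the two hypotheses: `Lst = ∅`.   Otherwise fix a witness `x₀`.   `f (N, σ, d₁, d₂) = (N / 2^k, σ, (N % 2^k).toNat, (d₁, d₂))`, so `pbIx Λ n a J x = f (pbN n J x, σ, d)` by `rfl`, and `(f w).2.2.1 < 2^k`.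
`rc_pb_labev` (`s = JΔℓ`) + `rc_pb_ixev` for `x`, `x₀`:   `|N - N₀| ≤ 8Λ²Kp² + 1`,  `|σ - σ₀| ≤ 8ΛKp²Δ/W + 4`,  `|d₁ - d₁₀| ≤ 2Kp + 4`,  `|d₂ - d₂₀| ≤ 7Kp² + 4`.
`rc_pb_box`;   `2(8Λ²Kp²+1)+1`, `2(2Kp+4)+1`, `2(7Kp²+4)+1 ≤ 17Λ²Kp²`;   `2(8ΛKp²Δ/W+4)+1 ≤ 17Λ²Kp² Δ/W`  (`Δ/W ≥ 1`, `Λ ≥ 16`). -/
theorem rc_pb_lab (c : SecPt) (Λ Kp : ℝ) (n a : ℕ) (h : PbSc c Λ n a) (hKp : 1 ≤ Kp) (J : ℕ) (Q : RdTst) (hQ0 : 0 < Q.r) (hQ : Q.r ≤ Kp * c.r) :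
    ∃ Lst : Finset PbIx, (Lst.card : ℝ) ≤ (17 * Λ ^ 2 * Kp ^ 2) ^ 4 * ((1 / 2 : ℝ) ^ n / c.pbW Λ) ∧ (∀ β ∈ Lst, β.2.2.1 < 2 ^ (n - a)) ∧
      ∀ x : RtRow, c.PbIn Λ x → x.flow (J * (1 / 2 : ℝ) ^ n * c.l) ∈ (Q.toT (c.k + n)).box 1 → c.pbIx Λ n a J x ∈ Lst := by
  obtain ⟨-, hW0, -, hW7, -, hΔ16, -, -, -⟩ := rc_pb_sc c Λ n a h
  obtain ⟨Δ, hΔ⟩ : ∃ Δ : ℝ, Δ = (1 / 2 : ℝ) ^ n := ⟨_, rfl⟩
  have hΔ0 : 0 < Δ := by rw [hΔ]; positivity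
  have hΔ1 : Δ ≤ 1 := by rw [hΔ]; exact pow_le_one₀ (by norm_num) (by norm_num)
  have hΛ := h.Λ_ge
  have hΛ0 : 0 < Λ := by linarith
  have hKp0 : 0 < Kp := by linarith
  by_cases hex : ∃ x0 : RtRow, c.PbIn Λ x0 ∧ x0.flow (J * (1 / 2 : ℝ) ^ n * c.l) ∈ (Q.toT (c.k + n)).box 1
  · obtain ⟨x0, hx0, hb0⟩ := hex
    rw [← hΔ] at hW7 hb0 ⊢
    have hq : 1 ≤ Δ / c.pbW Λ := by
      rw [le_div_iff₀ hW0, one_mul]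
      calc c.pbW Λ ≤ Δ ^ 7 := hW7
        _ ≤ Δ ^ 1 := pow_le_pow_of_le_one hΔ0.le hΔ1 (by norm_num)
        _ = Δ := pow_one _
    obtain ⟨Lst, l1, l2, l3⟩ := rc_pb_box (rcPbLabF (n - a)) (c.pbN n J x0, (c.pbIx Λ n a J x0).2.1, (c.pbIx Λ n a J x0).2.2.2.1, (c.pbIx Λ n a J x0).2.2.2.2)
      (8 * Λ ^ 2 * Kp ^ 2 + 1) (8 * Λ * Kp ^ 2 * (Δ / c.pbW Λ) + 4) (2 * Kp + 4) (7 * Kp ^ 2 + 4) (by positivity) (by positivity) (by positivity) (by positivity)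
    refine ⟨Lst, l1.trans (rc_pb_lab_num Λ Kp _ hΛ hKp hq), ?_, ?_⟩
    · intro β hβ
      obtain ⟨w, hw⟩ := l2 β hβ
      rw [← hw]; exact rc_pb_lab_f_lt _ _
    · intro x hx hb
      rw [rc_pb_lab_f_eq]
      obtain ⟨i1, i2, i3, i4, -⟩ := rc_pb_ixev c Λ n a h J x hx
      obtain ⟨j1, j2, j3, j4, -⟩ := rc_pb_ixev c Λ n a h J x0 hx0
      obtain ⟨e1, e2, e3, e4⟩ := rc_pb_labev c h.ok Λ Kp hΛ h.bt hKp n Q hQ0 hQ _ x x0 hx hx0 hb hb0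
      rw [← hΔ] at i1 i2 i3 j1 j2 j3 e1 e2 e3 e4
      apply l3
      · exact rc_pb_lab_N _ _ _ _ Δ _ hΔ0 i1 j1 e1
      · have e4' : |(c.pbEv x (J * Δ * c.l)).2 - (c.pbEv x0 (J * Δ * c.l)).2| ≤ (8 * Λ * Kp ^ 2 * (Δ / c.pbW Λ)) * c.pbW Λ := by
          have : (8 * Λ * Kp ^ 2 * (Δ / c.pbW Λ)) * c.pbW Λ = 8 * Λ * Kp ^ 2 * Δ := by field_simp
          rw [this]; exact e4
        rw [← hΔ] at i4 j4
        exact rc_pb_lab_d _ _ _ _ (c.pbW Λ) _ hW0 i4 j4 e4'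
      · exact rc_pb_lab_d _ _ _ _ Δ _ hΔ0 i2 j2 e2
      · exact rc_pb_lab_d _ _ _ _ Δ _ hΔ0 i3 j3 e3
  · refine ⟨∅, ?_, ?_, ?_⟩
    · simp only [Finset.card_empty, Nat.cast_zero]
      positivity
    · intro β hβ
      exact absurd hβ (Finset.notMem_empty _)
    · intro x hx hb
      exact absurd ⟨x, hx, hb⟩ hex

/-! ## 5. A kinetic box is a tile -/

theorem rc_pb_tile_norm (u v : ℝ) (hu : |u| ≤ 1) (hv : |v| ≤ 1) : ‖tvec 0 u v‖ ≤ 3 := by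
  rw [EuclideanSpace.norm_eq, Fin.sum_univ_three]
  simp only [(tri_tvec_apply _ _ _).1, (tri_tvec_apply _ _ _).2.1, (tri_tvec_apply _ _ _).2.2, Real.norm_eq_abs, sq_abs]
  have h1 : u ^ 2 ≤ 1 := by rw [← sq_abs]; nlinarith [abs_nonneg u]
  have h2 : v ^ 2 ≤ 1 := by rw [← sq_abs]; nlinarith [abs_nonneg v]
  calc √(0 ^ 2 + u ^ 2 + v ^ 2) ≤ √(3 ^ 2) := Real.sqrt_le_sqrt (by nlinarith)
    _ = 3 := Real.sqrt_sq (by norm_num)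

/-- **LEAF L-256-RC-PB-TILE: a kinetic box of a window and a slab lies in ONE enlarged hyperquadric test.**
Apply `re_sc_geo c h.ok Λ ℓE Bf R x0 s0 M c'` with `ℓE = (1/2)^a`, `Bf = 1/W`, `M = 3`, `c' = tvec t_j (ℓE b) (ℓE y)`, `s0 = σW`, `y := (x.A, (x.b, x.y))`.   Its conclusion is the claim (`2Λ√h = W`, `22Λ·3 = 66Λ`).
Hypotheses: `hℓ`, `W > 0`: `rc_pb_sc`;   `hB1 : 2|bt| ≤ 1/W` from `2ΛW ≤ 1`;   `hB2 : 1 ≤ Bf W = 1`;   `h1, h2` = `PbIn`;   `h3 : |X - x0| ≤ R ≤ 2R`.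
SHELL: witnesses `s = pbLag x t_j` (`|s| ≤ 3ℓ`), `Z = 0` (`secW H k A s 0 = (s • A, s |A|²)`, so the event is `pbEv x s`).   `rc_pb_ray` with `s/ℓ · D = t_j - T`: the event is `(tvec t_j (pbB x t_j) (pbY x t_j), pbS x t_j)`.
`tcoord x0 ℓE R (event.1 - c') = tvec 0 ((KB - b)/R) ((KY - y - 2 x0 (KB - b))/R²)`, Euclidean norm `≤ √2 ≤ 3` (`EuclideanSpace.norm_eq`, `Fin.sum_univ_three`);   `Bf |pbS x t_j - σW| ≤ 1` (`Int.floor_le`, `Int.lt_floor_add_one`). -/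
theorem rc_pb_tile (c : SecPt) (Λ : ℝ) (n a : ℕ) (h : PbSc c Λ n a) (j σ : ℤ) (R x0 b y : ℝ) (hR0 : c.pbW Λ ≤ R) (hR1 : R ≤ 1) (x : RtRow) (hx : x ∈ c.pbG Λ a j σ)
    (h1 : |c.pbX x - x0| ≤ R) (h2 : |c.pbKB a j x - b| ≤ R) (h3 : |c.pbKY a j x - y - 2 * x0 * (c.pbKB a j x - b)| ≤ R ^ 2) :
    x ∈ (c.test R x0 (tvec (j * (1 / 2 : ℝ) ^ a) ((1 / 2 : ℝ) ^ a * b) ((1 / 2 : ℝ) ^ a * y)) (σ * c.pbW Λ) (c.pbW Λ / R)).set (66 * Λ) := by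
  obtain ⟨hW, hW0, -, hW7, hW6, hΔ, -, hℓ, -⟩ := rc_pb_sc c Λ n a h
  obtain ⟨hin, hlag, hσ⟩ := hx
  obtain ⟨hD1, hD2, hX, hX2⟩ := rc_pb_basic c Λ x hin
  have hΛ1 : (1 : ℝ) ≤ Λ := by linarith [h.Λ_ge]
  have hR : 0 < R := lt_of_lt_of_le hW0 hR0
  have hE : (0 : ℝ) < (1 / 2 : ℝ) ^ a := by positivity
  have hh : 0 < c.h := by rw [h.h_eq]; positivity
  have hl : 0 < c.l := rdLen_pos c.k
  have hD : c.pbD x ≠ 0 := by linarith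
  obtain ⟨t, ht⟩ : ∃ t : ℝ, t = j * (1 / 2 : ℝ) ^ a := ⟨_, rfl⟩
  rw [← ht] at hlag hσ ⊢
  have hKB : c.pbKB a j x = c.pbB x t / (1 / 2 : ℝ) ^ a := by rw [ht]; rfl
  have hKY : c.pbKY a j x = c.pbY x t / (1 / 2 : ℝ) ^ a := by rw [ht]; rfl
  -- the event
  have hray := rc_pb_ray c h.ok x hD (c.pbLag x t)
  have hs : c.pbT x + c.pbLag x t / c.l * c.pbD x = t := by
    unfold SecPt.pbLag
    field_simp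
    ring
  rw [hs] at hray
  obtain ⟨r0, r1, r2, r3⟩ := hray
  have hΔ1 : ((1 / 2 : ℝ) ^ n) ^ 6 ≤ 1 := pow_le_one₀ (by positivity) (pow_le_one₀ (by norm_num) (by norm_num))
  have key := re_sc_geo c h.ok Λ ((1 / 2 : ℝ) ^ a) (1 / c.pbW Λ) R x0 (σ * c.pbW Λ) 3 (tvec t ((1 / 2 : ℝ) ^ a * b) ((1 / 2 : ℝ) ^ a * y)) hΛ1 h.bt hh hE hℓ
    ?_ ?_ hR0 hR1 (by norm_num) (x.A, (x.b, x.y)) ?_ hin.1 hin.2 ?_
  · have e : (22 * Λ * 3 : ℝ) = 66 * Λ := by ring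
    rw [e] at key
    exact key
  · rw [le_div_iff₀ hW0]
    have h5 : 2 * Λ * c.pbW Λ ≤ Λ ^ 2 * c.pbW Λ := by
      apply mul_le_mul_of_nonneg_right _ hW0.le
      nlinarith [h.Λ_ge]
    have h6 : 2 * |c.bt| * c.pbW Λ ≤ 2 * Λ * c.pbW Λ := by
      apply mul_le_mul_of_nonneg_right _ hW0.le
      linarith [h.bt]
    linarith
  · have : 1 / c.pbW Λ * (2 * Λ * √c.h) = 1 := by
      show 1 / c.pbW Λ * c.pbW Λ = 1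
      field_simp
    rw [this]
  · refine ⟨c.pbLag x t, 0, hlag, by simp, ?_, ?_⟩
    · have e0 : ((x.A, (x.b, x.y)) : RdWvPar.Ph).2 + secW c.H c.k ((x.A, (x.b, x.y)) : RdWvPar.Ph).1 (c.pbLag x t) 0
          = ((x.flow (c.pbLag x t)).b, (x.flow (c.pbLag x t)).y) := by
        simp [secW, RtRow.flow, rtIp]
      rw [e0]
      have e1 : (c.Lm (c.T0 + c.pbLag x t, ((x.flow (c.pbLag x t)).b, (x.flow (c.pbLag x t)).y))) = c.pbEv x (c.pbLag x t) := rfl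
      rw [e1]
      have e2 : tcoord x0 ((1 / 2 : ℝ) ^ a) R ((c.pbEv x (c.pbLag x t)).1 - tvec t ((1 / 2 : ℝ) ^ a * b) ((1 / 2 : ℝ) ^ a * y))
          = tvec 0 ((c.pbKB a j x - b) / R) ((c.pbKY a j x - y - 2 * x0 * (c.pbKB a j x - b)) / R ^ 2) := by
        unfold tcoord
        simp only [PiLp.sub_apply, (tri_tvec_apply _ _ _).1, (tri_tvec_apply _ _ _).2.1, (tri_tvec_apply _ _ _).2.2, r0, r1, r2, hKB, hKY]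
        congr 1
        · simp
        · field_simp
          ring
        · field_simp
          ring
      rw [e2]
      apply rc_pb_tile_norm
      · rw [abs_div, abs_of_pos hR]
        exact (div_le_one hR).2 h2
      · rw [abs_div, abs_of_pos (by positivity : 0 < R ^ 2)]
        exact (div_le_one (by positivity)).2 h3
    · have e0 : ((x.A, (x.b, x.y)) : RdWvPar.Ph).2 + secW c.H c.k ((x.A, (x.b, x.y)) : RdWvPar.Ph).1 (c.pbLag x t) 0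
          = ((x.flow (c.pbLag x t)).b, (x.flow (c.pbLag x t)).y) := by
        simp [secW, RtRow.flow, rtIp]
      rw [e0]
      have e1 : (c.Lm (c.T0 + c.pbLag x t, ((x.flow (c.pbLag x t)).b, (x.flow (c.pbLag x t)).y))) = c.pbEv x (c.pbLag x t) := rfl
      rw [e1, r3]
      have f1 := Int.floor_le (c.pbS x t / c.pbW Λ)
      have f2 := Int.lt_floor_add_one (c.pbS x t / c.pbW Λ)
      rw [hσ] at f1 f2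
      rw [le_div_iff₀ hW0] at f1
      rw [div_lt_iff₀ hW0] at f2
      have : |c.pbS x t - σ * c.pbW Λ| ≤ c.pbW Λ := by
        rw [abs_le]
        constructor <;> linarith
      calc 1 / c.pbW Λ * |c.pbS x t - σ * c.pbW Λ| ≤ 1 / c.pbW Λ * c.pbW Λ := by gcongr
        _ = 1 := by field_simp
        _ ≤ 3 := by norm_num
  · show |c.pbX x - x0| ≤ 2 * R
    linarith

end Claimed.Agent.R256
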