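-- KEEP
import Claimed.Agent.R256.Rc.Plane
import Claimed.Agent.R256.Gen.Comp
import Claimed.Agent.R256.Rt.FloorCl

/-!
# Row 256, unit RC, block SLB-cl (lem:rt-slab-removal, classical, 08 l.866-885), MODEL HALF      (architect helper285; prefix `rc_sm_`)      TOWER FREE

SPLIT of SLB-cl:   helper159 = exit `rc_f_slab`, geometry (dichotomy cap / section), names (a terminal label sees few name pairs): `Rc/Slb*.lean`;      helper285 = this file.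
IDEA.   In the classical model rows = particles, `An = id`: a restriction to a set of particles is a restriction OF THE LABEL WEIGHTS `th`.   So "the hit event" is a property of the LABELS of an experiment, inherited by all tails
whatever their root state: `gn_comp_on` applies.
  `RcHit T X cls N G`   the weights of `T` are carried by classes `cls : Om → X` of particles, every label meets `≤ N` classes, the velocities of the class `x` lie in `G x`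
  `rcRes T U`           root state restricted to `U`, budget = its own energy
  M1  `rc_sm_split`     FREE step: `val T ≤ √N sup_x val (rcRes T U_x)`      (masses add up over the classes of a label, power mean, budgets add up)
      `rc_sm_stepA/B`   with `RcPlaneA/B`
  M2  `rc_sm_compA/B`   an experiment of the class, cut `k` behind all stages, `a0 n ≤ k - k0, kf - k`; classes `cls I` indexed by the interval `I` of a depth `k1 ≤ k`: `val ≤ 2^((Γ - Γ a0/2) n)`      (`gn_comp_on`)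
  M3  `rc_sm_mass`      Hoelder with the weight count: `tm ≤ e 2^((d + τ/3 - 2σ/3) n)`
ORDER OF THE CONSTANTS for the consumer:  `a0_B` → `ξ_B` (`Pp = 2^(ξ_B n)`) → `a0_A ≈ ξ_B / 2` (cap of radius `32/Pp ≤ Kp Δ_A`) → `ξ_A` → `τ`.
-/

set_option autoImplicit false

namespace Claimed.Agent.R256

open MeasureTheory
open scoped BigOperators
open Classical

/-! ## 0. Definitions -/

/-- the label weights of `T` are carried by classes of particles: every label meets at most `N` classes, the velocities of the class `x` lie in `G x` -/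
structure RcHit {η : ℝ} {p : RdClPar} (T : Xp (p.sys η)) (X : Type) (cls : p.Om → X) (N : ℕ) (G : X → Set (ℝ × ℝ)) : Prop where
  meas : ∀ x, MeasurableSet {ω | cls ω = x}
  lst : ∀ l, ∃ F : Finset X, F.card ≤ N ∧ ∀ ω, T.th l ω ≠ 0 → cls ω ∈ F
  vel : ∀ l ω, T.th l ω ≠ 0 → p.A ω ∈ G (cls ω)

/-- the cap `|A - A_*| ≤ ϱ` -/
def rcCap (As : ℝ × ℝ) (ϱ : ℝ) : Set (ℝ × ℝ) := {A | rtSq (A - As) ≤ ϱ ^ 2}

/-- the plane section `|Z| ≤ Kp`, `|d0 + α·Z + β|Z|²| ≤ w`, `Z = (A - A_*)/r` -/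
def rcSec (As : ℝ × ℝ) (r Kp d0 be : ℝ) (al : ℝ × ℝ) (w : ℝ) : Set (ℝ × ℝ) :=
  {A | rtSq (r⁻¹ • (A - As)) ≤ Kp ^ 2 ∧ |d0 + rtIp al (r⁻¹ • (A - As)) + be * rtSq (r⁻¹ • (A - As))| ≤ w}

/-- the particles of the class `x` with velocity in `G x` -/
def rcCl {p : RdClPar} {X : Type} (cls : p.Om → X) (G : X → Set (ℝ × ℝ)) (x : X) : Set p.Om := {ω | cls ω = x ∧ p.A ω ∈ G x}

/-- the root state restricted to a set of particles, with its own energy as budget -/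
noncomputable def rcRes {η : ℝ} {p : RdClPar} (T : Xp (p.sys η)) (U : Set p.Om) : Xp (p.sys η) :=
  { T with
    v := (p.sys η).mulR T.k0 (U.indicator fun _ => 1) T.v
    e := ‖(p.sys η).mulR T.k0 (U.indicator fun _ => 1) T.v‖ ^ 2 }

/-- the shapes of the labels: widths `∈ [r/Kp, Kp r]`, thickness `≥ 1/Kp` -/
def rcShp {η : ℝ} {p : RdClPar} (T : Xp (p.sys η)) (Kp r : ℝ) : Prop :=
  ∀ l, r / Kp ≤ (rcT (T.ts l)).r ∧ (rcT (T.ts l)).r ≤ Kp * r ∧ 1 / Kp ≤ (rcT (T.ts l)).f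

theorem rc_sm_eqns_cite : True := by
  have := @rcCap.eq_1
  have := @rcSec.eq_1
  have := @rcCl.eq_1
  have := @rcRes.eq_1
  have := @rcShp.eq_1
  trivial

/-! ## 1. M1: one free step -/

theorem rc_sm_cap_meas (As : ℝ × ℝ) (ϱ : ℝ) : MeasurableSet (rcCap As ϱ) := by
  unfold rcCap rtSq
  refine measurableSet_le ?_ measurable_const
  fun_prop

theorem rc_sm_sec_meas (As : ℝ × ℝ) (r Kp d0 be : ℝ) (al : ℝ × ℝ) (w : ℝ) : MeasurableSet (rcSec As r Kp d0 be al w) := by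
  have h1 : MeasurableSet {A : ℝ × ℝ | rtSq (r⁻¹ • (A - As)) ≤ Kp ^ 2} := by
    unfold rtSq
    refine measurableSet_le ?_ measurable_const
    fun_prop
  have h2 : MeasurableSet {A : ℝ × ℝ | |d0 + rtIp al (r⁻¹ • (A - As)) + be * rtSq (r⁻¹ • (A - As))| ≤ w} := by
    unfold rtSq rtIp
    refine measurableSet_le ?_ measurable_const
    fun_prop
  exact h1.inter h2

theorem rc_sm_cl_meas {p : RdClPar} {X : Type} (cls : p.Om → X) (G : X → Set (ℝ × ℝ)) (hc : ∀ x, MeasurableSet {ω | cls ω = x})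
    (hG : ∀ x, MeasurableSet (G x)) (x : X) : MeasurableSet (rcCl cls G x) :=
  (hc x).inter (p.mA (hG x))

/-- **LEAF R1.**   All fields but `e_pos, budget, plat, reg` are those of `T` (`rcRes` changes only `v`, `e`).   `plat`: `An = id`, so every state is in every `Pl b` (`fun _ _ => rfl`).
`reg`: `rt_fc_ms_mulR` (`Tight.cellM` = `(rt_tight_cl η p).cellM`, `gn_mask_ind hU`). -/
theorem rc_sm_res_valid {η : ℝ} {p : RdClPar} (T : Xp (p.sys η)) (hT : T.Valid) {U : Set p.Om} (hU : MeasurableSet U)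
    (hpos : 0 < (rcRes T U).e) : (rcRes T U).Valid := by
  exact
    { e_pos := hpos
      ka_pos := hT.ka_pos
      budget := le_refl _
      plat := fun _ _ => rfl
      reg := fun Q hQ => le_trans (rt_fc_ms_mulR η p ((rt_tight_cl η p).cellM Q _ _) _ T.k0 T.k0 T.b0 (gn_mask_ind hU) T.v) (hT.reg Q hQ)
      st_dep := hT.st_dep
      st_mono := hT.st_mono
      st_meas := hT.st_meas
      st_bd := hT.st_bd
      iv_in := hT.iv_in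
      ts_ok := hT.ts_ok
      w_pos := hT.w_pos
      th_meas := hT.th_meas
      th_nn := hT.th_nn
      th_supp := hT.th_supp
      th_sum := hT.th_sum }

theorem rc_sm_res_in_aux {P : PkSys} (k : ℕ) {U G : Set P.X} (hU : MeasurableSet U) (hUG : U ⊆ G) (F : Lp P.Fb 2 (P.rho k)) :
    ∫ x, (Gᶜ.indicator (fun _ => (1 : ℝ)) x) * ‖(P.mulR k (U.indicator fun _ => 1) F : P.X → P.Fb) x‖ ^ 2 ∂(P.rho k) = 0 := by
  apply integral_eq_zero_of_ae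
  filter_upwards [gn_mulR_coe k (gn_mask_ind hU) F] with x hx
  rw [hx]
  by_cases hxG : x ∈ G
  · have : x ∉ Gᶜ := fun h => h hxG
    simp [this]
  · have : x ∉ U := fun h => hxG (hUG h)
    simp [this]

/-- **LEAF R2.**   `ms .. Gᶜ (1_U v) = ∫ 1_{Gᶜ} ‖1_U v‖² = 0`: `gn_mulR_coe` (a.e. formula), the integrand vanishes a.e.   No measurability of `G`. -/
theorem rc_sm_res_in {η : ℝ} {p : RdClPar} (T : Xp (p.sys η)) {U G : Set p.Om} (hU : MeasurableSet U) (hUG : U ⊆ G) : rcIn (rcRes T U) G := by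
  exact rc_sm_res_in_aux (P := p.sys η) T.k0 hU hUG T.v

theorem rc_sm_aux_en (P : PkSys) (k : ℕ) (θ : P.X → ℝ) (U : Set P.X) (hU : MeasurableSet U) (V : Lp P.Fb 2 (P.rho k)) :
    ∫ x, θ x * ‖(P.mulR k (U.indicator fun _ => 1) V : P.X → P.Fb) x‖ ^ 2 ∂(P.rho k)
      = ∫ x, θ x * U.indicator (fun _ => 1) x * ‖(V : P.X → P.Fb) x‖ ^ 2 ∂(P.rho k) := by
  apply integral_congr_ae
  filter_upwards [gn_mulR_coe k (gn_mask_ind hU) V] with ω hω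
  rw [hω, norm_smul]
  by_cases hm : ω ∈ U
  · simp [hm]
  · simp [hm]

/-- **LEAF R3.**   Free step: `fin = v`; `An = id`; `gn_mulR_coe`: `‖(1_U v) ω‖² = 1_U ω ‖v ω‖²`. -/
theorem rc_sm_res_m {η : ℝ} {p : RdClPar} (T : Xp (p.sys η)) (hfree : T.st = []) {U : Set p.Om} (hU : MeasurableSet U) (l : Fin T.L) :
    (rcRes T U).m l = (p.sys η).en (tmL T.kf (T.iv l)) T.kf T.bT (fun ω => T.th l ω * U.indicator (fun _ => 1) ω) T.v := by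
  have hfin : (rcRes T U).fin (T.iv l) = (p.sys η).mulR T.k0 (U.indicator fun _ => 1) T.v := by
    show Xp.run _ _ T.st _ = _
    rw [hfree]
    rfl
  show (p.sys η).en _ _ _ (T.th l) ((rcRes T U).fin (T.iv l)) = _
  rw [hfin]
  exact rc_sm_aux_en (p.sys η) T.k0 (T.th l) U hU T.v

/-- **LEAF R4.**   `th l = Σ_{x ∈ F} th l 1_{U_x}` pointwise (the classes are disjoint, `th l ω ≠ 0` forces `cls ω ∈ F` and `p.A ω ∈ G (cls ω)`); `gn_en_sum`, `rc_sm_res_m`. -/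
theorem rc_sm_m_split {η : ℝ} {p : RdClPar} (T : Xp (p.sys η)) (hT : T.Valid) (hfree : T.st = []) (X : Type) (cls : p.Om → X)
    (G : X → Set (ℝ × ℝ)) (hc : ∀ x, MeasurableSet {ω | cls ω = x}) (hG : ∀ x, MeasurableSet (G x)) (l : Fin T.L) (F : Finset X)
    (hF : ∀ ω, T.th l ω ≠ 0 → cls ω ∈ F) (hv : ∀ ω, T.th l ω ≠ 0 → p.A ω ∈ G (cls ω)) :
    T.m l = ∑ x ∈ F, (rcRes T (rcCl cls G x)).m l := by
  have hfin : T.fin (T.iv l) = T.v := by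
    show Xp.run _ _ T.st _ = _
    rw [hfree]
    rfl
  have h2 := gn_en_sum (P := p.sys η) (tmL T.kf (T.iv l)) T.kf T.bT F (fun x ω => T.th l ω * (rcCl cls G x).indicator (fun _ => (1 : ℝ)) ω)
    (fun x _ => gn_mask_mul (gn_th_mask T hT l) (gn_mask_ind (rc_sm_cl_meas cls G hc hG x))) T.v
  have h3 : T.th l = fun ω => ∑ x ∈ F, T.th l ω * (rcCl cls G x).indicator (fun _ => (1 : ℝ)) ω := by
    funext ω
    rw [← Finset.mul_sum]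
    by_cases h0 : T.th l ω = 0
    · rw [h0, zero_mul]
    · have h1 : ∑ x ∈ F, (rcCl cls G x).indicator (fun _ => (1 : ℝ)) ω = 1 := by
        rw [Finset.sum_eq_single (cls ω)]
        · exact Set.indicator_of_mem (show ω ∈ rcCl cls G (cls ω) from ⟨rfl, hv ω h0⟩) _
        · intro x _ hx
          exact Set.indicator_of_notMem (fun hm : ω ∈ rcCl cls G x => hx hm.1.symm) _
        · intro hn
          exact absurd (hF ω h0) hn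
      rw [h1, mul_one]
  have h4 : T.m l = (p.sys η).en (tmL T.kf (T.iv l)) T.kf T.bT (T.th l) T.v := by
    show (p.sys η).en _ _ _ (T.th l) (T.fin (T.iv l)) = _
    rw [hfin]
  rw [h4]
  refine Eq.trans ?_ (h2.trans (Finset.sum_congr rfl fun x _ => (rc_sm_res_m T hfree (rc_sm_cl_meas cls G hc hG x) l).symm))
  exact congrArg (fun θ => (p.sys η).en (tmL T.kf (T.iv l)) T.kf T.bT θ T.v) h3

/-- integrals over disjoint measurable sets add up to at most the integral -/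
theorem rc_sm_e_aux {Y ι : Type} [MeasurableSpace Y] (μ : Measure Y) (f : Y → ℝ) (hf : Integrable f μ) (h0 : ∀ y, 0 ≤ f y)
    (S : ι → Set Y) (hS : ∀ x, MeasurableSet (S x)) (hd : ∀ x y, x ≠ y → Disjoint (S x) (S y)) (F : Finset ι) :
    ∑ x ∈ F, ∫ y in S x, f y ∂μ ≤ ∫ y, f y ∂μ := by
  rw [← integral_biUnion_finset F (fun x _ => hS x) (fun x _ y _ hxy => hd x y hxy) (fun x _ => hf.integrableOn)]
  exact setIntegral_le_integral hf (Filter.Eventually.of_forall h0)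

/-- **LEAF R5.**   The budgets add up: `‖1_U v‖² = ∫_U ‖v‖²` (`gn_mulR_ind_normsq`), disjoint measurable sets (`integral_biUnion_finset` / `gn_ms_iUnion`), `≤ ∫ ‖v‖² = ‖v‖²` (`gn_norm_sq`). -/
theorem rc_sm_e_sum {η : ℝ} {p : RdClPar} (T : Xp (p.sys η)) (X : Type) (cls : p.Om → X) (G : X → Set (ℝ × ℝ))
    (hc : ∀ x, MeasurableSet {ω | cls ω = x}) (hG : ∀ x, MeasurableSet (G x)) (F : Finset X) :
    ∑ x ∈ F, (rcRes T (rcCl cls G x)).e ≤ ‖T.v‖ ^ 2 := by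
  have hm := rc_sm_cl_meas cls G hc hG
  obtain ⟨V, hV⟩ : ∃ V : Lp (p.sys η).Fb 2 ((p.sys η).rho T.k0), V = T.v := ⟨T.v, rfl⟩
  have hint := gn_sq_integrable V
  have e1 : ∀ x ∈ F, (rcRes T (rcCl cls G x)).e
      = ∫ ω in rcCl cls G x, ‖(V : (p.sys η).X → (p.sys η).Fb) ω‖ ^ 2 ∂((p.sys η).rho T.k0) := by
    intro x _
    rw [← gn_mulR_ind_normsq (P := p.sys η) T.k0 (hm x) V, hV]
    rfl
  have e2 : ‖T.v‖ ^ 2 = ∫ ω, ‖(V : (p.sys η).X → (p.sys η).Fb) ω‖ ^ 2 ∂((p.sys η).rho T.k0) := by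
    rw [← gn_norm_sq V, hV]
    rfl
  rw [Finset.sum_congr rfl e1, e2]
  refine rc_sm_e_aux ((p.sys η).rho T.k0) _ hint (fun ω => by positivity) (rcCl cls G) hm ?_ F
  intro x y hxy
  refine Set.disjoint_left.mpr fun ω h1 h2 => hxy ?_
  exact h1.1.symm.trans h2.1

/-- **LEAF R6** power mean (`Real.inner_le_Lp_mul_Lq` or `inner_le_nnorm_mul_nnorm`; Mathlib: `Real.rpow_sum_le_const_mul_sum_rpow`-type: `(Σ a)^p ≤ card^(p-1) Σ a^p`). -/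
theorem rc_sm_pm {ι : Type} (F : Finset ι) (a : ι → ℝ) (ha : ∀ x ∈ F, 0 ≤ a x) (N : ℕ) (hN : F.card ≤ N) :
    (∑ x ∈ F, a x) ^ (3 / 2 : ℝ) ≤ Real.sqrt N * ∑ x ∈ F, a x ^ (3 / 2 : ℝ) := by
  have h := Real.rpow_sum_le_const_mul_sum_rpow_of_nonneg F (p := (3 / 2 : ℝ)) (by norm_num) ha
  refine h.trans (mul_le_mul_of_nonneg_right ?_ (Finset.sum_nonneg fun x hx => Real.rpow_nonneg (ha x hx) _))
  rw [Real.sqrt_eq_rpow]
  have e : (3 / 2 : ℝ) - 1 = 1 / 2 := by norm_num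
  rw [e]
  exact Real.rpow_le_rpow (by positivity) (by exact_mod_cast hN) (by norm_num)

/-- a restricted step without energy reads nothing -/
theorem rc_sm_res_zero {η : ℝ} {p : RdClPar} (T : Xp (p.sys η)) (hfree : T.st = []) (U : Set p.Om) (h0 : ¬ 0 < (rcRes T U).e) (l : Fin T.L) :
    (rcRes T U).m l = 0 := by
  have h1 : ‖(p.sys η).mulR T.k0 (U.indicator fun _ => 1) T.v‖ ^ 2 ≤ 0 := not_lt.1 h0
  have h2 : (p.sys η).mulR T.k0 (U.indicator fun _ => 1) T.v = 0 := by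
    have : ‖(p.sys η).mulR T.k0 (U.indicator fun _ => 1) T.v‖ = 0 := by
      have h3 := norm_nonneg ((p.sys η).mulR T.k0 (U.indicator fun _ => 1) T.v)
      nlinarith
    exact norm_eq_zero.1 this
  have h3 : (rcRes T U).fin ((rcRes T U).iv l) = 0 := by
    show Xp.run (rcRes T U).kf ((rcRes T U).iv l) (rcRes T U).st (rcRes T U).v = 0
    have e1 : (rcRes T U).st = [] := hfree
    rw [e1]
    exact h2
  unfold Xp.m
  rw [h3]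
  exact gn_en_zero _ _ _ _

theorem rc_sm_split_m_nn {η : ℝ} {p : RdClPar} (T : Xp (p.sys η)) (hT : T.Valid) (U : Set p.Om) (l : Fin T.L) : 0 ≤ (rcRes T U).m l :=
  gn_en_nonneg _ _ _ (hT.th_nn l) _

theorem rc_sm_split_rd {η : ℝ} {p : RdClPar} (T : Xp (p.sys η)) (U : Set p.Om) :
    (rcRes T U).rd = ∑ l : Fin T.L, (rcRes T U).m l ^ (3 / 2 : ℝ) / Real.sqrt (T.w l) := rfl

theorem rc_sm_split_one {η : ℝ} {p : RdClPar} (T : Xp (p.sys η)) (hT : T.Valid) (hfree : T.st = []) (U : Set p.Om) (B : ℝ) (hB : 0 ≤ B)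
    (hx : 0 < (rcRes T U).e → (rcRes T U).val ≤ B) :
    (rcRes T U).rd ≤ B * (Real.sqrt T.ka / 2 ^ ((T.n : ℝ) / 2)) * (rcRes T U).e := by
  have hk : 0 < Real.sqrt T.ka := Real.sqrt_pos.mpr hT.ka_pos
  have h2 : (0:ℝ) < 2 ^ ((T.n : ℝ) / 2) := Real.rpow_pos_of_pos (by norm_num) _
  by_cases he : 0 < (rcRes T U).e
  · have h1 := hx he
    have e1 : (rcRes T U).val = 2 ^ ((T.n : ℝ) / 2) / ((rcRes T U).e * Real.sqrt T.ka) * (rcRes T U).rd := rfl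
    rw [e1] at h1
    have h3 : (rcRes T U).rd = (2 ^ ((T.n : ℝ) / 2) / ((rcRes T U).e * Real.sqrt T.ka) * (rcRes T U).rd) * (Real.sqrt T.ka / 2 ^ ((T.n : ℝ) / 2)) * (rcRes T U).e := by
      field_simp
    rw [h3]
    gcongr
  · have h0 : (rcRes T U).rd = 0 := by
      rw [rc_sm_split_rd]
      apply Finset.sum_eq_zero
      intro l _
      rw [rc_sm_res_zero T hfree U he l, Real.zero_rpow (by norm_num), zero_div]
    rw [h0]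
    have he0 : 0 ≤ (rcRes T U).e := by
      show 0 ≤ ‖(p.sys η).mulR T.k0 (U.indicator fun _ => 1) T.v‖ ^ 2
      positivity
    positivity
/-- **M1** (assembly) -/
theorem rc_sm_split {η : ℝ} {p : RdClPar} (T : Xp (p.sys η)) (hT : T.Valid) (hfree : T.st = []) (X : Type) (cls : p.Om → X) (N : ℕ)
    (G : X → Set (ℝ × ℝ)) (hG : ∀ x, MeasurableSet (G x)) (hH : RcHit T X cls N G) (B : ℝ) (hB : 0 ≤ B)
    (hx : ∀ x, 0 < (rcRes T (rcCl cls G x)).e → (rcRes T (rcCl cls G x)).val ≤ B) :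
    T.val ≤ Real.sqrt N * B := by
  choose Fl hFc hFm using hH.lst
  have hk : 0 < Real.sqrt T.ka := Real.sqrt_pos.mpr hT.ka_pos
  have h2 : (0:ℝ) < 2 ^ ((T.n : ℝ) / 2) := Real.rpow_pos_of_pos (by norm_num) _
  have he := hT.e_pos
  set F : Finset X := Finset.univ.biUnion Fl with hF
  -- each label
  have hl : ∀ l : Fin T.L, T.m l ^ (3 / 2 : ℝ) / Real.sqrt (T.w l) ≤ Real.sqrt N * ∑ x ∈ F, (rcRes T (rcCl cls G x)).m l ^ (3 / 2 : ℝ) / Real.sqrt (T.w l) := by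
    intro l
    have hw : 0 < Real.sqrt (T.w l) := Real.sqrt_pos.mpr (hT.w_pos l)
    rw [rc_sm_m_split T hT hfree X cls G hH.meas hG l (Fl l) (hFm l) (hH.vel l)]
    have h1 := rc_sm_pm (Fl l) (fun x => (rcRes T (rcCl cls G x)).m l) (fun x _ => rc_sm_split_m_nn T hT _ l) N (hFc l)
    have h3 : ∑ x ∈ Fl l, (rcRes T (rcCl cls G x)).m l ^ (3 / 2 : ℝ) ≤ ∑ x ∈ F, (rcRes T (rcCl cls G x)).m l ^ (3 / 2 : ℝ) := by
      apply Finset.sum_le_sum_of_subset_of_nonneg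
      · exact Finset.subset_biUnion_of_mem Fl (Finset.mem_univ l)
      · intro x _ _
        exact Real.rpow_nonneg (rc_sm_split_m_nn T hT _ l) _
    rw [← Finset.sum_div, ← mul_div_assoc]
    apply div_le_div_of_nonneg_right _ hw.le
    exact h1.trans (mul_le_mul_of_nonneg_left h3 (Real.sqrt_nonneg _))
  have hrd : T.rd ≤ Real.sqrt N * ∑ x ∈ F, (rcRes T (rcCl cls G x)).rd := by
    unfold Xp.rd
    calc ∑ l, T.m l ^ (3 / 2 : ℝ) / Real.sqrt (T.w l) ≤ ∑ l : Fin T.L, Real.sqrt N * ∑ x ∈ F, (rcRes T (rcCl cls G x)).m l ^ (3 / 2 : ℝ) / Real.sqrt (T.w l) :=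
          Finset.sum_le_sum fun l _ => hl l
      _ = Real.sqrt N * ∑ x ∈ F, ∑ l : Fin T.L, (rcRes T (rcCl cls G x)).m l ^ (3 / 2 : ℝ) / Real.sqrt (T.w l) := by
          rw [← Finset.mul_sum, Finset.sum_comm]
  have hsum : ∑ x ∈ F, (rcRes T (rcCl cls G x)).rd ≤ B * (Real.sqrt T.ka / 2 ^ ((T.n : ℝ) / 2)) * T.e := by
    calc ∑ x ∈ F, (rcRes T (rcCl cls G x)).rd ≤ ∑ x ∈ F, B * (Real.sqrt T.ka / 2 ^ ((T.n : ℝ) / 2)) * (rcRes T (rcCl cls G x)).e :=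
          Finset.sum_le_sum fun x _ => rc_sm_split_one T hT hfree _ B hB (hx x)
      _ = B * (Real.sqrt T.ka / 2 ^ ((T.n : ℝ) / 2)) * ∑ x ∈ F, (rcRes T (rcCl cls G x)).e := by rw [Finset.mul_sum]
      _ ≤ B * (Real.sqrt T.ka / 2 ^ ((T.n : ℝ) / 2)) * T.e := by
          apply mul_le_mul_of_nonneg_left _ (by positivity)
          exact (rc_sm_e_sum T X cls G hH.meas hG F).trans hT.budget
  unfold Xp.val
  calc 2 ^ ((T.n : ℝ) / 2) / (T.e * Real.sqrt T.ka) * T.rd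
      ≤ 2 ^ ((T.n : ℝ) / 2) / (T.e * Real.sqrt T.ka) * (Real.sqrt N * (B * (Real.sqrt T.ka / 2 ^ ((T.n : ℝ) / 2)) * T.e)) := by
        apply mul_le_mul_of_nonneg_left _ (by positivity)
        exact hrd.trans (mul_le_mul_of_nonneg_left hsum (Real.sqrt_nonneg _))
    _ = Real.sqrt N * B := by field_simp

theorem rc_sm_step_pw (K C0 : ℝ) (hK : 1 ≤ K) : K ^ C0 ≤ K ^ (max C0 0) :=
  Real.rpow_le_rpow_of_exponent_le hK (le_max_left _ _)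

theorem rc_sm_step_st {η : ℝ} {p : RdClPar} (T : Xp (p.sys η)) (hT : T.Valid) (hfree : T.st = []) (Kp r : ℝ) (hK : 1 ≤ Kp) (hr : 0 < r) (hs : rcShp T Kp r)
    {U : Set p.Om} (hU : MeasurableSet U) (hpos : 0 < (rcRes T U).e) (As : ℝ × ℝ) : RcStep η p (rcRes T U) Kp ⟨r, As, 0, 0⟩ :=
  ⟨rc_sm_res_valid T hT hU hpos, hfree, hK, hr, hs⟩
/-- **M1-A** -/
theorem rc_sm_stepA (η : ℝ) (hA : RcPlaneA η) : ∃ C0 C : ℝ, 0 ≤ C0 ∧ 0 ≤ C ∧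
    ∀ (p : RdClPar) (T : Xp (p.sys η)) (Kp r : ℝ) (X : Type) (cls : p.Om → X) (N : ℕ) (As : X → ℝ × ℝ),
      T.Valid → T.st = [] → 1 ≤ Kp → 0 < r → rcShp T Kp r → RcHit T X cls N (fun x => rcCap (As x) (Kp * r * T.s)) →
      T.val ≤ Real.sqrt N * (C * Kp ^ C0) := by
  obtain ⟨C0, C, H⟩ := hA
  refine ⟨max C0 0, max C 0, le_max_right _ _, le_max_right _ _, ?_⟩
  intro p T Kp r X cls N As hT hfree hK hr hs hH
  have hK0 : 0 < Kp := by linarith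
  have hG : ∀ x, MeasurableSet ((fun x => rcCap (As x) (Kp * r * T.s)) x) := fun x => rc_sm_cap_meas _ _
  apply rc_sm_split T hT hfree X cls N _ hG hH _ (mul_nonneg (le_max_right _ _) (Real.rpow_nonneg hK0.le _))
  intro x hpos
  have hU := rc_sm_cl_meas cls (fun x => rcCap (As x) (Kp * r * T.s)) hH.meas hG x
  have h1 := H p _ Kp ⟨r, As x, 0, 0⟩ (rc_sm_step_st T hT hfree Kp r hK hr hs hU hpos (As x))
    (rc_sm_res_in T hU (fun ω hω => hω.2))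
  calc _ ≤ C * Kp ^ C0 := h1
    _ ≤ max C 0 * Kp ^ C0 := mul_le_mul_of_nonneg_right (le_max_left _ _) (Real.rpow_nonneg hK0.le _)
    _ ≤ max C 0 * Kp ^ (max C0 0) := mul_le_mul_of_nonneg_left (rc_sm_step_pw Kp C0 hK) (le_max_right _ _)

/-- **M1-B** -/
theorem rc_sm_stepB (η : ℝ) (hB : RcPlaneB η) : ∃ C0 : ℝ, 0 ≤ C0 ∧ ∀ ν : ℝ, 0 < ν → ∃ C : ℝ, 0 ≤ C ∧
    ∀ (p : RdClPar) (T : Xp (p.sys η)) (Kp Pp r : ℝ) (X : Type) (cls : p.Om → X) (N : ℕ) (As : X → ℝ × ℝ) (d0 be : X → ℝ) (al : X → ℝ × ℝ),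
      T.Valid → T.st = [] → 1 ≤ Kp → 2 ≤ Pp → 0 < r → rcShp T Kp r →
      (∀ x, rtSq (al x) + be x ^ 2 = 1 ∧ Pp ^ (-2 : ℝ) ≤ rtSq (al x) - 4 * be x * d0 x) →
      RcHit T X cls N (fun x => rcSec (As x) r Kp (d0 x) (be x) (al x) (T.s ^ 20)) →
      T.val ≤ Real.sqrt N * (C * Kp ^ C0 * Pp ^ C0 * 2 ^ ((4 * η + ν) * T.n)) := by
  obtain ⟨C0, H0⟩ := hB
  refine ⟨max C0 0, le_max_right _ _, fun ν hν => ?_⟩
  obtain ⟨C, H⟩ := H0 ν hν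
  refine ⟨max C 0, le_max_right _ _, ?_⟩
  intro p T Kp Pp r X cls N As d0 be al hT hfree hK hP hr hs hn hH
  have hK0 : 0 < Kp := by linarith
  have hP0 : 0 < Pp := by linarith
  have hP1 : 1 ≤ Pp := by linarith
  have h2 : (0:ℝ) < 2 ^ ((4 * η + ν) * T.n) := Real.rpow_pos_of_pos (by norm_num) _
  have hG : ∀ x, MeasurableSet ((fun x => rcSec (As x) r Kp (d0 x) (be x) (al x) (T.s ^ 20)) x) := fun x => rc_sm_sec_meas _ _ _ _ _ _ _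
  have hc0 : 0 ≤ max C 0 := le_max_right _ _
  have hKp := Real.rpow_nonneg hK0.le (max C0 0)
  have hPp := Real.rpow_nonneg hP0.le (max C0 0)
  apply rc_sm_split T hT hfree X cls N _ hG hH _ (by positivity)
  intro x hpos
  have hU := rc_sm_cl_meas cls (fun x => rcSec (As x) r Kp (d0 x) (be x) (al x) (T.s ^ 20)) hH.meas hG x
  have h1 := H p _ Kp Pp ⟨r, As x, 0, 0⟩ (d0 x) (be x) (al x) (rc_sm_step_st T hT hfree Kp r hK hr hs hU hpos (As x)) hP (hn x).1 (hn x).2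
    (rc_sm_res_in T hU (fun ω hω => hω.2))
  have hKq := Real.rpow_nonneg hK0.le C0
  have hPq := Real.rpow_nonneg hP0.le C0
  calc _ ≤ C * Kp ^ C0 * Pp ^ C0 * 2 ^ ((4 * η + ν) * T.n) := h1
    _ ≤ max C 0 * Kp ^ (max C0 0) * Pp ^ (max C0 0) * 2 ^ ((4 * η + ν) * T.n) := by
        apply mul_le_mul_of_nonneg_right _ h2.le
        calc C * Kp ^ C0 * Pp ^ C0 ≤ max C 0 * Kp ^ C0 * Pp ^ C0 := by
              apply mul_le_mul_of_nonneg_right _ hPq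
              exact mul_le_mul_of_nonneg_right (le_max_left _ _) hKq
          _ ≤ max C 0 * Kp ^ (max C0 0) * Pp ^ (max C0 0) := by
              apply mul_le_mul _ (rc_sm_step_pw Pp C0 hP1) hPq (by positivity)
              exact mul_le_mul_of_nonneg_left (rc_sm_step_pw Kp C0 hK) hc0

/-! ## 2. M2: composition -/


theorem rc_sm_c_fin {Γ a0 m n' n : ℝ} (hΓ : 0 ≤ Γ) (hmn : m + n' = n) (h : a0 * n ≤ n') :
    (Γ + Γ * a0 / 4) * m + (Γ / 4 + Γ * a0 / 4) * n' ≤ (Γ - Γ * a0 / 2) * n := by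
  subst hmn
  nlinarith [mul_le_mul_of_nonneg_left h hΓ]

theorem rc_sm_c_rate (M : Mdl) (hΓ : 0 < M.Gam) : M.Rate M.Gam := by
  have hne : ({γ : ℝ | 0 ≤ γ ∧ M.Rate γ}).Nonempty := by
    by_contra hemp
    rw [Set.not_nonempty_iff_eq_empty] at hemp
    have : M.Gam = 0 := by
      unfold Mdl.Gam
      rw [hemp, Real.sInf_empty]
    linarith
  obtain ⟨γ0, h0, h1⟩ := hne
  exact M.bs_rate_gam h0 h1

theorem rc_sm_c_anc {P : PkSys} (E : Xp P) {k k1 i : ℕ} (hk1 : k1 ≤ k) (hk : k ≤ E.kf) {S : Finset (Fin E.L)} (hS : S ⊆ E.below k i) (l : Fin S.card) :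
    ancI E.kf k1 (E.iv (E.sel S l)) = ancI k k1 i := by
  have h1 : E.sel S l ∈ S := Finset.orderEmbOfFin_mem S rfl l
  have h2 : ancI E.kf k (E.iv (E.sel S l)) = i := (Finset.mem_filter.1 (hS h1)).2
  rw [← gn_anc_anc hk1 hk, h2]

theorem rc_sm_c_pw {x ξ' a0 n n' : ℝ} (hξ : 0 ≤ ξ') (hx : x ≤ 2 ^ (a0 * ξ' * n)) (h : a0 * n ≤ n') : x ≤ 2 ^ (ξ' * n') := by
  refine hx.trans (gn_two_mono ?_)
  nlinarith [mul_le_mul_of_nonneg_left h hξ]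

theorem rc_sm_c_mn {P : PkSys} (E : Xp P) {k : ℕ} (h0 : E.k0 ≤ k) (h1 : k ≤ E.kf) : ((k - E.k0 : ℕ) : ℝ) + ((E.kf - k : ℕ) : ℝ) = (E.n : ℝ) := by
  have h3 : (k - E.k0) + (E.kf - k) = E.n := by
    unfold Xp.kf at *
    omega
  exact_mod_cast h3

theorem rc_sm_c_numA {N : ℕ} {Kp Cc C0 ξ' ε Γ n : ℝ} (hn : 0 ≤ n) (hC0 : 0 ≤ C0) (hKp1 : 1 ≤ Kp) (hKp : Kp ≤ 2 ^ (ξ' * n)) (hN : (N : ℝ) ≤ 2 ^ (ξ' * n))
    (hCc0 : 0 ≤ Cc) (hCc : Cc ≤ 2 ^ (ε * n)) (hξ : ξ' * (1 / 2 + C0) ≤ Γ / 4) : Real.sqrt N * (Cc * Kp ^ C0) ≤ 2 ^ ((Γ / 4 + ε) * n) := by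
  have h1 : Real.sqrt N ≤ 2 ^ (ξ' * n / 2) := by
    rw [← gn_two_sqrt]
    exact Real.sqrt_le_sqrt hN
  have h2 : Kp ^ C0 ≤ 2 ^ (ξ' * n * C0) := by
    rw [Real.rpow_mul (by norm_num)]
    exact Real.rpow_le_rpow (by linarith) hKp hC0
  have h3 : 0 ≤ Kp ^ C0 := Real.rpow_nonneg (by linarith) _
  calc Real.sqrt N * (Cc * Kp ^ C0) ≤ 2 ^ (ξ' * n / 2) * (2 ^ (ε * n) * 2 ^ (ξ' * n * C0)) :=
        mul_le_mul h1 (mul_le_mul hCc h2 h3 (gn_two_pos _).le) (mul_nonneg hCc0 h3) (gn_two_pos _).le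
    _ = 2 ^ (ξ' * n / 2 + (ε * n + ξ' * n * C0)) := by rw [gn_two_add, gn_two_add]
    _ ≤ 2 ^ ((Γ / 4 + ε) * n) := by
        apply gn_two_mono
        nlinarith [mul_le_mul_of_nonneg_right hξ hn]

/-- **M2-A**: the hit labels of caps lose a power.   `cls I` = classes on the interval `I` of the depth `k1 ≤ k`. -/
theorem rc_sm_compA (η : ℝ) (h0 : 0 < η) (h1 : η < 1) (hA : RcPlaneA η) (hΓ : 0 < (rndCl η).Gam) (a0 : ℝ) (ha0 : 0 < a0) :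
    ∃ ξ : ℝ, 0 < ξ ∧ ∀ C : ℕ, ∃ A n0 : ℕ, ∀ (p : RdClPar) (E : Xp (p.sys η)), n0 ≤ E.n → (rndCl η).Cls C A p E →
      ∀ k k1 : ℕ, E.CutAt k E.st [] → k1 ≤ k → a0 * E.n ≤ ((k - E.k0 : ℕ) : ℝ) → a0 * E.n ≤ ((E.kf - k : ℕ) : ℝ) →
      ∀ (X : Type) (cls : ℕ → p.Om → X) (N : ℕ) (Kp r : ℝ) (As : X → ℝ × ℝ), 1 ≤ Kp → Kp ≤ 2 ^ (ξ * E.n) → (N : ℝ) ≤ 2 ^ (ξ * E.n) → 0 < r →
        rcShp E Kp r → (∀ I x, MeasurableSet {ω | cls I ω = x}) →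
        (∀ l, ∃ F : Finset X, F.card ≤ N ∧ ∀ ω, E.th l ω ≠ 0 → cls (ancI E.kf k1 (E.iv l)) ω ∈ F) →
        (∀ l ω, E.th l ω ≠ 0 → p.A ω ∈ rcCap (As (cls (ancI E.kf k1 (E.iv l)) ω)) (Kp * r * rdLen (E.kf - k))) →
        E.val ≤ 2 ^ (((rndCl η).Gam - (rndCl η).Gam * a0 / 2) * E.n) := by
  obtain ⟨C0, Cc, hC0, hCc, HA⟩ := rc_sm_stepA η hA
  have hG := rt_gen_cl η h0 h1
  have hrate := rc_sm_c_rate (rndCl η) hΓ
  obtain ⟨Γ, hΓe⟩ : ∃ Γ, Γ = (rndCl η).Gam := ⟨_, rfl⟩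
  rw [← hΓe] at hΓ hrate ⊢
  obtain ⟨ξ', hξ', hξ'le⟩ : ∃ ξ' : ℝ, 0 < ξ' ∧ ξ' * (1 / 2 + C0) ≤ Γ / 4 := by
    refine ⟨Γ / (4 * (1 / 2 + C0)), by positivity, le_of_eq ?_⟩
    field_simp
  refine ⟨a0 * ξ', by positivity, fun C => ?_⟩
  have hTh : ∀ (C : ℕ) (ε : ℝ), 0 < ε → ∃ A n0 : ℕ, ∀ (p : RdClPar) (T : Xp (p.sys η)), n0 ≤ T.n → (rndCl η).Cls C A p T → T.st = [] →
      (∃ (X : Type) (cls : p.Om → X) (N : ℕ) (Kp r : ℝ) (As : X → ℝ × ℝ), 1 ≤ Kp ∧ Kp ≤ 2 ^ (ξ' * T.n) ∧ (N : ℝ) ≤ 2 ^ (ξ' * T.n) ∧ 0 < r ∧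
        rcShp T Kp r ∧ RcHit T X cls N (fun x => rcCap (As x) (Kp * r * T.s))) → T.val ≤ 2 ^ ((Γ / 4 + ε) * T.n) := by
    intro C ε hε
    obtain ⟨n0, hn0⟩ := gn_absorb Cc ε hε
    refine ⟨0, n0, ?_⟩
    rintro p T hn hT hfree ⟨X, cls, N, Kp, r, As, hKp1, hKp, hN, hr, hshp, hhit⟩
    exact (HA p T Kp r X cls N As hT.2.1 hfree hKp1 hr hshp hhit).trans
      (rc_sm_c_numA (Nat.cast_nonneg _) hC0 hKp1 hKp hN hCc (hn0 T.n hn) hξ'le)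
  obtain ⟨A, n0, H⟩ := gn_comp_on (rndCl η) 1 hG Γ (Γ / 4) hrate
    (fun (p : RdClPar) (T : Xp (p.sys η)) => ∃ (X : Type) (cls : p.Om → X) (N : ℕ) (Kp r : ℝ) (As : X → ℝ × ℝ), 1 ≤ Kp ∧ Kp ≤ 2 ^ (ξ' * T.n) ∧
      (N : ℝ) ≤ 2 ^ (ξ' * T.n) ∧ 0 < r ∧ rcShp T Kp r ∧ RcHit T X cls N (fun x => rcCap (As x) (Kp * r * T.s))) hTh C a0 (Γ * a0 / 4) ha0 (by positivity)
  refine ⟨A, n0, ?_⟩
  intro p E hn hE k k1 hc hk1 hlo hhi X cls N Kp r As hKp1 hKp hN hr hshp hmeas hlst hvel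
  refine (H p E hn hE k hc hlo hhi ?_).trans (gn_two_mono (rc_sm_c_fin hΓ.le (rc_sm_c_mn E hc.2.2.2.1 hc.2.2.2.2) hhi))
  intro i _ ψ e' κ' b' S hS
  refine ⟨X, cls (ancI k k1 i), N, Kp, r, As, hKp1, rc_sm_c_pw hξ'.le hKp hhi, rc_sm_c_pw hξ'.le hN hhi, hr, fun l => hshp (E.sel S l), ?_⟩
  refine ⟨hmeas _, fun l => ?_, fun l ω hω => ?_⟩
  · obtain ⟨F, hF, h⟩ := hlst (E.sel S l)
    refine ⟨F, hF, fun ω hω => ?_⟩
    have := h ω hω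
    rwa [rc_sm_c_anc E hk1 hc.2.2.2.2 hS l] at this
  · have := hvel (E.sel S l) ω hω
    rwa [rc_sm_c_anc E hk1 hc.2.2.2.2 hS l] at this

theorem rc_sm_c_numB {N : ℕ} {Kp Pp Cc C0 ξ' ε Γ η ν n : ℝ} (hn : 0 ≤ n) (hC0 : 0 ≤ C0) (hKp1 : 1 ≤ Kp) (hKp : Kp ≤ 2 ^ (ξ' * n)) (hPp1 : 2 ≤ Pp) (hPp : Pp ≤ 2 ^ (ξ' * n))
    (hN : (N : ℝ) ≤ 2 ^ (ξ' * n)) (hCc0 : 0 ≤ Cc) (hCc : Cc ≤ 2 ^ (ε * n)) (hξ : ξ' * (1 / 2 + 2 * C0) + (4 * η + ν) ≤ Γ / 4) :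
    Real.sqrt N * (Cc * Kp ^ C0 * Pp ^ C0 * 2 ^ ((4 * η + ν) * n)) ≤ 2 ^ ((Γ / 4 + ε) * n) := by
  have h1 : Real.sqrt N ≤ 2 ^ (ξ' * n / 2) := by
    rw [← gn_two_sqrt]
    exact Real.sqrt_le_sqrt hN
  have h2 : Kp ^ C0 ≤ 2 ^ (ξ' * n * C0) := by
    rw [Real.rpow_mul (by norm_num)]
    exact Real.rpow_le_rpow (by linarith) hKp hC0
  have h2' : Pp ^ C0 ≤ 2 ^ (ξ' * n * C0) := by
    rw [Real.rpow_mul (by norm_num)]
    exact Real.rpow_le_rpow (by linarith) hPp hC0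
  have h3 : 0 ≤ Kp ^ C0 := Real.rpow_nonneg (by linarith) _
  have h3' : 0 ≤ Pp ^ C0 := Real.rpow_nonneg (by linarith) _
  have h4 : Cc * Kp ^ C0 * Pp ^ C0 ≤ 2 ^ (ε * n) * 2 ^ (ξ' * n * C0) * 2 ^ (ξ' * n * C0) :=
    mul_le_mul (mul_le_mul hCc h2 h3 (gn_two_pos _).le) h2' h3' (mul_nonneg (gn_two_pos _).le (gn_two_pos _).le)
  calc Real.sqrt N * (Cc * Kp ^ C0 * Pp ^ C0 * 2 ^ ((4 * η + ν) * n))
      ≤ 2 ^ (ξ' * n / 2) * (2 ^ (ε * n) * 2 ^ (ξ' * n * C0) * 2 ^ (ξ' * n * C0) * 2 ^ ((4 * η + ν) * n)) :=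
        mul_le_mul h1 (mul_le_mul_of_nonneg_right h4 (gn_two_pos _).le)
          (mul_nonneg (mul_nonneg (mul_nonneg hCc0 h3) h3') (gn_two_pos _).le) (gn_two_pos _).le
    _ = 2 ^ (ξ' * n / 2 + (ε * n + ξ' * n * C0 + ξ' * n * C0 + (4 * η + ν) * n)) := by rw [gn_two_add, gn_two_add, gn_two_add, gn_two_add]
    _ ≤ 2 ^ ((Γ / 4 + ε) * n) := by
        apply gn_two_mono
        nlinarith [mul_le_mul_of_nonneg_right hξ hn]

/-- **M2-B**: the hit labels of transverse sections lose a power -/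
theorem rc_sm_compB (η : ℝ) (h0 : 0 < η) (h1 : η < 1) (hB : RcPlaneB η) (hΓ : 100 * η < (rndCl η).Gam) (a0 : ℝ) (ha0 : 0 < a0) :
    ∃ ξ : ℝ, 0 < ξ ∧ ∀ C : ℕ, ∃ A n0 : ℕ, ∀ (p : RdClPar) (E : Xp (p.sys η)), n0 ≤ E.n → (rndCl η).Cls C A p E →
      ∀ k k1 : ℕ, E.CutAt k E.st [] → k1 ≤ k → a0 * E.n ≤ ((k - E.k0 : ℕ) : ℝ) → a0 * E.n ≤ ((E.kf - k : ℕ) : ℝ) →
      ∀ (X : Type) (cls : ℕ → p.Om → X) (N : ℕ) (Kp Pp r : ℝ) (As : X → ℝ × ℝ) (d0 be : X → ℝ) (al : X → ℝ × ℝ),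
        1 ≤ Kp → Kp ≤ 2 ^ (ξ * E.n) → (N : ℝ) ≤ 2 ^ (ξ * E.n) → 2 ≤ Pp → Pp ≤ 2 ^ (ξ * E.n) → 0 < r →
        rcShp E Kp r → (∀ I x, MeasurableSet {ω | cls I ω = x}) →
        (∀ x, rtSq (al x) + be x ^ 2 = 1 ∧ Pp ^ (-2 : ℝ) ≤ rtSq (al x) - 4 * be x * d0 x) →
        (∀ l, ∃ F : Finset X, F.card ≤ N ∧ ∀ ω, E.th l ω ≠ 0 → cls (ancI E.kf k1 (E.iv l)) ω ∈ F) →
        (∀ l ω, E.th l ω ≠ 0 → p.A ω ∈ rcSec (As (cls (ancI E.kf k1 (E.iv l)) ω)) r Kp (d0 (cls (ancI E.kf k1 (E.iv l)) ω))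
          (be (cls (ancI E.kf k1 (E.iv l)) ω)) (al (cls (ancI E.kf k1 (E.iv l)) ω)) (rdLen (E.kf - k) ^ 20)) →
        E.val ≤ 2 ^ (((rndCl η).Gam - (rndCl η).Gam * a0 / 2) * E.n) := by
  obtain ⟨C0, hC0, HB⟩ := rc_sm_stepB η hB
  have hG := rt_gen_cl η h0 h1
  have hΓ0 : 0 < (rndCl η).Gam := by linarith
  have hrate := rc_sm_c_rate (rndCl η) hΓ0
  obtain ⟨Γ, hΓe⟩ : ∃ Γ, Γ = (rndCl η).Gam := ⟨_, rfl⟩
  rw [← hΓe] at hΓ hΓ0 hrate ⊢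
  obtain ⟨Cc, hCc, HB⟩ := HB (Γ / 25) (by positivity)
  obtain ⟨ξ', hξ', hξ'le⟩ : ∃ ξ' : ℝ, 0 < ξ' ∧ ξ' * (1 / 2 + 2 * C0) + (4 * η + Γ / 25) ≤ Γ / 4 := by
    refine ⟨Γ / (25 * (1 / 2 + 2 * C0)), by positivity, ?_⟩
    have e : Γ / (25 * (1 / 2 + 2 * C0)) * (1 / 2 + 2 * C0) = Γ / 25 := by
      field_simp
    rw [e]
    linarith
  refine ⟨a0 * ξ', by positivity, fun C => ?_⟩
  have hTh : ∀ (C : ℕ) (ε : ℝ), 0 < ε → ∃ A n0 : ℕ, ∀ (p : RdClPar) (T : Xp (p.sys η)), n0 ≤ T.n → (rndCl η).Cls C A p T → T.st = [] →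
      (∃ (X : Type) (cls : p.Om → X) (N : ℕ) (Kp Pp r : ℝ) (As : X → ℝ × ℝ) (d0 be : X → ℝ) (al : X → ℝ × ℝ), 1 ≤ Kp ∧ Kp ≤ 2 ^ (ξ' * T.n) ∧
        (N : ℝ) ≤ 2 ^ (ξ' * T.n) ∧ 2 ≤ Pp ∧ Pp ≤ 2 ^ (ξ' * T.n) ∧ 0 < r ∧ rcShp T Kp r ∧
        (∀ x, rtSq (al x) + be x ^ 2 = 1 ∧ Pp ^ (-2 : ℝ) ≤ rtSq (al x) - 4 * be x * d0 x) ∧
        RcHit T X cls N (fun x => rcSec (As x) r Kp (d0 x) (be x) (al x) (T.s ^ 20))) → T.val ≤ 2 ^ ((Γ / 4 + ε) * T.n) := by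
    intro C ε hε
    obtain ⟨n0, hn0⟩ := gn_absorb Cc ε hε
    refine ⟨0, n0, ?_⟩
    rintro p T hn hT hfree ⟨X, cls, N, Kp, Pp, r, As, d0, be, al, hKp1, hKp, hN, hPp1, hPp, hr, hshp, hnd, hhit⟩
    exact (HB p T Kp Pp r X cls N As d0 be al hT.2.1 hfree hKp1 hPp1 hr hshp hnd hhit).trans
      (rc_sm_c_numB (Nat.cast_nonneg _) hC0 hKp1 hKp hPp1 hPp hN hCc (hn0 T.n hn) hξ'le)
  obtain ⟨A, n0, H⟩ := gn_comp_on (rndCl η) 1 hG Γ (Γ / 4) hrate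
    (fun (p : RdClPar) (T : Xp (p.sys η)) => ∃ (X : Type) (cls : p.Om → X) (N : ℕ) (Kp Pp r : ℝ) (As : X → ℝ × ℝ) (d0 be : X → ℝ) (al : X → ℝ × ℝ),
      1 ≤ Kp ∧ Kp ≤ 2 ^ (ξ' * T.n) ∧ (N : ℝ) ≤ 2 ^ (ξ' * T.n) ∧ 2 ≤ Pp ∧ Pp ≤ 2 ^ (ξ' * T.n) ∧ 0 < r ∧ rcShp T Kp r ∧
      (∀ x, rtSq (al x) + be x ^ 2 = 1 ∧ Pp ^ (-2 : ℝ) ≤ rtSq (al x) - 4 * be x * d0 x) ∧
      RcHit T X cls N (fun x => rcSec (As x) r Kp (d0 x) (be x) (al x) (T.s ^ 20))) hTh C a0 (Γ * a0 / 4) ha0 (by positivity)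
  refine ⟨A, n0, ?_⟩
  intro p E hn hE k k1 hc hk1 hlo hhi X cls N Kp Pp r As d0 be al hKp1 hKp hN hPp1 hPp hr hshp hmeas hnd hlst hvel
  refine (H p E hn hE k hc hlo hhi ?_).trans (gn_two_mono (rc_sm_c_fin hΓ0.le (rc_sm_c_mn E hc.2.2.2.1 hc.2.2.2.2) hhi))
  intro i _ ψ e' κ' b' S hS
  refine ⟨X, cls (ancI k k1 i), N, Kp, Pp, r, As, d0, be, al, hKp1, rc_sm_c_pw hξ'.le hKp hhi, rc_sm_c_pw hξ'.le hN hhi, hPp1, rc_sm_c_pw hξ'.le hPp hhi, hr,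
    fun l => hshp (E.sel S l), hnd, ?_⟩
  refine ⟨hmeas _, fun l => ?_, fun l ω hω => ?_⟩
  · obtain ⟨F, hF, h⟩ := hlst (E.sel S l)
    refine ⟨F, hF, fun ω hω => ?_⟩
    have := h ω hω
    rwa [rc_sm_c_anc E hk1 hc.2.2.2.2 hS l] at this
  · have := hvel (E.sel S l) ω hω
    rwa [rc_sm_c_anc E hk1 hc.2.2.2.2 hS l] at this

/-! ## 3. M3: from the cubic readout to the mass -/

/-- Hoelder -/
theorem rc_sm_holder {ι : Type} (s : Finset ι) (m w : ι → ℝ) (hm : ∀ u ∈ s, 0 ≤ m u) (hw : ∀ u ∈ s, 0 < w u) :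
    ∑ u ∈ s, m u ≤ (∑ u ∈ s, m u ^ (3 / 2 : ℝ) / Real.sqrt (w u)) ^ (2 / 3 : ℝ) * (∑ u ∈ s, w u) ^ (1 / 3 : ℝ) := by
  have hpq : (3 / 2 : ℝ).HolderConjugate 3 := by
    rw [Real.holderConjugate_iff]
    norm_num
  have key := Real.inner_le_Lp_mul_Lq_of_nonneg s hpq (f := fun u => (m u ^ (3 / 2 : ℝ) / Real.sqrt (w u)) ^ (2 / 3 : ℝ))
    (g := fun u => w u ^ (1 / 3 : ℝ)) (fun u hu => by
      have := hm u hu
      have := hw u hu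
      positivity) (fun u hu => by
      have := hw u hu
      positivity)
  have e1 : ∑ u ∈ s, (m u ^ (3 / 2 : ℝ) / Real.sqrt (w u)) ^ (2 / 3 : ℝ) * w u ^ (1 / 3 : ℝ) = ∑ u ∈ s, m u := by
    refine Finset.sum_congr rfl fun u hu => ?_
    have h1 := hm u hu
    have h2 := hw u hu
    rw [Real.div_rpow (by positivity) (Real.sqrt_nonneg _), ← Real.rpow_mul h1, Real.sqrt_eq_rpow, ← Real.rpow_mul h2.le]
    norm_num
    field_simp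
  have e2 : ∑ u ∈ s, ((m u ^ (3 / 2 : ℝ) / Real.sqrt (w u)) ^ (2 / 3 : ℝ)) ^ (3 / 2 : ℝ) = ∑ u ∈ s, m u ^ (3 / 2 : ℝ) / Real.sqrt (w u) := by
    refine Finset.sum_congr rfl fun u hu => ?_
    have h1 := hm u hu
    have h2 := hw u hu
    rw [← Real.rpow_mul (by positivity)]
    norm_num
  have e3 : ∑ u ∈ s, (w u ^ (1 / 3 : ℝ)) ^ (3 : ℝ) = ∑ u ∈ s, w u := by
    refine Finset.sum_congr rfl fun u hu => ?_
    have h2 := hw u hu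
    rw [← Real.rpow_mul h2.le]
    norm_num
  rw [e1, e2, e3] at key
  have e4 : (1 / (3 / 2) : ℝ) = 2 / 3 := by norm_num
  rw [e4] at key
  exact key

/-- **M3** -/
theorem rc_sm_mass {P : PkSys} (E : Xp P) (hE : E.Valid) (Γ pp d σ τ : ℝ) (hpd : Γ = d + (1 - pp) / 2)
    (hv : E.val ≤ 2 ^ ((Γ - σ) * E.n)) (htw : E.tw ≤ E.e / E.ka * E.s ^ (-(pp + d) - τ)) :
    E.tm ≤ E.e * 2 ^ ((d + τ / 3 - 2 * σ / 3) * E.n) := by
  have he := hE.e_pos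
  have hk := hE.ka_pos
  have h1 : E.tm ≤ E.rd ^ (2 / 3 : ℝ) * E.tw ^ (1 / 3 : ℝ) :=
    rc_sm_holder Finset.univ E.m E.w (fun l _ => gn_m_nonneg E hE l) (fun l _ => hE.w_pos l)
  have hrd0 := gn_rd_nonneg E hE
  have htw0 : 0 ≤ E.tw := Finset.sum_nonneg fun l _ => (hE.w_pos l).le
  have h2 : E.rd ≤ 2 ^ (-((E.n : ℝ) / 2) + (Γ - σ) * E.n) * (E.e * Real.sqrt E.ka) := by
    rw [gn_rd_of_val E hE, gn_two_add]
    calc 2 ^ (-((E.n : ℝ) / 2)) * (E.e * Real.sqrt E.ka) * E.val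
        ≤ 2 ^ (-((E.n : ℝ) / 2)) * (E.e * Real.sqrt E.ka) * 2 ^ ((Γ - σ) * E.n) :=
          mul_le_mul_of_nonneg_left hv (by positivity)
      _ = _ := by ring
  have h3 : E.tw ≤ E.e / E.ka * 2 ^ ((pp + d + τ) * E.n) := by
    rw [gn_s_rpow] at htw
    refine htw.trans (le_of_eq ?_)
    congr 2
    ring
  have e1 : E.e ^ (2 / 3 : ℝ) * E.e ^ (1 / 3 : ℝ) = E.e := by
    rw [← Real.rpow_add he]
    norm_num
  have e2 : (1 / 2 : ℝ) * (2 / 3) = 1 / 3 := by norm_num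
  have hk3 : 0 < E.ka ^ (1 / 3 : ℝ) := Real.rpow_pos_of_pos hk _
  have e3 : (2 : ℝ) ^ ((-((E.n : ℝ) / 2) + (Γ - σ) * E.n) * (2 / 3)) * 2 ^ ((pp + d + τ) * E.n * (1 / 3))
      = 2 ^ ((d + τ / 3 - 2 * σ / 3) * E.n) := by
    rw [← gn_two_add]
    congr 1
    rw [hpd]
    ring
  calc E.tm ≤ E.rd ^ (2 / 3 : ℝ) * E.tw ^ (1 / 3 : ℝ) := h1
    _ ≤ (2 ^ (-((E.n : ℝ) / 2) + (Γ - σ) * E.n) * (E.e * Real.sqrt E.ka)) ^ (2 / 3 : ℝ)
        * (E.e / E.ka * 2 ^ ((pp + d + τ) * E.n)) ^ (1 / 3 : ℝ) :=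
        mul_le_mul (Real.rpow_le_rpow hrd0 h2 (by norm_num)) (Real.rpow_le_rpow htw0 h3 (by norm_num)) (by positivity) (by positivity)
    _ = E.e * 2 ^ ((d + τ / 3 - 2 * σ / 3) * E.n) := by
        rw [Real.mul_rpow (gn_two_pos _).le (by positivity), Real.mul_rpow he.le (Real.sqrt_nonneg _),
          Real.mul_rpow (by positivity) (gn_two_pos _).le, Real.div_rpow he.le hk.le, gn_two_mul, gn_two_mul, Real.sqrt_eq_rpow,
          ← Real.rpow_mul hk.le, e2, ← e3]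
        nth_rewrite 3 [← e1]
        field_simp

end Claimed.Agent.R256
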