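-- KEEP
import Claimed.Agent.R256.Rc.Tow
import Claimed.Agent.R256.Rc.Slm
import Claimed.Agent.R256.Rc.SlbGeo

/-!
# Row 256, unit RC, block SLB-cl (classical lem:rt-slab-removal, 08 l.866-885), file 2: THE TOWER SIDE      (architect helper159; prefix `rc_sl_`)

EXIT (file 3, `Rc/SlbMain.lean`): `rc_f_slab` : a classical tower satisfies `W.SlabP 3 es ts`.
ENTRIES: model half `rc_sm_compA`, `rc_sm_compB`, `rc_sm_mass` (`Rc/Slm.lean`, helper285), geometry `rc_sl_cap`, `rc_sl_list`, `rc_sl_meas` (`Rc/SlbGeo.lean`, proved).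
THIS FILE: everything that is pointwise / bookkeeping.
  RS   `rc_sl_rs_*`      the restricted experiment `E.rs U` (generic packet system): valid, in the class, same weights, masses subadditive
  TW   `rc_sl_dp_*`, `rc_sl_cut`      depths of a tower, the cut behind all stages
  CL   `W.slC i b I ω` = the name pair of a particle over the interval `I` of the cut `b` (THE CLASS), `W.slA x` = angular origin of a class;  `rc_sl_cls_eq`, `rc_sl_cls_meas`, `rc_sl_Z_eq`, `rc_sl_Z_le`, `rc_sl_cls_list`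
  HIT  `W.hitA`, `W.hitB` = the hit particles whose class has a small / large discriminant;  `rc_sl_hit_meas`, `rc_sl_hit_split`, `rc_sl_velA`, `rc_sl_velB`
-/

set_option autoImplicit false

namespace Claimed.Agent.R256

open MeasureTheory
open scoped BigOperators
open Classical

/-! ## RS. the restricted experiment -/

section RS

variable {P : PkSys}

/-- `Set.indicator_apply_ne_zero` / `Set.mem_of_indicator_ne_zero`
OWNER helper159 (leaf L-256-RC-SL-RS), EST 10 lines -/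
theorem rc_sl_rs_th (E : Xp P) (U : ℕ → Set P.X) (l : Fin E.L) (x : P.X) (h : (E.rs U).th l x ≠ 0) : x ∈ U (E.iv l) ∧ E.th l x ≠ 0 := by
  have h' : (U (E.iv l)).indicator (E.th l) x ≠ 0 := h
  have h1 : x ∈ U (E.iv l) := Set.mem_of_indicator_ne_zero h'
  rw [Set.indicator_of_mem h1] at h'
  exact ⟨h1, h'⟩

/-- PLAN: only `th` changes.   `th_meas`: `Measurable.indicator`;  `th_nn`: `Set.indicator_nonneg`;  `th_supp`: `rc_sl_rs_th`;  `th_sum`: termwise `indicator ≤ th` (`Set.indicator_le_self'`), `Finset.sum_le_sum`.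
OWNER helper159 (leaf L-256-RC-SL-RS), EST 60 lines -/
theorem rc_sl_rs_valid (E : Xp P) (hE : E.Valid) (U : ℕ → Set P.X) (hU : ∀ J, MeasurableSet (U J)) : (E.rs U).Valid := by
  refine ⟨hE.e_pos, hE.ka_pos, hE.budget, hE.plat, hE.reg, hE.st_dep, hE.st_mono, hE.st_meas, hE.st_bd, hE.iv_in, hE.ts_ok, hE.w_pos, ?_, ?_, ?_, ?_⟩
  · intro l
    exact (hE.th_meas l).indicator (hU (E.iv l))
  · intro l x
    exact Set.indicator_nonneg (fun y _ => hE.th_nn l y) x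
  · intro l x h
    exact hE.th_supp l x (rc_sl_rs_th E U l x h).2
  · intro i x
    refine le_trans ?_ (hE.th_sum i x)
    refine Finset.sum_le_sum fun l _ => ?_
    show (if E.iv l = i then (U (E.iv l)).indicator (E.th l) x else 0) ≤ (if E.iv l = i then E.th l x else 0)
    split_ifs
    · exact Set.indicator_le_self' (fun _ _ => hE.th_nn l x) x
    · exact le_rfl

/-- PLAN: `Cls = gd ∧ Valid ∧ length ∧ GenLe ∧ adm`; `hR` with `SameRoot` all `rfl`.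
OWNER helper159 (leaf L-256-RC-SL-RS), EST 20 lines -/
theorem rc_sl_rs_cls (M : Mdl) (hR : M.AdmRoot) {C A : ℕ} {p : M.Par} {E : Xp (M.sys p)} (hE : M.Cls C A p E) (U : ℕ → Set (M.sys p).X)
    (hU : ∀ J, MeasurableSet (U J)) : M.Cls C A p (E.rs U) := by
  obtain ⟨h1, h2, h3, h4, h5⟩ := hE
  exact ⟨h1, rc_sl_rs_valid E h2 U hU, h3, h4, hR C A p E (E.rs U) h5 ⟨rfl, rfl, rfl, rfl, rfl, rfl⟩ rfl⟩

theorem rc_sl_rs_tw (E : Xp P) (U : ℕ → Set P.X) : (E.rs U).tw = E.tw := rfl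

/-- PLAN: `(E.rs U).m l = en .. (indicator (U (iv l)) (th l)) (fin (iv l))` (`rfl`: `fin` does not see `th`);  pointwise `1_{U ∪ V} θ ≤ 1_U θ + 1_V θ`;  `gn_en_mono` needs masks: compare instead with `gn_en_sum` over `Fin 2`/`Bool`, or
unfold `PkSys.en` and use `integral_mono` + `integral_add` with `gn_en_integrable` (masks: `gn_th_mask` of the valid experiments `E.rs U`, `E.rs V`, `E.rs (U ∪ V)`).
OWNER helper159 (leaf L-256-RC-SL-RS), EST 80 lines -/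
theorem rc_sl_rs_union (E : Xp P) (hE : E.Valid) (U V : ℕ → Set P.X) (hU : ∀ J, MeasurableSet (U J)) (hV : ∀ J, MeasurableSet (V J)) :
    (E.rs fun J => U J ∪ V J).tm ≤ (E.rs U).tm + (E.rs V).tm := by
  have key : ∀ W : ℕ → Set P.X, (E.rs W).tm
      = ∑ l : Fin E.L, P.en (tmL E.kf (E.iv l)) E.kf E.bT ((W (E.iv l)).indicator (E.th l)) (E.fin (E.iv l)) := fun _ => rfl
  rw [key, key, key, ← Finset.sum_add_distrib]
  refine Finset.sum_le_sum fun l _ => ?_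
  have mU : IsMask ((U (E.iv l)).indicator (E.th l)) := gn_th_mask (E.rs U) (rc_sl_rs_valid E hE U hU) l
  have mV : IsMask ((V (E.iv l)).indicator (E.th l)) := gn_th_mask (E.rs V) (rc_sl_rs_valid E hE V hV) l
  have mW : IsMask ((U (E.iv l) ∪ V (E.iv l)).indicator (E.th l)) :=
    gn_th_mask (E.rs fun J => U J ∪ V J) (rc_sl_rs_valid E hE (fun J => U J ∪ V J) (fun J => (hU J).union (hV J))) l
  unfold PkSys.en
  rw [← integral_add (gn_en_integrable _ _ _ mU _) (gn_en_integrable _ _ _ mV _)]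
  refine integral_mono (gn_en_integrable _ _ _ mW _) ((gn_en_integrable _ _ _ mU _).add (gn_en_integrable _ _ _ mV _)) fun x => ?_
  show (U (E.iv l) ∪ V (E.iv l)).indicator (E.th l) x * _ ≤ (U (E.iv l)).indicator (E.th l) x * _ + (V (E.iv l)).indicator (E.th l) x * _
  rw [← add_mul]
  refine mul_le_mul_of_nonneg_right ?_ (by positivity)
  have h0 := hE.th_nn l x
  by_cases h1 : x ∈ U (E.iv l)
  · rw [Set.indicator_of_mem (Set.mem_union_left _ h1), Set.indicator_of_mem h1]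
    have : 0 ≤ (V (E.iv l)).indicator (E.th l) x := Set.indicator_nonneg (fun y _ => hE.th_nn l y) x
    linarith
  · by_cases h2 : x ∈ V (E.iv l)
    · rw [Set.indicator_of_mem (Set.mem_union_right _ h2), Set.indicator_of_mem h2, Set.indicator_of_notMem h1, zero_add]
    · have h3 : x ∉ U (E.iv l) ∪ V (E.iv l) := fun h => h.elim h1 h2
      rw [Set.indicator_of_notMem h3, Set.indicator_of_notMem h1, Set.indicator_of_notMem h2, zero_add]

end RS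

/-! ## TW. depths of a tower -/

variable {η : ℝ} {p : RdClPar} (W : RcTw η p) {hg C A : ℕ} {τ : ℝ}

/-- OWNER helper159 (leaf L-256-RC-SL-TW), EST 15 lines -/
theorem rc_sl_dp_q (h : W.Ok hg C A τ) : W.dp W.q = W.E.kf := by
  have h1 := h.n_lo
  unfold RcTw.dp RcTw.kb Xp.kf
  omega

/-- OWNER helper159 (leaf L-256-RC-SL-TW), EST 5 lines -/
theorem rc_sl_dp_mono {i b : ℕ} (hib : i ≤ b) : W.dp i ≤ W.dp b := by
  unfold RcTw.dp
  exact Nat.add_le_add_left (Nat.mul_le_mul_right _ hib) _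

/-- OWNER helper159 (leaf L-256-RC-SL-TW), EST 10 lines -/
theorem rc_sl_dp_le (h : W.Ok hg C A τ) {i : ℕ} (hi : i ≤ W.q) : W.dp i ≤ W.E.kf := by
  rw [← rc_sl_dp_q W h]
  exact rc_sl_dp_mono W hi

/-- `dp i + (q - i) m = kf`
OWNER helper159 (leaf L-256-RC-SL-TW), EST 15 lines -/
theorem rc_sl_dp_add (h : W.Ok hg C A τ) {i : ℕ} (hi : i ≤ W.q) : W.dp i + (W.q - i) * W.m = W.E.kf := by
  rw [← rc_sl_dp_q W h]
  unfold RcTw.dp
  have e : i * W.m + (W.q - i) * W.m = W.q * W.m := by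
    rw [← Nat.add_mul, Nat.add_sub_cancel' hi]
  omega

/-- `k0 ≤ kb`
OWNER helper159 (leaf L-256-RC-SL-TW), EST 10 lines -/
theorem rc_sl_kb (h : W.Ok hg C A τ) : W.E.k0 ≤ W.kb := by
  have h1 := h.n_lo
  unfold RcTw.kb Xp.kf
  omega

/-- a cut at the distance `n' ≤ m` from the end lies behind all stages.   PLAN: `W.X.st = W.stk (q-1)` (`rfl`); a stage is `W.sg (a+1)`, `a < q - 1` (`List.mem_map`, `List.mem_range`), depth `dp (a+1) ≤ dp (q-1) = kf - m` (`rc_sl_dp_add`); `(W.X.rs U).kf = W.E.kf` (`rfl`).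
OWNER helper159 (leaf L-256-RC-SL-TW), EST 50 lines -/
theorem rc_sl_cut (h : W.Ok hg C A τ) (U : ℕ → Set p.Om) {n' : ℕ} (hn : n' ≤ W.m) :
    (W.X.rs U).CutAt (W.E.kf - n') (W.X.rs U).st [] := by
  have hq : 1 ≤ W.q := by
    have := h.hg_lt
    omega
  have h1 : W.dp (W.q - 1) + W.m = W.E.kf := by
    have h2 := rc_sl_dp_add W h (i := W.q - 1) (Nat.sub_le _ _)
    have e : W.q - (W.q - 1) = 1 := by omega
    rwa [e, Nat.one_mul] at h2
  refine ⟨(List.append_nil _).symm, fun σ hσ => ?_, fun σ hσ => absurd hσ (List.not_mem_nil), ?_, ?_⟩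
  · have hσ' : σ ∈ W.stk (W.q - 1) := hσ
    unfold RcTw.stk at hσ'
    obtain ⟨a, ha, rfl⟩ := List.mem_map.1 hσ'
    rw [List.mem_range] at ha
    have h3 : W.dp (a + 1) ≤ W.dp (W.q - 1) := rc_sl_dp_mono W (by omega)
    show W.dp (a + 1) ≤ W.E.kf - n'
    omega
  · show W.E.k0 ≤ W.E.kf - n'
    have h4 := rc_sl_kb W h
    have h5 : W.kb ≤ W.dp (W.q - 1) := Nat.le_add_right _ _
    omega
  · show W.E.kf - n' ≤ W.E.kf
    exact Nat.sub_le _ _

/-! ## CL. the classes -/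

namespace RcTw

/-- THE CLASS: the name pair of a particle over the interval `I` of the cut `b` -/
noncomputable def slC (i b I : ℕ) (ω : p.Om) : ReName × ReName := (W.nmP i (ancI (W.dp b) (W.dp i) I) ω, W.nmP b I ω)

/-- the angular origin of a class -/
noncomputable def slA (x : ReName × ReName) : ℝ × ℝ := (W.R0 * (x.1.2.1.1 : ℝ), W.R0 * (x.1.2.1.2 : ℝ))

/-- the discriminant `|α|² - 4 β d0`, `d0 = - c`, of the candidate plane of a class -/
def slD (pn : ReName × ReName → ℝ × ℝ × ℝ) (pc : ReName × ReName → ℝ) (x : ReName × ReName) : ℝ :=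
  rtSq ((pn x).1, (pn x).2.1) - 4 * (pn x).2.2 * (-(pc x))

/-- the hit particles whose class has a discriminant `< θ` -/
def hitA (i b : ℕ) (pn : ReName × ReName → ℝ × ℝ × ℝ) (pc : ReName × ReName → ℝ) (wd θ : ℝ) (J : ℕ) : Set p.Om :=
  W.hit i b pn pc wd J ∩ {ω | slD pn pc (W.slC i b (W.aI b J) ω) < θ}

/-- the hit particles whose class has a discriminant `≥ θ` -/
def hitB (i b : ℕ) (pn : ReName × ReName → ℝ × ℝ × ℝ) (pc : ReName × ReName → ℝ) (wd θ : ℝ) (J : ℕ) : Set p.Om :=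
  W.hit i b pn pc wd J ∩ {ω | θ ≤ slD pn pc (W.slC i b (W.aI b J) ω)}

/-- the centre of the cap of a class with a small discriminant -/
noncomputable def slZ (pn : ReName × ReName → ℝ × ℝ × ℝ) (x : ReName × ReName) : ℝ × ℝ :=
  W.slA x + W.R0 • ((-(2 * (pn x).2.2)⁻¹) • ((pn x).1, (pn x).2.1))

end RcTw

theorem rc_sl_eqns_cite : True := by
  have := @RcTw.slC.eq_1
  have := @RcTw.slA.eq_1
  have := @RcTw.slD.eq_1
  have := @RcTw.hitA.eq_1
  have := @RcTw.hitB.eq_1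
  have := @RcTw.slZ.eq_1
  trivial

/-- PLAN: `gn_anc_anc` (`dp i ≤ dp b ≤ kf`).
OWNER helper159 (leaf L-256-RC-SL-CL), EST 20 lines -/
theorem rc_sl_cls_eq (h : W.Ok hg C A τ) {i b : ℕ} (hib : i ≤ b) (hb : b ≤ W.q) (J : ℕ) (ω : p.Om) :
    W.slC i b (W.aI b J) ω = (W.nmP i (W.aI i J) ω, W.nmP b (W.aI b J) ω) := by
  have h1 : W.dp i ≤ W.dp b := by
    unfold RcTw.dp
    exact Nat.add_le_add_left (Nat.mul_le_mul_right _ hib) _
  have h2 : W.dp b ≤ W.E.kf := by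
    have a1 : b * W.m ≤ W.q * W.m := Nat.mul_le_mul_right _ hb
    have a2 := h.n_lo
    have a3 : W.E.kf = W.E.k0 + W.E.n := rfl
    unfold RcTw.dp RcTw.kb
    omega
  unfold RcTw.slC RcTw.aI
  rw [gn_anc_anc h1 h2]

/-- PLAN: `rc_sl_meas`; the first components are constants; `measurableSet_eq_fun` / preimage of a singleton (`ReName × ReName` is countable and discrete: `MeasurableSingletonClass`).
OWNER helper159 (leaf L-256-RC-SL-CL), EST 40 lines -/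
theorem rc_sl_cls_measurable (i b I : ℕ) : Measurable (W.slC i b I) := by
  unfold RcTw.slC RcTw.nmP
  exact (measurable_const.prodMk (rc_sl_meas p _ _ _)).prodMk (measurable_const.prodMk (rc_sl_meas p _ _ _))

theorem rc_sl_cls_meas (i b I : ℕ) (x : ReName × ReName) : MeasurableSet {ω | W.slC i b I ω = x} :=
  (rc_sl_cls_measurable W i b I) (measurableSet_singleton x)

/-- PLAN: `(p.co T ω).A = p.A ω` (`rfl`), `reNm .. = (reCell2 R0 A, ..)`, `reCor2 w x = (w * reCell w x.1, w * reCell w x.2)`: all `rfl`.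
OWNER helper159 (leaf L-256-RC-SL-CL), EST 15 lines -/
theorem rc_sl_Z_eq (i b I : ℕ) (ω : p.Om) : W.ZP ω = W.R0⁻¹ • (p.A ω - W.slA (W.slC i b I ω)) := by
  rfl

/-- PLAN: both components of `ZP` are fractional parts: `re_aux_cor` (`Re/ProfGeo.lean`): `0 ≤ x - w ⌊x/w⌋ < w`.
OWNER helper159 (leaf L-256-RC-SL-CL), EST 40 lines -/
theorem rc_sl_Z_le (hR : 0 < W.R0) (ω : p.Om) : rtSq (W.ZP ω) ≤ 2 := by
  obtain ⟨a1, a2⟩ := re_aux_cor hR (p.A ω).1
  obtain ⟨b1, b2⟩ := re_aux_cor hR (p.A ω).2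
  have e1 : (W.ZP ω).1 = W.R0⁻¹ * ((p.A ω).1 - W.R0 * reCell W.R0 (p.A ω).1) := rfl
  have e2 : (W.ZP ω).2 = W.R0⁻¹ * ((p.A ω).2 - W.R0 * reCell W.R0 (p.A ω).2) := rfl
  have hi : 0 < W.R0⁻¹ := inv_pos.2 hR
  have key : ∀ x : ℝ, 0 ≤ x → x < W.R0 → (W.R0⁻¹ * x) ^ 2 ≤ 1 := by
    intro x h0 h1
    have c0 : 0 ≤ W.R0⁻¹ * x := mul_nonneg hi.le h0
    have c1 : W.R0⁻¹ * x ≤ 1 := by
      rw [inv_mul_le_iff₀ hR]
      linarith
    exact pow_le_one₀ c0 c1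
  unfold rtSq
  rw [e1, e2]
  have := key _ a1 a2
  have := key _ b1 b2
  linarith

/-- a terminal label sees at most `2^33` names at the cut `a` -/
theorem rc_sl_cls_one (h : W.Ok hg C A τ) {a : ℕ} (ha : a ≤ W.q) (l : Fin W.E.L) :
    ∃ F : Finset ReName, F.card ≤ 2 ^ 33 ∧ ∀ ω, W.E.th l ω ≠ 0 → W.nmP a (W.aI a (W.E.iv l)) ω ∈ F := by
  have hk : W.dp a ≤ W.E.kf := rc_sl_dp_le W h ha
  obtain ⟨s1, s2, -⟩ := h.shape l
  have hr0 : 0 < (rcT (W.E.ts l)).r := lt_of_lt_of_le h.R0_pos s1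
  obtain ⟨-, c1, c2⟩ := gn_cutle_anc hk (W.E.iv l)
  have hs : |tmL (W.dp a) (W.aI a (W.E.iv l)) - tmL W.E.kf (W.E.iv l)| ≤ rdLen (W.dp a) := by
    have c1' : tmL (W.dp a) (W.aI a (W.E.iv l)) ≤ tmL W.E.kf (W.E.iv l) := c1
    have c2' : tmL W.E.kf (W.E.iv l) ≤ tmL (W.dp a) (W.aI a (W.E.iv l)) + rdLen (W.dp a) := c2
    have := rdLen_pos (W.dp a)
    rw [abs_le]
    constructor <;> linarith
  obtain ⟨Lst, hc, hm⟩ := rc_sl_list (Λ := 2) (by norm_num) h.R0_pos hk (rcT (W.E.ts l)) hr0 s2.le _ hs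
  refine ⟨{W.aI a (W.E.iv l)} ×ˢ Lst, ?_, fun ω hω => ?_⟩
  · rw [Finset.card_product, Finset.card_singleton, one_mul]
    have : (Lst.card : ℝ) ≤ ((2 ^ 33 : ℕ) : ℝ) := by
      refine hc.trans (le_of_eq ?_)
      norm_num
    exact_mod_cast this
  · have hsupp : p.co (tmL W.E.kf (W.E.iv l)) ω ∈ (rcT (W.E.ts l)).rows W.E.kf :=
      (h.cls 0 (Nat.zero_le _)).2.1.th_supp l ω hω
    have h1 := hm _ hsupp
    have e : (p.co (tmL W.E.kf (W.E.iv l)) ω).flow (tmL (W.dp a) (W.aI a (W.E.iv l)) - tmL W.E.kf (W.E.iv l))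
        = p.co (tmL (W.dp a) (W.aI a (W.E.iv l))) ω := by
      unfold RdClPar.co
      rw [rt_fc_flow_flow]
      congr 1
      ring
    rw [e] at h1
    exact Finset.mk_mem_product (Finset.mem_singleton_self _) h1

/-- **a terminal label sees at most `2^66` classes.**
PLAN.   `J = W.E.iv l`, `Q = W.E.ts l`, `Λ = 2` (`h.shape`).   `th l ω ≠ 0` gives `p.co (tmL kf J) ω ∈ Q.rows kf` (`(h.cls 0 ..).2.1.th_supp`, `W.Ex 0` has the labels of `W.E`; `cell` unfolds by `rfl`).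
For `a ∈ {i, b}`: `p.co (tmL (dp a) (aI a J)) ω = (p.co (tmL kf J) ω).flow (tmL (dp a) (aI a J) - tmL kf J)` (`rt_fc_flow_flow`), `|s| ≤ rdLen (dp a)` (`gn_cutle_anc`), `rc_sl_list` gives `L_a`, `card ≤ 2^27 2^6 = 2^33`.
`F = ({aI i J} ×ˢ L_i) ×ˢ ({aI b J} ×ˢ L_b)`, `rc_sl_cls_eq`.
OWNER helper159 (leaf L-256-RC-SL-LIST), EST 150 lines -/
theorem rc_sl_cls_list (h : W.Ok hg C A τ) {i b : ℕ} (hib : i ≤ b) (hb : b ≤ W.q) (l : Fin W.E.L) :
    ∃ F : Finset (ReName × ReName), F.card ≤ 2 ^ 66 ∧ ∀ ω, W.E.th l ω ≠ 0 → W.slC i b (W.aI b (W.E.iv l)) ω ∈ F := by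
  obtain ⟨Li, hLi, hmi⟩ := rc_sl_cls_one W h (hib.trans hb) l
  obtain ⟨Lb, hLb, hmb⟩ := rc_sl_cls_one W h hb l
  refine ⟨Li ×ˢ Lb, ?_, fun ω hω => ?_⟩
  · rw [Finset.card_product]
    calc Li.card * Lb.card ≤ 2 ^ 33 * 2 ^ 33 := Nat.mul_le_mul hLi hLb
      _ = 2 ^ 66 := by norm_num
  · have e := rc_sl_cls_eq W h hib hb (W.E.iv l) ω
    have h2 : (W.nmP i (W.aI i (W.E.iv l)) ω, W.nmP b (W.aI b (W.E.iv l)) ω) ∈ Li ×ˢ Lb :=
      Finset.mk_mem_product (hmi ω hω) (hmb ω hω)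
    exact e ▸ h2

/-! ## HIT -/

/-- the name of a particle is measurable -/
theorem rc_sl_hm_nm (i I : ℕ) : Measurable (W.nmP i I) :=
  measurable_const.prodMk (rc_sl_meas p _ _ _)

/-- the two components of `Z` are measurable -/
theorem rc_sl_hm_Z : (Measurable fun ω => (W.ZP ω).1) ∧ Measurable fun ω => (W.ZP ω).2 := by
  have hA1 : Measurable fun ω => (p.A ω).1 := p.mA.fst
  have hA2 : Measurable fun ω => (p.A ω).2 := p.mA.snd
  have hc : Measurable fun z : ℤ => (z : ℝ) := measurable_of_countable _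
  have h1 : Measurable fun ω => (reCell W.R0 (p.A ω).1 : ℝ) := hc.comp (rc_sl_cell_meas W.R0 hA1)
  have h2 : Measurable fun ω => (reCell W.R0 (p.A ω).2 : ℝ) := hc.comp (rc_sl_cell_meas W.R0 hA2)
  constructor
  · show Measurable fun ω => W.R0⁻¹ * ((p.A ω).1 - W.R0 * (reCell W.R0 (p.A ω).1 : ℝ))
    exact (hA1.sub (h1.const_mul _)).const_mul _
  · show Measurable fun ω => W.R0⁻¹ * ((p.A ω).2 - W.R0 * (reCell W.R0 (p.A ω).2 : ℝ))
    exact (hA2.sub (h2.const_mul _)).const_mul _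

/-- PLAN: with `x ω = W.slC i b (W.aI b J) ω` (measurable into a countable discrete space, so `g ∘ x` is measurable for EVERY `g`: `Measurable.of_discrete` / `measurable_from_top`), `ZP` measurable (`p.mA`, `rc_sl_cell_meas`), the set is
`{ω | |g₁ (x ω) * Z₁ + g₂ (x ω) * Z₂ + g₃ (x ω) * |Z|² - g₄ (x ω)| ≤ wd}` (`rc_sl_cls_eq`): `measurableSet_le`.
OWNER helper159 (leaf L-256-RC-SL-HM), EST 100 lines -/
theorem rc_sl_hit_meas (h : W.Ok hg C A τ) {i b : ℕ} (hib : i ≤ b) (hb : b ≤ W.q) (pn : ReName × ReName → ℝ × ℝ × ℝ)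
    (pc : ReName × ReName → ℝ) (wd : ℝ) (J : ℕ) : MeasurableSet (W.hit i b pn pc wd J) := by
  have hx : Measurable fun ω => (W.nmP i (W.aI i J) ω, W.nmP b (W.aI b J) ω) := (rc_sl_hm_nm W i _).prodMk (rc_sl_hm_nm W b _)
  have hg : ∀ g : ReName × ReName → ℝ, Measurable fun ω => g (W.nmP i (W.aI i J) ω, W.nmP b (W.aI b J) ω) :=
    fun g => (measurable_of_countable g).comp hx
  obtain ⟨hZ1, hZ2⟩ := rc_sl_hm_Z W
  have hZq : Measurable fun ω => rtSq (W.ZP ω) := by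
    unfold rtSq
    exact (hZ1.pow_const 2).add (hZ2.pow_const 2)
  have hf : Measurable fun ω => (pn (W.nmP i (W.aI i J) ω, W.nmP b (W.aI b J) ω)).1 * (W.ZP ω).1
      + (pn (W.nmP i (W.aI i J) ω, W.nmP b (W.aI b J) ω)).2.1 * (W.ZP ω).2
      + (pn (W.nmP i (W.aI i J) ω, W.nmP b (W.aI b J) ω)).2.2 * rtSq (W.ZP ω) - pc (W.nmP i (W.aI i J) ω, W.nmP b (W.aI b J) ω) :=
    ((((hg fun x => (pn x).1).mul hZ1).add ((hg fun x => (pn x).2.1).mul hZ2)).add ((hg fun x => (pn x).2.2).mul hZq)).sub (hg pc)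
  exact measurableSet_le (continuous_abs.measurable.comp hf) measurable_const

/-- OWNER helper159 (leaf L-256-RC-SL-HM), EST 30 lines -/
theorem rc_sl_hitA_meas (h : W.Ok hg C A τ) {i b : ℕ} (hib : i ≤ b) (hb : b ≤ W.q) (pn : ReName × ReName → ℝ × ℝ × ℝ)
    (pc : ReName × ReName → ℝ) (wd θ : ℝ) (J : ℕ) : MeasurableSet (W.hitA i b pn pc wd θ J) := by
  refine (rc_sl_hit_meas W h hib hb pn pc wd J).inter ?_
  exact (rc_sl_cls_measurable W i b (W.aI b J)) (MeasurableSet.of_discrete (s := {x | RcTw.slD pn pc x < θ}))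

/-- OWNER helper159 (leaf L-256-RC-SL-HM), EST 30 lines -/
theorem rc_sl_hitB_meas (h : W.Ok hg C A τ) {i b : ℕ} (hib : i ≤ b) (hb : b ≤ W.q) (pn : ReName × ReName → ℝ × ℝ × ℝ)
    (pc : ReName × ReName → ℝ) (wd θ : ℝ) (J : ℕ) : MeasurableSet (W.hitB i b pn pc wd θ J) := by
  refine (rc_sl_hit_meas W h hib hb pn pc wd J).inter ?_
  exact (rc_sl_cls_measurable W i b (W.aI b J)) (MeasurableSet.of_discrete (s := {x | θ ≤ RcTw.slD pn pc x}))

/-- `lt_or_ge`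
OWNER helper159 (leaf L-256-RC-SL-HM), EST 15 lines -/
theorem rc_sl_hit_split (i b : ℕ) (pn : ReName × ReName → ℝ × ℝ × ℝ) (pc : ReName × ReName → ℝ) (wd θ : ℝ) (J : ℕ) :
    W.hit i b pn pc wd J = W.hitA i b pn pc wd θ J ∪ W.hitB i b pn pc wd θ J := by
  ext ω
  constructor
  · intro hω
    rcases lt_or_ge (RcTw.slD pn pc (W.slC i b (W.aI b J) ω)) θ with h1 | h1
    · exact Or.inl ⟨hω, h1⟩
    · exact Or.inr ⟨hω, h1⟩
  · rintro (hω | hω)
    · exact hω.1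
    · exact hω.1

/-- **velocities of the hit particles, large discriminant.**   PLAN: `rc_sl_Z_eq`, `rc_sl_Z_le`, `rc_sl_cls_eq`; `d0 + α·Z + β|Z|² = pn.1 Z.1 + pn.2.1 Z.2 + pn.2.2 |Z|² - pc` (`rtIp` unfolds; `ring_nf`).
OWNER helper159 (leaf L-256-RC-SL-VEL), EST 60 lines -/
theorem rc_sl_velB (h : W.Ok hg C A τ) {i b : ℕ} (hib : i ≤ b) (hb : b ≤ W.q) (pn : ReName × ReName → ℝ × ℝ × ℝ)
    (pc : ReName × ReName → ℝ) {wd w' Kp : ℝ} (hw : wd ≤ w') (hK : 2 ≤ Kp) (J : ℕ) (ω : p.Om) (hω : ω ∈ W.hit i b pn pc wd J) :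
    p.A ω ∈ rcSec (W.slA (W.slC i b (W.aI b J) ω)) W.R0 Kp (-(pc (W.slC i b (W.aI b J) ω))) (pn (W.slC i b (W.aI b J) ω)).2.2
      ((pn (W.slC i b (W.aI b J) ω)).1, (pn (W.slC i b (W.aI b J) ω)).2.1) w' := by
  have hω' : |(pn (W.nmP i (W.aI i J) ω, W.nmP b (W.aI b J) ω)).1 * (W.ZP ω).1 + (pn (W.nmP i (W.aI i J) ω, W.nmP b (W.aI b J) ω)).2.1 * (W.ZP ω).2
      + (pn (W.nmP i (W.aI i J) ω, W.nmP b (W.aI b J) ω)).2.2 * rtSq (W.ZP ω) - pc (W.nmP i (W.aI i J) ω, W.nmP b (W.aI b J) ω)| ≤ wd := hω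
  rw [← rc_sl_cls_eq W h hib hb J ω] at hω'
  have hZ := rc_sl_Z_le W h.R0_pos ω
  have hZe := rc_sl_Z_eq W i b (W.aI b J) ω
  show rtSq (W.R0⁻¹ • (p.A ω - W.slA (W.slC i b (W.aI b J) ω))) ≤ Kp ^ 2 ∧ _
  rw [← hZe]
  refine ⟨by nlinarith, le_trans (le_of_eq ?_) (hω'.trans hw)⟩
  congr 1
  unfold rtIp
  ring

/-- **velocities of the hit particles, small discriminant.**   PLAN: `rc_sl_cap` with `Z = W.ZP ω`;   `A - slZ x = R0 • (Z - Zc)` (`rc_sl_Z_eq`, `R0 ≠ 0`), `re_aux_sq_smul`: `rtSq = R0² rtSq (Z - Zc) ≤ (R0 32 / P)² ≤ ϱ²`.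
OWNER helper159 (leaf L-256-RC-SL-VEL), EST 90 lines -/
theorem rc_sl_velA (h : W.Ok hg C A τ) {i b : ℕ} (hib : i ≤ b) (hb : b ≤ W.q) (pn : ReName × ReName → ℝ × ℝ × ℝ)
    (pc : ReName × ReName → ℝ) (hu : ∀ x, (pn x).1 ^ 2 + (pn x).2.1 ^ 2 + (pn x).2.2 ^ 2 = 1) {wd Pp ϱ : ℝ} (hP : 2 ≤ Pp)
    (hw : wd ≤ (1 / Pp) ^ 2 / 4) (hϱ : W.R0 * (32 / Pp) ≤ ϱ) (J : ℕ) (ω : p.Om) (hω : ω ∈ W.hitA i b pn pc wd ((1 / Pp) ^ 2) J) :
    p.A ω ∈ rcCap (W.slZ pn (W.slC i b (W.aI b J) ω)) ϱ := by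
  obtain ⟨hω1, hω2⟩ := hω
  have hω' : |(pn (W.nmP i (W.aI i J) ω, W.nmP b (W.aI b J) ω)).1 * (W.ZP ω).1 + (pn (W.nmP i (W.aI i J) ω, W.nmP b (W.aI b J) ω)).2.1 * (W.ZP ω).2
      + (pn (W.nmP i (W.aI i J) ω, W.nmP b (W.aI b J) ω)).2.2 * rtSq (W.ZP ω) - pc (W.nmP i (W.aI i J) ω, W.nmP b (W.aI b J) ω)| ≤ wd := hω1
  rw [← rc_sl_cls_eq W h hib hb J ω] at hω'
  have hZ := rc_sl_Z_le W h.R0_pos ω
  have hZe := rc_sl_Z_eq W i b (W.aI b J) ω
  obtain ⟨x, hx⟩ : ∃ x, x = W.slC i b (W.aI b J) ω := ⟨_, rfl⟩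
  rw [← hx] at hω' hZe ⊢
  have hD : rtSq ((pn x).1, (pn x).2.1) - 4 * (pn x).2.2 * (-(pc x)) < (1 / Pp) ^ 2 := by
    rw [hx]
    exact hω2
  have hR := h.R0_pos
  have hcap := rc_sl_cap (al := ((pn x).1, (pn x).2.1)) (Z := W.ZP ω) (be := (pn x).2.2) (d0 := -(pc x)) (w := wd) (P := Pp)
    (by unfold rtSq; exact hu x) hP hw hD hZ (le_trans (le_of_eq (by congr 1; unfold rtIp; ring)) hω')
  have e : p.A ω - W.slZ pn x = W.R0 • (W.ZP ω - (-(2 * (pn x).2.2)⁻¹) • ((pn x).1, (pn x).2.1)) := by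
    rw [hZe, smul_sub, smul_smul, mul_inv_cancel₀ hR.ne', one_smul]
    unfold RcTw.slZ
    abel
  show rtSq (p.A ω - W.slZ pn x) ≤ ϱ ^ 2
  rw [e, re_aux_sq_smul]
  have hP0 : 0 < Pp := by linarith
  calc W.R0 ^ 2 * rtSq (W.ZP ω - (-(2 * (pn x).2.2)⁻¹) • ((pn x).1, (pn x).2.1)) ≤ W.R0 ^ 2 * (32 / Pp) ^ 2 :=
        mul_le_mul_of_nonneg_left hcap (by positivity)
    _ = (W.R0 * (32 / Pp)) ^ 2 := by ring
    _ ≤ ϱ ^ 2 := pow_le_pow_left₀ (by positivity) hϱ 2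

end Claimed.Agent.R256
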